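import Mathlib
import Vale.Agent.P354n.Defs
import Vale.Agent.P354c.Defs
attribute [-instance] ProperSMul.toContinuousSMul IsTopologicalTorsor.toContinuousSMul IdemSemiring.toCanonicallyOrderedAdd IdemSemiring.toMulLeftMono IdemSemiring.toMulRightMono AddQuantale.instAddLeftMono AddQuantale.instAddRightMono Quantale.instMulLeftMono Quantale.instMulRightMono FiniteDimensional.rclike_to_real IsScalarTower.complexToReal FiniteDimensional.complexToReal

set_option linter.all false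

section

section

set_option maxSynthPendingDepth 3

open Set MeasureTheory Filter

namespace Vale.Agent.P354w

lemma cs {α : Type*} [MeasurableSpace α] {μ : Measure α} {f g : α → ENNReal}
    (hf : AEMeasurable f μ) (hg : AEMeasurable g μ) :
    ∫⁻ a, f a * g a ∂μ ≤ (∫⁻ a, f a ^ 2 ∂μ) ^ (1/2:ℝ) * (∫⁻ a, g a ^ 2 ∂μ) ^ (1/2:ℝ) := by
  have h := ENNReal.lintegral_mul_le_Lp_mul_Lq μ (p := 2) (q := 2)
    (by rw [Real.holderConjugate_iff]; (clear * -; norm_num)) hf hg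
  simpa only [ENNReal.rpow_two, Pi.mul_apply] using h

end Vale.Agent.P354w
end
end

section

section

set_option maxSynthPendingDepth 3

namespace Vale.Agent.P354

/-- Four real coordinates. Standard side: `(th1, v, u, th2)`. -/
abbrev P4 : Type := ℝ × ℝ × ℝ × ℝ

/-- coefficient functions of a double null metric
`-om (dv du + du dv) + gAB (dthA - sA dv)(dthB - sB dv)`. -/
structure Coef where
  om : P4 → ℝ
  s1 : P4 → ℝ
  s2 : P4 → ℝ
  g11 : P4 → ℝ
  g12 : P4 → ℝ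
  g22 : P4 → ℝ

namespace Coef

variable (K : Coef)

def h1 (x a : P4) : ℝ := a.1 - K.s1 x * a.2.1
def h2 (x a : P4) : ℝ := a.2.2.2 - K.s2 x * a.2.1

/-- the metric -/
def gF (x a b : P4) : ℝ :=
  - K.om x * (a.2.1 * b.2.2.1 + a.2.2.1 * b.2.1)
    + K.g11 x * (K.h1 x a * K.h1 x b)
    + K.g12 x * (K.h1 x a * K.h2 x b + K.h2 x a * K.h1 x b)
    + K.g22 x * (K.h2 x a * K.h2 x b)

lemma gF_add_left (x a b c : P4) : K.gF x (a + b) c = K.gF x a c + K.gF x b c := by
  simp only [gF, Prod.snd_add, Prod.fst_add, h1, h2]; ring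

lemma gF_add_right (x a b c : P4) : K.gF x a (b + c) = K.gF x a b + K.gF x a c := by
  simp only [gF, Prod.snd_add, Prod.fst_add, h1, h2]; ring

end Coef

/-- Differentiability of all coefficients at a point. -/
structure Coef.DiffAt (K : Coef) (x : P4) : Prop where
  om : DifferentiableAt ℝ K.om x
  s1 : DifferentiableAt ℝ K.s1 x
  s2 : DifferentiableAt ℝ K.s2 x
  g11 : DifferentiableAt ℝ K.g11 x
  g12 : DifferentiableAt ℝ K.g12 x
  g22 : DifferentiableAt ℝ K.g22 x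

end Vale.Agent.P354
end
end

section

section

set_option maxSynthPendingDepth 3

namespace Vale.Agent.P354

/-- Minkowski form on P4 (first coordinate is time). -/
def mink (a b : P4) : ℝ := -(a.1 * b.1) + a.2.1 * b.2.1 + a.2.2.1 * b.2.2.1 + a.2.2.2 * b.2.2.2

/-- A Lorentz basis of the form B on V. -/
def LBasis {V : Type*} [AddCommGroup V] [Module ℝ V] (B : V → V → ℝ) (b : Fin 4 → V) : Prop :=
  ∀ i j, B (b i) (b j) = if i = j then (if i = 0 then -1 else 1) else 0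

/-- Bilinearity, unbundled. -/
structure Bilin {V : Type*} [AddCommGroup V] [Module ℝ V] (B : V → V → ℝ) : Prop where
  add_left : ∀ a b c, B (a + b) c = B a c + B b c
  add_right : ∀ a b c, B a (b + c) = B a b + B a c
  smul_left : ∀ (t : ℝ) a b, B (t • a) b = t * B a b
  smul_right : ∀ (t : ℝ) a b, B a (t • b) = t * B a b

section

variable {V : Type*} [AddCommGroup V] [Module ℝ V] {B : V → V → ℝ}

/-- combination of four vectors -/
def comb (b : Fin 4 → V) (c : Fin 4 → ℝ) : V := c 0 • b 0 + c 1 • b 1 + c 2 • b 2 + c 3 • b 3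

lemma B_comb (hB : Bilin B) {b : Fin 4 → V} (hb : LBasis B b) (c d : Fin 4 → ℝ) :
    B (comb b c) (comb b d) = -(c 0 * d 0) + c 1 * d 1 + c 2 * d 2 + c 3 * d 3 := by
  have h00 := hb 0 0; have h01 := hb 0 1; have h02 := hb 0 2; have h03 := hb 0 3
  have h10 := hb 1 0; have h11 := hb 1 1; have h12 := hb 1 2; have h13 := hb 1 3
  have h20 := hb 2 0; have h21 := hb 2 1; have h22 := hb 2 2; have h23 := hb 2 3
  have h30 := hb 3 0; have h31 := hb 3 1; have h32 := hb 3 2; have h33 := hb 3 3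
  simp only [Fin.isValue, ↓reduceIte, zero_ne_one, Fin.reduceEq, one_ne_zero] at h00 h01 h02 h03 h10 h11 h12 h13 h20 h21 h22 h23 h30 h31 h32 h33
  simp only [comb, hB.add_left, hB.add_right, hB.smul_left, hB.smul_right, h00, h01, h02, h03,
    h10, h11, h12, h13, h20, h21, h22, h23, h30, h31, h32, h33]
  ring

lemma B_comb_basis (hB : Bilin B) {b : Fin 4 → V} (hb : LBasis B b) (c : Fin 4 → ℝ) (j : Fin 4) :
    B (comb b c) (b j) = if j = 0 then - c 0 else c j := by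
  have h := B_comb hB hb c (fun i => if i = j then 1 else 0)
  have h2 : comb b (fun i => if i = j then (1:ℝ) else 0) = b j := by
    fin_cases j <;> simp only [comb, Fin.isValue, Fin.zero_eta, ↓reduceIte, one_smul, one_ne_zero, zero_smul, add_zero, Fin.reduceEq, Fin.mk_one, zero_ne_one, zero_add, Fin.reduceFinMk]
  rw [h2] at h
  rw [h]
  fin_cases j <;> simp only [Fin.isValue, Fin.zero_eta, ↓reduceIte, mul_one, one_ne_zero, mul_zero, add_zero, Fin.reduceEq, Fin.mk_one, zero_ne_one, neg_zero, zero_add, Fin.reduceFinMk]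

lemma LBasis.span (hB : Bilin B) {b : Fin 4 → V} (hb : LBasis B b)
    (hfin : Module.finrank ℝ V = 4) (v : V) : ∃ c : Fin 4 → ℝ, v = comb b c := by
  have hli : LinearIndependent ℝ b := by
    rw [Fintype.linearIndependent_iff]
    intro g hg
    have h0 : comb b g = 0 := by
      rw [← hg]; simp only [comb, Fin.isValue, Fin.sum_univ_four]
    have hz : ∀ w, B 0 w = 0 := by
      intro w
      have := hB.smul_left 0 0 w
      simpa using this
    intro i
    have := B_comb_basis hB hb g i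
    rw [h0, hz] at this
    split_ifs at this with hi
    · subst hi; linarith only [this]
    · exact this.symm
  let bb := basisOfLinearIndependentOfCardEqFinrank hli (by simp only [Fintype.card_fin, hfin])
  refine ⟨fun i => bb.repr v i, ?_⟩
  have h := bb.sum_repr v
  simp only [bb, coe_basisOfLinearIndependentOfCardEqFinrank] at h
  conv_lhs => rw [← h]
  simp only [basisOfLinearIndependentOfCardEqFinrank_repr_apply, Fin.sum_univ_four, Fin.isValue, comb, bb]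

/-- adapted Lorentz frame: first vector a positive multiple of a given timelike vector -/
lemma exists_adapted (hB : Bilin B) {b : Fin 4 → V} (hb : LBasis B b)
    (hspan : ∀ v : V, ∃ c : Fin 4 → ℝ, v = comb b c) {w : V} (hw : B w w < 0) :
    ∃ b' : Fin 4 → V, LBasis B b' ∧ ∃ l : ℝ, 0 < l ∧ b' 0 = l • w := by
  -- normalize
  set l : ℝ := 1 / Real.sqrt (-(B w w)) with hl
  have hpos : 0 < -(B w w) := by linarith only [hw]
  have hl0 : 0 < l := by positivity
  set w1 : V := l • w with hw1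
  have hw1n : B w1 w1 = -1 := by
    rw [hw1, hB.smul_left, hB.smul_right, hl]
    have := Real.mul_self_sqrt hpos.le
    have h2 : Real.sqrt (-(B w w)) ≠ 0 := (Real.sqrt_pos.2 hpos).ne'
    field_simp
    linarith only [this]
  obtain ⟨c, hc⟩ := hspan w1
  -- choose the sign
  obtain ⟨b1, c1, hb1, hc1, hc1pos⟩ : ∃ (b1 : Fin 4 → V) (c1 : Fin 4 → ℝ), LBasis B b1 ∧
      w1 = comb b1 c1 ∧ 0 ≤ c1 0 := by
    rcases le_total 0 (c 0) with h0 | h0
    · exact ⟨b, c, hb, hc, h0⟩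
    · refine ⟨fun i => (-1 : ℝ) • b i, fun i => -c i, ?_, ?_, by simpa only [Fin.isValue, Left.nonneg_neg_iff] using h0⟩
      · intro i j
        simp only [hB.smul_left, hB.smul_right]
        rw [hb i j]; ring
      · rw [hc]; simp only [comb, smul_smul]; congr 1 <;> ring_nf
  have hn : -(c1 0 * c1 0) + c1 1 * c1 1 + c1 2 * c1 2 + c1 3 * c1 3 = -1 := by
    rw [← B_comb hB hb1 c1 c1, ← hc1, hw1n]
  have hden : 0 < 1 + c1 0 := by linarith only [hc1pos]
  obtain ⟨m1, hm1⟩ : ∃ m, c1 1 = m * (1 + c1 0) := ⟨c1 1 / (1 + c1 0), by (clear * - hc1pos; field_simp)⟩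
  obtain ⟨m2, hm2⟩ : ∃ m, c1 2 = m * (1 + c1 0) := ⟨c1 2 / (1 + c1 0), by (clear * - hc1pos; field_simp)⟩
  obtain ⟨m3, hm3⟩ : ∃ m, c1 3 = m * (1 + c1 0) := ⟨c1 3 / (1 + c1 0), by (clear * - hc1pos; field_simp)⟩
  obtain ⟨a, ha⟩ : ∃ a, c1 0 = a := ⟨_, rfl⟩
  rw [ha] at hm1 hm2 hm3 hden hn
  rw [hm1, hm2, hm3] at hn
  have hk : (1 + a) * (m1 * m1 + m2 * m2 + m3 * m3) = a - 1 := by
    have : (1 + a) * ((1 + a) * (m1 * m1 + m2 * m2 + m3 * m3) - (a - 1)) = 0 := by
      linear_combination hn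
    rcases mul_eq_zero.1 this with h | h
    · exact absurd h hden.ne'
    · linarith only [h]
  -- coefficients of the new frame
  let d : Fin 4 → Fin 4 → ℝ :=
    ![![a, m1 * (1 + a), m2 * (1 + a), m3 * (1 + a)],
      ![m1 * (1 + a), 1 + m1 * m1 * (1 + a), m1 * m2 * (1 + a), m1 * m3 * (1 + a)],
      ![m2 * (1 + a), m2 * m1 * (1 + a), 1 + m2 * m2 * (1 + a), m2 * m3 * (1 + a)],
      ![m3 * (1 + a), m3 * m1 * (1 + a), m3 * m2 * (1 + a), 1 + m3 * m3 * (1 + a)]]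
  refine ⟨fun i => comb b1 (d i), ?_, l, hl0, ?_⟩
  · intro i j
    rw [B_comb hB hb1]
    fin_cases i <;> fin_cases j <;> simp only [Fin.zero_eta, Fin.isValue, Matrix.cons_val', Matrix.cons_val_zero, Matrix.cons_val_fin_one, Matrix.cons_val_one, Matrix.cons_val, ↓reduceIte, d, Fin.mk_one, zero_ne_one, Fin.reduceFinMk, Fin.reduceEq, one_ne_zero]
    · linear_combination (1 + a) * hk
    · linear_combination m1 * (1 + a) * hk
    · linear_combination m2 * (1 + a) * hk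
    · linear_combination m3 * (1 + a) * hk
    · linear_combination m1 * (1 + a) * hk
    · linear_combination m1 * m1 * (1 + a) * hk
    · linear_combination m1 * m2 * (1 + a) * hk
    · linear_combination m1 * m3 * (1 + a) * hk
    · linear_combination m2 * (1 + a) * hk
    · linear_combination m2 * m1 * (1 + a) * hk
    · linear_combination m2 * m2 * (1 + a) * hk
    · linear_combination m2 * m3 * (1 + a) * hk
    · linear_combination m3 * (1 + a) * hk
    · linear_combination m3 * m1 * (1 + a) * hk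
    · linear_combination m3 * m2 * (1 + a) * hk
    · linear_combination m3 * m3 * (1 + a) * hk
  · rw [← hw1, hc1]
    simp only [comb, Fin.isValue, Matrix.cons_val', Matrix.cons_val_zero, Matrix.cons_val_fin_one, Matrix.cons_val_one, Matrix.cons_val, ha, hm1, hm2, hm3, d]

/-- transitivity of the relation of lying in the same cone -/
lemma same_cone (hB : Bilin B) {b : Fin 4 → V} (hb : LBasis B b)
    (hfin : Module.finrank ℝ V = 4) {a t c : V} (ht : B t t < 0) (ha : B a a < 0)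
    (hat : B a t < 0) (hc : B c c ≤ 0) (hct : B c t < 0) : B a c < 0 := by
  obtain ⟨b', hb', l, hl, hb0⟩ := exists_adapted hB hb (hb.span hB hfin) ht
  obtain ⟨x, rfl⟩ := hb'.span hB hfin a
  obtain ⟨y, rfl⟩ := hb'.span hB hfin c
  have h1 := B_comb_basis hB hb' x 0
  have h2 := B_comb_basis hB hb' y 0
  rw [hb0, hB.smul_right] at h1 h2
  simp only [Fin.isValue, ↓reduceIte] at h1 h2
  have hx : 0 < x 0 := by linarith only [h1, mul_neg_of_pos_of_neg hl hat]
  have hy : 0 < y 0 := by linarith only [h2, mul_neg_of_pos_of_neg hl hct]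
  rw [B_comb hB hb'] at ha hc ⊢
  -- Cauchy-Schwarz
  have cs : (x 1 * y 1 + x 2 * y 2 + x 3 * y 3) ^ 2 ≤
      (x 1 * x 1 + x 2 * x 2 + x 3 * x 3) * (y 1 * y 1 + y 2 * y 2 + y 3 * y 3) := by
    linarith only [sq_nonneg (x 1 * y 2 - x 2 * y 1), sq_nonneg (x 1 * y 3 - x 3 * y 1), sq_nonneg (x 2 * y 3 - x 3 * y 2)]
  have h3 : (x 1 * y 1 + x 2 * y 2 + x 3 * y 3) ^ 2 < (x 0 * y 0) ^ 2 := by
    have e1 : x 1 * x 1 + x 2 * x 2 + x 3 * x 3 < x 0 * x 0 := by linarith only [ha]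
    have e2 : y 1 * y 1 + y 2 * y 2 + y 3 * y 3 ≤ y 0 * y 0 := by linarith only [hc]
    have e3 : 0 < y 0 * y 0 := by (clear * - hy; positivity)
    have e4 : 0 ≤ x 1 * x 1 + x 2 * x 2 + x 3 * x 3 := by
      linarith only [mul_self_nonneg (x 1), mul_self_nonneg (x 2), mul_self_nonneg (x 3)]
    calc _ ≤ _ := cs
      _ ≤ (x 1 * x 1 + x 2 * x 2 + x 3 * x 3) * (y 0 * y 0) := by (clear * - e2 e4; gcongr)
      _ < (x 0 * x 0) * (y 0 * y 0) := by gcongr
      _ = _ := by ring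
  have h4 := abs_lt_of_sq_lt_sq h3 (by (clear * - hx hy; positivity))
  have h5 := (abs_lt.1 h4).2
  linarith only [h5]

end

end Vale.Agent.P354
end
end

section

section

set_option maxSynthPendingDepth 3

namespace Vale.Agent.P354

/-- Pointwise bounds of the coefficients. -/
structure CBd (K : Coef) (C : ℝ) (x : P4) : Prop where
  one_le : 1 ≤ C
  om_lo : 1 / C ≤ K.om x
  om_hi : K.om x ≤ C
  g_lo : ∀ p q : ℝ, (p ^ 2 + q ^ 2) / C ≤ K.g11 x * p ^ 2 + 2 * K.g12 x * p * q + K.g22 x * q ^ 2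
  g11_hi : |K.g11 x| ≤ C
  g12_hi : |K.g12 x| ≤ C
  g22_hi : |K.g22 x| ≤ C
  s1_hi : |K.s1 x| ≤ C
  s2_hi : |K.s2 x| ≤ C

/-- the quadratic form of the sphere part -/
def Qg (K : Coef) (x : P4) (p q : ℝ) : ℝ := K.g11 x * p ^ 2 + 2 * K.g12 x * p * q + K.g22 x * q ^ 2

lemma gF_diag (K : Coef) (x a : P4) :
    K.gF x a a = -(2 * K.om x * (a.2.1 * a.2.2.1)) + Qg K x (K.h1 x a) (K.h2 x a) := by
  unfold Coef.gF Qg; ring

namespace CBd

variable {K : Coef} {C : ℝ} {x : P4}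

lemma C_pos (h : CBd K C x) : 0 < C := by linarith only [h.one_le]

lemma om_pos (h : CBd K C x) : 0 < K.om x := lt_of_lt_of_le (by have := h.C_pos; positivity) h.om_lo

lemma Q_nonneg (h : CBd K C x) (p q : ℝ) : 0 ≤ Qg K x p q := by
  have h1 := h.g_lo p q
  have := h.C_pos
  have h2 : 0 ≤ (p ^ 2 + q ^ 2) / C := by (clear * - this; positivity)
  unfold Qg; linarith only [h1, h2]

lemma det_nonneg (h : CBd K C x) : 0 ≤ K.g11 x * K.g22 x - K.g12 x ^ 2 := by
  have h1 := h.Q_nonneg (K.g12 x) (-K.g11 x)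
  have h2 := h.g_lo 1 0
  have h3 : 0 < K.g11 x := by
    have := h.C_pos
    have h4 : 0 < (1 ^ 2 + 0 ^ 2) / C := by (clear * - this; positivity)
    linarith only [h2, h4]
  unfold Qg at h1
  have h5 : 0 ≤ K.g11 x * (K.g11 x * K.g22 x - K.g12 x ^ 2) := by linarith only [h1]
  exact nonneg_of_mul_nonneg_right h5 h3

/-- Cauchy-Schwarz -/
lemma cs (h : CBd K C x) (p q p' q' : ℝ) :
    (K.g11 x * (p * p') + K.g12 x * (p * q' + q * p') + K.g22 x * (q * q')) ^ 2 ≤
      Qg K x p q * Qg K x p' q' := by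
  have h1 := h.det_nonneg
  have h2 : Qg K x p q * Qg K x p' q' -
      (K.g11 x * (p * p') + K.g12 x * (p * q' + q * p') + K.g22 x * (q * q')) ^ 2 =
      (K.g11 x * K.g22 x - K.g12 x ^ 2) * (p * q' - q * p') ^ 2 := by
    unfold Qg; ring
  have h3 : 0 ≤ (K.g11 x * K.g22 x - K.g12 x ^ 2) * (p * q' - q * p') ^ 2 := by (clear * - h1; positivity)
  linarith only [h2, h3]

lemma uv_pos (h : CBd K C x) {a : P4} (ha : K.gF x a a < 0) : 0 < a.2.1 * a.2.2.1 := by
  rw [gF_diag] at ha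
  have h1 := h.Q_nonneg (K.h1 x a) (K.h2 x a)
  have h2 := h.om_pos
  have h3 : 0 < K.om x * (a.2.1 * a.2.2.1) := by linarith only [ha, h1]
  exact (pos_iff_pos_of_mul_pos h3).1 h2

lemma u_pos (h : CBd K C x) {a : P4} (ha : K.gF x a a < 0) (hv : 0 < a.2.1) : 0 < a.2.2.1 :=
  (pos_iff_pos_of_mul_pos (h.uv_pos ha)).1 hv

lemma hat_le (h : CBd K C x) {a : P4} (ha : K.gF x a a ≤ 0) :
    K.h1 x a ^ 2 + K.h2 x a ^ 2 ≤ 2 * C ^ 2 * (a.2.1 * a.2.2.1) ∨ a.2.1 * a.2.2.1 < 0 := by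
  by_cases hs : a.2.1 * a.2.2.1 < 0
  · exact Or.inr hs
  · left
    push Not at hs
    rw [gF_diag] at ha
    have h1 := h.g_lo (K.h1 x a) (K.h2 x a)
    have hC := h.C_pos
    have h2 := h.om_hi
    rw [div_le_iff₀ hC] at h1
    unfold Qg at ha
    have h3 : K.om x * (a.2.1 * a.2.2.1) ≤ C * (a.2.1 * a.2.2.1) := by (clear * - h2 hs; gcongr)
    linarith [mul_nonneg hC.le (neg_nonneg.2 ha), mul_le_mul_of_nonneg_left h3 hC.le]

/-- two timelike vectors with positive v components are in the same cone -/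
lemma gF_neg (h : CBd K C x) {a b : P4} (ha : K.gF x a a < 0) (hb : K.gF x b b < 0)
    (hav : 0 < a.2.1) (hbv : 0 < b.2.1) : K.gF x a b < 0 := by
  have hau := h.u_pos ha hav
  have hbu := h.u_pos hb hbv
  have hom := h.om_pos
  have h1 := h.cs (K.h1 x a) (K.h2 x a) (K.h1 x b) (K.h2 x b)
  have hQa := h.Q_nonneg (K.h1 x a) (K.h2 x a)
  have hQb := h.Q_nonneg (K.h1 x b) (K.h2 x b)
  have e1 : Qg K x (K.h1 x a) (K.h2 x a) < 2 * K.om x * (a.2.1 * a.2.2.1) := by
    have := gF_diag K x a; linarith only [ha, this]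
  have e2 : Qg K x (K.h1 x b) (K.h2 x b) < 2 * K.om x * (b.2.1 * b.2.2.1) := by
    have := gF_diag K x b; linarith only [hb, this]
  set m : ℝ := K.g11 x * (K.h1 x a * K.h1 x b) + K.g12 x * (K.h1 x a * K.h2 x b +
    K.h2 x a * K.h1 x b) + K.g22 x * (K.h2 x a * K.h2 x b) with hm
  have e3 : m ^ 2 < (K.om x * (a.2.1 * b.2.2.1 + a.2.2.1 * b.2.1)) ^ 2 := by
    calc m ^ 2 ≤ _ := h1
      _ < (2 * K.om x * (a.2.1 * a.2.2.1)) * (2 * K.om x * (b.2.1 * b.2.2.1)) := by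
          have : 0 < 2 * K.om x * (b.2.1 * b.2.2.1) := by (clear * - hom hbv hbu; positivity)
          calc _ ≤ Qg K x (K.h1 x a) (K.h2 x a) * (2 * K.om x * (b.2.1 * b.2.2.1)) := by (clear * - e2 hQa; gcongr)
            _ < _ := by gcongr
      _ ≤ _ := by
          have h4 : 0 ≤ K.om x ^ 2 * (a.2.1 * b.2.2.1 - a.2.2.1 * b.2.1) ^ 2 := by (clear * - hom; positivity)
          linarith only [h4]
  have hpos : 0 ≤ K.om x * (a.2.1 * b.2.2.1 + a.2.2.1 * b.2.1) := by (clear * - hom hav hbu hau hbv; positivity)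
  have e4 := (abs_lt.1 (abs_lt_of_sq_lt_sq e3 hpos)).2
  have e5 : K.gF x a b = -(K.om x * (a.2.1 * b.2.2.1 + a.2.2.1 * b.2.1)) + m := by
    rw [hm]; unfold Coef.gF; ring
  rw [e5]; linarith only [e4]

lemma v_pos_of_gF_neg (h : CBd K C x) {a b : P4} (ha : K.gF x a a < 0) (hb : K.gF x b b < 0)
    (hav : 0 < a.2.1) (hab : K.gF x a b < 0) : 0 < b.2.1 := by
  by_contra hcon
  push Not at hcon
  have hne : b.2.1 ≠ 0 := by
    intro h0
    have := h.uv_pos hb
    rw [h0] at this; simp at this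
  have hneg : 0 < (-b).2.1 := by
    have : (-b).2.1 = -(b.2.1) := rfl
    rw [this]
    have := lt_of_le_of_ne hcon hne
    linarith only [this]
  have hb' : K.gF x (-b) (-b) < 0 := by
    have : K.gF x (-b) (-b) = K.gF x b b := by
      simp only [Coef.gF, Coef.h1, Coef.h2, Prod.fst_neg, Prod.snd_neg]; ring
    rw [this]; exact hb
  have h1 := h.gF_neg ha hb' hav hneg
  have h2 : K.gF x a (-b) = - K.gF x a b := by
    simp only [Coef.gF, Coef.h1, Coef.h2, Prod.fst_neg, Prod.snd_neg]; ring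
  rw [h2] at h1
  linarith only [hab, h1]

end CBd

/-- closeness to the Minkowski form -/
def NearM (B : P4 →L[ℝ] P4 →L[ℝ] ℝ) : Prop := ∀ a b, |B a b - mink a b| ≤ 1 / 100 * ‖a‖ * ‖b‖

/-- the vertical vector -/
def Tv : P4 := (1, 0, 0, 0)

lemma norm_Tv : ‖Tv‖ = 1 := by
  simp only [Tv, Prod.norm_def, norm_one, norm_zero, max_self, zero_le_one, sup_of_le_left]

/-- future cone with opening κ -/
def cone (κ : ℝ) : Set P4 := {a | ‖a.2‖ ≤ κ * a.1}

lemma mem_cone {κ : ℝ} {a : P4} : a ∈ cone κ ↔ ‖a.2‖ ≤ κ * a.1 := Iff.rfl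

lemma abs_le_norm3 (a : P4) : |a.2.1| ≤ ‖a.2‖ ∧ |a.2.2.1| ≤ ‖a.2‖ ∧ |a.2.2.2| ≤ ‖a.2‖ := by
  refine ⟨norm_fst_le a.2, ?_, ?_⟩
  · exact (norm_fst_le a.2.2).trans (norm_snd_le a.2)
  · exact (norm_snd_le a.2.2).trans (norm_snd_le a.2)

lemma norm_P4 (a : P4) : ‖a‖ = max |a.1| ‖a.2‖ := rfl

lemma mink_self (a : P4) : mink a a = -(a.1 ^ 2) + a.2.1 ^ 2 + a.2.2.1 ^ 2 + a.2.2.2 ^ 2 := by
  unfold mink; ring

namespace NearM

variable {B : P4 →L[ℝ] P4 →L[ℝ] ℝ}

/-- causal vectors are controlled by their time component -/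
lemma norm_le_of_causal (h : NearM B) {a : P4} (ha : B a a ≤ 0) : ‖a‖ ≤ 2 * |a.1| := by
  have h1 := (abs_le.1 (h a a)).1
  rw [mink_self] at h1
  by_contra hcon
  push Not at hcon
  have h3 : ‖a‖ = ‖a.2‖ := by
    rw [norm_P4] at hcon ⊢
    rcases le_total |a.1| ‖a.2‖ with h | h
    · exact max_eq_right h
    · rw [max_eq_left h] at hcon
      have := abs_nonneg a.1
      linarith only [hcon, this]
  have h4 : ‖a.2‖ ^ 2 ≤ a.2.1 ^ 2 + a.2.2.1 ^ 2 + a.2.2.2 ^ 2 := by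
    have e1 : ‖a.2‖ = max |a.2.1| (max |a.2.2.1| |a.2.2.2|) := rfl
    rw [e1]
    rcases max_cases |a.2.1| (max |a.2.2.1| |a.2.2.2|) with h5 | h5
    · rw [h5.1, sq_abs]; linarith only [sq_nonneg a.2.2.1, sq_nonneg a.2.2.2]
    · rw [h5.1]
      rcases max_cases |a.2.2.1| |a.2.2.2| with h6 | h6
      · rw [h6.1, sq_abs]; linarith only [sq_nonneg a.2.1, sq_nonneg a.2.2.2]
      · rw [h6.1, sq_abs]; linarith only [sq_nonneg a.2.1, sq_nonneg a.2.2.1]
  rw [h3] at h1 hcon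
  have h5 : 0 ≤ ‖a.2‖ := norm_nonneg _
  have h6 : a.1 ^ 2 = |a.1| ^ 2 := (sq_abs _).symm
  have h7 := abs_nonneg a.1
  linarith only [ha, h1, h4, h6, pow_lt_pow_left₀ hcon (by linarith only [h7]) two_ne_zero, sq_nonneg |a.1|]

/-- vectors in narrow cones are timelike -/
lemma timelike_of_cone (h : NearM B) {a : P4} (ha : a ∈ cone (1 / 4)) :
    B a a ≤ -(1 / 2 * a.1 ^ 2) := by
  have h1 := (abs_le.1 (h a a)).2
  rw [mink_self] at h1
  rw [mem_cone] at ha
  obtain ⟨e1, e2, e3⟩ := abs_le_norm3 a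
  have h0 : 0 ≤ a.1 := by
    have := norm_nonneg a.2
    linarith only [ha, this]
  have hn : ‖a‖ = a.1 := by
    rw [norm_P4, abs_of_nonneg h0]
    apply max_eq_left; linarith only [ha, h0]
  rw [hn] at h1
  have f1 : a.2.1 ^ 2 ≤ (1 / 4 * a.1) ^ 2 := sq_le_sq' (by linarith only [ha, (abs_le.1 e1).1]) (by linarith only [ha, (abs_le.1 e1).2])
  have f2 : a.2.2.1 ^ 2 ≤ (1 / 4 * a.1) ^ 2 := sq_le_sq' (by linarith only [ha, (abs_le.1 e2).1]) (by linarith only [ha, (abs_le.1 e2).2])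
  have f3 : a.2.2.2 ^ 2 ≤ (1 / 4 * a.1) ^ 2 := sq_le_sq' (by linarith only [ha, (abs_le.1 e3).1]) (by linarith only [ha, (abs_le.1 e3).2])
  linarith only [h1, f1, f2, f3, sq_nonneg a.1]

lemma T_neg (h : NearM B) {a : P4} (ha : B a a ≤ 0) (h0 : 0 < a.1) : B Tv a < 0 := by
  have h1 := (abs_le.1 (h Tv a)).2
  have h2 := h.norm_le_of_causal ha
  have h3 : mink Tv a = -a.1 := by simp only [mink, Tv, one_mul, zero_mul, add_zero]
  rw [h3, norm_Tv] at h1
  rw [abs_of_pos h0] at h2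
  linarith only [h0, h1, h2]

lemma pos_of_T_neg (h : NearM B) {a : P4} (ha : B a a ≤ 0) (hT : B Tv a < 0) : 0 < a.1 := by
  by_contra hcon
  push Not at hcon
  have h1 := (abs_le.1 (h Tv a)).1
  have h2 := h.norm_le_of_causal ha
  have h3 : mink Tv a = -a.1 := by simp only [mink, Tv, one_mul, zero_mul, add_zero]
  rw [h3, norm_Tv] at h1
  rw [abs_of_nonpos hcon] at h2
  linarith

end NearM

end Vale.Agent.P354
end
end

section

section

set_option maxSynthPendingDepth 3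

namespace Vale.Agent.P354

/-- `Psi : V → standard side` is a `C^2` isometry from the metric `G` to the double null metric. -/
structure Iso (K : Coef) (G : P4 → P4 →L[ℝ] P4 →L[ℝ] ℝ) (Psi : P4 → P4) (V : Set P4) : Prop where
  isOpen : IsOpen V
  smooth : ContDiffOn ℝ 2 Psi V
  diffG : ∀ z ∈ V, DifferentiableAt ℝ G z
  diffK : ∀ z ∈ V, K.DiffAt (Psi z)
  iso : ∀ z ∈ V, ∀ a b, G z a b = K.gF (Psi z) (fderiv ℝ Psi z a) (fderiv ℝ Psi z b)

/-- second derivative -/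
noncomputable def Sd (Psi : P4 → P4) (z a b : P4) : P4 := fderiv ℝ (fderiv ℝ Psi) z a b

namespace Iso

variable {K : Coef} {G : P4 → P4 →L[ℝ] P4 →L[ℝ] ℝ} {Psi : P4 → P4} {V : Set P4}

lemma contDiffAt (h : Iso K G Psi V) {z : P4} (hz : z ∈ V) : ContDiffAt ℝ 2 Psi z :=
  h.smooth.contDiffAt (h.isOpen.mem_nhds hz)

lemma hasFDerivAt (h : Iso K G Psi V) {z : P4} (hz : z ∈ V) :
    HasFDerivAt Psi (fderiv ℝ Psi z) z :=
  ((h.contDiffAt hz).differentiableAt (by norm_num)).hasFDerivAt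

end Iso

end Vale.Agent.P354
end
end

section

section

set_option maxSynthPendingDepth 3

open Set Filter Topology

namespace Vale.Agent.P354

/-- the standard box -/
def MB (p0 : P4) (ρ : ℝ) : Set P4 := {x | ‖x - p0‖ < ρ ∧ x.2.1 < 0}

/-- relation between successive points on future causal curves -/
def Rel (C : ℝ) (x y : P4) : Prop :=
  x.2.1 ≤ y.2.1 ∧ x.2.2.1 ≤ y.2.2.1 ∧ ∀ l : ℝ, 0 < l →
    |y.1 - x.1| ≤ C * ((y.2.1 - x.2.1) + l * (y.2.2.1 - x.2.2.1) + (y.2.1 - x.2.1) / l) ∧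
    |y.2.2.2 - x.2.2.2| ≤ C * ((y.2.1 - x.2.1) + l * (y.2.2.1 - x.2.2.1) + (y.2.1 - x.2.1) / l)

lemma Rel.trans {C : ℝ} {x y z : P4} (h1 : Rel C x y) (h2 : Rel C y z) : Rel C x z := by
  refine ⟨h1.1.trans h2.1, h1.2.1.trans h2.2.1, fun l hl => ?_⟩
  obtain ⟨a1, a2⟩ := h1.2.2 l hl
  obtain ⟨b1, b2⟩ := h2.2.2 l hl
  have e : C * ((z.2.1 - x.2.1) + l * (z.2.2.1 - x.2.2.1) + (z.2.1 - x.2.1) / l) =
      C * ((y.2.1 - x.2.1) + l * (y.2.2.1 - x.2.2.1) + (y.2.1 - x.2.1) / l) +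
      C * ((z.2.1 - y.2.1) + l * (z.2.2.1 - y.2.2.1) + (z.2.1 - y.2.1) / l) := by ring
  rw [e]
  constructor
  · calc |z.1 - x.1| = |(y.1 - x.1) + (z.1 - y.1)| := by congr 1; ring
      _ ≤ _ := (abs_add_le _ _).trans (by linarith only [a1, b1])
  · calc |z.2.2.2 - x.2.2.2| = |(y.2.2.2 - x.2.2.2) + (z.2.2.2 - y.2.2.2)| := by congr 1; ring
      _ ≤ _ := (abs_add_le _ _).trans (by linarith only [a2, b2])

lemma norm_sub_le_of_deriv {E : Type*} [NormedAddCommGroup E] [NormedSpace ℝ E] {f f' : ℝ → E}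
    {g g' : ℝ → ℝ} {a b : ℝ} (hab : a ≤ b) (hf : ∀ τ ∈ Icc a b, HasDerivAt f (f' τ) τ)
    (hg : ∀ τ ∈ Icc a b, HasDerivAt g (g' τ) τ) (h : ∀ τ ∈ Icc a b, ‖f' τ‖ ≤ g' τ) :
    ‖f b - f a‖ ≤ g b - g a := by
  have h1 : ∀ τ ∈ Icc a b, HasDerivAt (fun τ => f τ - f a) (f' τ) τ :=
    fun τ hτ => (hf τ hτ).sub_const (f a)
  have h2 : ∀ τ ∈ Icc a b, HasDerivAt (fun τ => g τ - g a) (g' τ) τ :=
    fun τ hτ => (hg τ hτ).sub_const (g a)
  exact image_norm_le_of_norm_deriv_right_le_deriv_boundary'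
    (f := fun τ => f τ - f a) (f' := f') (B := fun τ => g τ - g a) (B' := g') (a := a) (b := b)
    (fun τ hτ => (h1 τ hτ).continuousAt.continuousWithinAt)
    (fun τ hτ => (h1 τ ⟨hτ.1, hτ.2.le⟩).hasDerivWithinAt) (by simp)
    (fun τ hτ => (h2 τ hτ).continuousAt.continuousWithinAt)
    (fun τ hτ => (h2 τ ⟨hτ.1, hτ.2.le⟩).hasDerivWithinAt)
    (fun τ hτ => h τ ⟨hτ.1, hτ.2.le⟩) ⟨hab, le_rfl⟩

/-- a future causal vector on the standard side -/
def FC (K : Coef) (C : ℝ) (x a : P4) : Prop :=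
  0 ≤ a.2.1 ∧ 0 ≤ a.2.2.1 ∧ K.h1 x a ^ 2 + K.h2 x a ^ 2 ≤ 2 * C ^ 2 * (a.2.1 * a.2.2.1)

lemma FC.abs_h {K : Coef} {C : ℝ} {x a : P4} (hC : 0 ≤ C) (h : FC K C x a) {l : ℝ} (hl : 0 < l) :
    |K.h1 x a| ≤ C * (l * a.2.2.1 + a.2.1 / l) ∧ |K.h2 x a| ≤ C * (l * a.2.2.1 + a.2.1 / l) := by
  obtain ⟨h1, h2, h3⟩ := h
  have h4 : 4 * (a.2.1 * a.2.2.1) ≤ (l * a.2.2.1 + a.2.1 / l) ^ 2 := by
    have : l * a.2.2.1 * (a.2.1 / l) = a.2.1 * a.2.2.1 := by (clear * - hl; field_simp)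
    linarith only [this, sq_nonneg (l * a.2.2.1 - a.2.1 / l)]
  have h5 : 0 ≤ C * (l * a.2.2.1 + a.2.1 / l) := by (clear * - hC hl h2 h1; positivity)
  have h6 : 2 * C ^ 2 * (a.2.1 * a.2.2.1) ≤ (C * (l * a.2.2.1 + a.2.1 / l)) ^ 2 := by
    have : (C * (l * a.2.2.1 + a.2.1 / l)) ^ 2 = C ^ 2 * (l * a.2.2.1 + a.2.1 / l) ^ 2 := by ring
    rw [this]
    have h7 : C ^ 2 * (4 * (a.2.1 * a.2.2.1)) ≤ C ^ 2 * (l * a.2.2.1 + a.2.1 / l) ^ 2 := by gcongr
    have h8 : 0 ≤ C ^ 2 * (a.2.1 * a.2.2.1) := by (clear * - h1 h2; positivity)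
    linarith only [h7, h8]
  constructor
  · apply abs_le_of_sq_le_sq _ h5
    linarith only [h3, h6, sq_nonneg (K.h2 x a)]
  · apply abs_le_of_sq_le_sq _ h5
    linarith only [h3, h6, sq_nonneg (K.h1 x a)]

lemma rel_of_curve {K : Coef} {C : ℝ} {ν ν' : ℝ → P4} {a b : ℝ} (hab : a ≤ b)
    (hd : ∀ τ ∈ Icc a b, HasDerivAt ν (ν' τ) τ) (hC : ∀ τ ∈ Icc a b, CBd K C (ν τ))
    (hT : ∀ τ ∈ Icc a b, FC K C (ν τ) (ν' τ)) : Rel C (ν a) (ν b) := by
  have hd1 : ∀ τ ∈ Icc a b, HasDerivAt (fun τ => (ν τ).1) (ν' τ).1 τ := fun τ hτ => (hd τ hτ).fst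
  have hd2 : ∀ τ ∈ Icc a b, HasDerivAt (fun τ => (ν τ).2.1) (ν' τ).2.1 τ :=
    fun τ hτ => (hd τ hτ).snd.fst
  have hd3 : ∀ τ ∈ Icc a b, HasDerivAt (fun τ => (ν τ).2.2.1) (ν' τ).2.2.1 τ :=
    fun τ hτ => (hd τ hτ).snd.snd.fst
  have hd4 : ∀ τ ∈ Icc a b, HasDerivAt (fun τ => (ν τ).2.2.2) (ν' τ).2.2.2 τ :=
    fun τ hτ => (hd τ hτ).snd.snd.snd
  have hz : ∀ τ ∈ Icc a b, HasDerivAt (fun _ : ℝ => (0:ℝ)) ((fun _ => (0:ℝ)) τ) τ :=
    fun τ _ => hasDerivAt_const τ 0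
  have r1 := norm_sub_le_of_deriv hab hz hd2 (fun τ hτ => by simpa only [norm_zero] using (hT τ hτ).1)
  have r2 := norm_sub_le_of_deriv hab hz hd3 (fun τ hτ => by simpa only [norm_zero] using (hT τ hτ).2.1)
  simp only [sub_self, norm_zero, sub_nonneg] at r1 r2
  refine ⟨r1, r2, fun l hl => ?_⟩
  have hg : ∀ τ ∈ Icc a b, HasDerivAt (fun τ => C * ((ν τ).2.1 + l * (ν τ).2.2.1 + (ν τ).2.1 / l))
      (C * ((ν' τ).2.1 + l * (ν' τ).2.2.1 + (ν' τ).2.1 / l)) τ := by
    intro τ hτ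
    exact (((hd2 τ hτ).add ((hd3 τ hτ).const_mul l)).add ((hd2 τ hτ).div_const l)).const_mul C
  constructor
  · have := norm_sub_le_of_deriv hab hd1 hg (fun τ hτ => by
      have hc := hC τ hτ
      have ht := hT τ hτ
      have h1 := (ht.abs_h hc.C_pos.le hl).1
      have h2 : (ν' τ).1 = K.h1 (ν τ) (ν' τ) + K.s1 (ν τ) * (ν' τ).2.1 := by
        simp [Coef.h1]
      have h3 : |K.s1 (ν τ) * (ν' τ).2.1| ≤ C * (ν' τ).2.1 := by
        rw [abs_mul, abs_of_nonneg ht.1]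
        exact mul_le_mul_of_nonneg_right hc.s1_hi ht.1
      rw [Real.norm_eq_abs, h2]
      refine (abs_add_le _ _).trans ?_
      linarith only [h1, h3])
    rw [Real.norm_eq_abs] at this
    refine this.trans (le_of_eq ?_)
    ring
  · have := norm_sub_le_of_deriv hab hd4 hg (fun τ hτ => by
      have hc := hC τ hτ
      have ht := hT τ hτ
      have h1 := (ht.abs_h hc.C_pos.le hl).2
      have h2 : (ν' τ).2.2.2 = K.h2 (ν τ) (ν' τ) + K.s2 (ν τ) * (ν' τ).2.1 := by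
        simp [Coef.h2]
      have h3 : |K.s2 (ν τ) * (ν' τ).2.1| ≤ C * (ν' τ).2.1 := by
        rw [abs_mul, abs_of_nonneg ht.1]
        exact mul_le_mul_of_nonneg_right hc.s2_hi ht.1
      rw [Real.norm_eq_abs, h2]
      refine (abs_add_le _ _).trans ?_
      linarith only [h1, h3])
    rw [Real.norm_eq_abs] at this
    refine this.trans (le_of_eq ?_)
    ring

/-- Lipschitz bounds between points with the same `v`. -/
structure LipPair (K : Coef) (C : ℝ) (x y : P4) : Prop where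
  om : |K.om x - K.om y| ≤ C * ‖x - y‖
  s1 : |K.s1 x - K.s1 y| ≤ C * ‖x - y‖
  s2 : |K.s2 x - K.s2 y| ≤ C * ‖x - y‖
  g11 : |K.g11 x - K.g11 y| ≤ C * ‖x - y‖
  g12 : |K.g12 x - K.g12 y| ≤ C * ‖x - y‖
  g22 : |K.g22 x - K.g22 y| ≤ C * ‖x - y‖

/-- The hypotheses of the structure lemma. -/
structure SHyp (K : Coef) (G : P4 → P4 →L[ℝ] P4 →L[ℝ] ℝ) (Psi Phi : P4 → P4) (V : Set P4)
    (R0 ρ C : ℝ) (p0 : P4) : Prop where
  iso : Iso K G Psi V
  R0_pos : 0 < R0
  ρ_pos : 0 < ρ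
  p0v : p0.2.1 = 0
  V_sub : V ⊆ Metric.ball 0 R0
  near : ∀ z ∈ Metric.ball (0 : P4) R0, NearM (G z)
  maps : ∀ z ∈ V, Psi z ∈ MB p0 ρ
  beta : ∀ z ∈ V, 0 < (fderiv ℝ Psi z Tv).2.1
  cl : ∀ Kc : Set P4, IsCompact Kc → Kc ⊆ MB p0 ρ →
    ∃ F, IsClosed F ∧ V ∩ Psi ⁻¹' Kc = Metric.ball 0 R0 ∩ F
  one_le : 1 ≤ C
  bd : ∀ x ∈ MB p0 ρ, CBd K C x
  lip : ∀ x ∈ MB p0 ρ, ∀ y ∈ MB p0 ρ, x.2.1 = y.2.1 → LipPair K C x y
  inv : ∀ z ∈ V, Phi (Psi z) = z
  opn : IsOpen (Psi '' V)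
  phi : ContDiffOn ℝ 1 Phi (Psi '' V)

namespace SHyp

variable {K : Coef} {G : P4 → P4 →L[ℝ] P4 →L[ℝ] ℝ} {Psi Phi : P4 → P4} {V : Set P4}
  {R0 ρ C : ℝ} {p0 : P4}

lemma cbd (H : SHyp K G Psi Phi V R0 ρ C p0) {z : P4} (hz : z ∈ V) : CBd K C (Psi z) :=
  H.bd _ (H.maps z hz)

lemma nearV (H : SHyp K G Psi Phi V R0 ρ C p0) {z : P4} (hz : z ∈ V) : NearM (G z) :=
  H.near z (H.V_sub hz)

/-- future timelike vectors have positive `v` component -/
lemma v_pos (H : SHyp K G Psi Phi V R0 ρ C p0) {z : P4} (hz : z ∈ V) {a : P4}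
    (ha : G z a a < 0) (h0 : 0 < a.1) : 0 < (fderiv ℝ Psi z a).2.1 := by
  have hN := H.nearV hz
  have h1 := hN.T_neg ha.le h0
  rw [H.iso.iso z hz] at h1 ha
  have h2 : K.gF (Psi z) (fderiv ℝ Psi z Tv) (fderiv ℝ Psi z Tv) < 0 := by
    rw [← H.iso.iso z hz]
    have : Tv ∈ cone (1 / 4) := by simp only [one_div, Tv, mem_cone, Prod.norm_mk, norm_zero, max_self, mul_one, inv_nonneg, Nat.ofNat_nonneg]
    have := hN.timelike_of_cone this
    simp only [Tv] at this ⊢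
    linarith only [this]
  exact (H.cbd hz).v_pos_of_gF_neg h2 ha (H.beta z hz) h1

/-- timelike vectors with positive `v` component are future -/
lemma t_pos (H : SHyp K G Psi Phi V R0 ρ C p0) {z : P4} (hz : z ∈ V) {a : P4}
    (ha : G z a a < 0) (h0 : 0 < (fderiv ℝ Psi z a).2.1) : 0 < a.1 := by
  by_contra hcon
  push Not at hcon
  have hN := H.nearV hz
  have h1 := hN.norm_le_of_causal ha.le
  rcases lt_or_eq_of_le hcon with h2 | h2
  · have h3 : 0 < (-a).1 := by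
      have : (-a).1 = -(a.1) := rfl
      rw [this]; linarith only [h2]
    have h4 : G z (-a) (-a) < 0 := by simpa only [map_neg, neg_apply, neg_neg] using ha
    have h5 := H.v_pos hz h4 h3
    have h6 : (fderiv ℝ Psi z (-a)).2.1 = -((fderiv ℝ Psi z a).2.1) := by
      rw [map_neg]; rfl
    rw [h6] at h5
    linarith only [h0, h5]
  · rw [h2] at h1
    have h3 : a = 0 := by simpa only [abs_zero, mul_zero, norm_le_zero_iff] using h1
    rw [h3] at ha
    simp at ha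

lemma fc_of_timelike (H : SHyp K G Psi Phi V R0 ρ C p0) {x a : P4} (hx : x ∈ MB p0 ρ)
    (ha : K.gF x a a < 0) (h0 : 0 < a.2.1) : FC K C x a := by
  have hc := H.bd x hx
  refine ⟨h0.le, (hc.u_pos ha h0).le, ?_⟩
  rcases hc.hat_le ha.le with h | h
  · exact h
  · have := hc.uv_pos ha
    linarith

lemma fc_cone (H : SHyp K G Psi Phi V R0 ρ C p0) {z : P4} (hz : z ∈ V) {a : P4}
    (ha : a ∈ cone (1 / 4)) : FC K C (Psi z) (fderiv ℝ Psi z a) := by
  by_cases h0 : a.1 = 0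
  · have : a = 0 := by
      rw [mem_cone, h0, mul_zero] at ha
      have h1 : a.2 = 0 := by simpa only [norm_le_zero_iff] using ha
      exact Prod.ext h0 h1
    rw [this, map_zero]
    simp only [FC, Prod.snd_zero, Prod.fst_zero, Std.le_refl, Coef.h1, mul_zero, sub_self, ne_eq, OfNat.ofNat_ne_zero, not_false_eq_true, zero_pow, Coef.h2, add_zero, and_self]
  · have h1 := (H.nearV hz).timelike_of_cone ha
    have h2 : 0 ≤ a.1 := by
      rw [mem_cone] at ha
      have := norm_nonneg a.2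
      linarith only [ha, this]
    have h3 : 0 < a.1 := lt_of_le_of_ne h2 (Ne.symm h0)
    have h4 : G z a a < 0 := by
      have : 0 < a.1 ^ 2 := by positivity
      linarith only [h1, this]
    have h5 := H.v_pos hz h4 h3
    rw [H.iso.iso z hz] at h4
    exact H.fc_of_timelike (H.maps z hz) h4 h5

end SHyp

/-- the segment from `a` to `b` stays in `V` -/
def InV (V : Set P4) (a b : P4) : Prop := ∀ τ ∈ Icc (0:ℝ) 1, a + τ • (b - a) ∈ V

lemma InV.left {V : Set P4} {a b : P4} (h : InV V a b) : a ∈ V := by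
  simpa only [zero_smul, add_zero] using h 0 ⟨le_rfl, zero_le_one⟩

lemma InV.right {V : Set P4} {a b : P4} (h : InV V a b) : b ∈ V := by
  simpa only [one_smul, add_sub_cancel] using h 1 ⟨zero_le_one, le_rfl⟩

lemma hasDerivAt_line (a w : P4) (τ : ℝ) : HasDerivAt (fun τ : ℝ => a + τ • w) w τ := by
  simpa using ((hasDerivAt_id τ).smul_const w).const_add a

namespace SHyp

variable {K : Coef} {G : P4 → P4 →L[ℝ] P4 →L[ℝ] ℝ} {Psi Phi : P4 → P4} {V : Set P4}
  {R0 ρ C : ℝ} {p0 : P4}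

lemma hasDerivAt_seg (H : SHyp K G Psi Phi V R0 ρ C p0) {a w : P4} {τ : ℝ}
    (h : a + τ • w ∈ V) :
    HasDerivAt (fun τ : ℝ => Psi (a + τ • w)) (fderiv ℝ Psi (a + τ • w) w) τ :=
  (H.iso.hasFDerivAt h).comp_hasDerivAt τ (hasDerivAt_line a w τ)

lemma rel_seg (H : SHyp K G Psi Phi V R0 ρ C p0) {a b : P4} (hab : b - a ∈ cone (1 / 4))
    (hin : InV V a b) {τ1 τ2 : ℝ} (h0 : 0 ≤ τ1) (h12 : τ1 ≤ τ2) (h2 : τ2 ≤ 1) :
    Rel C (Psi (a + τ1 • (b - a))) (Psi (a + τ2 • (b - a))) := by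
  have hin' : ∀ τ ∈ Icc τ1 τ2, a + τ • (b - a) ∈ V :=
    fun τ hτ => hin τ ⟨h0.trans hτ.1, hτ.2.trans h2⟩
  exact rel_of_curve (K := K) (ν := fun τ => Psi (a + τ • (b - a)))
    (ν' := fun τ => fderiv ℝ Psi (a + τ • (b - a)) (b - a)) h12
    (fun τ hτ => H.hasDerivAt_seg (hin' τ hτ)) (fun τ hτ => H.cbd (hin' τ hτ))
    (fun τ hτ => H.fc_cone (hin' τ hτ) hab)

lemma rel_ends (H : SHyp K G Psi Phi V R0 ρ C p0) {a b : P4} (hab : b - a ∈ cone (1 / 4))
    (hin : InV V a b) : Rel C (Psi a) (Psi b) := by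
  have := H.rel_seg hab hin le_rfl zero_le_one le_rfl
  simpa using this

end SHyp

end Vale.Agent.P354
end
end

section

section

set_option maxSynthPendingDepth 3

open Set Filter Topology

namespace Vale.Agent.P354

lemma norm_P4_le {x : P4} {r : ℝ} :
    ‖x‖ ≤ r ↔ |x.1| ≤ r ∧ |x.2.1| ≤ r ∧ |x.2.2.1| ≤ r ∧ |x.2.2.2| ≤ r := by
  rw [norm_prod_le_iff, norm_prod_le_iff, norm_prod_le_iff]
  simp only [Real.norm_eq_abs]

/-- compact subset of the standard box -/
def KB (p0 : P4) (r vs : ℝ) : Set P4 := {x | ‖x - p0‖ ≤ r ∧ x.2.1 ≤ vs}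

lemma KB_compact (p0 : P4) (r vs : ℝ) : IsCompact (KB p0 r vs) := by
  have h1 : KB p0 r vs = Metric.closedBall p0 r ∩ {x : P4 | x.2.1 ≤ vs} := by
    ext x
    simp only [KB, mem_ofPred_eq, mem_inter_iff, Metric.mem_closedBall, dist_eq_norm]
  rw [h1]
  refine (isCompact_closedBall p0 r).inter_right ?_
  exact isClosed_le (by fun_prop) continuous_const

lemma KB_sub {p0 : P4} {r vs ρ : ℝ} (h1 : r < ρ) (h2 : vs < 0) : KB p0 r vs ⊆ MB p0 ρ :=
  fun _ hx => ⟨hx.1.trans_lt h1, hx.2.trans_lt h2⟩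

lemma confine {C η : ℝ} {p0 x y z : P4} (hC : 1 ≤ C) (hp : p0.2.1 = 0) (hxy : Rel C x y)
    (hyz : Rel C y z) (hx : ‖x - p0‖ ≤ η) (hz : ‖z - p0‖ ≤ η) (hzv : z.2.1 < 0) :
    ‖y - p0‖ ≤ 5 * C * η ∧ y.2.1 ≤ z.2.1 := by
  obtain ⟨x1, x2, x3, x4⟩ := norm_P4_le.1 hx
  obtain ⟨z1, z2, z3, z4⟩ := norm_P4_le.1 hz
  simp only [Prod.fst_sub, Prod.snd_sub, hp, sub_zero] at x1 x2 x3 x4 z1 z2 z3 z4
  have hη : 0 ≤ η := (norm_nonneg _).trans hx
  have a1 := hxy.1
  have a2 := hxy.2.1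
  have b1 := hyz.1
  have b2 := hyz.2.1
  obtain ⟨c1, c2⟩ := hxy.2.2 1 one_pos
  have hCη : η ≤ C * η := le_mul_of_one_le_left (by linarith only [hη]) (by linarith only [hC])
  have hV : y.2.1 - x.2.1 ≤ η := by linarith only [hzv, b1, (abs_le.1 x2).1]
  have hU : y.2.2.1 - x.2.2.1 ≤ 2 * η := by linarith only [b2, (abs_le.1 x3).1, (abs_le.1 z3).2]
  have hS : C * (y.2.1 - x.2.1 + 1 * (y.2.2.1 - x.2.2.1) + (y.2.1 - x.2.1) / 1) ≤ C * (4 * η) := by
    gcongr
    rw [div_one]; linarith only [hV, hU]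
  refine ⟨norm_P4_le.2 ⟨?_, ?_, ?_, ?_⟩, b1⟩
  · simp only [Prod.fst_sub]
    have : y.1 - p0.1 = (y.1 - x.1) + (x.1 - p0.1) := by ring
    rw [this]
    refine (abs_add_le _ _).trans ?_
    linarith only [x1, c1, hCη, hS]
  · simp only [Prod.fst_sub, Prod.snd_sub, hp, sub_zero]
    rw [abs_le]
    constructor <;> linarith only [a1, hCη, (abs_le.1 x2).1, hη, hzv, b1]
  · simp only [Prod.fst_sub, Prod.snd_sub]
    rw [abs_le]
    constructor <;> linarith only [hη, a2, hCη, (abs_le.1 x3).1, b2, (abs_le.1 z3).2]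
  · simp only [Prod.snd_sub]
    have : y.2.2.2 - p0.2.2.2 = (y.2.2.2 - x.2.2.2) + (x.2.2.2 - p0.2.2.2) := by ring
    rw [this]
    refine (abs_add_le _ _).trans ?_
    linarith only [x4, c2, hCη, hS]

lemma tube {V : Set P4} (hV : IsOpen V) {a b : ℝ → P4} (ha : Continuous a) (hb : Continuous b)
    {l : ℝ} (h : InV V (a l) (b l)) : ∀ᶠ l' in 𝓝 l, InV V (a l') (b l') := by
  have hc : Continuous (fun p : ℝ × ℝ => a p.1 + p.2 • (b p.1 - a p.1)) := by fun_prop
  refine isCompact_Icc.eventually_forall_of_forall_eventually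
    (P := fun l' τ => a l' + τ • (b l' - a l') ∈ V) ?_
  intro τ hτ
  exact hc.continuousAt.eventually (hV.mem_nhds (h τ hτ))

lemma ball_seg {R : ℝ} {a b : P4} (ha : a ∈ Metric.ball (0 : P4) R)
    (hb : b ∈ Metric.ball (0 : P4) R) {τ : ℝ} (hτ : τ ∈ Icc (0:ℝ) 1) :
    a + τ • (b - a) ∈ Metric.ball (0 : P4) R :=
  (convex_ball (0 : P4) R).add_smul_sub_mem ha hb hτ

namespace SHyp

variable {K : Coef} {G : P4 → P4 →L[ℝ] P4 →L[ℝ] ℝ} {Psi Phi : P4 → P4} {V : Set P4}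
  {R0 ρ C : ℝ} {p0 : P4}

/-- points of broken future segments between good points stay in a compact set -/
lemma seg_mem_KB (H : SHyp K G Psi Phi V R0 ρ C p0) {η vs : ℝ} {a m b : P4}
    (ham : m - a ∈ cone (1 / 4)) (hmb : b - m ∈ cone (1 / 4))
    (hin1 : InV V a m) (hin2 : InV V m b) (ha : ‖Psi a - p0‖ ≤ η) (hb : ‖Psi b - p0‖ ≤ η)
    (hbv : (Psi b).2.1 ≤ vs) {τ : ℝ} (hτ : τ ∈ Icc (0:ℝ) 1) :
    Psi (a + τ • (m - a)) ∈ KB p0 (5 * C * η) vs ∧
    Psi (m + τ • (b - m)) ∈ KB p0 (5 * C * η) vs := by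
  have hbneg : (Psi b).2.1 < 0 := (H.maps b hin2.right).2
  constructor
  · have r1 := H.rel_seg ham hin1 le_rfl hτ.1 hτ.2
    have r2 := H.rel_seg ham hin1 hτ.1 hτ.2 le_rfl
    have r3 := H.rel_ends hmb hin2
    simp only [zero_smul, add_zero, one_smul, add_sub_cancel] at r1 r2
    have := confine H.one_le H.p0v r1 (r2.trans r3) ha hb hbneg
    exact ⟨this.1, this.2.trans hbv⟩
  · have r1 := H.rel_seg hmb hin2 le_rfl hτ.1 hτ.2
    have r2 := H.rel_seg hmb hin2 hτ.1 hτ.2 le_rfl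
    have r3 := H.rel_ends ham hin1
    simp only [zero_smul, add_zero, one_smul, add_sub_cancel] at r1 r2
    have := confine H.one_le H.p0v (r3.trans r1) r2 ha hb hbneg
    exact ⟨this.1, this.2.trans hbv⟩

lemma push (H : SHyp K G Psi Phi V R0 ρ C p0) {η vs : ℝ} (hη : 5 * C * η < ρ) (hvs : vs < 0)
    {a m b : ℝ → P4} (ha : Continuous a) (hm : Continuous m) (hb : Continuous b)
    (ham : ∀ l ∈ Icc (0:ℝ) 1, m l - a l ∈ cone (1 / 4))
    (hmb : ∀ l ∈ Icc (0:ℝ) 1, b l - m l ∈ cone (1 / 4))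
    (hmR : ∀ l ∈ Icc (0:ℝ) 1, m l ∈ Metric.ball (0 : P4) R0)
    (haV : ∀ l ∈ Icc (0:ℝ) 1, a l ∈ V ∧ ‖Psi (a l) - p0‖ ≤ η)
    (hbV : ∀ l ∈ Icc (0:ℝ) 1, b l ∈ V ∧ ‖Psi (b l) - p0‖ ≤ η ∧ (Psi (b l)).2.1 ≤ vs)
    (h0 : InV V (a 0) (m 0) ∧ InV V (m 0) (b 0)) :
    ∀ l ∈ Icc (0:ℝ) 1, InV V (a l) (m l) ∧ InV V (m l) (b l) := by
  obtain ⟨F, hF, hVF⟩ := H.cl _ (KB_compact p0 (5 * C * η) vs) (KB_sub hη hvs)
  set S : Set ℝ := {l | InV V (a l) (m l) ∧ InV V (m l) (b l)} with hS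
  have hset : S ∩ Icc 0 1 = {l | l ∈ Icc (0:ℝ) 1 ∧ ∀ τ ∈ Icc (0:ℝ) 1,
      a l + τ • (m l - a l) ∈ F ∧ m l + τ • (b l - m l) ∈ F} := by
    ext l
    constructor
    · rintro ⟨⟨h1, h2⟩, hl⟩
      refine ⟨hl, fun τ hτ => ?_⟩
      have h3 := H.seg_mem_KB (ham l hl) (hmb l hl) h1 h2 (haV l hl).2 (hbV l hl).2.1
        (hbV l hl).2.2 hτ
      have h4 : a l + τ • (m l - a l) ∈ V ∩ Psi ⁻¹' KB p0 (5 * C * η) vs := ⟨h1 τ hτ, h3.1⟩
      have h5 : m l + τ • (b l - m l) ∈ V ∩ Psi ⁻¹' KB p0 (5 * C * η) vs := ⟨h2 τ hτ, h3.2⟩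
      rw [hVF] at h4 h5
      exact ⟨h4.2, h5.2⟩
    · rintro ⟨hl, h⟩
      refine ⟨⟨fun τ hτ => ?_, fun τ hτ => ?_⟩, hl⟩
      · have h4 : a l + τ • (m l - a l) ∈ Metric.ball (0 : P4) R0 ∩ F :=
          ⟨ball_seg (H.V_sub (haV l hl).1) (hmR l hl) hτ, (h τ hτ).1⟩
        rw [← hVF] at h4
        exact h4.1
      · have h4 : m l + τ • (b l - m l) ∈ Metric.ball (0 : P4) R0 ∩ F :=
          ⟨ball_seg (hmR l hl) (H.V_sub (hbV l hl).1) hτ, (h τ hτ).2⟩
        rw [← hVF] at h4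
        exact h4.1
  have hclosed : IsClosed (S ∩ Icc 0 1) := by
    rw [hset]
    have : {l : ℝ | l ∈ Icc (0:ℝ) 1 ∧ ∀ τ ∈ Icc (0:ℝ) 1,
        a l + τ • (m l - a l) ∈ F ∧ m l + τ • (b l - m l) ∈ F} =
        Icc (0:ℝ) 1 ∩ ⋂ τ ∈ Icc (0:ℝ) 1, ((fun l => a l + τ • (m l - a l)) ⁻¹' F ∩
          (fun l => m l + τ • (b l - m l)) ⁻¹' F) := by
      ext l; simp only [mem_Icc, and_imp, mem_ofPred_eq, mem_inter_iff, mem_iInter, mem_preimage]
    rw [this]
    refine isClosed_Icc.inter (isClosed_biInter fun τ _ => ?_)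
    exact (hF.preimage (by fun_prop)).inter (hF.preimage (by fun_prop))
  have key : Icc (0:ℝ) 1 ⊆ S := by
    refine hclosed.Icc_subset_of_forall_mem_nhdsWithin h0 ?_
    rintro l ⟨⟨h1, h2⟩, hl⟩
    refine mem_nhdsWithin_of_mem_nhds ?_
    filter_upwards [tube H.iso.isOpen ha hm h1, tube H.iso.isOpen hm hb h2] with l' k1 k2
    exact ⟨k1, k2⟩
  exact fun l hl => key hl

end SHyp

end Vale.Agent.P354
end
end

section

section

set_option maxSynthPendingDepth 3

open Set Filter Topology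

namespace Vale.Agent.P354

lemma MB_convex {p0 : P4} {ρ : ℝ} {x y : P4} (hx : x ∈ MB p0 ρ) (hy : y ∈ MB p0 ρ) {l : ℝ}
    (hl : l ∈ Icc (0:ℝ) 1) : x + l • (y - x) ∈ MB p0 ρ := by
  constructor
  · have h1 : x ∈ Metric.ball p0 ρ := by simpa only [Metric.mem_ball, dist_eq_norm] using hx.1
    have h2 : y ∈ Metric.ball p0 ρ := by simpa only [Metric.mem_ball, dist_eq_norm] using hy.1
    have h3 := (convex_ball p0 ρ).add_smul_sub_mem h1 h2 hl
    simpa only [gt_iff_lt, Metric.mem_ball, dist_eq_norm] using h3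
  · have h1 : (x + l • (y - x)).2.1 = (1 - l) * x.2.1 + l * y.2.1 := by
      simp only [Prod.snd_add, Prod.smul_snd, Prod.snd_sub, Prod.fst_add, Prod.smul_fst, Prod.fst_sub, smul_eq_mul]; ring
    rw [h1]
    have hx2 := hx.2
    have hy2 := hy.2
    obtain ⟨l0, l1⟩ := hl
    rcases lt_or_eq_of_le l1 with h | h
    · have : (1 - l) * x.2.1 < 0 := mul_neg_of_pos_of_neg (by linarith only [h]) hx2
      have : l * y.2.1 ≤ 0 := mul_nonpos_of_nonneg_of_nonpos l0 hy2.le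
      (clear h1 l1; linarith)
    · rw [h]; linarith only [hy2]

/-- The quadratic form of the sphere part is bounded. -/
lemma CBd.Q_le {K : Coef} {C : ℝ} {x : P4} (h : CBd K C x) (p q : ℝ) :
    Qg K x p q ≤ 2 * C * (p ^ 2 + q ^ 2) := by
  have h1 := (abs_le.1 h.g11_hi).2
  have h2 := (abs_le.1 h.g22_hi).2
  have h3 := h.g12_hi
  have h4 : K.g12 x * (p * q) ≤ C * ((p ^ 2 + q ^ 2) / 2) := by
    have e1 : K.g12 x * (p * q) ≤ |K.g12 x| * |p * q| := by
      rw [← abs_mul]; exact le_abs_self _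
    have e2 : |p * q| ≤ (p ^ 2 + q ^ 2) / 2 := by
      rw [abs_le]; constructor <;> linarith only [sq_nonneg (p + q), sq_nonneg (p - q)]
    calc _ ≤ |K.g12 x| * |p * q| := e1
      _ ≤ C * ((p ^ 2 + q ^ 2) / 2) := by
        apply mul_le_mul h3 e2 (abs_nonneg _) h.C_pos.le
  have h5 : K.g11 x * p ^ 2 ≤ C * p ^ 2 := by (clear * - h1; gcongr)
  have h6 : K.g22 x * q ^ 2 ≤ C * q ^ 2 := by gcongr
  unfold Qg
  linarith only [h4, h5, h6]

lemma powC {C : ℝ} (hC : 1 ≤ C) : C ≤ C ^ 2 ∧ C ^ 2 ≤ C ^ 3 ∧ C ^ 3 ≤ C ^ 4 ∧ C ^ 4 ≤ C ^ 5 :=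
  ⟨le_self_pow₀ hC two_ne_zero, pow_le_pow_right₀ hC (by norm_num), pow_le_pow_right₀ hC (by norm_num),
    pow_le_pow_right₀ hC (by norm_num)⟩

lemma mul_le_half_sq (p S : ℝ) : p * S ≤ (p ^ 2 + S ^ 2) / 2 := by
  linarith only [sq_nonneg (p - S)]

/-- error estimate, abstract real version -/
lemma err_est {C e lam D1 D2 g11 g12 g22 k11 k12 k22 X1 X2 Y1 Y2 p U : ℝ} (hC : 1 ≤ C)
    (he : 0 ≤ e) (he1 : e ≤ 1) (hp : 0 ≤ p)
    (hg11 : |g11| ≤ C) (hg12 : |g12| ≤ C) (hg22 : |g22| ≤ C)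
    (h11 : |g11 - k11| ≤ C * e) (h12 : |g12 - k12| ≤ C * e) (h22 : |g22 - k22| ≤ C * e)
    (hX1 : |X1 - Y1| ≤ C * e * p) (hX2 : |X2 - Y2| ≤ C * e * p)
    (hY : Y1 ^ 2 + Y2 ^ 2 ≤ 2 * C ^ 2 * (p * U)) (hU : 0 ≤ U) (hlam : |lam| ≤ C * e)
    (hD1 : D1 = g11 * X1 ^ 2 + 2 * g12 * X1 * X2 + g22 * X2 ^ 2)
    (hD2 : D2 = k11 * Y1 ^ 2 + 2 * k12 * Y1 * Y2 + k22 * Y2 ^ 2) :
    |2 * lam * (p * U) - (D1 - D2)| ≤ e * (14 * C ^ 4) * (p * U + p ^ 2) := by
  have hC0 : 0 < C := by linarith only [hC]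
  have hpU : 0 ≤ p * U := mul_nonneg hp hU
  have t0 : |2 * lam * (p * U)| ≤ 2 * (C * e) * (p * U) := by
    rw [abs_mul, abs_mul, abs_of_nonneg hpU, abs_of_pos (by norm_num : (0:ℝ) < 2)]
    (clear * - hlam hp hU; gcongr)
  set S := |Y1| + |Y2| with hS
  have hS0 : 0 ≤ S := by (clear * -; positivity)
  have hS2 : S ^ 2 ≤ 4 * C ^ 2 * (p * U) := by
    have : S ^ 2 ≤ 2 * (Y1 ^ 2 + Y2 ^ 2) := by
      have e1 := sq_abs Y1
      have e2 := sq_abs Y2
      linarith only [e1, e2, sq_nonneg (|Y1| - |Y2|)]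
    linarith only [hY, this]
  have a1 : |Y1| ≤ S := by rw [hS]; linarith only [abs_nonneg Y2]
  have a2 : |Y2| ≤ S := by rw [hS]; linarith only [abs_nonneg Y1]
  -- second difference
  have t2 : |(g11 - k11) * Y1 ^ 2 + 2 * (g12 - k12) * (Y1 * Y2) + (g22 - k22) * Y2 ^ 2| ≤
      C * e * S ^ 2 := by
    have b1 : |(g11 - k11) * Y1 ^ 2| ≤ C * e * |Y1| ^ 2 := by
      rw [abs_mul, abs_pow]; (clear * - h11; gcongr)
    have b2 : |(g22 - k22) * Y2 ^ 2| ≤ C * e * |Y2| ^ 2 := by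
      rw [abs_mul, abs_pow]; (clear * - h22; gcongr)
    have b3 : |2 * (g12 - k12) * (Y1 * Y2)| ≤ 2 * (C * e) * (|Y1| * |Y2|) := by
      rw [abs_mul, abs_mul, abs_mul, abs_of_pos (by norm_num : (0:ℝ) < 2)]; (clear * - h12; gcongr)
    refine (abs_add_three _ _ _).trans ?_
    rw [hS]
    linarith only [b1, b2, b3]
  -- first difference
  have c1 : |X1 ^ 2 - Y1 ^ 2| ≤ C * e * p * (2 * |Y1| + C * e * p) := by
    have : X1 ^ 2 - Y1 ^ 2 = (X1 - Y1) * (X1 + Y1) := by ring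
    rw [this, abs_mul]
    have h3 : |X1 + Y1| ≤ 2 * |Y1| + C * e * p := by
      have : X1 + Y1 = (X1 - Y1) + 2 * Y1 := by ring
      rw [this]
      refine (abs_add_le _ _).trans ?_
      rw [abs_mul, abs_of_pos (by norm_num : (0:ℝ) < 2)]
      linarith only [hX1]
    (clear * - hX1 h3 hC he hp; gcongr)
  have c2 : |X2 ^ 2 - Y2 ^ 2| ≤ C * e * p * (2 * |Y2| + C * e * p) := by
    have : X2 ^ 2 - Y2 ^ 2 = (X2 - Y2) * (X2 + Y2) := by ring
    rw [this, abs_mul]
    have h3 : |X2 + Y2| ≤ 2 * |Y2| + C * e * p := by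
      have : X2 + Y2 = (X2 - Y2) + 2 * Y2 := by ring
      rw [this]
      refine (abs_add_le _ _).trans ?_
      rw [abs_mul, abs_of_pos (by norm_num : (0:ℝ) < 2)]
      linarith only [hX2]
    (clear * - hX2 h3 hC he hp; gcongr)
  have c3 : |X1 * X2 - Y1 * Y2| ≤ C * e * p * (|Y1| + |Y2| + C * e * p) := by
    have : X1 * X2 - Y1 * Y2 = (X1 - Y1) * (X2 - Y2) + (X1 - Y1) * Y2 + Y1 * (X2 - Y2) := by ring
    rw [this]
    refine (abs_add_three _ _ _).trans ?_
    rw [abs_mul, abs_mul, abs_mul]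
    have e1 : |X1 - Y1| * |X2 - Y2| ≤ (C * e * p) * (C * e * p) := by (clear * - hX1 hX2 hC he hp; gcongr)
    have e2 : |X1 - Y1| * |Y2| ≤ (C * e * p) * |Y2| := by (clear * - hX1; gcongr)
    have e3 : |Y1| * |X2 - Y2| ≤ |Y1| * (C * e * p) := by (clear * - hX2; gcongr)
    linarith only [e1, e2, e3]
  have t1 : |g11 * (X1 ^ 2 - Y1 ^ 2) + 2 * g12 * (X1 * X2 - Y1 * Y2) + g22 * (X2 ^ 2 - Y2 ^ 2)| ≤
      4 * C * (C * e * p) * (S + C * e * p) := by
    have d1 : |g11 * (X1 ^ 2 - Y1 ^ 2)| ≤ C * (C * e * p * (2 * |Y1| + C * e * p)) := by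
      rw [abs_mul]; (clear * - hg11 c1 hC; gcongr)
    have d2 : |g22 * (X2 ^ 2 - Y2 ^ 2)| ≤ C * (C * e * p * (2 * |Y2| + C * e * p)) := by
      rw [abs_mul]; (clear * - hg22 c2 hC; gcongr)
    have d3 : |2 * g12 * (X1 * X2 - Y1 * Y2)| ≤ 2 * C * (C * e * p * (|Y1| + |Y2| + C * e * p)) := by
      rw [abs_mul, abs_mul, abs_of_pos (by norm_num : (0:ℝ) < 2)]; (clear * - hg12 c3 hC; gcongr)
    refine (abs_add_three _ _ _).trans ?_
    rw [hS]
    refine (add_le_add (add_le_add d1 d3) d2).trans (le_of_eq ?_)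
    ring
  have hsplit : D1 - D2 = (g11 * (X1 ^ 2 - Y1 ^ 2) + 2 * g12 * (X1 * X2 - Y1 * Y2)
      + g22 * (X2 ^ 2 - Y2 ^ 2)) + ((g11 - k11) * Y1 ^ 2 + 2 * (g12 - k12) * (Y1 * Y2)
      + (g22 - k22) * Y2 ^ 2) := by
    rw [hD1, hD2]; ring
  rw [hsplit]
  have hfin : |2 * lam * (p * U) - ((g11 * (X1 ^ 2 - Y1 ^ 2) + 2 * g12 * (X1 * X2 - Y1 * Y2)
      + g22 * (X2 ^ 2 - Y2 ^ 2)) + ((g11 - k11) * Y1 ^ 2 + 2 * (g12 - k12) * (Y1 * Y2)
      + (g22 - k22) * Y2 ^ 2))| ≤ 2 * (C * e) * (p * U) + (4 * C * (C * e * p) * (S + C * e * p)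
      + C * e * S ^ 2) := by
    refine (abs_sub _ _).trans ?_
    exact add_le_add t0 ((abs_add_le _ _).trans (add_le_add t1 t2))
  refine hfin.trans ?_
  have f1 : p * S ≤ (p ^ 2 + S ^ 2) / 2 := mul_le_half_sq p S
  have f2 : C * e * p * (S + C * e * p) ≤ C * e * ((p ^ 2 + S ^ 2) / 2 + C * p ^ 2) := by
    have : C * e * p * (S + C * e * p) = C * e * (p * S + C * e * p ^ 2) := by ring
    rw [this]
    have h7 : C * e * p ^ 2 ≤ C * 1 * p ^ 2 := by (clear * - he1 hC; gcongr)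
    refine mul_le_mul_of_nonneg_left ?_ (by (clear * - hC he; positivity))
    linarith only [h7, f1]
  obtain ⟨hCC, hC3, hC4, -⟩ := powC hC
  calc 2 * (C * e) * (p * U) + (4 * C * (C * e * p) * (S + C * e * p) + C * e * S ^ 2)
      = 2 * (C * e) * (p * U) + (4 * C * (C * e * p * (S + C * e * p)) + C * e * S ^ 2) := by ring
    _ ≤ 2 * (C * e) * (p * U) + (4 * C * (C * e * ((p ^ 2 + S ^ 2) / 2 + C * p ^ 2))
          + C * e * S ^ 2) := by (clear * - f2 hC; gcongr)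
    _ = e * (2 * C * (p * U) + 2 * C ^ 2 * p ^ 2 + 4 * C ^ 3 * p ^ 2 + (2 * C ^ 2 + C) * S ^ 2) := by
          ring
    _ ≤ e * (2 * C * (p * U) + 2 * C ^ 2 * p ^ 2 + 4 * C ^ 3 * p ^ 2 +
          (2 * C ^ 2 + C) * (4 * C ^ 2 * (p * U))) := by (clear * - hS2 hC he; gcongr)
    _ = e * ((2 * C + 8 * C ^ 4 + 4 * C ^ 3) * (p * U) + (2 * C ^ 2 + 4 * C ^ 3) * p ^ 2) := by ring
    _ ≤ e * ((14 * C ^ 4) * (p * U) + (14 * C ^ 4) * p ^ 2) := by
        have g1 : 2 * C + 8 * C ^ 4 + 4 * C ^ 3 ≤ 14 * C ^ 4 := by linarith only [hCC, hC3, hC4]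
        have g0 : 0 ≤ C ^ 4 := by positivity
        have g2 : 2 * C ^ 2 + 4 * C ^ 3 ≤ 14 * C ^ 4 := by linarith only [hC, hCC, hC3, hC4]
        (clear * - g1 hp hU g2 he; gcongr)
    _ = _ := by ring

end Vale.Agent.P354
end
end

section

section

set_option maxSynthPendingDepth 3

open Set Filter Topology

namespace Vale.Agent.P354

lemma cvx_real {C l d omx oml D1 D2 QY QXY p U Ub : ℝ} (hC : 1 ≤ C) (hl0 : 0 ≤ l) (hl1 : l ≤ 1)
    (hp : 0 < p) (hU : 0 ≤ U) (hd : 0 ≤ d)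
    (h1 : |(2 * oml * (p * U) - D1) - (2 * omx * (p * U) - D2)| ≤
      l * d * (14 * C ^ 4) * (p * U + p ^ 2))
    (h2 : 0 < 2 * omx * (p * U) - D2) (h3 : D1 ≤ 2 * QXY + 2 * QY)
    (h4 : QY ≤ p * Ub / (4 * C)) (h5 : 1 / C ≤ oml) (h6 : p ≤ Ub) (h7 : 28 * C ^ 5 * d ≤ 1) :
    0 < (1 - l) * (2 * oml * (p * U) - D1) + l * (2 * oml * (p * Ub) - QY)
      + l * (1 - l) * QXY := by
  have hC0 : 0 < C := by linarith only [hC]
  have hpU : 0 ≤ p * U := by (clear * - hp hU; positivity)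
  have hpUb : 0 < p * Ub := by have : 0 < Ub := by linarith only [hp, h6]
                               (clear * - hp this; positivity)
  set E : ℝ := 14 * C ^ 4 * (p * U + p ^ 2) * d with hE
  have hE0 : 0 ≤ E := by (clear * - hC hp hU hd; positivity)
  have hE1 : E ≤ (p * U + p * Ub) / (2 * C) := by
    have e1 : p ^ 2 ≤ p * Ub := by rw [sq]; (clear * - h6 hp; gcongr)
    have e2 : 14 * C ^ 4 * d ≤ 1 / (2 * C) := by
      rw [le_div_iff₀ (by positivity)]
      calc 14 * C ^ 4 * d * (2 * C) = 28 * C ^ 5 * d := by ring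
        _ ≤ 1 := h7
    calc E = (14 * C ^ 4 * d) * (p * U + p ^ 2) := by rw [hE]; ring
      _ ≤ (1 / (2 * C)) * (p * U + p * Ub) := by (clear * - e2 e1 hp hU hC; gcongr)
      _ = _ := by ring
  have herr : |(2 * oml * (p * U) - D1) - (2 * omx * (p * U) - D2)| ≤ l * E := by
    refine h1.trans (le_of_eq ?_)
    rw [hE]; ring
  set Fa := 2 * omx * (p * U) - D2 with hFa
  set Ga := 2 * oml * (p * U) - D1 with hGa
  set Fb := 2 * oml * (p * Ub) - QY with hFb
  obtain ⟨r1, r2⟩ := abs_le.1 herr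
  have hlE : l * E ≤ E := mul_le_of_le_one_left (by first | linarith only [hE0] | positivity) (by linarith only [hl1])
  have k1 : Ga ≥ Fa - l * E := by linarith only [r1]
  have k2 : 0 ≤ Fa + QXY + QY - oml * (p * U) + E / 2 := by
    have : Ga - E ≤ Fa := by linarith only [r2, hlE]
    linarith only [h3, h2, r2, hlE]
  have homU : (p * U) / C ≤ oml * (p * U) := by
    have : (p * U) / C = 1 / C * (p * U) := by ring
    rw [this]; gcongr
  have homUb : (p * Ub) / C ≤ oml * (p * Ub) := by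
    have : (p * Ub) / C = 1 / C * (p * Ub) := by ring
    rw [this]; (clear * - h5 hpUb; gcongr)
  have q1 : p * Ub / (4 * C) = (p * Ub / C) / 4 := by (clear * - hC hp; field_simp)
  have q2 : (p * U + p * Ub) / (2 * C) = (p * U / C) / 2 + (p * Ub / C) / 2 := by (clear * - hC hp; field_simp)
  have q3 : 0 < p * Ub / C := by (clear * - hpUb hC; positivity)
  have q4 : 0 ≤ p * U / C := by (clear * - hp hU hC; positivity)
  rw [q1] at h4
  rw [q2] at hE1
  have kFb : 0 < Fb := by linarith only [h4, homUb, q3]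
  have kB : 0 < oml * (p * U) - 3 / 2 * E - QY + Fb := by linarith only [h4, hE1, homU, homUb, q3, q4]
  have hm : 0 ≤ l * (1 - l) := mul_nonneg hl0 (by linarith only [hl1])
  have step : (1 - l) * (Fa - l * E) + l * Fb + l * (1 - l) * QXY ≥
      (1 - l) ^ 2 * Fa + l ^ 2 * Fb := by
    have id1 : (1 - l) * (Fa - l * E) + l * Fb + l * (1 - l) * QXY =
      (1 - l) ^ 2 * Fa + l ^ 2 * Fb + l * (1 - l) * (oml * (p * U) - 3 / 2 * E - QY + Fb)
        + l * (1 - l) * (Fa + QXY + QY - oml * (p * U) + E / 2) := by ring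
    rw [id1]
    have m1 := mul_nonneg hm kB.le
    have m2 := mul_nonneg hm k2
    linarith only [m1, m2]
  have step2 : (1 - l) * Ga ≥ (1 - l) * (Fa - l * E) :=
    mul_le_mul_of_nonneg_left k1 (by linarith only [hl1])
  have step3 : 0 < (1 - l) ^ 2 * Fa + l ^ 2 * Fb := by
    rcases eq_or_lt_of_le hl1 with h | h
    · rw [h]; simp [kFb]
    · have : 0 < (1 - l) ^ 2 * Fa := by
        have : 0 < 1 - l := by linarith only [h]
        (clear * - h h2; positivity)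
      have : 0 ≤ l ^ 2 * Fb := by (clear * - kFb; positivity)
      (clear d D1 QXY hC hl0 hl1 hp hU hd h3 h5 h6 h7 hC0 hpU hpUb E hE hE0 hE1 hFa Ga h1 herr hGa hFb r1 r2 hlE k1 k2 homU q1 q2 q4 kB hm step step2; linarith)
  linarith only [step, step2, step3]

lemma Qg_cvx {K : Coef} {C : ℝ} {x : P4} (h : CBd K C x) (p q p' q' : ℝ) :
    Qg K x p q ≤ 2 * Qg K x (p - p') (q - q') + 2 * Qg K x p' q' := by
  have h1 := h.Q_nonneg (p - 2 * p') (q - 2 * q')
  have h2 : 2 * Qg K x (p - p') (q - q') + 2 * Qg K x p' q' - Qg K x p q =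
      Qg K x (p - 2 * p') (q - 2 * q') := by
    unfold Qg; ring
  linarith only [h1, h2]

lemma cvx_neg {K : Coef} {C : ℝ} {x xl a b : P4} {l d : ℝ} (hx : CBd K C x) (hxl : CBd K C xl)
    (hlip : LipPair K C xl x) (hd : ‖xl - x‖ ≤ l * d) (hl : l ∈ Icc (0:ℝ) 1) (hd0 : 0 ≤ d)
    (hd1 : 28 * C ^ 5 * d ≤ 1) (hab : a.2.1 = b.2.1) (hp : 0 < a.2.1)
    (ha : K.gF x a a < 0) (hub : b.2.1 ≤ b.2.2.1)
    (hb : K.h1 xl b ^ 2 + K.h2 xl b ^ 2 ≤ 1 / (8 * C ^ 2) * (b.2.1 * b.2.2.1)) :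
    K.gF xl (a + l • (b - a)) (a + l • (b - a)) < 0 := by
  have hC := hx.one_le
  have hC0 := hx.C_pos
  have hau := hx.u_pos ha hp
  obtain ⟨hl0, hl1⟩ := hl
  have hd2 : d ≤ 1 := by
    have : 1 ≤ 28 * C ^ 5 := by
      have : 1 ≤ C ^ 5 := one_le_pow₀ hC
      linarith only [this]
    linarith only [hd1, mul_le_mul_of_nonneg_right this hd0]
  have hld : l * d ≤ 1 := mul_le_one₀ hl1 hd0 hd2
  have hld0 : 0 ≤ l * d := by (clear * - hl0 hd0; positivity)
  have hhat : K.h1 x a ^ 2 + K.h2 x a ^ 2 ≤ 2 * C ^ 2 * (a.2.1 * a.2.2.1) := by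
    rcases hx.hat_le ha.le with h | h
    · exact h
    · have := hx.uv_pos ha
      linarith only [h, this]
  have hn : C * ‖xl - x‖ ≤ C * (l * d) := by (clear * - hd hC; gcongr)
  have hX : ∀ s s' t : ℝ, |s - s'| ≤ C * ‖xl - x‖ →
      |(t - s * a.2.1) - (t - s' * a.2.1)| ≤ C * (l * d) * a.2.1 := by
    intro s s' t h
    have : (t - s * a.2.1) - (t - s' * a.2.1) = -((s - s') * a.2.1) := by ring
    rw [this, abs_neg, abs_mul, abs_of_pos hp]
    exact mul_le_mul_of_nonneg_right (h.trans hn) hp.le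
  have herr := err_est (C := C) (e := l * d) (lam := K.om xl - K.om x)
    (D1 := Qg K xl (K.h1 xl a) (K.h2 xl a)) (D2 := Qg K x (K.h1 x a) (K.h2 x a))
    (g11 := K.g11 xl) (g12 := K.g12 xl) (g22 := K.g22 xl)
    (k11 := K.g11 x) (k12 := K.g12 x) (k22 := K.g22 x) (X1 := K.h1 xl a) (X2 := K.h2 xl a)
    (Y1 := K.h1 x a) (Y2 := K.h2 x a) (p := a.2.1) (U := a.2.2.1) hC hld0 hld hp.le
    hxl.g11_hi hxl.g12_hi hxl.g22_hi (hlip.g11.trans hn) (hlip.g12.trans hn) (hlip.g22.trans hn)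
    (hX _ _ _ hlip.s1) (hX _ _ _ hlip.s2) hhat hau.le (hlip.om.trans hn) rfl rfl
  have h2 : 0 < 2 * K.om x * (a.2.1 * a.2.2.1) - Qg K x (K.h1 x a) (K.h2 x a) := by
    rw [gF_diag] at ha; linarith only [ha]
  have h1 : |(2 * K.om xl * (a.2.1 * a.2.2.1) - Qg K xl (K.h1 xl a) (K.h2 xl a)) -
      (2 * K.om x * (a.2.1 * a.2.2.1) - Qg K x (K.h1 x a) (K.h2 x a))| ≤
      l * d * (14 * C ^ 4) * (a.2.1 * a.2.2.1 + a.2.1 ^ 2) := by
    refine le_trans (le_of_eq ?_) herr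
    congr 1; ring
  have h3 := Qg_cvx hxl (K.h1 xl a) (K.h2 xl a) (K.h1 xl b) (K.h2 xl b)
  have h4 : Qg K xl (K.h1 xl b) (K.h2 xl b) ≤ a.2.1 * b.2.2.1 / (4 * C) := by
    refine (hxl.Q_le _ _).trans ?_
    rw [hab]
    calc 2 * C * (K.h1 xl b ^ 2 + K.h2 xl b ^ 2) ≤ 2 * C * (1 / (8 * C ^ 2) * (b.2.1 * b.2.2.1)) := by
          (clear * - hb hC; gcongr)
      _ = b.2.1 * b.2.2.1 / (4 * C) := by field_simp; ring
  have key := cvx_real (C := C) (l := l) (d := d) (omx := K.om x) (oml := K.om xl) hC hl0 hl1 hp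
    hau.le hd0 h1 h2 h3 h4 hxl.om_lo (by rw [hab]; exact hub) hd1
  have hfin : K.gF xl (a + l • (b - a)) (a + l • (b - a)) =
      -((1 - l) * (2 * K.om xl * (a.2.1 * a.2.2.1) - Qg K xl (K.h1 xl a) (K.h2 xl a))
      + l * (2 * K.om xl * (a.2.1 * b.2.2.1) - Qg K xl (K.h1 xl b) (K.h2 xl b))
      + l * (1 - l) * Qg K xl (K.h1 xl a - K.h1 xl b) (K.h2 xl a - K.h2 xl b)) := by
    simp only [Coef.gF, Qg, Coef.h1, Coef.h2, Prod.fst_add, Prod.snd_add, Prod.fst_sub,
      Prod.snd_sub, Prod.smul_fst, Prod.smul_snd, smul_eq_mul, hab]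
    ring
  rw [hfin]
  linarith only [key]

/-- the comparison vector is timelike, with a bound -/
lemma cmp_neg {K : Coef} {C : ℝ} {x b : P4} (hx : CBd K C x) (hp : 0 < b.2.1)
    (hub : b.2.1 ≤ b.2.2.1)
    (hb : K.h1 x b ^ 2 + K.h2 x b ^ 2 ≤ 1 / (8 * C ^ 2) * (b.2.1 * b.2.2.1)) :
    K.gF x b b ≤ -((b.2.1 * b.2.2.1) / C) := by
  have hC := hx.one_le
  have hC0 := hx.C_pos
  have h4 : Qg K x (K.h1 x b) (K.h2 x b) ≤ b.2.1 * b.2.2.1 / (4 * C) := by
    refine (hx.Q_le _ _).trans ?_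
    calc 2 * C * (K.h1 x b ^ 2 + K.h2 x b ^ 2) ≤ 2 * C * (1 / (8 * C ^ 2) * (b.2.1 * b.2.2.1)) := by
          gcongr
      _ = b.2.1 * b.2.2.1 / (4 * C) := by field_simp; ring
  have hpos : 0 < b.2.1 * b.2.2.1 := by
    have : 0 < b.2.2.1 := by linarith only [hp, hub]
    positivity
  have h5 : (b.2.1 * b.2.2.1) / C ≤ K.om x * (b.2.1 * b.2.2.1) := by
    have : (b.2.1 * b.2.2.1) / C = 1 / C * (b.2.1 * b.2.2.1) := by ring
    rw [this]
    exact mul_le_mul_of_nonneg_right hx.om_lo hpos.le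
  have q1 : b.2.1 * b.2.2.1 / (4 * C) = (b.2.1 * b.2.2.1 / C) / 4 := by field_simp
  have q3 : 0 < b.2.1 * b.2.2.1 / C := by (clear * - hpos hC; positivity)
  rw [q1] at h4
  rw [gF_diag]
  linarith only [h4, h5, q3]

end Vale.Agent.P354
end
end

section

section

set_option maxSynthPendingDepth 3

open Set Filter Topology

namespace Vale.Agent.P354

/-- causal diamond in exotic coordinates -/
def Dia (a b : P4) : Set P4 := {z | ‖z.2 - a.2‖ ≤ 2 * (z.1 - a.1) ∧ ‖b.2 - z.2‖ ≤ 2 * (b.1 - z.1)}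

lemma Dia_closed (a b : P4) : IsClosed (Dia a b) := by
  have : Dia a b = {z : P4 | ‖z.2 - a.2‖ ≤ 2 * (z.1 - a.1)} ∩
      {z : P4 | ‖b.2 - z.2‖ ≤ 2 * (b.1 - z.1)} := rfl
  rw [this]
  exact (isClosed_le (by fun_prop) (by fun_prop)).inter (isClosed_le (by fun_prop) (by fun_prop))

lemma Dia_sub {a b : P4} {R : ℝ} (hR : 0 < R) (ha : ‖a‖ ≤ R / 8) (hb : ‖b‖ ≤ R / 8) :
    Dia a b ⊆ Metric.closedBall (0 : P4) (7 / 8 * R) := by
  intro z hz
  obtain ⟨h1, h2⟩ := hz
  have a1 : |a.1| ≤ R / 8 := (norm_fst_le a).trans ha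
  have a2 : ‖a.2‖ ≤ R / 8 := (norm_snd_le a).trans ha
  have b1 : |b.1| ≤ R / 8 := (norm_fst_le b).trans hb
  obtain ⟨a1l, a1r⟩ := abs_le.1 a1
  obtain ⟨b1l, b1r⟩ := abs_le.1 b1
  have h3 := norm_nonneg (z.2 - a.2)
  have h4 := norm_nonneg (b.2 - z.2)
  rw [mem_closedBall_zero_iff, norm_P4]
  apply max_le
  · rw [abs_le]; constructor <;> linarith only [hR, h1, a1l, h3, h2, b1r, h4]
  · have : z.2 = (z.2 - a.2) + a.2 := by abel
    rw [this]
    refine (norm_add_le _ _).trans ?_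
    linarith only [hR, h1, h2, a2, a1l, b1r, h4]

namespace SHyp

variable {K : Coef} {G : P4 → P4 →L[ℝ] P4 →L[ℝ] ℝ} {Psi Phi : P4 → P4} {V : Set P4}
  {R0 ρ C : ℝ} {p0 : P4}

lemma Phi_mem (H : SHyp K G Psi Phi V R0 ρ C p0) {x : P4} (hx : x ∈ Psi '' V) :
    Phi x ∈ V ∧ Psi (Phi x) = x := by
  obtain ⟨z, hz, rfl⟩ := hx
  rw [H.inv z hz]
  exact ⟨hz, rfl⟩

lemma Phi_hasFDerivAt (H : SHyp K G Psi Phi V R0 ρ C p0) {x : P4} (hx : x ∈ Psi '' V) :
    HasFDerivAt Phi (fderiv ℝ Phi x) x :=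
  ((H.phi.contDiffAt (H.opn.mem_nhds hx)).differentiableAt (by norm_num)).hasFDerivAt

/-- the lift of a curve -/
lemma lift_deriv (H : SHyp K G Psi Phi V R0 ρ C p0) {ν : ℝ → P4} {ν' : P4} {τ : ℝ}
    (hν : HasDerivAt ν ν' τ) (hx : ν τ ∈ Psi '' V) :
    HasDerivAt (fun τ => Phi (ν τ)) (fderiv ℝ Phi (ν τ) ν') τ ∧
      fderiv ℝ Psi (Phi (ν τ)) (fderiv ℝ Phi (ν τ) ν') = ν' := by
  have h1 : HasDerivAt (fun τ => Phi (ν τ)) (fderiv ℝ Phi (ν τ) ν') τ :=
    (H.Phi_hasFDerivAt hx).comp_hasDerivAt τ hν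
  refine ⟨h1, ?_⟩
  have h2 : HasDerivAt (fun τ => Psi (Phi (ν τ)))
      (fderiv ℝ Psi (Phi (ν τ)) (fderiv ℝ Phi (ν τ) ν')) τ :=
    (H.iso.hasFDerivAt (H.Phi_mem hx).1).comp_hasDerivAt τ h1
  have h3 : (fun τ => Psi (Phi (ν τ))) =ᶠ[𝓝 τ] ν := by
    filter_upwards [hν.continuousAt.eventually (H.opn.mem_nhds hx)] with τ' h
    exact (H.Phi_mem h).2
  exact (h2.congr_of_eventuallyEq h3.symm).unique hν

/-- properties of the lifted velocity -/
lemma lift_vel (H : SHyp K G Psi Phi V R0 ρ C p0) {x a : P4} (hx : x ∈ Psi '' V)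
    (ha : K.gF x a a < 0) (hav : 0 < a.2.1)
    (hd : fderiv ℝ Psi (Phi x) (fderiv ℝ Phi x a) = a) :
    0 < (fderiv ℝ Phi x a).1 ∧ ‖fderiv ℝ Phi x a‖ ≤ 2 * (fderiv ℝ Phi x a).1 ∧
      -K.gF x a a ≤ 2 * (fderiv ℝ Phi x a).1 ^ 2 := by
  obtain ⟨h1, h2⟩ := H.Phi_mem hx
  have h3 : G (Phi x) (fderiv ℝ Phi x a) (fderiv ℝ Phi x a) = K.gF x a a := by
    rw [H.iso.iso _ h1, h2, hd]
  have h4 : G (Phi x) (fderiv ℝ Phi x a) (fderiv ℝ Phi x a) < 0 := by rw [h3]; exact ha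
  have h5 := H.t_pos h1 h4 (by rw [hd]; exact hav)
  have h6 := (H.nearV h1).norm_le_of_causal h4.le
  rw [abs_of_pos h5] at h6
  refine ⟨h5, h6, ?_⟩
  have h7 := (abs_le.1 (H.nearV h1 (fderiv ℝ Phi x a) (fderiv ℝ Phi x a))).1
  rw [mink_self, h3] at h7
  have h8 : ‖fderiv ℝ Phi x a‖ * ‖fderiv ℝ Phi x a‖ ≤
      (2 * (fderiv ℝ Phi x a).1) * (2 * (fderiv ℝ Phi x a).1) :=
    mul_le_mul h6 h6 (norm_nonneg _) (by linarith only [h5])
  have h9 := sq_nonneg (fderiv ℝ Phi x a).2.1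
  have h10 := sq_nonneg (fderiv ℝ Phi x a).2.2.1
  have h11 := sq_nonneg (fderiv ℝ Phi x a).2.2.2
  linarith only [ha, h7, h8, h9, h10, h11]

/-- lifted timelike curves satisfy the cone estimate -/
lemma lift_cone (H : SHyp K G Psi Phi V R0 ρ C p0) {ν ν' : ℝ → P4} {τ1 τ2 : ℝ} (h12 : τ1 ≤ τ2)
    (hν : ∀ τ ∈ Icc τ1 τ2, HasDerivAt ν (ν' τ) τ) (hx : ∀ τ ∈ Icc τ1 τ2, ν τ ∈ Psi '' V)
    (hT : ∀ τ ∈ Icc τ1 τ2, K.gF (ν τ) (ν' τ) (ν' τ) < 0) (hv : ∀ τ ∈ Icc τ1 τ2, 0 < (ν' τ).2.1) :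
    ‖(Phi (ν τ2)).2 - (Phi (ν τ1)).2‖ ≤ 2 * ((Phi (ν τ2)).1 - (Phi (ν τ1)).1) := by
  have h1 : ∀ τ ∈ Icc τ1 τ2, HasDerivAt (fun τ => (Phi (ν τ)).2)
      (fderiv ℝ Phi (ν τ) (ν' τ)).2 τ := fun τ hτ => (H.lift_deriv (hν τ hτ) (hx τ hτ)).1.snd
  have h20 : ∀ τ ∈ Icc τ1 τ2, HasDerivAt (fun τ => (Phi (ν τ)).1)
      (fderiv ℝ Phi (ν τ) (ν' τ)).1 τ :=
    fun τ hτ => (H.lift_deriv (hν τ hτ) (hx τ hτ)).1.fst
  have h2 : ∀ τ ∈ Icc τ1 τ2, HasDerivAt (fun τ => 2 * (Phi (ν τ)).1)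
      (2 * (fderiv ℝ Phi (ν τ) (ν' τ)).1) τ := fun τ hτ => (h20 τ hτ).const_mul 2
  have := norm_sub_le_of_deriv h12 h1 h2 (fun τ hτ => by
    have h3 := H.lift_vel (hx τ hτ) (hT τ hτ) (hv τ hτ) (H.lift_deriv (hν τ hτ) (hx τ hτ)).2
    exact (norm_snd_le _).trans h3.2.1)
  linarith

/-- Homotopy lifting of timelike curves with fixed ends. -/
lemma lift_hom (H : SHyp K G Psi Phi V R0 ρ C p0) {a b : P4} (haV : a ∈ V) (hbV : b ∈ V)
    (ha : ‖a‖ ≤ R0 / 8) (hb : ‖b‖ ≤ R0 / 8) {x y x' y' : ℝ → P4}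
    (hx : ∀ τ ∈ Icc (0:ℝ) 1, HasDerivAt x (x' τ) τ)
    (hy : ∀ τ ∈ Icc (0:ℝ) 1, HasDerivAt y (y' τ) τ)
    (hT : ∀ l ∈ Icc (0:ℝ) 1, ∀ τ ∈ Icc (0:ℝ) 1, K.gF (x τ + l • (y τ - x τ))
      (x' τ + l • (y' τ - x' τ)) (x' τ + l • (y' τ - x' τ)) < 0)
    (hv : ∀ l ∈ Icc (0:ℝ) 1, ∀ τ ∈ Icc (0:ℝ) 1, 0 < (x' τ + l • (y' τ - x' τ)).2.1)
    {Kc : Set P4} (hKc : IsCompact Kc) (hKM : Kc ⊆ MB p0 ρ)
    (hK : ∀ l ∈ Icc (0:ℝ) 1, ∀ τ ∈ Icc (0:ℝ) 1, x τ + l • (y τ - x τ) ∈ Kc)
    (hx0 : x 0 = Psi a) (hy0 : y 0 = Psi a) (hx1 : x 1 = Psi b) (hy1 : y 1 = Psi b)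
    (hstart : ∀ τ ∈ Icc (0:ℝ) 1, x τ ∈ Psi '' V) :
    ∀ l ∈ Icc (0:ℝ) 1, ∀ τ ∈ Icc (0:ℝ) 1, x τ + l • (y τ - x τ) ∈ Psi '' V := by
  obtain ⟨F, hF, hVF⟩ := H.cl Kc hKc hKM
  set Q : Set P4 := Psi '' (V ∩ Psi ⁻¹' Kc ∩ Dia a b) with hQ
  have hDball : Dia a b ⊆ Metric.ball (0 : P4) R0 := by
    refine (Dia_sub H.R0_pos ha hb).trans (Metric.closedBall_subset_ball ?_)
    linarith only [H.R0_pos]
  have hcomp : IsCompact (V ∩ Psi ⁻¹' Kc ∩ Dia a b) := by
    have h1 : V ∩ Psi ⁻¹' Kc ∩ Dia a b = F ∩ Dia a b := by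
      rw [hVF]
      ext z
      constructor
      · rintro ⟨⟨_, h⟩, h'⟩; exact ⟨h, h'⟩
      · rintro ⟨h, h'⟩; exact ⟨⟨hDball h', h⟩, h'⟩
    rw [h1]
    exact (isCompact_closedBall (0 : P4) (7 / 8 * R0)).of_isClosed_subset
      (hF.inter (Dia_closed a b)) (fun z hz => Dia_sub H.R0_pos ha hb hz.2)
  have hQc : IsCompact Q :=
    hcomp.image_of_continuousOn (H.iso.smooth.continuousOn.mono fun z hz => hz.1.1)
  set S : Set ℝ := {l | ∀ τ ∈ Icc (0:ℝ) 1, x τ + l • (y τ - x τ) ∈ Psi '' V} with hS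
  have hderiv : ∀ l : ℝ, ∀ τ ∈ Icc (0:ℝ) 1, HasDerivAt (fun τ => x τ + l • (y τ - x τ))
      (x' τ + l • (y' τ - x' τ)) τ := fun l τ hτ =>
    (hx τ hτ).fun_add (((hy τ hτ).fun_sub (hx τ hτ)).fun_const_smul l)
  have hset : S ∩ Icc 0 1 = Icc (0:ℝ) 1 ∩ ⋂ τ ∈ Icc (0:ℝ) 1,
      (fun l : ℝ => x τ + l • (y τ - x τ)) ⁻¹' Q := by
    ext l
    simp only [mem_inter_iff, mem_iInter, mem_preimage]
    constructor
    · rintro ⟨h, hl⟩
      refine ⟨hl, fun τ hτ => ?_⟩
      have hm := H.Phi_mem (h τ hτ)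
      refine ⟨Phi (x τ + l • (y τ - x τ)), ⟨⟨hm.1, ?_⟩, ?_, ?_⟩, hm.2⟩
      · rw [mem_preimage, hm.2]; exact hK l hl τ hτ
      · have := H.lift_cone (ν := fun τ => x τ + l • (y τ - x τ))
          (ν' := fun τ => x' τ + l • (y' τ - x' τ)) hτ.1
          (fun t ht => hderiv l t ⟨ht.1, ht.2.trans hτ.2⟩)
          (fun t ht => h t ⟨ht.1, ht.2.trans hτ.2⟩)
          (fun t ht => hT l hl t ⟨ht.1, ht.2.trans hτ.2⟩)
          (fun t ht => hv l hl t ⟨ht.1, ht.2.trans hτ.2⟩)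
        simpa only [hx0, hy0, sub_self, smul_zero, add_zero, H.inv a haV] using this
      · have := H.lift_cone (ν := fun τ => x τ + l • (y τ - x τ))
          (ν' := fun τ => x' τ + l • (y' τ - x' τ)) hτ.2
          (fun t ht => hderiv l t ⟨hτ.1.trans ht.1, ht.2⟩)
          (fun t ht => h t ⟨hτ.1.trans ht.1, ht.2⟩)
          (fun t ht => hT l hl t ⟨hτ.1.trans ht.1, ht.2⟩)
          (fun t ht => hv l hl t ⟨hτ.1.trans ht.1, ht.2⟩)
        simpa only [hx1, hy1, sub_self, smul_zero, add_zero, H.inv b hbV] using this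
    · rintro ⟨hl, h⟩
      refine ⟨fun τ hτ => ?_, hl⟩
      obtain ⟨z, hz, hz2⟩ := h τ hτ
      exact ⟨z, hz.1.1, hz2⟩
  have hclosed : IsClosed (S ∩ Icc 0 1) := by
    rw [hset]
    refine isClosed_Icc.inter (isClosed_biInter fun τ _ => ?_)
    exact hQc.isClosed.preimage (by fun_prop)
  have key : Icc (0:ℝ) 1 ⊆ S := by
    refine hclosed.Icc_subset_of_forall_mem_nhdsWithin ?_ ?_
    · intro τ hτ
      simpa only [zero_smul, add_zero, mem_image, Prod.exists] using hstart τ hτ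
    · rintro l ⟨h1, hl⟩
      refine mem_nhdsWithin_of_mem_nhds ?_
      have := isCompact_Icc.eventually_forall_of_forall_eventually (x₀ := l)
        (K := Icc (0:ℝ) 1) (P := fun l τ => x τ + l • (y τ - x τ) ∈ Psi '' V) (by
          intro τ hτ
          have hc : ContinuousAt (fun p : ℝ × ℝ => x p.2 + p.1 • (y p.2 - x p.2)) (l, τ) := by
            have c1 : ContinuousAt (fun p : ℝ × ℝ => x p.2) (l, τ) :=
              ContinuousAt.comp (g := x) (f := Prod.snd) (hx τ hτ).continuousAt continuousAt_snd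
            have c2 : ContinuousAt (fun p : ℝ × ℝ => y p.2) (l, τ) :=
              ContinuousAt.comp (g := y) (f := Prod.snd) (hy τ hτ).continuousAt continuousAt_snd
            exact c1.add (continuousAt_fst.smul (c2.sub c1))
          exact hc.eventually (H.opn.mem_nhds (h1 τ hτ)))
      exact this
  exact fun l hl => key hl

end SHyp

end Vale.Agent.P354
end
end

section

section

set_option maxSynthPendingDepth 3

open Set Filter Topology

namespace Vale.Agent.P354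

lemma KB_convex {p0 : P4} {r vs : ℝ} {x y : P4} (hx : x ∈ KB p0 r vs) (hy : y ∈ KB p0 r vs)
    {l : ℝ} (hl : l ∈ Icc (0:ℝ) 1) : x + l • (y - x) ∈ KB p0 r vs := by
  constructor
  · have h1 : x ∈ Metric.closedBall p0 r := by simpa only [Metric.mem_closedBall, dist_eq_norm] using hx.1
    have h2 : y ∈ Metric.closedBall p0 r := by simpa only [Metric.mem_closedBall, dist_eq_norm] using hy.1
    have h3 := (convex_closedBall p0 r).add_smul_sub_mem h1 h2 hl
    simpa only [ge_iff_le, Metric.mem_closedBall, dist_eq_norm] using h3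
  · have h1 : (x + l • (y - x)).2.1 = (1 - l) * x.2.1 + l * y.2.1 := by
      simp only [Prod.snd_add, Prod.smul_snd, Prod.snd_sub, Prod.fst_add, Prod.smul_fst, Prod.fst_sub, smul_eq_mul]; ring
    rw [h1]
    obtain ⟨l0, l1⟩ := hl
    have e1 : (1 - l) * x.2.1 ≤ (1 - l) * vs := mul_le_mul_of_nonneg_left hx.2 (by linarith only [l1])
    have e2 : l * y.2.1 ≤ l * vs := mul_le_mul_of_nonneg_left hy.2 l0
    linarith only [e1, e2]

lemma sub_mul_sq_le {X s d C : ℝ} (hs : |s| ≤ C) :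
    (X - s * d) ^ 2 ≤ 2 * X ^ 2 + 2 * (C ^ 2 * d ^ 2) := by
  have s1 : s ^ 2 ≤ C ^ 2 := by
    have h := abs_le.1 hs
    exact sq_le_sq' h.1 h.2
  have : s ^ 2 * d ^ 2 ≤ C ^ 2 * d ^ 2 := by gcongr
  linarith only [this, sq_nonneg (X + s * d)]

lemma hat_small {K : Coef} {C : ℝ} {z A B : P4} (hc : CBd K C z) (w : ℝ)
    (hΘ : 2 * ((B.1 - A.1) ^ 2 + (B.2.2.2 - A.2.2.2) ^ 2)
      + 4 * C ^ 2 * (B.2.1 - A.2.1) ^ 2 ≤
      1 / (8 * C ^ 2) * ((B.2.1 - A.2.1) * (B.2.2.1 - A.2.2.1))) :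
    K.h1 z (w • (B - A)) ^ 2 + K.h2 z (w • (B - A)) ^ 2 ≤
      1 / (8 * C ^ 2) * ((w • (B - A)).2.1 * (w • (B - A)).2.2.1) := by
  have e1 : K.h1 z (w • (B - A)) = w * ((B.1 - A.1) - K.s1 z * (B.2.1 - A.2.1)) := by
    simp only [Coef.h1, Prod.smul_fst, Prod.smul_snd, Prod.fst_sub, Prod.snd_sub,
      smul_eq_mul]; ring
  have e2 : K.h2 z (w • (B - A)) = w * ((B.2.2.2 - A.2.2.2) - K.s2 z * (B.2.1 - A.2.1)) := by
    simp only [Coef.h2, Prod.smul_snd, Prod.fst_sub, Prod.snd_sub,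
      smul_eq_mul, Prod.smul_fst]; ring
  have e3 : (w • (B - A)).2.1 * (w • (B - A)).2.2.1 =
      w ^ 2 * ((B.2.1 - A.2.1) * (B.2.2.1 - A.2.2.1)) := by
    simp only [Prod.smul_snd, Prod.fst_sub, Prod.snd_sub, smul_eq_mul, Prod.smul_fst]; ring
  have b1 := sub_mul_sq_le (X := B.1 - A.1) (d := B.2.1 - A.2.1) hc.s1_hi
  have b2 := sub_mul_sq_le (X := B.2.2.2 - A.2.2.2) (d := B.2.1 - A.2.1) hc.s2_hi
  rw [e1, e2, e3, mul_pow, mul_pow]
  calc w ^ 2 * ((B.1 - A.1) - K.s1 z * (B.2.1 - A.2.1)) ^ 2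
        + w ^ 2 * ((B.2.2.2 - A.2.2.2) - K.s2 z * (B.2.1 - A.2.1)) ^ 2
      = w ^ 2 * (((B.1 - A.1) - K.s1 z * (B.2.1 - A.2.1)) ^ 2
        + ((B.2.2.2 - A.2.2.2) - K.s2 z * (B.2.1 - A.2.1)) ^ 2) := by ring
    _ ≤ w ^ 2 * (1 / (8 * C ^ 2) * ((B.2.1 - A.2.1) * (B.2.2.1 - A.2.2.1))) := by
        refine mul_le_mul_of_nonneg_left ?_ (sq_nonneg _)
        linarith only [b2, b1, hΘ]
    _ = _ := by ring

namespace SHyp

variable {K : Coef} {G : P4 → P4 →L[ℝ] P4 →L[ℝ] ℝ} {Psi Phi : P4 → P4} {V : Set P4}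
  {R0 ρ C : ℝ} {p0 : P4}

/-- upper bound of the exotic time by the null coordinates -/
lemma len_upper (H : SHyp K G Psi Phi V R0 ρ C p0) {a b : P4} (hab : b - a ∈ cone (1 / 4))
    (hin : InV V a b) {l : ℝ} (hl : 0 < l) :
    b.1 - a.1 ≤ C * (l * ((Psi b).2.2.1 - (Psi a).2.2.1) + ((Psi b).2.1 - (Psi a).2.1) / l) := by
  have hd : ∀ τ ∈ Icc (0:ℝ) 1, HasDerivAt (fun τ : ℝ => Psi (a + τ • (b - a)))
      (fderiv ℝ Psi (a + τ • (b - a)) (b - a)) τ := fun τ hτ => H.hasDerivAt_seg (hin τ hτ)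
  have hd2 : ∀ τ ∈ Icc (0:ℝ) 1, HasDerivAt (fun τ : ℝ => (Psi (a + τ • (b - a))).2.1)
      (fderiv ℝ Psi (a + τ • (b - a)) (b - a)).2.1 τ := fun τ hτ => (hd τ hτ).snd.fst
  have hd3 : ∀ τ ∈ Icc (0:ℝ) 1, HasDerivAt (fun τ : ℝ => (Psi (a + τ • (b - a))).2.2.1)
      (fderiv ℝ Psi (a + τ • (b - a)) (b - a)).2.2.1 τ := fun τ hτ => (hd τ hτ).snd.snd.fst
  have hg : ∀ τ ∈ Icc (0:ℝ) 1, HasDerivAt (fun τ : ℝ => C * (l * (Psi (a + τ • (b - a))).2.2.1
      + (Psi (a + τ • (b - a))).2.1 / l))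
      (C * (l * (fderiv ℝ Psi (a + τ • (b - a)) (b - a)).2.2.1
        + (fderiv ℝ Psi (a + τ • (b - a)) (b - a)).2.1 / l)) τ := fun τ hτ =>
    (((hd3 τ hτ).const_mul l).add ((hd2 τ hτ).div_const l)).const_mul C
  have hf : ∀ τ ∈ Icc (0:ℝ) 1, HasDerivAt (fun τ : ℝ => τ * (b.1 - a.1)) (b.1 - a.1) τ := by
    intro τ _
    simpa using (hasDerivAt_id τ).mul_const (b.1 - a.1)
  have hw0 : 0 ≤ b.1 - a.1 := by
    have := norm_nonneg (b - a).2
    rw [mem_cone] at hab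
    have e : (b - a).1 = b.1 - a.1 := rfl
    rw [e] at hab
    linarith only [hab, this]
  have := norm_sub_le_of_deriv zero_le_one hf hg (fun τ hτ => by
    have hz := hin τ hτ
    have hfc := H.fc_cone hz hab
    have hN := (H.nearV hz).timelike_of_cone hab
    rw [H.iso.iso _ hz, gF_diag] at hN
    have hc := H.cbd hz
    have hQ := hc.Q_nonneg (K.h1 (Psi (a + τ • (b - a))) (fderiv ℝ Psi (a + τ • (b - a)) (b - a)))
      (K.h2 (Psi (a + τ • (b - a))) (fderiv ℝ Psi (a + τ • (b - a)) (b - a)))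
    set w := fderiv ℝ Psi (a + τ • (b - a)) (b - a) with hw
    obtain ⟨f1, f2, -⟩ := hfc
    have e : (b - a).1 = b.1 - a.1 := rfl
    rw [e] at hN
    have h5 : (b.1 - a.1) ^ 2 ≤ 4 * C * (w.2.1 * w.2.2.1) := by
      have : K.om (Psi (a + τ • (b - a))) * (w.2.1 * w.2.2.1) ≤ C * (w.2.1 * w.2.2.1) :=
        mul_le_mul_of_nonneg_right hc.om_hi (mul_nonneg f1 f2)
      linarith only [hN, hQ, this]
    have h4 : 4 * (w.2.1 * w.2.2.1) ≤ (l * w.2.2.1 + w.2.1 / l) ^ 2 := by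
      have : l * w.2.2.1 * (w.2.1 / l) = w.2.1 * w.2.2.1 := by (clear * - hl; field_simp)
      linarith only [sq_nonneg (l * w.2.2.1 - w.2.1 / l), this]
    rw [Real.norm_eq_abs]
    have hC0 := hc.C_pos
    apply abs_le_of_sq_le_sq _ (by (clear * - hC0 hl f2 f1; positivity))
    calc (b.1 - a.1) ^ 2 ≤ 4 * C * (w.2.1 * w.2.2.1) := h5
      _ = C * (4 * (w.2.1 * w.2.2.1)) := by ring
      _ ≤ C * (l * w.2.2.1 + w.2.1 / l) ^ 2 := by (clear * - h4 hC0; gcongr)
      _ ≤ C ^ 2 * (l * w.2.2.1 + w.2.1 / l) ^ 2 := by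
          have := (powC hc.one_le).1
          (clear * - this; gcongr)
      _ = _ := by ring)
  simp only [one_mul, zero_mul, sub_zero, one_smul, zero_smul, add_zero, add_sub_cancel] at this
  rw [Real.norm_eq_abs, abs_of_nonneg hw0] at this
  refine this.trans (le_of_eq ?_)
  ring

/-- lower bound of the exotic time between regularly separated points -/
lemma len_lower (H : SHyp K G Psi Phi V R0 ρ C p0) {a b : P4} (hab : b - a ∈ cone (1 / 4))
    (hin : InV V a b) (ha : ‖a‖ ≤ R0 / 8) (hb : ‖b‖ ≤ R0 / 8) {η : ℝ} (hη : 5 * C * η < ρ)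
    (hη2 : 280 * C ^ 6 * η ≤ 1) (hA : ‖Psi a - p0‖ ≤ η) (hB : ‖Psi b - p0‖ ≤ η)
    (h01 : 0 < (b - a).1)
    (huv : (Psi b).2.1 - (Psi a).2.1 ≤ (Psi b).2.2.1 - (Psi a).2.2.1)
    (hΘ : 2 * (((Psi b).1 - (Psi a).1) ^ 2 + ((Psi b).2.2.2 - (Psi a).2.2.2) ^ 2)
      + 4 * C ^ 2 * ((Psi b).2.1 - (Psi a).2.1) ^ 2 ≤
      1 / (8 * C ^ 2) * (((Psi b).2.1 - (Psi a).2.1) * ((Psi b).2.2.1 - (Psi a).2.2.1))) :
    ((Psi b).2.1 - (Psi a).2.1) * ((Psi b).2.2.1 - (Psi a).2.2.1) ≤ 2 * C * (b.1 - a.1) ^ 2 := by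
  have hC := H.one_le
  have hC0 : 0 < C := by linarith only [hC]
  have haV := hin.left
  have hbV := hin.right
  have hη0 : 0 ≤ η := (norm_nonneg _).trans hA
  set x : ℝ → P4 := fun τ => Psi (a + τ • (b - a)) with hx
  set x' : ℝ → P4 := fun τ => fderiv ℝ Psi (a + τ • (b - a)) (b - a) with hx'
  set dv := (Psi b).2.1 - (Psi a).2.1 with hdv
  set du := (Psi b).2.2.1 - (Psi a).2.2.1 with hdu
  have hd : ∀ τ ∈ Icc (0:ℝ) 1, HasDerivAt x (x' τ) τ := fun τ hτ => H.hasDerivAt_seg (hin τ hτ)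
  have hd2 : ∀ τ ∈ Icc (0:ℝ) 1, HasDerivAt (fun τ => (x τ).2.1) (x' τ).2.1 τ :=
    fun τ hτ => (hd τ hτ).snd.fst
  have hx0 : x 0 = Psi a := by simp only [hx, zero_smul, add_zero]
  have hx1 : x 1 = Psi b := by simp [hx]
  have hGneg : ∀ τ ∈ Icc (0:ℝ) 1, G (a + τ • (b - a)) (b - a) (b - a) < 0 := by
    intro τ hτ
    have := (H.nearV (hin τ hτ)).timelike_of_cone hab
    have h2 : 0 < (b - a).1 ^ 2 := by (clear * - h01; positivity)
    linarith only [this, h2]
  have hvpos : ∀ τ ∈ Icc (0:ℝ) 1, 0 < (x' τ).2.1 := fun τ hτ =>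
    H.v_pos (hin τ hτ) (hGneg τ hτ) h01
  have hgneg : ∀ τ ∈ Icc (0:ℝ) 1, K.gF (x τ) (x' τ) (x' τ) < 0 := by
    intro τ hτ
    rw [← H.iso.iso _ (hin τ hτ)]
    exact hGneg τ hτ
  have hdvpos : 0 < dv := by
    obtain ⟨c, hc, hc2⟩ := exists_hasDerivAt_eq_slope (fun τ => (x τ).2.1) (fun τ => (x' τ).2.1)
      (zero_lt_one (α := ℝ)) (fun τ hτ => (hd2 τ hτ).continuousAt.continuousWithinAt)
      (fun τ hτ => hd2 τ ⟨hτ.1.le, hτ.2.le⟩)
    have := hvpos c ⟨hc.1.le, hc.2.le⟩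
    simp only [hx0, hx1, sub_zero, div_one] at hc2
    rw [hdv, ← hc2]; exact this
  have hdupos : 0 < du := by linarith only [huv, hdvpos]
  set om : ℝ → ℝ := fun τ => ((x τ).2.1 - (Psi a).2.1) / dv with hom
  set om' : ℝ → ℝ := fun τ => (x' τ).2.1 / dv with hom'
  set D : P4 := Psi b - Psi a with hD
  set y : ℝ → P4 := fun τ => Psi a + om τ • D with hy
  set y' : ℝ → P4 := fun τ => om' τ • D with hy'
  have hD1 : D.2.1 = dv := rfl
  have hD2 : D.2.2.1 = du := rfl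
  have homd : ∀ τ ∈ Icc (0:ℝ) 1, HasDerivAt om (om' τ) τ :=
    fun τ hτ => ((hd2 τ hτ).sub_const _).div_const dv
  have hyd : ∀ τ ∈ Icc (0:ℝ) 1, HasDerivAt y (y' τ) τ :=
    fun τ hτ => ((homd τ hτ).smul_const D).const_add (Psi a)
  have hompos : ∀ τ ∈ Icc (0:ℝ) 1, 0 < om' τ := fun τ hτ => div_pos (hvpos τ hτ) hdvpos
  have hom0 : om 0 = 0 := by simp [hom, hx0]
  have hom1 : om 1 = 1 := by
    simp only [hom, hx1]
    rw [← hdv]; exact div_self hdvpos.ne'
  have hy0 : y 0 = Psi a := by simp only [hy, hom0, zero_smul, add_zero]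
  have hy1 : y 1 = Psi b := by simp [hy, hom1, hD]
  -- the compact set
  have hKsub : KB p0 (5 * C * η) (Psi b).2.1 ⊆ MB p0 ρ := KB_sub hη (H.maps b hbV).2
  have hη5 : η ≤ 5 * C * η := le_mul_of_one_le_left (by linarith only [hη0]) (by linarith only [hC])
  have hxK : ∀ τ ∈ Icc (0:ℝ) 1, x τ ∈ KB p0 (5 * C * η) (Psi b).2.1 := by
    intro τ hτ
    have hbb : InV V b b := fun t _ => by simpa only [sub_self, smul_zero, add_zero] using hbV
    have hc0 : b - b ∈ cone (1 / 4) := by simp only [one_div, sub_self, mem_cone, Prod.snd_zero, norm_zero, Prod.fst_zero, mul_zero, Std.le_refl]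
    exact (H.seg_mem_KB hab hc0 hin hbb hA hB le_rfl hτ).1
  have homr : ∀ τ ∈ Icc (0:ℝ) 1, om τ ∈ Icc (0:ℝ) 1 := by
    intro τ hτ
    have r1 := (H.rel_seg hab hin le_rfl hτ.1 hτ.2).1
    have r2 := (H.rel_seg hab hin hτ.1 hτ.2 le_rfl).1
    simp only [zero_smul, add_zero, one_smul, add_sub_cancel] at r1 r2
    constructor
    · exact div_nonneg (sub_nonneg.2 r1) hdvpos.le
    · rw [hom]; simp only []
      rw [div_le_one hdvpos, hdv]
      have : (x τ).2.1 ≤ (Psi b).2.1 := r2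
      linarith only [r2]
  have hyv : ∀ τ, (y τ).2.1 = (x τ).2.1 := by
    intro τ
    have : (y τ).2.1 = (Psi a).2.1 + om τ * dv := rfl
    rw [this, hom]; simp only []
    rw [div_mul_cancel₀ _ hdvpos.ne']; ring
  have hyK : ∀ τ ∈ Icc (0:ℝ) 1, y τ ∈ KB p0 (5 * C * η) (Psi b).2.1 := by
    intro τ hτ
    constructor
    · have h1 : Psi a ∈ Metric.closedBall p0 (5 * C * η) := by
        simpa only [Metric.mem_closedBall, dist_eq_norm] using hA.trans hη5
      have h2 : Psi b ∈ Metric.closedBall p0 (5 * C * η) := by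
        simpa only [Metric.mem_closedBall, dist_eq_norm] using hB.trans hη5
      have h3 := (convex_closedBall p0 (5 * C * η)).add_smul_sub_mem h1 h2 (homr τ hτ)
      simpa only [ge_iff_le, Metric.mem_closedBall, dist_eq_norm] using h3
    · rw [hyv]; exact (hxK τ hτ).2
  have hh : ∀ z ∈ MB p0 ρ, ∀ τ, K.h1 z (y' τ) ^ 2 + K.h2 z (y' τ) ^ 2 ≤
      1 / (8 * C ^ 2) * ((y' τ).2.1 * (y' τ).2.2.1) :=
    fun z hz τ => hat_small (H.bd z hz) (om' τ) hΘ
  have hxyd : ∀ τ ∈ Icc (0:ℝ) 1, ‖y τ - x τ‖ ≤ 10 * C * η := by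
    intro τ hτ
    have h1 := (hxK τ hτ).1
    have h2 := (hyK τ hτ).1
    have : y τ - x τ = (y τ - p0) - (x τ - p0) := by abel
    rw [this]
    refine (norm_sub_le _ _).trans ?_
    linarith only [h1, h2]
  have hab' : ∀ τ, (x' τ).2.1 = (y' τ).2.1 := by
    intro τ
    have : (y' τ).2.1 = om' τ * dv := rfl
    rw [this, hom']; simp only []
    rw [div_mul_cancel₀ _ hdvpos.ne']
  have hub' : ∀ τ ∈ Icc (0:ℝ) 1, (y' τ).2.1 ≤ (y' τ).2.2.1 := by
    intro τ hτ
    have e1 : (y' τ).2.1 = om' τ * dv := rfl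
    have e2 : (y' τ).2.2.1 = om' τ * du := rfl
    rw [e1, e2]
    exact mul_le_mul_of_nonneg_left huv (hompos τ hτ).le
  have hxl : ∀ l ∈ Icc (0:ℝ) 1, ∀ τ ∈ Icc (0:ℝ) 1,
      x τ + l • (y τ - x τ) ∈ KB p0 (5 * C * η) (Psi b).2.1 :=
    fun l hl τ hτ => KB_convex (hxK τ hτ) (hyK τ hτ) hl
  have hlift := H.lift_hom haV hbV ha hb (x := x) (y := y) (x' := x') (y' := y') hd hyd
    (fun l hl τ hτ => by
      have hm := hKsub (hxl l hl τ hτ)
      refine cvx_neg (K := K) (C := C) (x := x τ) (xl := x τ + l • (y τ - x τ)) (a := x' τ)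
        (b := y' τ) (l := l) (d := 10 * C * η) (H.bd _ (hKsub (hxK τ hτ))) (H.bd _ hm)
        (H.lip _ hm _ (hKsub (hxK τ hτ)) ?_) ?_ hl (by (clear * - hC hη0; positivity)) ?_ (hab' τ) (hvpos τ hτ)
        (hgneg τ hτ) (hub' τ hτ) (hh _ hm τ)
      · have : (x τ + l • (y τ - x τ)).2.1 = (x τ).2.1 + l * ((y τ).2.1 - (x τ).2.1) := rfl
        rw [this, hyv]; ring
      · rw [add_sub_cancel_left, norm_smul, Real.norm_eq_abs, abs_of_nonneg hl.1]
        exact mul_le_mul_of_nonneg_left (hxyd τ hτ) hl.1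
      · calc 28 * C ^ 5 * (10 * C * η) = 280 * C ^ 6 * η := by ring
          _ ≤ 1 := hη2)
    (fun l hl τ hτ => by
      have : (x' τ + l • (y' τ - x' τ)).2.1 = (x' τ).2.1 + l * ((y' τ).2.1 - (x' τ).2.1) := rfl
      rw [this, ← hab']
      have := hvpos τ hτ
      linarith only [this])
    (KB_compact p0 (5 * C * η) (Psi b).2.1) hKsub hxl hx0 hy0 hx1 hy1
    (fun τ hτ => ⟨a + τ • (b - a), hin τ hτ, rfl⟩)
  have hyV : ∀ τ ∈ Icc (0:ℝ) 1, y τ ∈ Psi '' V := by
    intro τ hτ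
    have := hlift 1 ⟨zero_le_one, le_rfl⟩ τ hτ
    simpa only [mem_image, Prod.exists, one_smul, add_sub_cancel] using this
  set c := Real.sqrt (dv * du / (2 * C)) with hc
  have hc2 : c ^ 2 = dv * du / (2 * C) := Real.sq_sqrt (by (clear * - hdvpos hdupos hC; positivity))
  have hc0 : 0 ≤ c := Real.sqrt_nonneg _
  have hz1 : ∀ τ ∈ Icc (0:ℝ) 1, HasDerivAt (fun τ => (Phi (y τ)).1)
      (fderiv ℝ Phi (y τ) (y' τ)).1 τ :=
    fun τ hτ => (H.lift_deriv (hyd τ hτ) (hyV τ hτ)).1.fst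
  have hz2 : ∀ τ ∈ Icc (0:ℝ) 1, HasDerivAt (fun τ => om τ * c) (om' τ * c) τ :=
    fun τ hτ => (homd τ hτ).mul_const c
  have hfin := norm_sub_le_of_deriv zero_le_one hz2 hz1 (fun τ hτ => by
    have hyM := hKsub (hyK τ hτ)
    have h1 := cmp_neg (H.bd _ hyM) (by rw [← hab']; exact hvpos τ hτ) (hub' τ hτ) (hh _ hyM τ)
    have h2 : K.gF (y τ) (y' τ) (y' τ) < 0 := by
      have e2 : 0 < (y' τ).2.1 := by rw [← hab']; exact hvpos τ hτ
      have e3 : 0 < (y' τ).2.2.1 := by linarith only [e2, hub' τ hτ]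
      have : 0 < (y' τ).2.1 * (y' τ).2.2.1 / C := by (clear * - e2 e3 hC; positivity)
      linarith only [h1, this]
    have h3 := H.lift_vel (hyV τ hτ) h2 (by rw [← hab']; exact hvpos τ hτ)
      (H.lift_deriv (hyd τ hτ) (hyV τ hτ)).2
    rw [Real.norm_eq_abs]
    apply abs_le_of_sq_le_sq _ h3.1.le
    have e3 : (y' τ).2.1 * (y' τ).2.2.1 = om' τ ^ 2 * (dv * du) := by
      have : (y' τ).2.1 = om' τ * dv := rfl
      rw [this]
      have : (y' τ).2.2.1 = om' τ * du := rfl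
      rw [this]; ring
    rw [e3] at h1
    rw [mul_pow, hc2]
    have h4 := h3.2.2
    have e5 : om' τ ^ 2 * (dv * du / (2 * C)) = (om' τ ^ 2 * (dv * du) / C) / 2 := by
      (clear * - hC hdupos hdvpos; field_simp)
    rw [e5]
    linarith only [h1, h3])
  simp only [hom0, hom1, zero_mul, sub_zero, one_mul, hy0, hy1, H.inv a haV, H.inv b hbV] at hfin
  rw [Real.norm_eq_abs, abs_of_nonneg hc0] at hfin
  have h6 : c ^ 2 ≤ (b.1 - a.1) ^ 2 := by (clear * - hdvpos hdupos hC hfin; gcongr)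
  rw [hc2, div_le_iff₀ (by positivity)] at h6
  linarith only [h6]

end SHyp

end Vale.Agent.P354
end
end

section

section

open Set

namespace Vale.Agent.P354

/-- the base space of the exotic vertical lines -/
abbrev P3 : Type := ℝ × ℝ × ℝ

/-- the region swept by the vertical lines `t ↦ (t, x)`, `t0 < t < f x`, `x ∈ ball 0 r` -/
def DD (t0 r : ℝ) (f : P3 → ℝ) : Set P4 :=
  {z | z.2 ∈ Metric.ball (0 : P3) r ∧ t0 < z.1 ∧ z.1 < f z.2}

end Vale.Agent.P354
end
end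

section

section

set_option linter.unusedSectionVars false
set_option maxSynthPendingDepth 3

open Set

namespace Vale.Agent.P354

/-- the standard basis of P4, with indices in Fin 4 -/
noncomputable def bP (i : Fin 4) : P4 := ![(1, 0, 0, 0), (0, 1, 0, 0), (0, 0, 1, 0), (0, 0, 0, 1)] i

/-- Gram matrix -/
noncomputable def Gram (B : P4 →L[ℝ] P4 →L[ℝ] ℝ) : Matrix (Fin 4) (Fin 4) ℝ :=
  Matrix.of fun i j => B (bP i) (bP j)

lemma Gram_continuous : Continuous (fun B : P4 →L[ℝ] P4 →L[ℝ] ℝ => (Gram B).det) := by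
  refine Continuous.matrix_det ?_
  refine continuous_matrix fun i j => ?_
  exact ((ContinuousLinearMap.apply ℝ ℝ (bP j)).continuous).comp
    ((ContinuousLinearMap.apply ℝ (P4 →L[ℝ] ℝ) (bP i)).continuous)

lemma Gram_mink {B : P4 →L[ℝ] P4 →L[ℝ] ℝ} (h : ∀ a b, B a b = mink a b) : (Gram B).det = -1 := by
  have : Gram B = Matrix.diagonal ![-1, 1, 1, 1] := by
    ext i j
    simp only [Gram, Matrix.of_apply, h]
    fin_cases i <;> fin_cases j <;> simp only [mink, bP, Nat.succ_eq_add_one, Nat.reduceAdd, Fin.zero_eta, Fin.isValue, Matrix.cons_val_zero, mul_one, mul_zero, add_zero, Matrix.diagonal, Matrix.of_apply, ↓reduceIte, Fin.mk_one, Matrix.cons_val_one, neg_zero, zero_ne_one, Fin.reduceFinMk, Matrix.cons_val, Fin.reduceEq, one_ne_zero, zero_add]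
  rw [this, Matrix.det_diagonal, Fin.prod_univ_four]
  simp

end Vale.Agent.P354
end
end

section

section

set_option maxSynthPendingDepth 3

open Set

namespace Vale.Agent.P354

/-- coordinates of P4 -/
noncomputable def eqP : P4 ≃ₗ[ℝ] (Fin 4 → ℝ) where
  toFun a := ![a.1, a.2.1, a.2.2.1, a.2.2.2]
  invFun x := (x 0, x 1, x 2, x 3)
  map_add' a b := by simp only [Prod.fst_add, Prod.snd_add, Matrix.add_cons, Matrix.head_cons, Matrix.tail_cons, Matrix.empty_add_empty]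
  map_smul' t a := by simp
  left_inv a := by simp
  right_inv x := by ext i; fin_cases i <;> simp

/-- the standard basis as a basis -/
noncomputable def BP : Module.Basis (Fin 4) ℝ P4 := Module.Basis.ofEquivFun eqP

lemma BP_apply (i : Fin 4) : BP i = bP i := by
  have h : BP i = eqP.symm (Pi.single i 1) := by
    simp only [BP, Module.Basis.ofEquivFun, Module.Basis.coe_ofRepr, LinearEquiv.trans_symm, LinearEquiv.symm_symm, LinearEquiv.trans_apply, Finsupp.linearEquivFunOnFinite_single]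
  rw [h]
  fin_cases i <;> simp only [eqP, Fin.isValue, LinearEquiv.symm_mk, LinearMap.coe_mk, AddHom.coe_mk, Fin.zero_eta, LinearEquiv.coe_mk, Pi.single_eq_same, ne_eq, one_ne_zero, not_false_eq_true, Pi.single_eq_of_ne, Fin.reduceEq, bP, Nat.succ_eq_add_one, Nat.reduceAdd, Matrix.cons_val_zero, Fin.mk_one, zero_ne_one, Matrix.cons_val_one, Fin.reduceFinMk, Matrix.cons_val]

/-- Gram matrix of the standard side -/
noncomputable def GramK (K : Coef) (x : P4) : Matrix (Fin 4) (Fin 4) ℝ :=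
  Matrix.of fun i j => K.gF x (bP i) (bP j)

lemma det_GramK (K : Coef) (x : P4) :
    (GramK K x).det = -(K.om x ^ 2 * (K.g11 x * K.g22 x - K.g12 x ^ 2)) := by
  rw [Matrix.det_succ_row_zero]
  simp only [Nat.succ_eq_add_one, Nat.reduceAdd, GramK, Coef.gF, bP, neg_mul, Coef.h1, Coef.h2, Fin.isValue, Matrix.of_apply, Matrix.cons_val_zero, zero_mul, add_zero, mul_zero, neg_zero, sub_zero, one_mul, zero_add, sub_self, Matrix.submatrix, Fin.succAbove, Matrix.cons_val_succ, Matrix.det_fin_three, Fin.castSucc_zero, Fin.succ_zero_eq_one, mul_one, zero_sub, mul_neg, Matrix.cons_val_one, Fin.castSucc_one, Fin.succ_one_eq_two, Matrix.cons_val, Fin.reduceCastSucc, Fin.reduceSucc, sub_neg_eq_add, Fin.sum_univ_succ, Fin.coe_ofNat_eq_mod, Nat.zero_mod, pow_zero, lt_self_iff_false, ↓reduceIte, neg_neg, not_lt_zero, Fin.val_succ, Fin.succ_pos, pow_one, neg_add_rev, Fin.lt_one_iff, Fin.reduceEq, even_two, Even.neg_pow, one_pow, Fin.reduceLT,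 Finset.univ_unique, Fin.default_eq_zero, Fin.val_eq_zero, Matrix.cons_val_fin_one, Finset.sum_singleton]
  ring

lemma gF_smul_left (K : Coef) (x a b : P4) (t : ℝ) : K.gF x (t • a) b = t * K.gF x a b := by
  simp only [Coef.gF, Coef.h1, Coef.h2, Prod.smul_fst, Prod.smul_snd, smul_eq_mul]; ring

lemma gF_smul_right (K : Coef) (x a b : P4) (t : ℝ) : K.gF x a (t • b) = t * K.gF x a b := by
  simp only [Coef.gF, Coef.h1, Coef.h2, Prod.smul_fst, Prod.smul_snd, smul_eq_mul]; ring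

lemma gF_expand (K : Coef) (x : P4) (c d : Fin 4 → ℝ) :
    K.gF x (∑ i, c i • bP i) (∑ j, d j • bP j) = ∑ i, ∑ j, c i * (K.gF x (bP i) (bP j)) * d j := by
  simp only [Fin.sum_univ_four, K.gF_add_left, K.gF_add_right, gF_smul_right, gF_smul_left]
  ring

lemma Gram_eq {K : Coef} {G : P4 → P4 →L[ℝ] P4 →L[ℝ] ℝ} {Psi : P4 → P4} {V : Set P4}
    (h : Iso K G Psi V) {z : P4} (hz : z ∈ V) :
    Gram (G z) = (LinearMap.toMatrix BP BP (fderiv ℝ Psi z : P4 →ₗ[ℝ] P4)).transpose *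
      GramK K (Psi z) * (LinearMap.toMatrix BP BP (fderiv ℝ Psi z : P4 →ₗ[ℝ] P4)) := by
  set L : Matrix (Fin 4) (Fin 4) ℝ := LinearMap.toMatrix BP BP (fderiv ℝ Psi z : P4 →ₗ[ℝ] P4)
    with hL
  have hcol : ∀ j, fderiv ℝ Psi z (bP j) = ∑ i, L i j • bP i := by
    intro j
    have h1 := BP.sum_repr (fderiv ℝ Psi z (bP j))
    rw [← h1]
    refine Finset.sum_congr rfl fun i _ => ?_
    rw [hL, LinearMap.toMatrix_apply, BP_apply, BP_apply]
    rfl
  ext i j
  rw [Matrix.mul_apply]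
  simp only [Matrix.mul_apply, Matrix.transpose_apply]
  have h2 : Gram (G z) i j = G z (bP i) (bP j) := rfl
  rw [h2, h.iso z hz, hcol, hcol, gF_expand]
  simp only [Finset.sum_mul]
  rw [Finset.sum_comm]
  rfl

lemma det_bounds {K : Coef} {G : P4 → P4 →L[ℝ] P4 →L[ℝ] ℝ} {Psi : P4 → P4} {V : Set P4}
    (h : Iso K G Psi V) {z : P4} (hz : z ∈ V) {C : ℝ} (hC : CBd K C (Psi z))
    (hdet : (Gram (G z)).det ∈ Ioo (-2 : ℝ) (-(1 / 2))) :
    1 ≤ 4 * C ^ 4 * |(fderiv ℝ Psi z).det| ∧ |(fderiv ℝ Psi z).det| ≤ 4 * C ^ 4 := by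
  have h1 := Gram_eq h hz
  have h2 := congrArg Matrix.det h1
  rw [Matrix.det_mul, Matrix.det_mul, Matrix.det_transpose, LinearMap.det_toMatrix,
    det_GramK] at h2
  have h3 : LinearMap.det (fderiv ℝ Psi z : P4 →ₗ[ℝ] P4) = (fderiv ℝ Psi z).det := rfl
  rw [h3] at h2
  set D := (fderiv ℝ Psi z).det with hD
  set om := K.om (Psi z) with hom
  set g := K.g11 (Psi z) * K.g22 (Psi z) - K.g12 (Psi z) ^ 2 with hg
  have hC1 := hC.one_le
  have hC0 := hC.C_pos
  have hompos := hC.om_pos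
  have hom1 : om ^ 2 ≤ C ^ 2 := by
    have := hC.om_hi
    (clear * - hompos this; gcongr)
  have hom2 : 1 ≤ C ^ 2 * om ^ 2 := by
    have h4 := hC.om_lo
    rw [div_le_iff₀ hC0] at h4
    have h5 : 1 ≤ (om * C) ^ 2 := one_le_pow₀ h4
    calc (1:ℝ) ≤ (om * C) ^ 2 := h5
      _ = _ := by ring
  have hg1 : g ≤ C ^ 2 := by
    have a1 : K.g11 (Psi z) * K.g22 (Psi z) ≤ C * C := by
      calc K.g11 (Psi z) * K.g22 (Psi z) ≤ |K.g11 (Psi z) * K.g22 (Psi z)| := le_abs_self _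
        _ = |K.g11 (Psi z)| * |K.g22 (Psi z)| := abs_mul _ _
        _ ≤ C * C := mul_le_mul hC.g11_hi hC.g22_hi (abs_nonneg _) hC0.le
    have a2 := sq_nonneg (K.g12 (Psi z))
    rw [hg]; linarith only [a1, a2]
  have hg2 : 1 ≤ C ^ 2 * g := by
    have b1 := hC.g_lo (K.g12 (Psi z)) (-K.g11 (Psi z))
    have b2 := hC.g_lo 1 0
    rw [div_le_iff₀ hC0] at b1 b2
    have b3 : 1 ≤ K.g11 (Psi z) * C := by linarith only [b2]
    have b4 : 0 < K.g11 (Psi z) := by
      by_contra hcon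
      push Not at hcon
      linarith only [b2, mul_nonpos_of_nonpos_of_nonneg hcon hC0.le]
    have b5 : K.g11 (Psi z) ^ 2 ≤ K.g11 (Psi z) * g * C := by
      have : K.g11 (Psi z) * K.g12 (Psi z) ^ 2 + 2 * K.g12 (Psi z) * K.g12 (Psi z) *
        -K.g11 (Psi z) + K.g22 (Psi z) * (-K.g11 (Psi z)) ^ 2 = K.g11 (Psi z) * g := by
        rw [hg]; ring
      rw [this] at b1
      linarith only [b1, sq_nonneg (K.g12 (Psi z))]
    have b6 : K.g11 (Psi z) ≤ g * C := by
      have : K.g11 (Psi z) * K.g11 (Psi z) ≤ K.g11 (Psi z) * (g * C) := by linarith only [b5]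
      exact le_of_mul_le_mul_left this b4
    linarith only [b2, mul_le_mul_of_nonneg_right b6 hC0.le]
  have hD2 : D * -(om ^ 2 * g) * D = -(D ^ 2 * (om ^ 2 * g)) := by ring
  rw [hD2] at h2
  have hdl : D ^ 2 * (om ^ 2 * g) < 2 := by linarith only [h2, hdet.1]
  have hdu : 1 / 2 < D ^ 2 * (om ^ 2 * g) := by linarith only [h2, hdet.2]
  have hgpos : 0 < g := by
    by_contra hcon
    push Not at hcon
    linarith only [hg2, mul_nonpos_of_nonneg_of_nonpos (sq_nonneg C) hcon]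
  have hC4 : 0 < C ^ 4 := by (clear * - hC1; positivity)
  have hC41 : 1 ≤ C ^ 4 := one_le_pow₀ hC1
  have e1 : D ^ 2 ≤ 2 * C ^ 4 := by
    have : 1 ≤ C ^ 4 * (om ^ 2 * g) := by
      calc (1:ℝ) ≤ (C ^ 2 * om ^ 2) * (C ^ 2 * g) := one_le_mul_of_one_le_of_one_le hom2 hg2
        _ = _ := by ring
    calc D ^ 2 = D ^ 2 * 1 := by ring
      _ ≤ D ^ 2 * (C ^ 4 * (om ^ 2 * g)) := by (clear * - this; gcongr)
      _ = C ^ 4 * (D ^ 2 * (om ^ 2 * g)) := by ring
      _ ≤ C ^ 4 * 2 := by (clear * - hdl hC1; gcongr)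
      _ = _ := by ring
  have e2 : 1 / 2 ≤ D ^ 2 * C ^ 4 := by
    calc 1 / 2 ≤ D ^ 2 * (om ^ 2 * g) := hdu.le
      _ ≤ D ^ 2 * (C ^ 2 * C ^ 2) := by (clear * - hom1 hg1 hgpos hC1; gcongr)
      _ = _ := by ring
  constructor
  · have e3 : 1 ≤ (4 * C ^ 4 * |D|) ^ 2 := by
      have : (4 * C ^ 4 * |D|) ^ 2 = 16 * C ^ 4 * (D ^ 2 * C ^ 4) := by
        rw [mul_pow, sq_abs]; ring
      rw [this]
      linarith only [mul_le_mul hC41 e2 (by norm_num) hC4.le]
    have e4 : 0 ≤ 4 * C ^ 4 * |D| := by (clear * - hC1; positivity)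
    by_contra hcon
    push Not at hcon
    linarith only [e3, pow_lt_one₀ e4 hcon two_ne_zero]
  · apply abs_le_of_sq_le_sq _ (by (clear * - hC1; positivity))
    calc D ^ 2 ≤ 2 * C ^ 4 := e1
      _ ≤ 16 * (C ^ 4 * C ^ 4) := by linarith only [hC4, mul_le_mul_of_nonneg_left hC41 hC4.le]
      _ = _ := by ring

end Vale.Agent.P354
end
end

section

section

open scoped ContDiff
open MeasureTheory Set Filter Topology

namespace Vale.Agent.P354p

/-- Coordinate space of all charts. -/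
abbrev R4 : Type := ℝ × ℝ × ℝ × ℝ

/-- The four coordinates. In double null charts they are called u, v, theta1, theta2. -/
def cu (x : R4) : ℝ := x.1
def cv (x : R4) : ℝ := x.2.1
def c1 (x : R4) : ℝ := x.2.2.1
def c2 (x : R4) : ℝ := x.2.2.2

/-- The derivative of f at x in the direction a. -/
noncomputable def deriv (f : R4 → ℝ) (x a : R4) : ℝ := lineDeriv ℝ f x a

/-- The function f is smooth on D. -/
def IsSmooth (f : R4 → ℝ) (D : Set R4) : Prop := ContDiffOn ℝ ∞ f D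

/-- The function f is continuous on the open set D, and its distributional derivatives of
first order are in L^p on compact subsets of D. -/
def IsC0W1 (p : ENNReal) (f : R4 → ℝ) (D : Set R4) : Prop :=
  ContinuousOn f D ∧ ∀ a, ∃ h : R4 → ℝ, (∀ Q ⊆ D, IsCompact Q → MemLp h p (volume.restrict Q)) ∧
    ∀ φ, IsSmooth φ univ → HasCompactSupport φ → tsupport φ ⊆ D →
      ∫ x, f x * deriv φ x a = - ∫ x, h x * φ x

/-- A Hausdorff space pt with an atlas of charts toE with values in R4, a field g of bilinear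
forms and a field X of vectors: g e y a b is the value, at the point with coordinates y in the
chart e, on the vectors with components a, b, and X e y is the vector of components. -/
structure Spc where
  pt : Type
  [top : TopologicalSpace pt]
  [hausdorff : T2Space pt]
  Chart : Type
  toE : Chart → OpenPartialHomeomorph pt R4
  cover : ∀ p, ∃ e, p ∈ (toE e).source
  g : Chart → R4 → R4 → R4 → ℝ
  X : Chart → R4 → R4

attribute [instance] Spc.top Spc.hausdorff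

variable {M N : Spc}

/-- The domain of the chart e, its image, the chart and its inverse. -/
def On (e : M.Chart) (p : M.pt) : Prop := p ∈ (M.toE e).source
def tgt (e : M.Chart) : Set R4 := (M.toE e).target
def co (e : M.Chart) (p : M.pt) : R4 := M.toE e p
def inv (e : M.Chart) (y : R4) : M.pt := (M.toE e).symm y

/-- f is smooth, isometric, and preserves the time orientation. The map f in charts is F with
domain D. -/
def IsIsom (f : M.pt → N.pt) : Prop :=
  ∀ e e' F D, F = (fun y => co e' (f (inv e y))) → D = {y | y ∈ tgt e ∧ On e' (f (inv e y))} →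
    ContDiffOn ℝ ∞ F D ∧ ∀ y ∈ D,
    (∀ a b, M.g e y a b = N.g e' (F y) (lineDeriv ℝ F y a) (lineDeriv ℝ F y b)) ∧
    N.g e' (F y) (lineDeriv ℝ F y (M.X e y)) (N.X e' (F y)) < 0

/-- The Minkowski form. -/
def mink (a b : R4) : ℝ := -(cu a * cu b) + cv a * cv b + c1 a * c1 b + c2 a * c2 b

/-- The atlas of M is smooth, g is a Lorentzian metric of signature (-,+,+,+), whose
components in charts have the regularity Reg, and X defines a time orientation. -/
structure IsSpacetime (Reg : (R4 → ℝ) → Set R4 → Prop) (M : Spc) : Prop where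
  tensor : IsIsom (M := M) (N := M) id
  signature : ∀ e, ∀ y ∈ tgt e, ∃ L : R4 → R4, IsLinearMap ℝ L ∧ L.Injective ∧
    ∀ a b, M.g e y a b = mink (L a) (L b)
  timelike : ∀ e, ∀ y ∈ tgt e, M.g e y (M.X e y) (M.X e y) < 0
  continuous : ∀ e, ContinuousOn (M.X e) (tgt e)
  regular : ∀ e a b, Reg (fun y => M.g e y a b) (tgt e)

/-- The curve c is C^1 on the interval I, its velocity w is timelike and future directed and
g(w,w) is at most -m. -/
def IsFutureCurve (M : Spc) (m : ℝ) (I : Set ℝ) (c : ℝ → M.pt) : Prop :=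
  ContinuousOn c I ∧ ∀ t ∈ I, ∀ e, On e (c t) → ContDiffWithinAt ℝ 1 (fun s => co e (c s)) I t ∧
    ∀ y w, y = co e (c t) → w = derivWithin (fun s => co e (c s)) I t →
      M.g e y w w < 0 ∧ M.g e y w w ≤ -m ∧ M.g e y w (M.X e y) < 0

/-- The map iota and the curve c form a future extension of M to N, whose metric has the
regularity Reg. -/
structure IsFutureExtension (Reg : (R4 → ℝ) → Set R4 → Prop) (M N : Spc) (ι : M.pt → N.pt)
    (c : ℝ → N.pt) : Prop where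
  spacetime : IsSpacetime Reg N
  embedding : IsOpenEmbedding ι
  isometry : IsIsom ι
  proper : range ι ≠ univ
  curve : IsFutureCurve N 0 (Icc 0 1) c
  curve_mem : ∀ t ∈ Ico (0 : ℝ) 1, c t ∈ range ι
  curve_end : c 1 ∈ frontier (range ι)

/-- The coordinate vectors of u and v. -/
def du : R4 := (1, 0, 0, 0)
def dv : R4 := (0, 1, 0, 0)

section

/- The functions C 0, ..., C 7 are the coefficients g11, g12, g22, om, s1, s2, w1, w2 of
-om (du dv + dv du) + gAB (dthetaA - sA dv - wA du) (dthetaB - sB dv - wB du). -/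
variable (C : ℕ → R4 → ℝ)

/-- The components dthetaA - sA dv - wA du of the vector a. -/
def h1 (x a : R4) : ℝ := c1 a - C 4 x * cv a - C 6 x * cu a
def h2 (x a : R4) : ℝ := c2 a - C 5 x * cv a - C 7 x * cu a

/-- The form gAB. -/
def ang (x : R4) (p q p' q' : ℝ) : ℝ := C 0 x * (p * p') + C 1 x * (p * q' + q * p') + C 2 x * (q * q')

/-- The double null form at the point x. -/
def form (x a b : R4) : ℝ :=
  ang C x (h1 C x a) (h2 C x a) (h1 C x b) (h2 C x b) - C 3 x * (cu a * cv b + cv a * cu b)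

/-- At x the coefficients, their angular derivatives and the torsion are bounded by K, om and gAB
are bounded below by 1/K, the v derivatives of gAB and om are bounded by k, and their u
derivatives by n. -/
structure IsBounded (x : R4) (K k n : ℝ) : Prop where
  om_lower : 1 ≤ K * C 3 x
  g_lower : ∀ p q, p ^ 2 + q ^ 2 ≤ K * ang C x p q p q
  bound : ∀ i < 8, |C i x| ≤ K ∧ ∀ a, cu a = 0 → cv a = 0 → |deriv (C i) x a| ≤ K * ‖a‖
  torsion : ∀ i, i = 4 ∨ i = 5 → |deriv (C i) x du - deriv (C (i + 2)) x dv| ≤ K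
  deriv_vu : ∀ i < 4, |deriv (C i) x dv| ≤ k ∧ |deriv (C i) x du| ≤ n

end

/-- The L^p norm of f on the interval (b,0) is finite. -/
def InLp (p : ENNReal) (f : ℝ → ℝ) (b : ℝ) : Prop := eLpNorm f p (volume.restrict (Ioo b 0)) < ⊤

/-- On the part D of the chart e, the metric is in double null form with v increasing to the
future, with smooth coefficients C; the bounds k(v), n(u) of derivatives are integrable. -/
structure IsDNBox (M : Spc) (e : M.Chart) (C : ℕ → R4 → ℝ) (D : Set R4) (r K : ℝ)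
    (k n : ℝ → ℝ) : Prop where
  r_pos : 0 < r
  subset : D ⊆ tgt e
  smooth : ∀ i, IsSmooth (C i) D
  box : ∀ x ∈ D, (∀ a b, M.g e x a b = form C x a b) ∧ 0 < cv (M.X e x) ∧
    IsBounded C x K (k (cv x)) (n (cu x))
  integrable : ∀ f, f = k ∨ f = n → Measurable f ∧ InLp 1 f (-r)

/-- The curve a, restricted to [0,1), ends at the point z of the closure of the part D of the
chart e. -/
def EndsAt {M : Spc} (a : ℝ → M.pt) (e : M.Chart) (D : Set R4) (z : R4) : Prop :=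
  (∀ᶠ t in 𝓝[<] 1, On e (a t) ∧ co e (a t) ∈ D) ∧ Tendsto (fun t => co e (a t)) (𝓝[<] 1) (𝓝 z)

/-- The part v < 0 of the cube of radius r about z. -/
def nullBox (z : R4) (r : ℝ) : Set R4 := {x | ‖x - z‖ < r ∧ cv x < 0}

/-- The part u < 0, v < 0 of the cube of radius r about z. -/
def cornerBox (z : R4) (r : ℝ) : Set R4 := {x | x ∈ nullBox z r ∧ cu x < 0}

/-- For s arbitrarily close to 1, the curve a from s to t can be deformed through future timelike
curves with the same ends to arbitrarily long ones. -/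
def IsFar (M : Spc) (a : ℝ → M.pt) : Prop :=
  ∀ b < 1, ∃ s ∈ Ioo b 1, ∀ L, ∃ t ∈ Ioo s 1, ∃ H : ℝ × ℝ → M.pt,
    ContinuousOn H (Icc 0 1 ×ˢ Icc 0 1) ∧ (∀ x, H (0, x) = a (s + (t - s) * x)) ∧
    (∀ y ∈ Icc (0 : ℝ) 1, IsFutureCurve M 0 (Icc 0 1) (fun x => H (y, x)) ∧
      H (y, 0) = a s ∧ H (y, 1) = a t) ∧
    IsFutureCurve M L (Icc 0 1) (fun x => H (1, x))

end Vale.Agent.P354p
end
end

section

section

open scoped ContDiff
open MeasureTheory Set Filter Topology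

namespace Vale.Agent.P354p

variable {M N : Spc}

/-- The map f in the charts e and e', and its domain. -/
def rep (f : M.pt → N.pt) (e : M.Chart) (e' : N.Chart) (y : R4) : R4 := co e' (f (inv e y))
def dom (f : M.pt → N.pt) (e : M.Chart) (e' : N.Chart) : Set R4 :=
  {y | y ∈ tgt e ∧ On e' (f (inv e y))}

/-- The push forward by f of the vector a at y. -/
noncomputable def push (f : M.pt → N.pt) (e : M.Chart) (e' : N.Chart) (y a : R4) : R4 :=
  lineDeriv ℝ (rep f e e') y a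

theorem IsIsom.old {f : M.pt → N.pt} (hI : IsIsom f) (e : M.Chart) (e' : N.Chart) :
    ContDiffOn ℝ ∞ (rep f e e') (dom f e e') ∧ ∀ y ∈ dom f e e',
    (∀ a b, M.g e y a b = N.g e' (rep f e e' y) (push f e e' y a) (push f e e' y b)) ∧
    N.g e' (rep f e e' y) (push f e e' y (M.X e y)) (N.X e' (rep f e e' y)) < 0 :=
  hI e e' (rep f e e') (dom f e e') rfl rfl

theorem IsIsom.mk' {f : M.pt → N.pt} (h : ∀ (e : M.Chart) (e' : N.Chart),
    ContDiffOn ℝ ∞ (rep f e e') (dom f e e') ∧ ∀ y ∈ dom f e e',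
    (∀ a b, M.g e y a b = N.g e' (rep f e e' y) (push f e e' y a) (push f e e' y b)) ∧
    N.g e' (rep f e e' y) (push f e e' y (M.X e y)) (N.X e' (rep f e e' y)) < 0) : IsIsom f := by
  rintro e e' F D rfl rfl
  exact h e e'

end Vale.Agent.P354p
end
end

section

section

set_option linter.unusedSectionVars false
set_option maxSynthPendingDepth 3

open scoped Manifold ContDiff
open MeasureTheory Set Topology

namespace Vale.Agent.P354p

open Vale.Agent.P354 (Bilin LBasis)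

/-- coordinate functions, as linear maps -/
noncomputable def crd (i : Fin 4) : R4 →L[ℝ] ℝ :=
  ![ContinuousLinearMap.fst ℝ ℝ (ℝ × ℝ × ℝ),
    (ContinuousLinearMap.fst ℝ ℝ (ℝ × ℝ)).comp (ContinuousLinearMap.snd ℝ ℝ (ℝ × ℝ × ℝ)),
    (ContinuousLinearMap.fst ℝ ℝ ℝ).comp ((ContinuousLinearMap.snd ℝ ℝ (ℝ × ℝ)).comp
      (ContinuousLinearMap.snd ℝ ℝ (ℝ × ℝ × ℝ))),
    (ContinuousLinearMap.snd ℝ ℝ ℝ).comp ((ContinuousLinearMap.snd ℝ ℝ (ℝ × ℝ)).comp
      (ContinuousLinearMap.snd ℝ ℝ (ℝ × ℝ × ℝ)))] i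

lemma crd_zero (a : R4) : crd 0 a = a.1 := rfl
lemma crd_one (a : R4) : crd 1 a = a.2.1 := rfl
lemma crd_two (a : R4) : crd 2 a = a.2.2.1 := rfl
lemma crd_three (a : R4) : crd 3 a = a.2.2.2 := rfl

/-- the coordinate vectors -/
noncomputable def bas (i : Fin 4) : R4 :=
  ![(1, 0, 0, 0), (0, 1, 0, 0), (0, 0, 1, 0), (0, 0, 0, 1)] i

lemma bas_decomp (a : R4) :
    a = crd 0 a • bas 0 + crd 1 a • bas 1 + crd 2 a • bas 2 + crd 3 a • bas 3 := by
  simp only [crd_zero, bas, crd_one, crd_two, crd_three]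
  ext <;> simp only [Nat.succ_eq_add_one, Nat.reduceAdd, Fin.isValue, Matrix.cons_val_zero, Prod.smul_mk, smul_eq_mul, mul_one, mul_zero, Matrix.cons_val_one, Prod.mk_add_mk, add_zero, zero_add, Matrix.cons_val, Prod.mk.eta]

lemma abs_crd_le (i : Fin 4) (a : R4) : |crd i a| ≤ ‖a‖ := by
  have h1 : |a.1| ≤ ‖a‖ := norm_fst_le a
  have h2 : ‖a.2‖ ≤ ‖a‖ := norm_snd_le a
  have h3 : |a.2.1| ≤ ‖a.2‖ := norm_fst_le a.2
  have h4 : ‖a.2.2‖ ≤ ‖a.2‖ := norm_snd_le a.2
  have h5 : |a.2.2.1| ≤ ‖a.2.2‖ := norm_fst_le a.2.2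
  have h6 : |a.2.2.2| ≤ ‖a.2.2‖ := norm_snd_le a.2.2
  fin_cases i
  · exact h1
  · exact h3.trans h2
  · exact h5.trans (h4.trans h2)
  · exact h6.trans (h4.trans h2)

lemma bilin_expand {B : R4 → R4 → ℝ} (hB : Bilin B) (a b : R4) :
    B a b = ∑ i, ∑ j, crd i a * crd j b * B (bas i) (bas j) := by
  conv_lhs => rw [bas_decomp a, bas_decomp b]
  simp only [hB.add_left, hB.add_right, hB.smul_left, hB.smul_right, Fin.sum_univ_four]
  ring

lemma mink_bilin : Bilin mink where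
  add_left a b c := by simp only [mink, cu, Prod.fst_add, cv, Prod.snd_add, c1, c2]; ring
  add_right a b c := by simp only [mink, cu, cv, c1, c2, Prod.fst_add, Prod.snd_add]; ring
  smul_left t a b := by
    simp only [mink, cu, cv, c1, c2, Prod.smul_fst, Prod.smul_snd, smul_eq_mul]; ring
  smul_right t a b := by
    simp only [mink, cu, cv, c1, c2, Prod.smul_fst, Prod.smul_snd, smul_eq_mul]; ring

section

variable {M : Spc} {Reg : (R4 → ℝ) → Set R4 → Prop}

lemma IsSpacetime.sig (h : IsSpacetime Reg M) (e : M.Chart) {y : R4} (hy : y ∈ tgt e) :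
    ∃ L : R4 ≃ₗ[ℝ] R4, ∀ a b, M.g e y a b = mink (L a) (L b) := by
  obtain ⟨L, hL, hinj, hm⟩ := h.signature e y hy
  exact ⟨LinearEquiv.ofInjectiveEndo (IsLinearMap.mk' L hL) hinj, hm⟩

lemma IsSpacetime.bilin (h : IsSpacetime Reg M) (e : M.Chart) {y : R4} (hy : y ∈ tgt e) :
    Bilin (M.g e y) := by
  obtain ⟨L, hL⟩ := h.sig e hy
  have hm := mink_bilin
  exact
    { add_left := fun a b c => by rw [hL, hL, hL, map_add, hm.add_left]
      add_right := fun a b c => by rw [hL, hL, hL, map_add, hm.add_right]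
      smul_left := fun t a b => by rw [hL, hL, map_smul, hm.smul_left]
      smul_right := fun t a b => by rw [hL, hL, map_smul, hm.smul_right] }

lemma IsSpacetime.exists_LBasis (h : IsSpacetime Reg M) (e : M.Chart) {y : R4}
    (hy : y ∈ tgt e) : ∃ β : Fin 4 → R4, LBasis (M.g e y) β := by
  obtain ⟨L, hL⟩ := h.sig e hy
  refine ⟨fun i => L.symm (bas i), fun i j => ?_⟩
  rw [hL, L.apply_symm_apply, L.apply_symm_apply]
  fin_cases i <;> fin_cases j <;> simp only [mink, cu, bas, Nat.succ_eq_add_one, Nat.reduceAdd, Fin.zero_eta, Fin.isValue, Matrix.cons_val_zero, mul_one, cv, mul_zero, add_zero, c1, c2, ↓reduceIte, Fin.mk_one, Matrix.cons_val_one, neg_zero, zero_ne_one, Fin.reduceFinMk, Matrix.cons_val, Fin.reduceEq, one_ne_zero, zero_add]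

lemma IsSpacetime.nondeg (h : IsSpacetime Reg M) (e : M.Chart) {y : R4} (hy : y ∈ tgt e)
    {a : R4} (ha : ∀ b, M.g e y a b = 0) : a = 0 := by
  obtain ⟨L, hL⟩ := h.sig e hy
  have h0 : ∀ b, mink (L a) b = 0 := by
    intro b
    have := ha (L.symm b)
    rwa [hL, L.apply_symm_apply] at this
  have h1 : L a = 0 := by
    have k0 := h0 (bas 0)
    have k1 := h0 (bas 1)
    have k2 := h0 (bas 2)
    have k3 := h0 (bas 3)
    simp only [mink, cu, bas, Nat.succ_eq_add_one, Nat.reduceAdd, Fin.isValue, Matrix.cons_val_zero, mul_one, cv, mul_zero, add_zero, c1, c2, neg_eq_zero, Matrix.cons_val_one, neg_zero, zero_add, Matrix.cons_val] at k0 k1 k2 k3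
    ext <;> simp [k0, k1, k2, k3]
  simpa using h1

lemma IsSpacetime.symm (h : IsSpacetime Reg M) (e : M.Chart) {y : R4} (hy : y ∈ tgt e)
    (a b : R4) : M.g e y a b = M.g e y b a := by
  obtain ⟨L, hL⟩ := h.sig e hy
  rw [hL, hL]; simp only [mink]; ring

lemma finrank_R4 : Module.finrank ℝ R4 = 4 := by simp only [Module.finrank_prod, Module.finrank_self, Nat.reduceAdd]

lemma IsSpacetime.same_cone (h : IsSpacetime Reg M) (e : M.Chart) {y : R4}
    (hy : y ∈ tgt e) {a t c : R4} (ht : M.g e y t t < 0) (ha : M.g e y a a < 0)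
    (hat : M.g e y a t < 0) (hc : M.g e y c c ≤ 0) (hct : M.g e y c t < 0) :
    M.g e y a c < 0 := by
  obtain ⟨β, hβ⟩ := h.exists_LBasis e hy
  exact P354.same_cone (h.bilin e hy) hβ finrank_R4 ht ha hat hc hct

end

section

variable {M : Spc}

lemma inv_co {e : M.Chart} {p : M.pt} (hp : On e p) : inv e (co e p) = p := (M.toE e).left_inv hp

lemma co_inv {e : M.Chart} {y : R4} (hy : y ∈ tgt e) : co e (inv e y) = y :=
  (M.toE e).right_inv hy

lemma co_mem {e : M.Chart} {p : M.pt} (hp : On e p) : co e p ∈ tgt e := (M.toE e).map_source hp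

lemma inv_mem {e : M.Chart} {y : R4} (hy : y ∈ tgt e) : On e (inv e y) :=
  (M.toE e).map_target hy

end

section

variable {M N : Spc} [Nonempty M.pt] {e : M.Chart} {e' : N.Chart}
  {ι : M.pt → N.pt} {h : IsOpenEmbedding ι}

/-- the transition map from the chart e of M to the chart e' of N through ι -/
noncomputable def theta (e : M.Chart) (e' : N.Chart) (ι : M.pt → N.pt) (h : IsOpenEmbedding ι) :
    OpenPartialHomeomorph R4 R4 :=
  ((M.toE e).symm.trans (h.toOpenPartialHomeomorph ι)).trans (N.toE e')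

lemma mem_theta_source {x : R4} : x ∈ (theta e e' ι h).source ↔
    x ∈ tgt e ∧ On e' (ι (inv e x)) := by
  simp only [theta, OpenPartialHomeomorph.trans_toPartialEquiv, OpenPartialHomeomorph.symm_toPartialEquiv, PartialEquiv.trans_source, PartialEquiv.symm_source, PartialHomeomorph.coe_toPartialEquiv_symm, OpenPartialHomeomorph.coe_toPartialHomeomorph_symm, IsOpenEmbedding.toOpenPartialHomeomorph_source, preimage_univ, inter_univ, PartialEquiv.coe_trans, PartialHomeomorph.toFun_eq_coe, OpenPartialHomeomorph.coe_toPartialHomeomorph, IsOpenEmbedding.toOpenPartialHomeomorph_apply, mem_inter_iff, mem_preimage, Function.comp_apply, tgt, On, inv]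

lemma theta_source : (theta e e' ι h).source = dom ι e e' := by
  ext x; exact mem_theta_source

lemma theta_apply (x : R4) : theta e e' ι h x = co e' (ι (inv e x)) := by
  simp [theta, co, inv]

lemma theta_eq_rep : (theta e e' ι h : R4 → R4) = rep ι e e' := by
  funext x; exact theta_apply x

lemma mem_theta_target {y : R4} : y ∈ (theta e e' ι h).target ↔
    y ∈ tgt e' ∧ ∃ p, On e p ∧ ι p = inv e' y := by
  constructor
  · intro hy
    have h1 := (theta e e' ι h).map_target hy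
    have h2 := (theta e e' ι h).right_inv hy
    rw [mem_theta_source] at h1
    rw [theta_apply] at h2
    refine ⟨by rw [← h2]; exact co_mem h1.2, _, inv_mem h1.1, ?_⟩
    have h3 := inv_co h1.2
    rw [h2] at h3
    exact h3.symm
  · rintro ⟨hy, p, hp, hpy⟩
    have h1 : co e p ∈ (theta e e' ι h).source := by
      rw [mem_theta_source]
      refine ⟨co_mem hp, ?_⟩
      rw [inv_co hp, hpy]
      exact inv_mem hy
    have h2 := (theta e e' ι h).map_source h1
    rw [theta_apply, inv_co hp, hpy, co_inv hy] at h2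
    exact h2

lemma theta_symm_apply {y : R4} {p : M.pt} (hp : On e p) (hy : y ∈ tgt e')
    (hpy : ι p = inv e' y) : (theta e e' ι h).symm y = co e p := by
  have h1 : co e p ∈ (theta e e' ι h).source := by
    rw [mem_theta_source]
    refine ⟨co_mem hp, ?_⟩
    rw [inv_co hp, hpy]
    exact inv_mem hy
  have h2 : theta e e' ι h (co e p) = y := by
    rw [theta_apply, inv_co hp, hpy, co_inv hy]
  rw [← h2, (theta e e' ι h).left_inv h1]

variable {Reg Reg' : (R4 → ℝ) → Set R4 → Prop}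

lemma theta_contDiffOn (hI : IsIsom ι) :
    ContDiffOn ℝ ∞ (theta e e' ι h) (theta e e' ι h).source := by
  rw [theta_eq_rep, theta_source]; exact (hI.old e e').1

lemma theta_hasFDerivAt (hI : IsIsom ι) {x : R4} (hx : x ∈ (theta e e' ι h).source) :
    HasFDerivAt (theta e e' ι h) (fderiv ℝ (theta e e' ι h) x) x :=
  (((theta_contDiffOn (h := h) hI).differentiableOn (by simp)).differentiableAt
      ((theta e e' ι h).open_source.mem_nhds hx)).hasFDerivAt

lemma push_eq (hI : IsIsom ι) {x : R4} (hx : x ∈ (theta e e' ι h).source) (a : R4) :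
    push ι e e' x a = fderiv ℝ (theta e e' ι h) x a := by
  unfold push
  rw [← theta_eq_rep (h := h)]
  exact (theta_hasFDerivAt hI hx).differentiableAt.lineDeriv_eq_fderiv

lemma theta_pull (hI : IsIsom ι) {x : R4} (hx : x ∈ (theta e e' ι h).source) (a b : R4) :
    M.g e x a b = N.g e' (theta e e' ι h x) (fderiv ℝ (theta e e' ι h) x a)
      (fderiv ℝ (theta e e' ι h) x b) := by
  have hx' := hx
  rw [theta_source] at hx'
  rw [((hI.old e e').2 x hx').1 a b, push_eq (h := h) hI hx, push_eq (h := h) hI hx, theta_eq_rep]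

lemma theta_orient (hI : IsIsom ι) {x : R4} (hx : x ∈ (theta e e' ι h).source) :
    N.g e' (theta e e' ι h x) (fderiv ℝ (theta e e' ι h) x (M.X e x))
      (N.X e' (theta e e' ι h x)) < 0 := by
  have hx' := hx
  rw [theta_source] at hx'
  have := ((hI.old e e').2 x hx').2
  rw [push_eq (h := h) hI hx] at this
  rw [theta_eq_rep] at this ⊢
  exact this

/-- the derivative of the transition map, as an equivalence -/
lemma theta_equiv (hg : IsSpacetime Reg M) (hg' : IsSpacetime Reg' N)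
    (hI : IsIsom ι) {x : R4} (hx : x ∈ (theta e e' ι h).source) :
    ∃ L : R4 ≃L[ℝ] R4, (L : R4 →L[ℝ] R4) = fderiv ℝ (theta e e' ι h) x := by
  have hinj : Function.Injective (fderiv ℝ (theta e e' ι h) x) := by
    rw [injective_iff_map_eq_zero]
    intro a ha
    apply hg.nondeg e (mem_theta_source.1 hx).1
    intro b
    rw [theta_pull hI hx, ha]
    have hy : theta e e' ι h x ∈ tgt e' :=
      (mem_theta_target.1 ((theta e e' ι h).map_source hx)).1
    have := (hg'.bilin e' hy).smul_left 0 0 (fderiv ℝ (theta e e' ι h) x b)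
    simpa only [smul_zero, zero_mul] using this
  let L1 : R4 ≃ₗ[ℝ] R4 := LinearEquiv.ofInjectiveEndo
    ((fderiv ℝ (theta e e' ι h) x : R4 →L[ℝ] R4) : R4 →ₗ[ℝ] R4) hinj
  refine ⟨L1.toContinuousLinearEquiv, ?_⟩
  apply ContinuousLinearMap.ext
  intro v
  rfl

lemma theta_symm_contDiffOn (hg : IsSpacetime Reg M) (hg' : IsSpacetime Reg' N)
    (hI : IsIsom ι) :
    ContDiffOn ℝ ∞ (theta e e' ι h).symm (theta e e' ι h).target := by
  intro y hy
  apply ContDiffAt.contDiffWithinAt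
  have hx := (theta e e' ι h).map_target hy
  obtain ⟨L, hL⟩ := theta_equiv (h := h) hg hg' hI hx
  refine OpenPartialHomeomorph.contDiffAt_symm (f₀' := L) _ hy ?_ ?_
  · rw [hL]; exact theta_hasFDerivAt hI hx
  · exact (theta_contDiffOn (h := h) hI).contDiffAt
      ((theta e e' ι h).open_source.mem_nhds hx)

/-- derivative of the inverse is the inverse of the derivative -/
lemma theta_fderiv_symm (hg : IsSpacetime Reg M) (hg' : IsSpacetime Reg' N)
    (hI : IsIsom ι)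
    {y : R4} (hy : y ∈ (theta e e' ι h).target) (a : R4) :
    fderiv ℝ (theta e e' ι h) ((theta e e' ι h).symm y)
      (fderiv ℝ (theta e e' ι h).symm y a) = a := by
  have hx := (theta e e' ι h).map_target hy
  have h1 := theta_hasFDerivAt (h := h) hI hx
  have h2 : HasFDerivAt (theta e e' ι h).symm (fderiv ℝ (theta e e' ι h).symm y) y :=
    (((theta_symm_contDiffOn (h := h) hg hg' hI).differentiableOn (by simp)).differentiableAt
      ((theta e e' ι h).open_target.mem_nhds hy)).hasFDerivAt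
  have h3 := h1.comp y h2
  have h4 : HasFDerivAt (theta e e' ι h ∘ (theta e e' ι h).symm)
      (ContinuousLinearMap.id ℝ R4) y := by
    refine (hasFDerivAt_id y).congr_of_eventuallyEq ?_
    filter_upwards [(theta e e' ι h).open_target.mem_nhds hy] with z hz
    exact (theta e e' ι h).right_inv hz
  have h5 := h3.unique h4
  have := DFunLike.congr_fun h5 a
  exact this

lemma theta_pull_symm (hg : IsSpacetime Reg M) (hg' : IsSpacetime Reg' N)
    (hI : IsIsom ι)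
    {y : R4} (hy : y ∈ (theta e e' ι h).target) (a b : R4) :
    N.g e' y a b = M.g e ((theta e e' ι h).symm y)
      (fderiv ℝ (theta e e' ι h).symm y a) (fderiv ℝ (theta e e' ι h).symm y b) := by
  have hx := (theta e e' ι h).map_target hy
  rw [theta_pull hI hx, theta_fderiv_symm hg hg' hI hy,
    theta_fderiv_symm hg hg' hI hy, (theta e e' ι h).right_inv hy]

lemma comp_contDiffOn_target (hg : IsSpacetime IsSmooth M) (hg' : IsSpacetime Reg' N)
    (hI : IsIsom ι) (a b : R4) :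
    ContDiffOn ℝ ∞ (fun y => N.g e' y a b) (theta e e' ι h).target := by
  have h1 := theta_symm_contDiffOn (h := h) (e := e) (e' := e') hg hg' hI
  have h2 : ContDiffOn ℝ ∞ (fderiv ℝ (theta e e' ι h).symm) (theta e e' ι h).target :=
    h1.fderiv_of_isOpen (theta e e' ι h).open_target (by simp)
  have h3 : ∀ (k : Fin 4) (c : R4), ContDiffOn ℝ ∞
      (fun y => crd k (fderiv ℝ (theta e e' ι h).symm y c)) (theta e e' ι h).target := by
    intro k c
    have := h2.clm_apply (contDiffOn_const (c := c))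
    exact (crd k).contDiff.comp_contDiffOn this
  have h4 : ∀ (k l : Fin 4), ContDiffOn ℝ ∞
      (fun y => M.g e ((theta e e' ι h).symm y) (bas k) (bas l)) (theta e e' ι h).target := by
    intro k l
    refine (hg.regular e (bas k) (bas l)).comp h1 ?_
    intro y hy
    exact (mem_theta_source.1 ((theta e e' ι h).map_target hy)).1
  have h5 : ContDiffOn ℝ ∞ (fun y => ∑ k, ∑ l,
      crd k (fderiv ℝ (theta e e' ι h).symm y a) * crd l (fderiv ℝ (theta e e' ι h).symm y b) *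
        M.g e ((theta e e' ι h).symm y) (bas k) (bas l)) (theta e e' ι h).target := by
    refine ContDiffOn.sum fun k _ => ContDiffOn.sum fun l _ => ?_
    exact ((h3 k a).mul (h3 l b)).mul (h4 k l)
  refine h5.congr ?_
  intro y hy
  have hx := (mem_theta_source.1 ((theta e e' ι h).map_target hy)).1
  rw [theta_pull_symm (h := h) hg hg' hI hy a b, bilin_expand (hg.bilin e hx)]

end

end Vale.Agent.P354p
end
end

section

section

set_option maxSynthPendingDepth 3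

open Set Filter Topology

namespace Vale.Agent.P354

lemma le_of_deriv {f f' g g' : ℝ → ℝ} {a b : ℝ} (hab : a ≤ b)
    (hf : ∀ τ ∈ Icc a b, HasDerivAt f (f' τ) τ) (hg : ∀ τ ∈ Icc a b, HasDerivAt g (g' τ) τ)
    (h : ∀ τ ∈ Icc a b, f' τ ≤ g' τ) : f b - f a ≤ g b - g a := by
  have hd : ∀ τ ∈ Icc a b, HasDerivAt (fun τ => g τ - f τ) (g' τ - f' τ) τ :=
    fun τ hτ => (hg τ hτ).sub (hf τ hτ)
  have hm : MonotoneOn (fun τ => g τ - f τ) (Icc a b) := by
    refine monotoneOn_of_deriv_nonneg (convex_Icc a b)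
      (fun τ hτ => (hd τ hτ).continuousAt.continuousWithinAt) ?_ ?_
    · intro τ hτ
      rw [interior_Icc] at hτ
      exact (hd τ ⟨hτ.1.le, hτ.2.le⟩).differentiableAt.differentiableWithinAt
    · intro τ hτ
      rw [interior_Icc] at hτ
      rw [(hd τ ⟨hτ.1.le, hτ.2.le⟩).deriv]
      linarith [h τ ⟨hτ.1.le, hτ.2.le⟩]
  have := hm ⟨le_rfl, hab⟩ ⟨hab, le_rfl⟩ hab
  simp only at this
  linarith

/-- all `G z` near `E` are close to `G E` -/
def CloseTo (G : P4 → P4 →L[ℝ] P4 →L[ℝ] ℝ) (E : P4) (δ ω : ℝ) : Prop :=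
  ∀ z, ‖z - E‖ < δ → ∀ a b, |G z a b - G E a b| ≤ ω * ‖a‖ * ‖b‖

lemma exists_closeTo {G : P4 → P4 →L[ℝ] P4 →L[ℝ] ℝ} {E : P4} (hG : ContinuousAt G E) {ω : ℝ}
    (hω : 0 < ω) : ∃ δ > 0, CloseTo G E δ ω := by
  obtain ⟨δ, hδ, h⟩ := Metric.continuousAt_iff.1 hG ω hω
  refine ⟨δ, hδ, fun z hz a b => ?_⟩
  have h1 := h (by rwa [dist_eq_norm] : dist z E < δ)
  rw [dist_eq_norm] at h1
  have h2 : G z a b - G E a b = (G z - G E) a b := rfl
  rw [h2]
  calc |(G z - G E) a b| ≤ ‖(G z - G E) a‖ * ‖b‖ := ((G z - G E) a).le_opNorm b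
    _ ≤ ‖G z - G E‖ * ‖a‖ * ‖b‖ := by
      gcongr; exact (G z - G E).le_opNorm a
    _ ≤ ω * ‖a‖ * ‖b‖ := by gcongr

lemma bil_left (B : P4 →L[ℝ] P4 →L[ℝ] ℝ) (D T b : P4) (l : ℝ) :
    B (D + l • T) b = B D b + l * B T b := by
  rw [map_add, map_smul]
  rfl

namespace NearM

variable {B : P4 →L[ℝ] P4 →L[ℝ] ℝ}

lemma T_le (h : NearM B) {a : P4} (ha : B a a ≤ 0) (h0 : 0 < a.1) :
    B Tv a ≤ -(49 / 100 * ‖a‖) ∧ B a Tv ≤ -(49 / 100 * ‖a‖) := by
  have h1 := (abs_le.1 (h Tv a)).2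
  have h1' := (abs_le.1 (h a Tv)).2
  have h2 := h.norm_le_of_causal ha
  have h3 : mink Tv a = -a.1 := by simp only [mink, Tv, one_mul, zero_mul, add_zero]
  have h3' : mink a Tv = -a.1 := by simp only [mink, Tv, mul_one, mul_zero, add_zero]
  rw [h3, norm_Tv] at h1
  rw [h3', norm_Tv] at h1'
  rw [abs_of_pos h0] at h2
  constructor <;> linarith only [h1, h2, h1']

/-- a vector whose products with future vectors are small, plus a small vertical vector, is
timelike -/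
lemma disp (h : NearM B) {ω s : ℝ} {D : P4} (hω : 0 < ω) (hω1 : ω ≤ 1 / 100) (hD : 0 ≤ D.1)
    (hI : ∀ b : P4, B b b + ω * ‖b‖ ^ 2 < 0 → 0 < b.1 → B D b ≤ 2 * ω * ‖b‖ * D.1)
    (hs : 0 < s) (hs2 : 32 * ω * D.1 ≤ s) :
    B (D + s • Tv) (D + s • Tv) ≤ -(s / 4 * ‖D + s • Tv‖) := by
  have w1 : ∀ l : ℝ, (D + l • Tv).1 = D.1 + l := by
    intro l; simp [Tv]
  have w2 : ∀ l : ℝ, (D + l • Tv).2 = D.2 := by
    intro l; simp [Tv]
  have key : B (D + s • Tv) (D + s • Tv) + 2 * ω * ‖D + s • Tv‖ ^ 2 < 0 := by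
    by_contra hcon
    push Not at hcon
    set l1 : ℝ := 4 * ‖D.2‖ + s + 1 with hl1
    have hn2 : 0 ≤ ‖D.2‖ := norm_nonneg _
    have hneg : B (D + l1 • Tv) (D + l1 • Tv) + 2 * ω * ‖D + l1 • Tv‖ ^ 2 < 0 := by
      have hc : D + l1 • Tv ∈ cone (1 / 4) := by
        rw [mem_cone, w1, w2]; linarith only [hD, hs]
      have h1 := h.timelike_of_cone hc
      have h2 : ‖D + l1 • Tv‖ = (D + l1 • Tv).1 := by
        rw [norm_P4, abs_of_nonneg (by rw [w1]; linarith only [hD, hs, hn2])]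
        apply max_eq_left
        rw [w1, w2]; linarith only [hD, hs, hn2]
      rw [h2]
      have h3 : 0 < (D + l1 • Tv).1 := by rw [w1]; linarith only [hD, hs, hn2]
      have h4 : 0 < (D + l1 • Tv).1 ^ 2 := by (clear * - h3; positivity)
      nlinarith only [h1, h4, hω1]
    have hcont : ContinuousOn (fun l : ℝ => B (D + l • Tv) (D + l • Tv) +
        2 * ω * ‖D + l • Tv‖ ^ 2) (Icc s l1) := by
      apply Continuous.continuousOn
      (clear * -; continuity)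
    obtain ⟨l, hl, hl0⟩ := intermediate_value_Icc' (by linarith only [hn2] : s ≤ l1) hcont
      (show (0:ℝ) ∈ _ from ⟨hneg.le, hcon⟩)
    simp only at hl0
    set b := D + l • Tv with hb
    have hlpos : 0 < l := hs.trans_le hl.1
    have hb1 : 0 < b.1 := by rw [hb, w1]; linarith only [hD, hlpos]
    have hb0 : 0 < ‖b‖ := by
      rw [norm_pos_iff]
      intro h0
      rw [h0] at hb1
      exact lt_irrefl _ hb1
    have hbb : B b b = -(2 * ω * ‖b‖ ^ 2) := by linarith only [hl0]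
    have hbb0 : B b b ≤ 0 := by rw [hbb]; have : 0 < 2 * ω * ‖b‖ ^ 2 := by (clear * - hω hb0; positivity)
                                linarith only [this]
    have hI1 := hI b (by rw [hbb]; have : 0 < ω * ‖b‖ ^ 2 := by (clear * - hω hb0; positivity)
                         linarith only [this]) hb1
    have hT := (h.T_le hbb0 hb1).1
    have hn := h.norm_le_of_causal hbb0
    rw [abs_of_pos hb1] at hn
    have he : B b b = B D b + l * B Tv b := by
      calc B b b = B (D + l • Tv) b := by rw [← hb]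
        _ = _ := bil_left B D Tv b l
    have h5 : l * B Tv b ≤ l * (-(49 / 100 * ‖b‖)) := mul_le_mul_of_nonneg_left hT hlpos.le
    have h6 : (49 / 100 * l) * ‖b‖ ≤ (2 * ω * D.1 + 2 * ω * ‖b‖) * ‖b‖ := by
      rw [hbb] at he
      linarith only [hI1, he, h5]
    have h7 := le_of_mul_le_mul_right h6 hb0
    have hb1' : b.1 = D.1 + l := by rw [hb, w1]
    rw [hb1'] at hn
    have h8 : 2 * ω * ‖b‖ ≤ 2 * ω * (2 * (D.1 + l)) := by (clear * - hn hω; gcongr)
    have h9 : 4 * ω * l ≤ 4 * (1 / 100) * l := by (clear * - hω1 hlpos; gcongr)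
    have h10 : 0 ≤ ω * D.1 := by (clear * - hω hD; positivity)
    have h11 : l ≥ 32 * (ω * D.1) := by
      have := hl.1; linarith only [hs2, this]
    linarith only [hlpos, h7, h8, h9, h11]
  set b := D + s • Tv with hb
  have hb1' : b.1 = D.1 + s := by rw [hb, w1]
  have hb1 : 0 < b.1 := by rw [hb1']; linarith only [hD, hs]
  have hn0 : 0 ≤ ‖b‖ := norm_nonneg _
  have hI1 := hI b (by
    have : 0 ≤ ω * ‖b‖ ^ 2 := by (clear * - hω; positivity)
    by_cases hz : ‖b‖ = 0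
    · have hb0 : b = 0 := norm_eq_zero.1 hz
      rw [hb0] at hb1
      exact absurd hb1 (lt_irrefl _)
    · linarith only [key, this]) hb1
  have hbb0 : B b b ≤ 0 := by
    have : 0 ≤ 2 * ω * ‖b‖ ^ 2 := by (clear * - hω; positivity)
    linarith only [key, this]
  have hT := (h.T_le hbb0 hb1).1
  have he : B b b = B D b + s * B Tv b := by
    calc B b b = B (D + s • Tv) b := by rw [← hb]
      _ = _ := bil_left B D Tv b s
  rw [he]
  have h5 : s * B Tv b ≤ s * (-(49 / 100 * ‖b‖)) := mul_le_mul_of_nonneg_left hT hs.le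
  have h6 : 2 * ω * ‖b‖ * D.1 ≤ s / 16 * ‖b‖ := by
    have : 2 * ω * D.1 ≤ s / 16 := by linarith only [hs2]
    calc 2 * ω * ‖b‖ * D.1 = (2 * ω * D.1) * ‖b‖ := by ring
      _ ≤ _ := by (clear * - this; gcongr)
  linarith only [hI1, hbb0, he, h5, h6]

/-- the same for forms close to `B` -/
lemma disp_close (h : NearM B) {ω s : ℝ} {D : P4} (hω : 0 < ω) (hω1 : ω ≤ 1 / 100)
    (hD : 0 ≤ D.1)
    (hI : ∀ b : P4, B b b + ω * ‖b‖ ^ 2 < 0 → 0 < b.1 → B D b ≤ 2 * ω * ‖b‖ * D.1)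
    (hs : 0 < s) (hs2 : 32 * ω * D.1 ≤ s) {B' : P4 →L[ℝ] P4 →L[ℝ] ℝ}
    (hB : ∀ a b, |B' a b - B a b| ≤ ω * ‖a‖ * ‖b‖) :
    B' (D + s • Tv) (D + s • Tv) ≤ -(s / 8 * (D.1 + s)) := by
  have h1 := h.disp hω hω1 hD hI hs hs2
  have w1 : (D + s • Tv).1 = D.1 + s := by simp [Tv]
  set b := D + s • Tv with hb
  have hb1 : 0 < b.1 := by rw [w1]; linarith only [hD, hs]
  have hn0 : 0 ≤ ‖b‖ := norm_nonneg _
  have hbb0 : B b b ≤ 0 := h1.trans (by
    have : 0 ≤ s / 4 * ‖b‖ := by (clear * - hs; positivity)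
    linarith only [this])
  have hn := h.norm_le_of_causal hbb0
  rw [abs_of_pos hb1, w1] at hn
  have hn1 : D.1 + s ≤ ‖b‖ := by
    rw [← w1]
    exact (le_abs_self _).trans (norm_fst_le b)
  have h2 := (abs_le.1 (hB b b)).2
  have h3 : ω * ‖b‖ ≤ s / 16 + s / 50 := by
    calc ω * ‖b‖ ≤ ω * (2 * (D.1 + s)) := by (clear * - hn hω; gcongr)
      _ = (2 * ω * D.1) + 2 * ω * s := by ring
      _ ≤ s / 16 + 2 * (1 / 100) * s := by
        have : 2 * ω * s ≤ 2 * (1 / 100) * s := by (clear * - hω1 hs; gcongr)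
        linarith only [hs2, this]
      _ = _ := by ring
  have h4 : ω * ‖b‖ * ‖b‖ ≤ (s / 16 + s / 50) * ‖b‖ := by (clear * - h3; gcongr)
  have h5 : s / 8 * (D.1 + s) ≤ s / 8 * ‖b‖ := by (clear * - hn1 hs; gcongr)
  linarith only [h1, hbb0, h2, h4, h5]

end NearM

namespace SHyp

variable {K : Coef} {G : P4 → P4 →L[ℝ] P4 →L[ℝ] ℝ} {Psi Phi : P4 → P4} {V : Set P4}
  {R0 ρ C : ℝ} {p0 : P4}

/-- displacements along future timelike curves near `E` -/
lemma disp_curve (H : SHyp K G Psi Phi V R0 ρ C p0) {E : P4} {δ ω : ℝ} (hω : 0 < ω)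
    (hcl : CloseTo G E δ ω) {ν ν' : ℝ → P4} {τ1 τ2 : ℝ} (h12 : τ1 ≤ τ2)
    (hν : ∀ τ ∈ Icc τ1 τ2, HasDerivAt ν (ν' τ) τ) (hV : ∀ τ ∈ Icc τ1 τ2, ν τ ∈ V)
    (hE : ∀ τ ∈ Icc τ1 τ2, ‖ν τ - E‖ < δ)
    (hT : ∀ τ ∈ Icc τ1 τ2, G (ν τ) (ν' τ) (ν' τ) < 0) (hp : ∀ τ ∈ Icc τ1 τ2, 0 < (ν' τ).1)
    (b : P4) (hb : G E b b + ω * ‖b‖ ^ 2 < 0) (hb1 : 0 < b.1) :
    G E (ν τ2 - ν τ1) b ≤ 2 * ω * ‖b‖ * (ν τ2 - ν τ1).1 := by
  have hf : ∀ τ ∈ Icc τ1 τ2, HasDerivAt (fun τ => G E (ν τ) b) (G E (ν' τ) b) τ := by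
    intro τ hτ
    have h1 : HasDerivAt (fun τ => G E (ν τ)) (G E (ν' τ)) τ :=
      (G E).hasFDerivAt.comp_hasDerivAt τ (hν τ hτ)
    exact h1.clm_apply (hasDerivAt_const τ b) |>.congr_deriv (by simp)
  have hg : ∀ τ ∈ Icc τ1 τ2, HasDerivAt (fun τ => 2 * ω * ‖b‖ * (ν τ).1)
      (2 * ω * ‖b‖ * (ν' τ).1) τ := by
    intro τ hτ
    have h1 : HasDerivAt (fun τ => (ν τ).1) (ν' τ).1 τ := (hν τ hτ).fst
    exact h1.const_mul _
  have h := le_of_deriv h12 hf hg (fun τ hτ => by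
    have hz := hV τ hτ
    have hc := hcl (ν τ) (hE τ hτ)
    have hbz : G (ν τ) b b < 0 := by
      have := (abs_le.1 (hc b b)).2
      linarith only [hb, this]
    have hab : G (ν τ) (ν' τ) b < 0 := by
      have v1 := H.v_pos hz (hT τ hτ) (hp τ hτ)
      have v2 := H.v_pos hz hbz hb1
      have t1 := hT τ hτ
      rw [H.iso.iso _ hz] at t1 hbz ⊢
      exact (H.cbd hz).gF_neg t1 hbz v1 v2
    have h2 := (abs_le.1 (hc (ν' τ) b)).1
    have h3 := (H.nearV hz).norm_le_of_causal (hT τ hτ).le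
    rw [abs_of_pos (hp τ hτ)] at h3
    have h4 : ω * ‖ν' τ‖ * ‖b‖ ≤ ω * (2 * (ν' τ).1) * ‖b‖ := by (clear * - h3 hω; gcongr)
    linarith only [hab, h2, h4])
  have e1 : G E (ν τ2 - ν τ1) b = G E (ν τ2) b - G E (ν τ1) b := by
    rw [map_sub]; rfl
  have e2 : (ν τ2 - ν τ1).1 = (ν τ2).1 - (ν τ1).1 := rfl
  rw [e1, e2]
  linarith only [h]

end SHyp

end Vale.Agent.P354
end
end

section

section

set_option maxSynthPendingDepth 3

open MeasureTheory Set Filter Topology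
open scoped ContDiff

namespace Vale.Agent.P354k

section

variable {E E' : Type*} [NormedAddCommGroup E] [NormedSpace ℝ E]
  [NormedAddCommGroup E'] [NormedSpace ℝ E']

/-- second derivatives of a map -/
noncomputable def PP (F : E → E') (b c y : E) : E' := fderiv ℝ (fun y => fderiv ℝ F y c) y b

/-- the Christoffel symbols of first kind of the target metric, pulled back -/
noncomputable def TT (F : E → E') (H : E → E' →L[ℝ] E' →L[ℝ] ℝ) (b c d y : E) : ℝ :=
  (fderiv ℝ H y b (fderiv ℝ F y c) (fderiv ℝ F y d) +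
    fderiv ℝ H y c (fderiv ℝ F y b) (fderiv ℝ F y d) -
    fderiv ℝ H y d (fderiv ℝ F y b) (fderiv ℝ F y c)) / 2

/-- product rule -/
lemma fderiv_H {H : E → E' →L[ℝ] E' →L[ℝ] ℝ} {X Y : E → E'} {y : E}
    (hH : DifferentiableAt ℝ H y) (hX : DifferentiableAt ℝ X y) (hY : DifferentiableAt ℝ Y y)
    (a : E) : fderiv ℝ (fun y => H y (X y) (Y y)) y a =
      fderiv ℝ H y a (X y) (Y y) + H y (fderiv ℝ X y a) (Y y) + H y (X y) (fderiv ℝ Y y a) := by
  have h1 := (hH.hasFDerivAt.clm_apply hX.hasFDerivAt).clm_apply hY.hasFDerivAt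
  rw [h1.fderiv]
  simp only [ContinuousLinearMap.flip_add, add_apply, ContinuousLinearMap.comp_apply, ContinuousLinearMap.flip_apply]
  ring

variable {F : E → E'} {H : E → E' →L[ℝ] E' →L[ℝ] ℝ} {D : Set E}

lemma smooth_F1 (hD : IsOpen D) (hF : ContDiffOn ℝ ∞ F D) (c : E) :
    ContDiffOn ℝ ∞ (fun y => fderiv ℝ F y c) D :=
  (hF.fderiv_of_isOpen hD (m := ∞) (by simp)).clm_apply contDiffOn_const

lemma smooth_PP (hD : IsOpen D) (hF : ContDiffOn ℝ ∞ F D) (b c : E) :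
    ContDiffOn ℝ ∞ (PP F b c) D := smooth_F1 hD (smooth_F1 hD hF c) b

lemma smooth_TT (hD : IsOpen D) (hF : ContDiffOn ℝ ∞ F D) (hH : ContDiffOn ℝ ∞ H D) (b c d : E) :
    ContDiffOn ℝ ∞ (TT F H b c d) D := by
  have h1 : ∀ a b c : E, ContDiffOn ℝ ∞
      (fun y => fderiv ℝ H y a (fderiv ℝ F y b) (fderiv ℝ F y c)) D := fun a b c =>
    ((smooth_F1 hD hH a).clm_apply (smooth_F1 hD hF b)).clm_apply (smooth_F1 hD hF c)
  have h2 := (((h1 b c d).add (h1 c b d)).sub (h1 d b c)).div_const 2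
  exact h2

lemma dAt {X : Type*} [NormedAddCommGroup X] [NormedSpace ℝ X] {f : E → X} (hD : IsOpen D)
    (hf : ContDiffOn ℝ ∞ f D) {y : E} (hy : y ∈ D) : DifferentiableAt ℝ f y :=
  (hf.differentiableOn (by simp)).differentiableAt (hD.mem_nhds hy)

lemma PP_symm (hD : IsOpen D) (hF : ContDiffOn ℝ ∞ F D) {y : E} (hy : y ∈ D) (b c : E) :
    PP F b c y = PP F c b y := by
  have h0 : ContDiffAt ℝ 2 F y := (hF.contDiffAt (hD.mem_nhds hy)).of_le (by norm_cast)
  have hd : DifferentiableAt ℝ (fderiv ℝ F) y :=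
    (h0.fderiv_right (m := 1) (by norm_num)).differentiableAt (by norm_num)
  have h1 : ∀ b c : E, PP F b c y = fderiv ℝ (fderiv ℝ F) y b c := by
    intro b c
    unfold PP
    have h2 := hd.hasFDerivAt.clm_apply (hasFDerivAt_const c y)
    rw [h2.fderiv]
    simp only [ContinuousLinearMap.comp_zero, zero_add, ContinuousLinearMap.flip_apply]
  rw [h1, h1]
  exact (h0.isSymmSndFDerivAt (by simp)) b c

/-- the third derivatives commute -/
lemma PP_symm3 (hD : IsOpen D) (hF : ContDiffOn ℝ ∞ F D) {y : E} (hy : y ∈ D) (a b c : E) :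
    fderiv ℝ (PP F b c) y a = fderiv ℝ (PP F a c) y b :=
  PP_symm hD (smooth_F1 hD hF c) hy a b

/-- The Christoffel symbols of first kind. -/
lemma chr_eq (hD : IsOpen D) (hF : ContDiffOn ℝ ∞ F D) (hH : ContDiffOn ℝ ∞ H D)
    (hs : ∀ y ∈ D, ∀ s w, H y s w = H y w s) {y : E} (hy : y ∈ D) (b c d : E) :
    (fderiv ℝ (fun y => H y (fderiv ℝ F y c) (fderiv ℝ F y d)) y b +
      fderiv ℝ (fun y => H y (fderiv ℝ F y b) (fderiv ℝ F y d)) y c -
      fderiv ℝ (fun y => H y (fderiv ℝ F y b) (fderiv ℝ F y c)) y d) / 2 =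
      H y (PP F b c y) (fderiv ℝ F y d) + TT F H b c d y := by
  have hH1 := dAt hD hH hy
  have h1 : ∀ c : E, DifferentiableAt ℝ (fun y => fderiv ℝ F y c) y := fun c =>
    dAt hD (smooth_F1 hD hF c) hy
  rw [fderiv_H hH1 (h1 c) (h1 d), fderiv_H hH1 (h1 b) (h1 d), fderiv_H hH1 (h1 b) (h1 c)]
  have e : ∀ b c : E, fderiv ℝ (fun y => fderiv ℝ F y c) y b = PP F b c y := fun b c => rfl
  rw [e, e, e, e, e, e, PP_symm hD hF hy c b, PP_symm hD hF hy d b, PP_symm hD hF hy d c,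
    hs y hy (fderiv ℝ F y c) (PP F b d y), hs y hy (fderiv ℝ F y b) (PP F c d y)]
  unfold TT
  ring

/-- **The curvature is the divergence of a bounded function up to lower order terms.** -/
lemma curv_eq (hD : IsOpen D) (hF : ContDiffOn ℝ ∞ F D) (hH : ContDiffOn ℝ ∞ H D)
    {Γ : E → E → E → E} {y : E} (hy : y ∈ D) (a b c d : E) :
    fderiv ℝ (fun y => H y (PP F b c y) (fderiv ℝ F y d) + TT F H b c d y) y a -
      fderiv ℝ (fun y => H y (PP F a c y) (fderiv ℝ F y d) + TT F H a c d y) y b -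
      H y (fderiv ℝ F y (Γ y b c)) (fderiv ℝ F y (Γ y a d)) +
      H y (fderiv ℝ F y (Γ y a c)) (fderiv ℝ F y (Γ y b d)) =
    fderiv ℝ (TT F H b c d) y a - fderiv ℝ (TT F H a c d) y b +
      (fderiv ℝ H y a (PP F b c y) (fderiv ℝ F y d) - fderiv ℝ H y b (PP F a c y) (fderiv ℝ F y d)
      - H y (PP F b c y) (fderiv ℝ F y (Γ y a d) - PP F a d y)
      - H y (fderiv ℝ F y (Γ y b c) - PP F b c y) (PP F a d y)
      - H y (fderiv ℝ F y (Γ y b c) - PP F b c y) (fderiv ℝ F y (Γ y a d) - PP F a d y)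
      + H y (PP F a c y) (fderiv ℝ F y (Γ y b d) - PP F b d y)
      + H y (fderiv ℝ F y (Γ y a c) - PP F a c y) (PP F b d y)
      + H y (fderiv ℝ F y (Γ y a c) - PP F a c y) (fderiv ℝ F y (Γ y b d) - PP F b d y)) := by
  have hH1 := dAt hD hH hy
  have h1 : ∀ c : E, DifferentiableAt ℝ (fun y => fderiv ℝ F y c) y := fun c =>
    dAt hD (smooth_F1 hD hF c) hy
  have h2 : ∀ b c : E, DifferentiableAt ℝ (fun y => PP F b c y) y := fun b c =>
    dAt hD (smooth_PP hD hF b c) hy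
  have h3 : ∀ b c d : E, DifferentiableAt ℝ (fun y => TT F H b c d y) y := fun b c d =>
    dAt hD (smooth_TT hD hF hH b c d) hy
  have h4 : ∀ b c d : E, DifferentiableAt ℝ (fun y => H y (PP F b c y) (fderiv ℝ F y d)) y :=
    fun b c d => (hH1.clm_apply (h2 b c)).clm_apply (h1 d)
  have h5 : ∀ a b c d : E, fderiv ℝ
      (fun y => H y (PP F b c y) (fderiv ℝ F y d) + TT F H b c d y) y a =
      fderiv ℝ H y a (PP F b c y) (fderiv ℝ F y d) + H y (fderiv ℝ (PP F b c) y a) (fderiv ℝ F y d)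
      + H y (PP F b c y) (PP F a d y) + fderiv ℝ (TT F H b c d) y a := by
    intro a b c d
    rw [fderiv_fun_add (h4 b c d) (h3 b c d), _root_.add_apply, fderiv_H hH1 (h2 b c) (h1 d)]
    rfl
  rw [h5, h5, PP_symm3 hD hF hy a b c]
  simp only [map_sub, _root_.sub_apply]
  ring

end

end Vale.Agent.P354k
end
end

section

section

open scoped ContDiff
open MeasureTheory Set Filter Topology

namespace Vale.Agent.P354p.Ex

/-- the derivative of the profile -/
noncomputable def ll (a s : ℝ) : ℝ := s ^ (-a) * (1 - Real.log s)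

/-- the profile -/
noncomputable def hh (a s : ℝ) : ℝ :=
  ((1 - a)⁻¹ ^ 2 + (1 - a)⁻¹) * s ^ (1 - a) - (1 - a)⁻¹ ^ 2 * (s ^ (1 - a) * Real.log (s ^ (1 - a)))

section
variable {a : ℝ}

lemma hh_cont (ha : a ≤ 1 / 2) : Continuous (hh a) := by
  have h1 : Continuous fun s : ℝ => s ^ (1 - a) :=
    Real.continuous_rpow_const (by linarith only [ha])
  have h2 : Continuous fun s : ℝ => s ^ (1 - a) * Real.log (s ^ (1 - a)) :=
    Real.continuous_mul_log.comp h1
  unfold hh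
  exact (continuous_const.mul h1).sub (continuous_const.mul h2)

lemma hh_deriv (ha : a ≤ 1 / 2) {s : ℝ} (hs : 0 < s) : HasDerivAt (hh a) (ll a s) s := by
  have h0 : (1 - a) ≠ 0 := by linarith only [ha]
  have h1 : HasDerivAt (fun s : ℝ => s ^ (1 - a)) ((1 - a) * s ^ (-a)) s := by
    have := Real.hasDerivAt_rpow_const (x := s) (p := 1 - a) (Or.inl hs.ne')
    have e : (1 - a - 1) = -a := by ring
    rwa [e] at this
  have hy : 0 < s ^ (1 - a) := Real.rpow_pos_of_pos hs _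
  have h2 : HasDerivAt (fun y : ℝ => y * Real.log y) (Real.log (s ^ (1 - a)) + 1) (s ^ (1 - a)) :=
    Real.hasDerivAt_mul_log hy.ne'
  have h3 := HasDerivAt.comp s h2 h1
  have h4 := (h1.const_mul ((1 - a)⁻¹ ^ 2 + (1 - a)⁻¹)).sub (h3.const_mul ((1 - a)⁻¹ ^ 2))
  refine h4.congr_deriv ?_
  rw [Real.log_rpow hs]
  unfold ll
  field_simp
  ring

lemma inv_bd (ha0 : 0 ≤ a) (ha : a ≤ 1 / 2) : 0 < (1 - a)⁻¹ ∧ (1 - a)⁻¹ ≤ 2 := by
  constructor
  · exact inv_pos.2 (by linarith)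
  · rw [inv_le_comm₀ (by linarith only [ha]) (by norm_num)]
    linarith

lemma hh_bd (ha0 : 0 ≤ a) (ha : a ≤ 1 / 2) {s : ℝ} (hs0 : 0 ≤ s) (hs1 : s ≤ 1) :
    0 ≤ hh a s ∧ hh a s ≤ 10 := by
  obtain ⟨hB0, hB2⟩ := inv_bd ha0 ha
  set B := (1 - a)⁻¹ with hB
  set y := s ^ (1 - a) with hy
  have hy0 : 0 ≤ y := Real.rpow_nonneg hs0 _
  have hy1 : y ≤ 1 := Real.rpow_le_one hs0 hs1 (by linarith only [ha])
  have h1 : y * Real.log y ≤ 0 := Real.mul_log_nonpos hy0 hy1
  have h2 : -1 ≤ y * Real.log y := by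
    rcases eq_or_lt_of_le hy0 with h | h
    · rw [← h]; simp only [Real.log_zero, mul_zero, Left.neg_nonpos_iff, zero_le_one]
    · have h3 := Real.one_sub_inv_le_log_of_pos h
      have h4 : y * (1 - y⁻¹) ≤ y * Real.log y := mul_le_mul_of_nonneg_left h3 hy0
      have h5 : y * (1 - y⁻¹) = y - 1 := by (clear * - h; field_simp)
      linarith only [h, h4, h5]
  have e : hh a s = (B ^ 2 + B) * y - B ^ 2 * (y * Real.log y) := rfl
  rw [e]
  have hB4 : B ^ 2 ≤ 4 := by nlinarith only [hB2, hB0]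
  have hB20 : 0 ≤ B ^ 2 := by (clear * - hB0; positivity)
  constructor
  · have : B ^ 2 * (y * Real.log y) ≤ 0 := mul_nonpos_of_nonneg_of_nonpos hB20 h1
    have : 0 ≤ (B ^ 2 + B) * y := by (clear * - hB0 hs0; positivity)
    (clear ha0 hB2 hB hy h2 e hB4; linarith)
  · have k1 : (B ^ 2 + B) * y ≤ 6 * 1 := mul_le_mul (by linarith only [hB2, hB4]) hy1 hy0 (by norm_num)
    have k2 : -(B ^ 2 * (y * Real.log y)) ≤ 4 * 1 := by
      have : -(B ^ 2 * (y * Real.log y)) = B ^ 2 * (-(y * Real.log y)) := by ring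
      rw [this]
      exact mul_le_mul hB4 (by linarith only [h2]) (by linarith only [h1]) (by norm_num)
    linarith only [k1, k2]

lemma log_nonpos' {s : ℝ} (hs1 : s ≤ 1) (hs0 : 0 < s) : 1 ≤ 1 - Real.log s := by
  have := Real.log_nonpos hs0.le hs1
  linarith only [this]

lemma ll_nonneg {s : ℝ} (hs0 : 0 < s) (hs1 : s ≤ 1) : 0 ≤ ll a s := by
  have := log_nonpos' hs1 hs0
  have := Real.rpow_pos_of_pos hs0 (-a)
  unfold ll
  positivity

lemma ll_anti (ha0 : 0 ≤ a) {s t : ℝ} (hs0 : 0 < s) (hst : s ≤ t) (ht1 : t ≤ 1) :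
    ll a t ≤ ll a s := by
  have h1 : t ^ (-a) ≤ s ^ (-a) := Real.rpow_le_rpow_of_nonpos hs0 hst (by linarith only [ha0])
  have h2 : Real.log s ≤ Real.log t := Real.log_le_log hs0 hst
  have h3 := log_nonpos' ht1 (by linarith only [hs0, hst])
  have h4 := Real.rpow_pos_of_pos hs0 (-a)
  unfold ll
  exact mul_le_mul h1 (by linarith only [h2]) (by linarith only [h3]) h4.le

lemma ll_meas : Measurable (ll a) := by
  unfold ll
  fun_prop

/-- power bound of the derivative -/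
lemma ll_le {δ : ℝ} (hδ : 0 < δ) {s : ℝ} (hs0 : 0 < s) (hs1 : s ≤ 1) :
    ll a s ≤ (1 + 1 / δ) * s ^ (-(a + δ)) := by
  have h1 : -Real.log s ≤ s ^ (-δ) / δ := by
    have h := Real.log_le_rpow_div (x := s⁻¹) (by positivity) hδ
    rwa [Real.log_inv, Real.inv_rpow hs0.le, ← Real.rpow_neg hs0.le] at h
  have h2 : 1 ≤ s ^ (-δ) := Real.one_le_rpow_of_pos_of_le_one_of_nonpos hs0 hs1 (by linarith only [hδ])
  have h3 : 1 - Real.log s ≤ (1 + 1 / δ) * s ^ (-δ) := by
    have : (1 + 1 / δ) * s ^ (-δ) = s ^ (-δ) + s ^ (-δ) / δ := by ring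
    rw [this]; linarith only [h1, h2]
  have h4 := Real.rpow_pos_of_pos hs0 (-a)
  have e : s ^ (-(a + δ)) = s ^ (-a) * s ^ (-δ) := by
    rw [← Real.rpow_add hs0]; congr 1; ring
  unfold ll
  rw [e]
  calc s ^ (-a) * (1 - Real.log s) ≤ s ^ (-a) * ((1 + 1 / δ) * s ^ (-δ)) := by (clear * - h3 hs0; gcongr)
    _ = _ := by ring

/-- the derivative is in `L^r` if `a r < 1` -/
lemma ll_Lr {r : ℝ} (hr : 1 ≤ r) (har : a * r < 1) (ha0 : 0 ≤ a) :
    ∫⁻ s in Ioo (0:ℝ) 1, ‖ll a s‖ₑ ^ r ≠ ⊤ := by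
  set δ : ℝ := (1 - a * r) / (2 * r) with hδ
  have hδ0 : 0 < δ := div_pos (by linarith only [har]) (by linarith only [hr])
  have hexp : -1 < -(a + δ) * r := by
    have : (a + δ) * r = a * r + (1 - a * r) / 2 := by
      rw [hδ]; (clear * - hr; field_simp)
    have h2 : -(a + δ) * r = -((a + δ) * r) := by ring
    rw [h2, this]; linarith only [har]
  have h1 : IntegrableOn (fun s : ℝ => s ^ (-(a + δ) * r)) (Ioo 0 1) := by
    have := intervalIntegral.intervalIntegrable_rpow' (a := 0) (b := 1) hexp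
    rwa [intervalIntegrable_iff_integrableOn_Ioo_of_le zero_le_one] at this
  have h2 : ∫⁻ s in Ioo (0:ℝ) 1, ENNReal.ofReal ((1 + 1 / δ) ^ r * s ^ (-(a + δ) * r)) ≠ ⊤ :=
    (h1.const_mul _).lintegral_lt_top.ne
  refine ne_top_of_le_ne_top h2 (setLIntegral_mono' measurableSet_Ioo ?_)
  intro s hs
  have hl0 := ll_nonneg (a := a) hs.1 hs.2.le
  have hl1 := ll_le (a := a) hδ0 hs.1 hs.2.le
  have hs' : 0 < s ^ (-(a + δ)) := Real.rpow_pos_of_pos hs.1 _
  have e1 : ‖ll a s‖ₑ ^ r = ENNReal.ofReal (ll a s ^ r) := by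
    rw [Real.enorm_eq_ofReal hl0, ENNReal.ofReal_rpow_of_nonneg hl0 (by linarith only [hr])]
  rw [e1]
  apply ENNReal.ofReal_le_ofReal
  calc ll a s ^ r ≤ ((1 + 1 / δ) * s ^ (-(a + δ))) ^ r :=
        Real.rpow_le_rpow hl0 hl1 (by linarith only [hr])
    _ = (1 + 1 / δ) ^ r * s ^ (-(a + δ) * r) := by
        rw [Real.mul_rpow (by positivity) hs'.le, ← Real.rpow_mul hs.1.le]

/-- the derivative is not in `L^r` if `a r = 1` -/
lemma ll_top {r b : ℝ} (hr : 1 ≤ r) (har : a * r = 1) (hb0 : 0 < b) (hb1 : b ≤ 1) :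
    ∫⁻ s in Ioo (0:ℝ) b, ‖ll a s‖ₑ ^ r = ⊤ := by
  by_contra hcon
  have h1 : ∫⁻ s in Ioo (0:ℝ) b, ENNReal.ofReal s⁻¹ ≠ ⊤ := by
    refine ne_top_of_le_ne_top hcon (setLIntegral_mono' measurableSet_Ioo ?_)
    intro s hs
    have hs1 : s ≤ 1 := hs.2.le.trans hb1
    have hl0 := ll_nonneg (a := a) hs.1 hs1
    rw [Real.enorm_eq_ofReal hl0, ENNReal.ofReal_rpow_of_nonneg hl0 (by linarith)]
    apply ENNReal.ofReal_le_ofReal
    have h3 := log_nonpos' hs1 hs.1
    have h4 := Real.rpow_pos_of_pos hs.1 (-a)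
    have h5 : s ^ (-a) ≤ ll a s := by
      unfold ll
      exact le_mul_of_one_le_right h4.le h3
    calc s⁻¹ = (s ^ (-a)) ^ r := by
          rw [← Real.rpow_mul hs.1.le]
          have : -a * r = -1 := by linarith only [har]
          rw [this, Real.rpow_neg_one]
      _ ≤ ll a s ^ r := Real.rpow_le_rpow h4.le h5 (by linarith only [hr])
  have h2 : IntegrableOn (fun s : ℝ => s⁻¹) (Ioo 0 b) := by
    refine ⟨measurable_inv.aestronglyMeasurable, ?_⟩
    rw [hasFiniteIntegral_iff_ofReal]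
    · exact lt_top_iff_ne_top.mpr h1
    · rw [EventuallyLE, ae_restrict_iff' measurableSet_Ioo]
      refine Eventually.of_forall fun s hs => ?_
      simpa only [Pi.zero_apply, inv_nonneg] using hs.1.le
  have h3 : IntervalIntegrable (fun s : ℝ => s⁻¹) volume 0 b := by
    rw [intervalIntegrable_iff_integrableOn_Ioo_of_le hb0.le]
    exact h2
  rw [intervalIntegrable_inv_iff] at h3
  rcases h3 with h3 | h3
  · exact hb0.ne h3
  · exact h3 left_mem_uIcc

/-- for `a = 0` the derivative is not bounded -/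
lemma ll_unbdd {b c : ℝ} (hb0 : 0 < b) : ∃ d, 0 < d ∧ d < b ∧ d ≤ 1 ∧
    ∀ s, 0 < s → s < d → c < ll 0 s := by
  refine ⟨min (b / 2) (min 1 (Real.exp (-c))), ?_, ?_, ?_, ?_⟩
  · exact lt_min (by linarith) (lt_min one_pos (Real.exp_pos _))
  · exact (min_le_left _ _).trans_lt (by linarith only [hb0])
  · exact (min_le_right _ _).trans (min_le_left _ _)
  · intro s hs0 hs
    have h1 : s < Real.exp (-c) := hs.trans_le ((min_le_right _ _).trans (min_le_right _ _))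
    have h2 : Real.log s < -c := by
      have := Real.log_lt_log hs0 h1
      rwa [Real.log_exp] at this
    unfold ll
    rw [neg_zero, Real.rpow_zero, one_mul]
    linarith only [h2]

end

end Vale.Agent.P354p.Ex
end
end

section

section

open scoped ContDiff
open MeasureTheory Set Filter Topology

namespace Vale.Agent.P354p.Ex

abbrev E4 : Type := ℝ × ℝ × ℝ × ℝ

lemma haar4 : Measure.IsAddHaarMeasure (volume : Measure E4) := by
  have h2 : (volume : Measure (ℝ × ℝ)).IsAddHaarMeasure :=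
    Measure.prod.instIsAddHaarMeasure volume volume
  have h3 : (volume : Measure (ℝ × ℝ × ℝ)).IsAddHaarMeasure :=
    Measure.prod.instIsAddHaarMeasure volume volume
  exact Measure.prod.instIsAddHaarMeasure volume volume

/-- clamp -/
noncomputable def cl (e s : ℝ) : ℝ := max e (min s 1)

/-- derivative of the profile, extended by zero -/
noncomputable def LLe (a e t : ℝ) : ℝ := if -1 < t ∧ t < -e then ll a (-t) else 0

/-- the coefficient -/
noncomputable def Gf (a e : ℝ) (x : E4) : ℝ := 22 - hh a (cl e (-x.1)) - hh a (cl e (-x.2.1))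

/-- its weak derivative in the direction w -/
noncomputable def Hw (a e : ℝ) (w x : E4) : ℝ := LLe a e x.1 * w.1 + LLe a e x.2.1 * w.2.1

section
variable {a e : ℝ}

lemma cl_mem {s : ℝ} (he : e ≤ 1) : cl e s ∈ Icc e 1 :=
  ⟨le_max_left _ _, max_le he (min_le_right _ _)⟩

lemma cl_cont : Continuous (cl e) := by unfold cl; fun_prop

lemma hh_lip (ha0 : 0 ≤ a) (ha : a ≤ 1 / 2) (he0 : 0 < e) (he1 : e ≤ 1) :
    LipschitzWith (Real.toNNReal (ll a e)) (fun s => hh a (cl e s)) := by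
  have hl0 := ll_nonneg (a := a) he0 he1
  have h1 : LipschitzWith 1 (cl e) := by
    have := (LipschitzWith.id.min_const (α := ℝ) 1).const_max e
    exact this
  refine LipschitzWith.of_dist_le_mul fun s t => ?_
  have h2 := Convex.norm_image_sub_le_of_norm_hasDerivWithin_le (f := hh a) (f' := ll a)
    (C := ll a e) (s := Icc e 1) (x := cl e t) (y := cl e s)
    (fun x hx => (hh_deriv ha (lt_of_lt_of_le he0 hx.1)).hasDerivWithinAt)
    (fun x hx => by
      have hx0 := lt_of_lt_of_le he0 hx.1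
      rw [Real.norm_eq_abs, abs_of_nonneg (ll_nonneg hx0 hx.2)]
      exact ll_anti ha0 he0 hx.1 hx.2)
    (convex_Icc _ _) (cl_mem he1) (cl_mem he1)
  have h3 := h1.dist_le_mul s t
  rw [NNReal.coe_one, one_mul] at h3
  rw [Real.coe_toNNReal _ hl0]
  calc dist (hh a (cl e s)) (hh a (cl e t)) ≤ ll a e * dist (cl e s) (cl e t) := by
        rw [dist_eq_norm, dist_eq_norm]; exact h2
    _ ≤ _ := by (clear * - h3 hl0; gcongr)

lemma Gf_lip (ha0 : 0 ≤ a) (ha : a ≤ 1 / 2) (he0 : 0 < e) (he1 : e ≤ 1) :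
    ∃ C, LipschitzWith C (Gf a e) := by
  have h1 := hh_lip ha0 ha he0 he1
  have l1 : ∃ C, LipschitzWith C (fun x : E4 => -x.1) :=
    ⟨_, (-(ContinuousLinearMap.fst ℝ ℝ (ℝ × ℝ × ℝ))).lipschitz⟩
  have l2 : ∃ C, LipschitzWith C (fun x : E4 => -x.2.1) :=
    ⟨_, (-((ContinuousLinearMap.fst ℝ ℝ (ℝ × ℝ)).comp
      (ContinuousLinearMap.snd ℝ ℝ (ℝ × ℝ × ℝ)))).lipschitz⟩
  obtain ⟨C1, l1⟩ := l1
  obtain ⟨C2, l2⟩ := l2
  exact ⟨_, ((LipschitzWith.const (22:ℝ)).sub (h1.comp l1)).sub (h1.comp l2)⟩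

lemma cl_deriv (ha : a ≤ 1 / 2) (he0 : 0 ≤ e) (he1 : e < 1) {t c : ℝ} (h1 : t ≠ -1)
    (h2 : t ≠ -e) :
    HasDerivAt (fun τ : ℝ => hh a (cl e (-(t + τ * c)))) (-(LLe a e t * c)) 0 := by
  have hc : Tendsto (fun τ : ℝ => -(t + τ * c)) (𝓝 0) (𝓝 (-t)) := by
    have : Continuous (fun τ : ℝ => -(t + τ * c)) := by fun_prop
    have h := this.tendsto 0
    simpa only [neg_add_rev, zero_mul, add_zero] using h
  rcases lt_or_gt_of_ne h1 with h | h
  · have e0 : LLe a e t = 0 := by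
      unfold LLe; rw [if_neg]; rintro ⟨h3, _⟩; linarith only [h, h3]
    rw [e0, zero_mul, neg_zero]
    refine (hasDerivAt_const (0:ℝ) (hh a 1)).congr_of_eventuallyEq ?_
    filter_upwards [hc.eventually (lt_mem_nhds (show 1 < -t by linarith only [h]))] with τ hτ
    rw [cl, min_eq_right hτ.le, max_eq_right he1.le]
  · rcases lt_or_gt_of_ne h2 with h' | h'
    · have e0 : LLe a e t = ll a (-t) := by
        unfold LLe; rw [if_pos ⟨h, h'⟩]
      have k1 : HasDerivAt (fun τ : ℝ => -(t + τ * c)) (-c) 0 := by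
        have h5 : HasDerivAt (fun τ : ℝ => t + τ * c) c 0 := by
          simpa using ((hasDerivAt_id (0:ℝ)).mul_const c).const_add t
        exact h5.neg
      have k2 : HasDerivAt (hh a) (ll a (-t)) (-(t + 0 * c)) := by
        rw [zero_mul, add_zero]
        exact hh_deriv ha (by linarith only [he0, h'])
      have k3 := HasDerivAt.comp (0:ℝ) k2 k1
      have e1 : -(LLe a e t * c) = ll a (-t) * -c := by rw [e0]; ring
      rw [e1]
      refine k3.congr_of_eventuallyEq ?_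
      filter_upwards [hc.eventually (Ioo_mem_nhds (show e < -t by linarith only [h'])
        (show -t < 1 by linarith only [h]))] with τ hτ
      rw [cl, min_eq_left hτ.2.le, max_eq_right hτ.1.le]
      rfl
    · have e0 : LLe a e t = 0 := by
        unfold LLe; rw [if_neg]; rintro ⟨_, h3⟩; linarith only [h', h3]
      rw [e0, zero_mul, neg_zero]
      refine (hasDerivAt_const (0:ℝ) (hh a e)).congr_of_eventuallyEq ?_
      filter_upwards [hc.eventually (gt_mem_nhds (show -t < e by linarith only [h']))] with τ hτ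
      rw [cl, max_eq_left]
      exact (min_le_left _ _).trans hτ.le

lemma lineDeriv_Gf (ha : a ≤ 1 / 2) (he0 : 0 ≤ e) (he1 : e < 1) {x : E4} (w : E4)
    (h1 : x.1 ≠ -1) (h2 : x.1 ≠ -e) (h3 : x.2.1 ≠ -1) (h4 : x.2.1 ≠ -e) :
    HasLineDerivAt ℝ (Gf a e) (Hw a e w x) x w := by
  have k1 := cl_deriv ha he0 he1 (c := w.1) h1 h2
  have k2 := cl_deriv ha he0 he1 (c := w.2.1) h3 h4
  have k3 := (k1.const_sub 22).sub k2
  have e1 : Hw a e w x = - -(LLe a e x.1 * w.1) - -(LLe a e x.2.1 * w.2.1) := by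
    unfold Hw; ring
  rw [e1]
  exact k3

lemma ae_ne (c : ℝ) : ∀ᵐ x : E4, x.1 ≠ c ∧ x.2.1 ≠ c := by
  have h0 : ∀ᵐ t : ℝ, t ≠ c := (Set.countable_singleton c).ae_notMem volume
  have q1 : Measure.QuasiMeasurePreserving (Prod.fst : ℝ × (ℝ × ℝ × ℝ) → ℝ) volume volume :=
    Measure.quasiMeasurePreserving_fst
  have q2 : Measure.QuasiMeasurePreserving (Prod.snd : ℝ × (ℝ × ℝ × ℝ) → ℝ × ℝ × ℝ) volume
    volume := Measure.quasiMeasurePreserving_snd
  have q3 : Measure.QuasiMeasurePreserving (Prod.fst : ℝ × (ℝ × ℝ) → ℝ) volume volume :=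
    Measure.quasiMeasurePreserving_fst
  exact (q1.ae h0).and ((q3.comp q2).ae h0)

lemma LLe_nonneg (he0 : 0 ≤ e) (t : ℝ) : 0 ≤ LLe a e t := by
  unfold LLe
  split_ifs with h
  · exact ll_nonneg (by linarith only [he0, h.2]) (by linarith only [h.1])
  · exact le_refl _

lemma LLe_le (he0 : 0 ≤ e) (t : ℝ) : LLe a e t ≤ LLe a 0 t := by
  unfold LLe
  by_cases h : -1 < t ∧ t < -e
  · rw [if_pos h, if_pos ⟨h.1, by linarith [h.2]⟩]
  · rw [if_neg h]
    split_ifs with h'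
    · exact ll_nonneg (by linarith only [h']) (by linarith [h'.1])
    · exact le_refl _

lemma LLe_meas : Measurable (LLe a e) := by
  have h1 : Measurable fun t : ℝ => ll a (-t) := ll_meas.comp measurable_neg
  exact Measurable.ite measurableSet_Ioo h1 measurable_const

lemma LLe_eq_indicator : LLe a e = (Ioo (-1) (-e)).indicator (fun t => ll a (-t)) := by
  funext t
  unfold LLe
  by_cases h : -1 < t ∧ t < -e
  · rw [if_pos h, indicator_of_mem (show t ∈ Ioo (-1) (-e) from h)]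
  · rw [if_neg h, indicator_of_notMem (show t ∉ Ioo (-1) (-e) from h)]

lemma LLe_Lr {r : ℝ} (hr : 1 ≤ r) (har : a * r < 1) (ha0 : 0 ≤ a) :
    ∫⁻ t, ‖LLe a 0 t‖ₑ ^ r ≠ ⊤ := by
  have h1 := ll_Lr hr har ha0
  have e1 : (fun t => ‖LLe a 0 t‖ₑ ^ r) =
      (Ioo (-1 : ℝ) 0).indicator (fun t => ‖ll a (-t)‖ₑ ^ r) := by
    funext t
    rw [LLe_eq_indicator, neg_zero]
    by_cases h : t ∈ Ioo (-1 : ℝ) 0
    · rw [indicator_of_mem h, indicator_of_mem h]
    · rw [indicator_of_notMem h, indicator_of_notMem h, enorm_zero,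
        ENNReal.zero_rpow_of_pos (by linarith only [hr])]
  rw [e1, lintegral_indicator measurableSet_Ioo]
  have hmp : MeasurePreserving (fun t : ℝ => -t) volume volume := Measure.measurePreserving_neg _
  have h2 := hmp.setLIntegral_comp_preimage_emb (MeasurableEquiv.neg ℝ).measurableEmbedding
    (fun s => ‖ll a s‖ₑ ^ r) (Ioo 0 1)
  have e2 : (fun t : ℝ => -t) ⁻¹' Ioo 0 1 = Ioo (-1) 0 := by
    ext t
    simp only [mem_preimage, mem_Ioo]
    constructor <;> (rintro ⟨h3, h4⟩; constructor <;> linarith only [h4, h3])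
  rw [e2] at h2
  rw [h2]
  exact h1

/-- functions of u or v alone on balls -/
lemma lint_ball {F : ℝ → ENNReal} (hF : Measurable F) (h : ∫⁻ t, F t ≠ ⊤) (R : ℝ) :
    ∫⁻ x in Metric.closedBall (0:E4) R, F x.1 ≠ ⊤ ∧
      ∫⁻ x in Metric.closedBall (0:E4) R, F x.2.1 ≠ ⊤ := by
  have hb1 : Metric.closedBall (0:E4) R =
      Metric.closedBall (0:ℝ) R ×ˢ Metric.closedBall (0 : ℝ × ℝ × ℝ) R :=
    (closedBall_prod_same (0:ℝ) (0 : ℝ × ℝ × ℝ) R).symm
  have hb2 : Metric.closedBall (0:ℝ × ℝ × ℝ) R =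
      Metric.closedBall (0:ℝ) R ×ˢ Metric.closedBall (0 : ℝ × ℝ) R :=
    (closedBall_prod_same (0:ℝ) (0 : ℝ × ℝ) R).symm
  have hv1 : (volume : Measure ℝ) (Metric.closedBall (0:ℝ) R) ≠ ⊤ :=
    (isCompact_closedBall _ _).measure_lt_top.ne
  have hv3 : (volume : Measure (ℝ × ℝ × ℝ)) (Metric.closedBall (0:ℝ × ℝ × ℝ) R) ≠ ⊤ :=
    (isCompact_closedBall _ _).measure_lt_top.ne
  have hv2 : (volume : Measure (ℝ × ℝ)) (Metric.closedBall (0:ℝ × ℝ) R) ≠ ⊤ :=
    (isCompact_closedBall _ _).measure_lt_top.ne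
  have hFR : ∫⁻ t in Metric.closedBall (0:ℝ) R, F t ≠ ⊤ :=
    ne_top_of_le_ne_top h (setLIntegral_le_lintegral _ _)
  have m4 : (volume : Measure E4).restrict (Metric.closedBall (0:E4) R) =
      ((volume : Measure ℝ).restrict (Metric.closedBall (0:ℝ) R)).prod
        ((volume : Measure (ℝ × ℝ × ℝ)).restrict (Metric.closedBall (0 : ℝ × ℝ × ℝ) R)) := by
    rw [Measure.prod_restrict, ← hb1]; rfl
  have m3 : (volume : Measure (ℝ × ℝ × ℝ)).restrict (Metric.closedBall (0:ℝ × ℝ × ℝ) R) =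
      ((volume : Measure ℝ).restrict (Metric.closedBall (0:ℝ) R)).prod
        ((volume : Measure (ℝ × ℝ)).restrict (Metric.closedBall (0 : ℝ × ℝ) R)) := by
    rw [Measure.prod_restrict, ← hb2]; rfl
  constructor
  · have h1 := lintegral_prod_mul (μ := (volume : Measure ℝ).restrict (Metric.closedBall (0:ℝ) R))
      (ν := (volume : Measure (ℝ × ℝ × ℝ)).restrict (Metric.closedBall (0 : ℝ × ℝ × ℝ) R))
      (f := F) (g := fun _ => 1) hF.aemeasurable aemeasurable_const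
    simp only [mul_one, lintegral_const, Measure.restrict_apply MeasurableSet.univ, univ_inter,
      one_mul] at h1
    rw [m4, h1]
    exact ENNReal.mul_ne_top hFR hv3
  · have h2 := lintegral_prod_mul (μ := (volume : Measure ℝ).restrict (Metric.closedBall (0:ℝ) R))
      (ν := (volume : Measure (ℝ × ℝ)).restrict (Metric.closedBall (0 : ℝ × ℝ) R))
      (f := F) (g := fun _ => 1) hF.aemeasurable aemeasurable_const
    simp only [mul_one, lintegral_const, Measure.restrict_apply MeasurableSet.univ, univ_inter,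
      one_mul] at h2
    rw [← m3] at h2
    have h1 := lintegral_prod_mul (μ := (volume : Measure ℝ).restrict (Metric.closedBall (0:ℝ) R))
      (ν := (volume : Measure (ℝ × ℝ × ℝ)).restrict (Metric.closedBall (0 : ℝ × ℝ × ℝ) R))
      (f := fun _ => 1) (g := fun y => F y.1) aemeasurable_const
      (hF.comp measurable_fst).aemeasurable
    simp only [one_mul, lintegral_const, Measure.restrict_apply MeasurableSet.univ, univ_inter,
      ] at h1
    rw [m4, h1, h2]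
    exact ENNReal.mul_ne_top hv1 (ENNReal.mul_ne_top hFR hv2)

end

end Vale.Agent.P354p.Ex
end
end

section

section

set_option maxSynthPendingDepth 3

open Set MeasureTheory Filter Topology

namespace Vale.Agent.P354a

/-- An essentially bounded continuous function on an open set is bounded. -/
lemma bdd_of_memLp {E F : Type*} [NormedAddCommGroup E] [MeasureSpace E] [BorelSpace E]
    [(volume : Measure E).IsOpenPosMeasure] [NormedAddCommGroup F]
    {g : E → F} {D : Set E} (hD : IsOpen D) (hg : ContinuousOn g D)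
    (hm : MemLp g ⊤ (volume.restrict D)) : ∃ L : ℝ, ∀ z ∈ D, ‖g z‖ ≤ L := by
  have h1 : eLpNormEssSup g (volume.restrict D) < ⊤ := by
    have := hm.2
    rwa [eLpNorm_exponent_top] at this
  obtain ⟨L, hL⟩ : ∃ L : ℝ, ENNReal.ofReal L = eLpNormEssSup g (volume.restrict D) :=
    ⟨_, ENNReal.ofReal_toReal h1.ne⟩
  refine ⟨|L|, ?_⟩
  have h2 : ∀ᵐ z ∂(volume.restrict D), ‖g z‖ₑ ≤ eLpNormEssSup g (volume.restrict D) :=
    ae_le_eLpNormEssSup
  rw [ae_restrict_iff' hD.measurableSet] at h2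
  set W : Set E := D ∩ (fun z => ‖g z‖) ⁻¹' Ioi |L| with hW
  have hWo : IsOpen W := hg.norm.isOpen_inter_preimage hD isOpen_Ioi
  have hW0 : volume W = 0 := by
    rw [measure_eq_zero_iff_ae_notMem]
    filter_upwards [h2] with z hz hzW
    have h3 := hz hzW.1
    rw [← hL, ← ofReal_norm] at h3
    have h4 : |L| < ‖g z‖ := hzW.2
    have h5 : ENNReal.ofReal ‖g z‖ ≤ ENNReal.ofReal |L| :=
      h3.trans (ENNReal.ofReal_le_ofReal (le_abs_self _))
    rw [ENNReal.ofReal_le_ofReal_iff (abs_nonneg _)] at h5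
    linarith only [h4, h5]
  have hWe : W = ∅ := hWo.measure_eq_zero_iff volume |>.1 hW0
  intro z hz
  by_contra hc
  push Not at hc
  have : z ∈ W := ⟨hz, hc⟩
  rw [hWe] at this
  exact this

end Vale.Agent.P354a
end
end

section

section

open scoped ContDiff NNReal
open MeasureTheory Set Filter Topology

namespace Vale.Agent.P354k
open P354n

theorem lineDeriv_neg_right' {f : R4 → ℝ} (x a : R4) (hf : DifferentiableAt ℝ f x) :
    lineDeriv ℝ f x (-a) = - lineDeriv ℝ f x a := by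
  rw [hf.lineDeriv_eq_fderiv, hf.lineDeriv_eq_fderiv, map_neg]

theorem volume_haar : Measure.IsAddHaarMeasure (volume : Measure R4) := by
  have h2 : Measure.IsAddHaarMeasure (volume : Measure (ℝ × ℝ)) := inferInstance
  have h3 : Measure.IsAddHaarMeasure (volume : Measure (ℝ × ℝ × ℝ)) :=
    inferInstanceAs ((volume : Measure ℝ).prod (volume : Measure (ℝ × ℝ))).IsAddHaarMeasure
  exact inferInstanceAs
    ((volume : Measure ℝ).prod (volume : Measure (ℝ × ℝ × ℝ))).IsAddHaarMeasure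

/-- A locally Lipschitz function has locally bounded distributional derivatives. -/
theorem isC0W1_of_locallyLipschitzOn {f : R4 → ℝ} {D : Set R4} (hD : IsOpen D)
    (hf : LocallyLipschitzOn D f) : IsC0W1 ⊤ f D := by
  -- near a compact subset, f agrees with a Lipschitz function
  have key : ∀ Q ⊆ D, IsCompact Q → ∃ (K : ℝ≥0) (g : R4 → ℝ), LipschitzWith K g ∧
      ∀ x ∈ Q, f =ᶠ[𝓝 x] g := by
    intro Q hQ hQc
    obtain ⟨L, hLc, hQL, hLD⟩ := exists_compact_between hQc hD hQ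
    obtain ⟨K, hK⟩ := (hf.mono hLD).exists_lipschitzOnWith_of_compact hLc
    obtain ⟨g, hg, hfg⟩ := hK.extend_real
    refine ⟨K, g, hg, fun x hx => ?_⟩
    filter_upwards [isOpen_interior.mem_nhds (hQL hx)] with y hy using hfg (interior_subset hy)
  refine ⟨hf.continuousOn, fun a => ⟨fun x => lineDeriv ℝ f x a, ?_, ?_⟩⟩
  · intro Q hQ hQc
    obtain ⟨K, g, hg, hfg⟩ := key Q hQ hQc
    have h1 : MemLp (fun x => lineDeriv ℝ g x a) ⊤ (volume.restrict Q) :=
      memLp_top_of_bound (measurable_lineDeriv hg.continuous).aestronglyMeasurable (K * ‖a‖)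
        (.of_forall fun x => norm_lineDeriv_le_of_lipschitz ℝ hg)
    refine h1.ae_eq ?_
    refine (ae_restrict_iff' hQc.measurableSet).2 (.of_forall fun x hx => ?_)
    exact ((hfg x hx).lineDeriv_eq (v := a)).symm
  · intro φ hφ hc hs
    obtain ⟨K, g, hg, hfg⟩ := key _ hs hc
    have hφ1 : ContDiff ℝ 1 φ := (contDiffOn_univ.1 hφ).of_le (by norm_num)
    have := volume_haar
    obtain ⟨K', hK'⟩ := ContDiff.lipschitzWith_of_hasCompactSupport hc hφ1 (by simp)
    have e1 := hg.integral_lineDeriv_mul_eq (μ := volume) hK' hc a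
    have e2 : ∀ x, f x * P354n.deriv φ x a = - (lineDeriv ℝ φ x (-a) * g x) := by
      intro x
      rw [lineDeriv_neg_right' x a (hφ1.differentiable (by simp) x)]
      by_cases hx : x ∈ tsupport φ
      · rw [(hfg x hx).self_of_nhds]
        simp only [P354n.deriv]
        ring
      · have : lineDeriv ℝ φ x a = 0 := by
          have h0 : φ =ᶠ[𝓝 x] fun _ => 0 := notMem_tsupport_iff_eventuallyEq.1 hx
          rw [h0.lineDeriv_eq]
          simp [lineDeriv]
        simp only [P354n.deriv]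
        rw [this]
        ring
    have e3 : ∀ x, lineDeriv ℝ f x a * φ x = lineDeriv ℝ g x a * φ x := by
      intro x
      by_cases hx : x ∈ tsupport φ
      · rw [(hfg x hx).lineDeriv_eq]
      · rw [image_eq_zero_of_notMem_tsupport hx, mul_zero, mul_zero]
    simp_rw [e2, e3, integral_neg, e1]

end Vale.Agent.P354k
end
end

section

section

open scoped ContDiff
open MeasureTheory Set Filter Topology

namespace Vale.Agent.P354p.Ex

variable {a e : ℝ}

/-- dominating function -/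
noncomputable def Hb (a : ℝ) (w x : E4) : ℝ := LLe a 0 x.1 * |w.1| + LLe a 0 x.2.1 * |w.2.1|

lemma Hb_nonneg (w x : E4) : 0 ≤ Hb a w x := by
  have h1 := LLe_nonneg (a := a) le_rfl x.1
  have h2 := LLe_nonneg (a := a) le_rfl x.2.1
  unfold Hb
  positivity

lemma Hw_le (he0 : 0 ≤ e) (w x : E4) : |Hw a e w x| ≤ Hb a w x := by
  have h1 := LLe_nonneg (a := a) he0 x.1
  have h2 := LLe_nonneg (a := a) he0 x.2.1
  have h3 := LLe_le (a := a) he0 x.1
  have h4 := LLe_le (a := a) he0 x.2.1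
  unfold Hw Hb
  refine (abs_add_le _ _).trans ?_
  rw [abs_mul, abs_mul, abs_of_nonneg h1, abs_of_nonneg h2]
  gcongr

lemma Hw_meas (w : E4) : Measurable (Hw a e w) := by
  unfold Hw
  have h1 : Measurable fun x : E4 => LLe a e x.1 := LLe_meas.comp measurable_fst
  have h2 : Measurable fun x : E4 => LLe a e x.2.1 :=
    LLe_meas.comp (measurable_fst.comp measurable_snd)
  exact (h1.mul_const _).add (h2.mul_const _)

lemma Hb_meas (w : E4) : Measurable (Hb a w) := by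
  unfold Hb
  have h1 : Measurable fun x : E4 => LLe a 0 x.1 := LLe_meas.comp measurable_fst
  have h2 : Measurable fun x : E4 => LLe a 0 x.2.1 :=
    LLe_meas.comp (measurable_fst.comp measurable_snd)
  exact (h1.mul_const _).add (h2.mul_const _)

/-- the dominating function is in `L^r` on balls -/
lemma Hb_Lr (ha0 : 0 ≤ a) {r : ℝ} (hr : 1 ≤ r) (har : a * r < 1) (w : E4) (R : ℝ) :
    ∫⁻ x in Metric.closedBall (0:E4) R, ‖Hb a w x‖ₑ ^ r ≠ ⊤ := by
  obtain ⟨h1, h2⟩ := lint_ball (F := fun t => ‖LLe a 0 t‖ₑ ^ r) (LLe_meas.enorm.pow_const r)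
    (LLe_Lr hr har ha0) R
  have hle : ∀ x : E4, ‖Hb a w x‖ₑ ^ r ≤ 2 ^ (r - 1) * (‖LLe a 0 x.1‖ₑ ^ r * ‖w.1‖ₑ ^ r +
      ‖LLe a 0 x.2.1‖ₑ ^ r * ‖w.2.1‖ₑ ^ r) := by
    intro x
    have h3 : ‖Hb a w x‖ₑ ≤ ‖LLe a 0 x.1‖ₑ * ‖w.1‖ₑ + ‖LLe a 0 x.2.1‖ₑ * ‖w.2.1‖ₑ := by
      unfold Hb
      refine (enorm_add_le _ _).trans ?_
      have he : ∀ y : ℝ, ‖|y|‖ₑ = ‖y‖ₑ := fun y => enorm_eq_iff_norm_eq.2 (norm_abs_eq_norm y)
      rw [enorm_mul, enorm_mul, he, he]
    calc ‖Hb a w x‖ₑ ^ r ≤ (‖LLe a 0 x.1‖ₑ * ‖w.1‖ₑ + ‖LLe a 0 x.2.1‖ₑ * ‖w.2.1‖ₑ) ^ r := by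
          (clear * - h3 hr; gcongr)
      _ ≤ 2 ^ (r - 1) * ((‖LLe a 0 x.1‖ₑ * ‖w.1‖ₑ) ^ r + (‖LLe a 0 x.2.1‖ₑ * ‖w.2.1‖ₑ) ^ r) :=
          ENNReal.rpow_add_le_mul_rpow_add_rpow _ _ hr
      _ = _ := by
          rw [ENNReal.mul_rpow_of_nonneg _ _ (by linarith only [hr]),
            ENNReal.mul_rpow_of_nonneg _ _ (by linarith only [hr])]
  refine ne_top_of_le_ne_top ?_ (lintegral_mono hle)
  have hr0 : (0:ℝ) ≤ r := by linarith only [hr]
  rw [lintegral_const_mul' _ _ (ENNReal.rpow_ne_top_of_nonneg (by linarith only [hr]) (by norm_num)),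
    lintegral_add_left]
  · refine ENNReal.mul_ne_top (ENNReal.rpow_ne_top_of_nonneg (by linarith only [hr]) (by norm_num))
      (ENNReal.add_ne_top.mpr ⟨?_, ?_⟩)
    · rw [lintegral_mul_const' _ _ (ENNReal.rpow_ne_top_of_nonneg hr0 enorm_ne_top)]
      exact ENNReal.mul_ne_top h1 (ENNReal.rpow_ne_top_of_nonneg hr0 enorm_ne_top)
    · rw [lintegral_mul_const' _ _ (ENNReal.rpow_ne_top_of_nonneg hr0 enorm_ne_top)]
      exact ENNReal.mul_ne_top h2 (ENNReal.rpow_ne_top_of_nonneg hr0 enorm_ne_top)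
  · have h4 : Measurable fun x : E4 => LLe a 0 x.1 := LLe_meas.comp measurable_fst
    exact (h4.enorm.pow_const r).mul_const _

lemma Hb_int (ha0 : 0 ≤ a) (ha : a ≤ 1 / 2) (w : E4) (R : ℝ) :
    IntegrableOn (Hb a w) (Metric.closedBall (0:E4) R) := by
  refine ⟨(Hb_meas w).aestronglyMeasurable, ?_⟩
  have h1 := Hb_Lr ha0 le_rfl (by linarith only [ha] : a * 1 < 1) w R
  simp only [ENNReal.rpow_one] at h1
  exact lt_top_iff_ne_top.2 h1

lemma Gf_cont (ha : a ≤ 1 / 2) : Continuous (Gf a e) := by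
  have h1 := (hh_cont ha).comp (cl_cont (e := e))
  have k1 : Continuous fun x : E4 => -x.1 := by fun_prop
  have k2 : Continuous fun x : E4 => -x.2.1 := by fun_prop
  unfold Gf
  exact (continuous_const.sub (h1.comp k1)).sub (h1.comp k2)

lemma Gf_bd (ha0 : 0 ≤ a) (ha : a ≤ 1 / 2) (he0 : 0 ≤ e) (he1 : e ≤ 1) (x : E4) :
    2 ≤ Gf a e x ∧ Gf a e x ≤ 22 := by
  have h1 := cl_mem (s := -x.1) he1
  have h2 := cl_mem (s := -x.2.1) he1
  obtain ⟨k1, k2⟩ := hh_bd ha0 ha (he0.trans h1.1) h1.2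
  obtain ⟨k3, k4⟩ := hh_bd ha0 ha (he0.trans h2.1) h2.2
  unfold Gf
  constructor <;> linarith only [k2, k4, k1, k3]

/-- **The weak derivative of the coefficient.** -/
theorem weak (ha0 : 0 ≤ a) (ha : a ≤ 1 / 2) (w : E4) {φ : E4 → ℝ} (hφ : ContDiff ℝ ∞ φ)
    (hc : HasCompactSupport φ) :
    ∫ x, Gf a 0 x * lineDeriv ℝ φ x w = - ∫ x, Hw a 0 w x * φ x := by
  have hhaar := haar4
  obtain ⟨Cφ, hφl⟩ := ContDiff.lipschitzWith_of_hasCompactSupport (𝕂 := ℝ) hc hφ (by simp)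
  set ε : ℕ → ℝ := fun n => 1 / ((n : ℝ) + 2) with hε
  have hε0 : ∀ n, 0 < ε n := fun n => by rw [hε]; (clear * -; positivity)
  have hε1 : ∀ n, ε n < 1 := fun n => by
    rw [hε]
    simp only []
    rw [div_lt_one (by (clear * -; positivity))]
    have : (0:ℝ) ≤ n := Nat.cast_nonneg n
    linarith only []
  have hεt : Tendsto ε atTop (𝓝 0) := by
    have h1 : Tendsto (fun n : ℕ => 1 / ((n : ℝ) + 1)) atTop (𝓝 0) :=
      tendsto_one_div_add_atTop_nhds_zero_nat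
    have h2 := (tendsto_add_atTop_iff_nat 1).2 h1
    refine h2.congr fun n => ?_
    rw [hε]
    push_cast
    congr 1
    ring
  have hdiff : ∀ x, DifferentiableAt ℝ φ x := fun x => (hφ.differentiable (by simp)).differentiableAt
  have hld : ∀ x v, lineDeriv ℝ φ x v = fderiv ℝ φ x v := fun x v => (hdiff x).lineDeriv_eq_fderiv
  -- the identity for the approximations
  have key : ∀ n, ∫ x, Hw a (ε n) w x * φ x = ∫ x, lineDeriv ℝ φ x (-w) * Gf a (ε n) x := by
    intro n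
    obtain ⟨C, hC⟩ := Gf_lip ha0 ha (hε0 n) (hε1 n).le
    rw [← LipschitzWith.integral_lineDeriv_mul_eq (μ := volume) hC hφl hc w]
    apply integral_congr_ae
    filter_upwards [ae_ne (-1), ae_ne (-(ε n))] with x h1 h2
    rw [(lineDeriv_Gf ha (hε0 n).le (hε1 n) w h1.1 h2.1 h1.2 h2.2).lineDeriv]
  -- the ball
  obtain ⟨R, hR⟩ := hc.isCompact.isBounded.subset_closedBall (0:E4)
  obtain ⟨B, hB⟩ := hc.exists_bound_of_continuous hφ.continuous
  have hφ0 : ∀ x, x ∉ Metric.closedBall (0:E4) R → φ x = 0 := by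
    intro x hx
    by_contra h
    exact hx (hR (subset_tsupport φ h))
  have lim1 : Tendsto (fun n => ∫ x, Hw a (ε n) w x * φ x) atTop
      (𝓝 (∫ x, Hw a 0 w x * φ x)) := by
    refine tendsto_integral_of_dominated_convergence
      ((Metric.closedBall (0:E4) R).indicator (fun x => B * Hb a w x)) ?_ ?_ ?_ ?_
    · intro n
      exact ((Hw_meas w).mul hφ.continuous.measurable).aestronglyMeasurable
    · rw [integrable_indicator_iff Metric.isClosed_closedBall.measurableSet]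
      exact (Hb_int ha0 ha w R).const_mul B
    · intro n
      refine Eventually.of_forall fun x => ?_
      by_cases hx : x ∈ Metric.closedBall (0:E4) R
      · rw [indicator_of_mem hx, norm_mul, Real.norm_eq_abs, mul_comm B]
        exact mul_le_mul (Hw_le (hε0 n).le w x) (hB x) (norm_nonneg _) (Hb_nonneg w x)
      · rw [indicator_of_notMem hx, hφ0 x hx, mul_zero, norm_zero]
    · refine Eventually.of_forall fun x => ?_
      have h1 : ∀ t : ℝ, Tendsto (fun n => LLe a (ε n) t) atTop (𝓝 (LLe a 0 t)) := by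
        intro t
        refine tendsto_const_nhds.congr' ?_
        by_cases ht : -1 < t ∧ t < 0
        · filter_upwards [hεt.eventually (gt_mem_nhds (show 0 < -t by linarith only [ht.2]))] with n hn
          unfold LLe
          rw [if_pos ⟨ht.1, by linarith only [ht.2]⟩, if_pos ⟨ht.1, by linarith only [hn]⟩]
        · refine Eventually.of_forall fun n => ?_
          show LLe a 0 t = LLe a (ε n) t
          have k1 : ¬ (-1 < t ∧ t < -(0:ℝ)) := by rw [neg_zero]; exact ht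
          have k2 : ¬ (-1 < t ∧ t < -(ε n)) := fun h3 => ht ⟨h3.1, by linarith only [h3.2, hε0 n]⟩
          unfold LLe
          rw [if_neg k1, if_neg k2]
      have h2 : Tendsto (fun n => Hw a (ε n) w x) atTop (𝓝 (Hw a 0 w x)) := by
        unfold Hw
        exact ((h1 x.1).mul_const _).add ((h1 x.2.1).mul_const _)
      exact h2.mul_const _
  have hfd : Continuous (fun x => fderiv ℝ φ x (-w)) :=
    (hφ.continuous_fderiv (by simp)).clm_apply continuous_const
  have hfc : HasCompactSupport (fun x => fderiv ℝ φ x (-w)) := by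
    refine hc.mono' ?_
    intro x hx
    by_contra h
    apply hx
    have h0 : φ =ᶠ[𝓝 x] fun _ => 0 := notMem_tsupport_iff_eventuallyEq.1 h
    show fderiv ℝ φ x (-w) = 0
    rw [h0.fderiv_eq]
    simp only [fderiv_fun_const, Pi.zero_apply, zero_apply]
  have lim2 : Tendsto (fun n => ∫ x, lineDeriv ℝ φ x (-w) * Gf a (ε n) x) atTop
      (𝓝 (∫ x, lineDeriv ℝ φ x (-w) * Gf a 0 x)) := by
    simp only [hld]
    refine tendsto_integral_of_dominated_convergence (fun x => |fderiv ℝ φ x (-w)| * 22) ?_ ?_ ?_ ?_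
    · intro n
      exact (hfd.mul (Gf_cont ha)).measurable.aestronglyMeasurable
    · exact ((hfd.integrable_of_hasCompactSupport hfc).abs).mul_const _
    · intro n
      refine Eventually.of_forall fun x => ?_
      obtain ⟨h1, h2⟩ := Gf_bd ha0 ha (hε0 n).le (hε1 n).le x
      rw [norm_mul, Real.norm_eq_abs, Real.norm_eq_abs, abs_of_nonneg (by linarith only [h1] : 0 ≤ Gf a (ε n) x)]
      (clear * - h2; gcongr)
    · refine Eventually.of_forall fun x => ?_
      have h1 : ∀ t : ℝ, Tendsto (fun n => hh a (cl (ε n) t)) atTop (𝓝 (hh a (cl 0 t))) := by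
        intro t
        refine ((hh_cont ha).tendsto _).comp ?_
        have h2 : Continuous fun e : ℝ => cl e t := by unfold cl; fun_prop
        exact (h2.tendsto 0).comp hεt
      have h2 : Tendsto (fun n => Gf a (ε n) x) atTop (𝓝 (Gf a 0 x)) := by
        unfold Gf
        exact ((h1 (-x.1)).const_sub 22).sub (h1 (-x.2.1))
      exact h2.const_mul _
  have heq := tendsto_nhds_unique (lim1.congr key) lim2
  rw [heq, ← integral_neg]
  congr 1
  funext x
  rw [hld, hld, map_neg]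
  ring

end Vale.Agent.P354p.Ex
end
end

section

section

set_option linter.unusedSectionVars false
set_option maxSynthPendingDepth 3

open scoped Manifold ContDiff
open MeasureTheory Set Topology Filter

namespace Vale.Agent.P354n

/-- the same space, with the definitions of the internal folder -/
abbrev Up (M : Spc) : P354p.Spc where
  pt := M.pt
  top := M.top
  hausdorff := M.hausdorff
  Chart := M.Chart
  toE := M.toE
  cover := M.cover
  g := M.g
  X := M.X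

section

variable {M N : Spc} {Reg : (R4 → ℝ) → Set R4 → Prop} {ι : M.pt → N.pt}

theorem IsIsom.up {f : M.pt → N.pt} (h : IsIsom f) :
    P354p.IsIsom (M := Up M) (N := Up N) f := by
  rintro e e' F D rfl rfl
  exact ⟨fun y hy => ((h e e' _ rfl y hy.1 hy.2).1).contDiffWithinAt,
    fun y hy => (h e e' _ rfl y hy.1 hy.2).2⟩

theorem IsSpacetime.up (h : IsSpacetime Reg M) : P354p.IsSpacetime Reg (Up M) where
  tensor := h.tensor.up
  signature := h.signature
  timelike := h.timelike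
  continuous := h.continuous
  regular := h.regular

theorem IsFutureCurve.up {m : ℝ} {I : Set ℝ} {c : ℝ → M.pt} (h : IsFutureCurve M m I c)
    (hm : 0 ≤ m) : P354p.IsFutureCurve (Up M) m I c := by
  refine ⟨h.1, fun t ht e he => ?_⟩
  obtain ⟨h1, h2⟩ := h.2 t ht e he
  refine ⟨h1, fun y w hy hw => ?_⟩
  obtain ⟨h3, h4⟩ := h2 y w hy hw
  exact ⟨lt_of_lt_of_le h3 (by linarith), h3.le, h4⟩

theorem IsFutureCurve.of {I : Set ℝ} {c : ℝ → M.pt}
    (h : P354p.IsFutureCurve (Up M) 0 I c) : IsFutureCurve M 0 I c := by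
  refine ⟨h.1, fun t ht e he => ?_⟩
  obtain ⟨h1, h2⟩ := h.2 t ht e he
  refine ⟨h1, fun y w hy hw => ?_⟩
  obtain ⟨h3, _, h4⟩ := h2 y w hy hw
  exact ⟨by rw [neg_zero]; exact h3, h4⟩

theorem isFar_up {a : ℝ → M.pt} (h : IsFar M a) : P354p.IsFar (Up M) a := by
  intro b hb
  obtain ⟨s, hs, h1⟩ := h b hb
  refine ⟨s, hs, fun L => ?_⟩
  obtain ⟨t, ht, H, h2, h3, h4, h5⟩ := h1 (max L 0)
  refine ⟨t, ht, H, h2, h3, fun y hy => ⟨(h4 y hy).1.up le_rfl, (h4 y hy).2⟩, ?_⟩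
  have h6 := h5.up (le_max_right _ _)
  refine ⟨h6.1, fun t ht e he => ⟨(h6.2 t ht e he).1, fun y w hy hw => ?_⟩⟩
  obtain ⟨k1, k2, k3⟩ := (h6.2 t ht e he).2 y w hy hw
  exact ⟨k1, k2.trans (by linarith [le_max_left L 0]), k3⟩

end

end Vale.Agent.P354n
end
end

section

section

open scoped Manifold ContDiff
open MeasureTheory Set

namespace Vale.Agent.P354p

lemma integrable_mul_of_continuousOn {f φ : R4 → ℝ} {V : Set R4} (hV : IsOpen V)
    (hf : ContinuousOn f V) (hφ : Continuous φ) (hc : HasCompactSupport φ)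
    (hs : tsupport φ ⊆ V) : Integrable (fun x => f x * φ x) := by
  have hcont : Continuous (fun x => f x * φ x) := by
    apply ContinuousOn.continuous_of_tsupport_subset (s := V) (hf.mul hφ.continuousOn) hV
    exact (tsupport_mul_subset_right).trans hs
  exact hcont.integrable_of_hasCompactSupport (hc.mul_left)

lemma volume_haar : Measure.IsAddHaarMeasure (volume : Measure R4) := by
  have h2 : Measure.IsAddHaarMeasure (volume : Measure (ℝ × ℝ)) := inferInstance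
  have h3 : Measure.IsAddHaarMeasure (volume : Measure (ℝ × ℝ × ℝ)) :=
    Measure.prod.instIsAddHaarMeasure (volume : Measure ℝ) (volume : Measure (ℝ × ℝ))
  exact Measure.prod.instIsAddHaarMeasure (volume : Measure ℝ) (volume : Measure (ℝ × ℝ × ℝ))

theorem classical_eq_weak {f h : R4 → ℝ} {V : Set R4} (hV : IsOpen V)
    (hf : ContDiffOn ℝ 1 f V) (a : R4) (hh : LocallyIntegrableOn h V)
    (hw : ∀ φ : R4 → ℝ, ContDiff ℝ ∞ φ → HasCompactSupport φ → tsupport φ ⊆ V →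
      ∫ x, f x * fderiv ℝ φ x a = - ∫ x, h x * φ x) :
    ∀ᵐ x, x ∈ V → h x = fderiv ℝ f x a := by
  have hvol := volume_haar
  have hfd : ContinuousOn (fun x => fderiv ℝ f x a) V :=
    (hf.continuousOn_fderiv_of_isOpen hV le_rfl).clm_apply continuousOn_const
  have hloc : LocallyIntegrableOn (fun x => h x - fderiv ℝ f x a) V :=
    hh.sub (hfd.locallyIntegrableOn hV.measurableSet)
  have key := hV.ae_eq_zero_of_integral_contDiff_smul_eq_zero hloc ?_
  · filter_upwards [key] with x hx hxV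
    have := hx hxV
    linarith only [this]
  · intro φ hφ hc hs
    have h1 : Integrable (fun x => fderiv ℝ f x a * φ x) :=
      integrable_mul_of_continuousOn hV hfd hφ.continuous hc hs
    have hφ' : Continuous (fun x => fderiv ℝ φ x a) :=
      (hφ.continuous_fderiv (by simp)).clm_apply continuous_const
    have hs' : tsupport (fun x => fderiv ℝ φ x a) ⊆ tsupport φ :=
      tsupport_fderiv_apply_subset ℝ a
    have hc' : HasCompactSupport (fun x => fderiv ℝ φ x a) :=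
      hc.mono' (subset_closure.trans hs')
    have h2 : Integrable (fun x => f x * fderiv ℝ φ x a) :=
      integrable_mul_of_continuousOn hV hf.continuousOn hφ' hc' (hs'.trans hs)
    have h3 : Integrable (fun x => f x * φ x) :=
      integrable_mul_of_continuousOn hV hf.continuousOn hφ.continuous hc hs
    have h4 : Integrable (fun x => h x * φ x) := by
      have : IntegrableOn (fun x => h x * φ x) (tsupport φ) := by
        have hK : IntegrableOn h (tsupport φ) :=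
          (hh.integrableOn_compact_subset hs hc)
        exact hK.mul_continuousOn hφ.continuous.continuousOn hc
      rw [← integrableOn_univ]
      refine this.of_forall_sdiff_eq_zero MeasurableSet.univ ?_
      intro x hx
      have : φ x = 0 := image_eq_zero_of_notMem_tsupport hx.2
      simp [this]
    have e1 := integral_mul_fderiv_eq_neg_fderiv_mul_of_integrable (μ := volume) (f := f) (g := φ)
      (v := a) h1 h2 h3 (fun x hx => (hf.differentiableOn (by simp)).differentiableAt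
        (hV.mem_nhds (hs hx))) (fun x _ => hφ.differentiable (by simp) x)
    have e2 := hw φ hφ hc hs
    have e3 : ∫ x, φ x • (h x - fderiv ℝ f x a) =
        (∫ x, h x * φ x) - ∫ x, fderiv ℝ f x a * φ x := by
      rw [← integral_sub h4 h1]
      congr 1
      ext x
      simp only [smul_eq_mul]
      ring
    rw [e3]
    linarith only [e1, e2]

lemma deriv_eq {f : R4 → ℝ} {x : R4} (hf : DifferentiableAt ℝ f x) (a : R4) :
    deriv f x a = fderiv ℝ f x a := hf.lineDeriv_eq_fderiv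

theorem memLp_fderiv {pp : ENNReal} (hp : 2 ≤ pp) {f : R4 → ℝ} {D V : Set R4} (hV : IsOpen V)
    (hVD : V ⊆ D)
    (hf : (IsC0W1 pp) f D) (hfV : ContDiffOn ℝ 1 f V) (a : R4) {K : Set R4} (hK : IsCompact K)
    (hKD : K ⊆ D) : MemLp (fun x => fderiv ℝ f x a) pp (volume.restrict (K ∩ V)) := by
  have hvol := volume_haar
  obtain ⟨h, hh, hw⟩ := hf.2 a
  have hloc : LocallyIntegrableOn h V := by
    rw [locallyIntegrableOn_iff hV.isLocallyClosed]
    intro Q hQV hQ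
    have h1 := hh Q (hQV.trans hVD) hQ
    have : IsFiniteMeasure (volume.restrict Q) := ⟨by
      rw [Measure.restrict_apply MeasurableSet.univ, univ_inter]
      exact hQ.measure_lt_top⟩
    exact memLp_one_iff_integrable.1 (h1.mono_exponent (le_trans (by norm_num) hp))
  have hae := classical_eq_weak hV hfV a hloc (fun φ h1 h2 h3 => by
    have h4 := hw φ h1.contDiffOn h2 (h3.trans hVD)
    rw [← h4]
    refine integral_congr_ae (Filter.Eventually.of_forall fun x => ?_)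
    simp only
    rw [deriv_eq (h1.differentiable (by simp) x)])
  have h1 : MemLp h pp (volume.restrict (K ∩ V)) :=
    (hh K hKD hK).mono_measure (Measure.restrict_mono inter_subset_left le_rfl)
  refine (memLp_congr_ae ?_).mp h1
  rw [Filter.EventuallyEq, ae_restrict_iff' (hK.measurableSet.inter hV.measurableSet)]
  filter_upwards [hae] with x hx hxV
  exact hx hxV.2

end Vale.Agent.P354p
end
end

section

section

set_option linter.unusedSectionVars false
set_option maxSynthPendingDepth 3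

open scoped Manifold ContDiff
open MeasureTheory Set Topology

namespace Vale.Agent.P354p

open Vale.Agent.P354 (Bilin LBasis P4 Coef Iso)


/-- affine change of coordinates -/
noncomputable def yv (y0 : R4) (A : R4 ≃L[ℝ] R4) (z : R4) : R4 := y0 + A z

lemma yv_continuous (y0 : R4) (A : R4 ≃L[ℝ] R4) : Continuous (yv y0 A) := by
  unfold yv; (clear * -; fun_prop)

lemma yv_contDiff (y0 : R4) (A : R4 ≃L[ℝ] R4) : ContDiff ℝ ∞ (yv y0 A) := by
  unfold yv; exact contDiff_const.add A.contDiff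

lemma yv_hasFDerivAt (y0 : R4) (A : R4 ≃L[ℝ] R4) (z : R4) :
    HasFDerivAt (yv y0 A) (A : R4 →L[ℝ] R4) z := by
  unfold yv; exact (A.hasFDerivAt).const_add y0

/-- elementary bilinear forms -/
noncomputable def Qf (A : R4 ≃L[ℝ] R4) (i j : Fin 4) : R4 →L[ℝ] R4 →L[ℝ] ℝ :=
  ((crd i).comp (A : R4 →L[ℝ] R4)).smulRight ((crd j).comp (A : R4 →L[ℝ] R4))

lemma Qf_apply (A : R4 ≃L[ℝ] R4) (i j : Fin 4) (a b : R4) :
    Qf A i j a b = crd i (A a) * crd j (A b) := by
  simp only [Qf, ContinuousLinearMap.smulRight_apply, ContinuousLinearMap.comp_apply, ContinuousLinearEquiv.coe_coe, smul_apply, smul_eq_mul]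

/-- components -/
noncomputable def comp {N : Spc} (e' : N.Chart) (i j : Fin 4) (y : R4) : ℝ :=
  N.g e' y (bas i) (bas j)

/-- the metric in exotic coordinates -/
noncomputable def Gf (c : Fin 4 → Fin 4 → R4 → ℝ) (y0 : R4) (A : R4 ≃L[ℝ] R4) (z : R4) :
    R4 →L[ℝ] R4 →L[ℝ] ℝ :=
  ∑ i, ∑ j, c i j (yv y0 A z) • Qf A i j

lemma Gf_apply {N : Spc} {e' : N.Chart} {y0 : R4} {A : R4 ≃L[ℝ] R4} {z : R4}
    (hB : Bilin (N.g e' (yv y0 A z))) (a b : R4) :
    Gf (comp e') y0 A z a b = N.g e' (yv y0 A z) (A a) (A b) := by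
  rw [bilin_expand hB]
  simp only [Gf, _root_.sum_apply, _root_.smul_apply, Qf_apply,
    smul_eq_mul]
  refine Finset.sum_congr rfl fun i _ => Finset.sum_congr rfl fun j _ => ?_
  simp only [comp]
  ring

lemma Gf_continuousOn {c : Fin 4 → Fin 4 → R4 → ℝ} {D : Set R4}
    (hc : ∀ i j, ContinuousOn (c i j) D) (y0 : R4) (A : R4 ≃L[ℝ] R4) :
    ContinuousOn (Gf c y0 A) (yv y0 A ⁻¹' D) := by
  unfold Gf
  refine continuousOn_finsetSum _ fun i _ => continuousOn_finsetSum _ fun j _ => ?_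
  exact ((hc i j).comp (yv_continuous y0 A).continuousOn (fun z hz => hz)).smul
    continuousOn_const

lemma Gf_contDiffOn {c : Fin 4 → Fin 4 → R4 → ℝ} {D : Set R4}
    (hc : ∀ i j, ContDiffOn ℝ ∞ (c i j) D) (y0 : R4) (A : R4 ≃L[ℝ] R4) :
    ContDiffOn ℝ ∞ (Gf c y0 A) (yv y0 A ⁻¹' D) := by
  unfold Gf
  refine ContDiffOn.sum fun i _ => ContDiffOn.sum fun j _ => ?_
  exact ((hc i j).comp (yv_contDiff y0 A).contDiffOn (fun z hz => hz)).smul
    contDiffOn_const

lemma norm_clm_le_sum (L : R4 →L[ℝ] ℝ) : ‖L‖ ≤ ∑ k, |L (bas k)| := by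
  refine ContinuousLinearMap.opNorm_le_bound _ (Finset.sum_nonneg fun _ _ => abs_nonneg _) ?_
  intro x
  have hx : x = ∑ k, crd k x • bas k := by
    rw [Fin.sum_univ_four]; exact bas_decomp x
  conv_lhs => rw [hx, map_sum]
  calc ‖∑ k, L (crd k x • bas k)‖ ≤ ∑ k, ‖L (crd k x • bas k)‖ := norm_sum_le _ _
    _ ≤ ∑ k, |L (bas k)| * ‖x‖ := by
        refine Finset.sum_le_sum fun k _ => ?_
        rw [map_smul, smul_eq_mul, norm_mul, mul_comm]
        gcongr
        · exact le_of_eq (Real.norm_eq_abs _)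
        · exact abs_crd_le k x
    _ = (∑ k, |L (bas k)|) * ‖x‖ := by rw [Finset.sum_mul]

lemma Gf_fderiv_bound {c : Fin 4 → Fin 4 → R4 → ℝ} {y0 : R4} {A : R4 ≃L[ℝ] R4} {z : R4}
    (hc : ∀ i j, DifferentiableAt ℝ (c i j) (yv y0 A z)) :
    ‖fderiv ℝ (Gf c y0 A) z‖ ≤ ∑ i, ∑ j, ∑ k,
      (‖(A : R4 →L[ℝ] R4)‖ * ‖Qf A i j‖) * |fderiv ℝ (c i j) (yv y0 A z) (bas k)| := by
  have h1 : HasFDerivAt (Gf c y0 A) (∑ i, ∑ j,
      (((fderiv ℝ (c i j) (yv y0 A z)).comp (A : R4 →L[ℝ] R4)).smulRight (Qf A i j))) z := by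
    unfold Gf
    refine HasFDerivAt.fun_sum fun i _ => HasFDerivAt.fun_sum fun j _ => ?_
    have h2 : HasFDerivAt (fun z => c i j (yv y0 A z))
        ((fderiv ℝ (c i j) (yv y0 A z)).comp (A : R4 →L[ℝ] R4)) z :=
      (hc i j).hasFDerivAt.comp z (yv_hasFDerivAt y0 A z)
    exact h2.smul_const (Qf A i j)
  rw [h1.fderiv]
  calc _ ≤ ∑ i, ‖∑ j, (((fderiv ℝ (c i j) (yv y0 A z)).comp
        (A : R4 →L[ℝ] R4)).smulRight (Qf A i j))‖ := norm_sum_le _ _
    _ ≤ ∑ i, ∑ j, ‖(((fderiv ℝ (c i j) (yv y0 A z)).comp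
        (A : R4 →L[ℝ] R4)).smulRight (Qf A i j))‖ :=
        Finset.sum_le_sum fun i _ => norm_sum_le _ _
    _ ≤ _ := by
        refine Finset.sum_le_sum fun i _ => Finset.sum_le_sum fun j _ => ?_
        rw [ContinuousLinearMap.norm_smulRight_apply, ← Finset.mul_sum]
        calc ‖(fderiv ℝ (c i j) (yv y0 A z)).comp (A : R4 →L[ℝ] R4)‖ * ‖Qf A i j‖
            ≤ (‖fderiv ℝ (c i j) (yv y0 A z)‖ * ‖(A : R4 →L[ℝ] R4)‖) * ‖Qf A i j‖ := by
              gcongr; exact ContinuousLinearMap.opNorm_comp_le _ _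
          _ ≤ ((∑ k, |fderiv ℝ (c i j) (yv y0 A z) (bas k)|) * ‖(A : R4 →L[ℝ] R4)‖)
                * ‖Qf A i j‖ := by
              gcongr; exact norm_clm_le_sum _
          _ = _ := by ring

lemma map_yv_volume (y0 : R4) (A : R4 ≃L[ℝ] R4) :
    ∃ c : NNReal, (volume : Measure R4).map (yv y0 A) = c • (volume : Measure R4) := by
  have h0 := volume_haar
  have hHaar : Measure.IsAddHaarMeasure ((volume : Measure R4).map (A : R4 → R4)) :=
    A.isAddHaarMeasure_map volume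
  obtain ⟨c, hc⟩ : ∃ c : NNReal, (volume : Measure R4).map (A : R4 → R4) =
      c • (volume : Measure R4) := ⟨_, Measure.isAddLeftInvariant_eq_smul _ _⟩
  refine ⟨c, ?_⟩
  have : yv y0 A = (fun x => y0 + x) ∘ (A : R4 → R4) := rfl
  rw [this, ← Measure.map_map (measurable_const_add y0) A.continuous.measurable, hc,
      Measure.map_smul, map_add_left_eq_self]

lemma memLp_comp_yv {pp : ENNReal} {f : R4 → ℝ} {S : Set R4} (hS : MeasurableSet S) (y0 : R4)
    (A : R4 ≃L[ℝ] R4) (hf : MemLp f pp (volume.restrict S)) :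
    MemLp (fun z => f (yv y0 A z)) pp (volume.restrict (yv y0 A ⁻¹' S)) := by
  have hmeas : Measurable (yv y0 A) := (yv_continuous y0 A).measurable
  obtain ⟨c, hmap⟩ := map_yv_volume y0 A
  have h1 : MemLp f pp (((volume : Measure R4).restrict (yv y0 A ⁻¹' S)).map (yv y0 A)) := by
    rw [← Measure.restrict_map hmeas hS, hmap, Measure.restrict_smul]
    exact hf.smul_measure (by simp)
  exact (memLp_map_measure_iff h1.1 hmeas.aemeasurable).1 h1

lemma Gf_energy {pp : ENNReal} (hpp : 2 ≤ pp) {c : Fin 4 → Fin 4 → R4 → ℝ} {D W K : Set R4} (hW : IsOpen W) (hWD : W ⊆ D)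
    (hc : ∀ i j, (IsC0W1 pp) (c i j) D) (hcW : ∀ i j, ContDiffOn ℝ ∞ (c i j) W)
    (hK : IsCompact K) (hKD : K ⊆ D) (y0 : R4) (A : R4 ≃L[ℝ] R4) :
    MemLp (fderiv ℝ (Gf c y0 A)) pp (volume.restrict (yv y0 A ⁻¹' (K ∩ W))) := by
  set S : Set R4 := K ∩ W with hS
  have hSm : MeasurableSet S := hK.measurableSet.inter hW.measurableSet
  have hmeasS : MeasurableSet (yv y0 A ⁻¹' S) := (yv_continuous y0 A).measurable hSm
  have hG : ContDiffOn ℝ ∞ (Gf c y0 A) (yv y0 A ⁻¹' W) := Gf_contDiffOn hcW y0 A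
  have hWo : IsOpen (yv y0 A ⁻¹' W) := hW.preimage (yv_continuous y0 A)
  have hGc : ContinuousOn (fderiv ℝ (Gf c y0 A)) (yv y0 A ⁻¹' W) :=
    hG.continuousOn_fderiv_of_isOpen hWo (by simp only [WithTop.one_le_coe, le_top])
  have h1 : ∀ i j k, MemLp (fun z => (‖(A : R4 →L[ℝ] R4)‖ * ‖Qf A i j‖) *
      |fderiv ℝ (c i j) (yv y0 A z) (bas k)|) pp (volume.restrict (yv y0 A ⁻¹' S)) := by
    intro i j k
    have h2 := memLp_fderiv hpp hW hWD (hc i j) ((hcW i j).of_le (by simp only [WithTop.one_le_coe, le_top])) (bas k) hK hKD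
    have h3 := memLp_comp_yv hSm y0 A h2
    exact h3.abs.const_mul _
  have h2 : MemLp (fun z => ∑ i, ∑ j, ∑ k, (‖(A : R4 →L[ℝ] R4)‖ * ‖Qf A i j‖) *
      |fderiv ℝ (c i j) (yv y0 A z) (bas k)|) pp (volume.restrict (yv y0 A ⁻¹' S)) := by
    refine memLp_finsetSum _ fun i _ => memLp_finsetSum _ fun j _ =>
      memLp_finsetSum _ fun k _ => h1 i j k
  have h3 : MemLp (fderiv ℝ (Gf c y0 A)) pp (volume.restrict (yv y0 A ⁻¹' S)) := by
    refine h2.mono ?_ ?_
    · exact (hGc.mono (preimage_mono inter_subset_right)).aestronglyMeasurable hmeasS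
    · rw [ae_restrict_iff' hmeasS]
      refine Filter.Eventually.of_forall fun z hz => ?_
      have hd : ∀ i j, DifferentiableAt ℝ (c i j) (yv y0 A z) := fun i j =>
        ((hcW i j).differentiableOn (by simp)).differentiableAt (hW.mem_nhds hz.2)
      exact (Gf_fderiv_bound hd).trans (le_abs_self _)
  exact h3

/-- the permutation of coordinates from (u, v, th1, th2) to (th1, (v, (u, th2))) -/
noncomputable def Sp : R4 ≃L[ℝ] R4 :=
  LinearEquiv.toContinuousLinearEquiv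
    { toFun := fun x => (x.2.2.1, x.2.1, x.1, x.2.2.2)
      invFun := fun x => (x.2.2.1, x.2.1, x.1, x.2.2.2)
      map_add' := fun x y => by simp only [Prod.snd_add, Prod.fst_add, Prod.mk_add_mk]
      map_smul' := fun t x => by simp only [Prod.smul_snd, Prod.smul_fst, smul_eq_mul, Real.ringHom_apply, Prod.smul_mk]
      left_inv := fun x => by simp
      right_inv := fun z => by simp }

lemma Sp_apply (x : R4) : Sp x = (x.2.2.1, x.2.1, x.1, x.2.2.2) := rfl

lemma Sp_symm_apply (x : R4) : Sp.symm x = (x.2.2.1, x.2.1, x.1, x.2.2.2) := rfl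

/-- coefficients transported to the internal order of coordinates -/
noncomputable def toCoef (C : ℕ → R4 → ℝ) : Coef where
  om := fun z => C 3 (Sp.symm z)
  s1 := fun z => C 4 (Sp.symm z)
  s2 := fun z => C 5 (Sp.symm z)
  g11 := fun z => C 0 (Sp.symm z)
  g12 := fun z => C 1 (Sp.symm z)
  g22 := fun z => C 2 (Sp.symm z)

lemma form_eq (C : ℕ → R4 → ℝ) {x : R4} (h6 : C 6 x = 0) (h7 : C 7 x = 0) (a b : R4) :
    form C x a b = (toCoef C).gF (Sp x) (Sp a) (Sp b) := by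
  simp only [form, ang, h1, c1, cv, h6, cu, h2, c2, h7, Coef.gF, toCoef, ContinuousLinearEquiv.symm_apply_apply, Coef.h1, Coef.h2]
  simp only [Sp_apply]
  ring

end Vale.Agent.P354p
end
end

section

section

set_option linter.unusedSectionVars false
set_option maxSynthPendingDepth 3

open scoped Manifold ContDiff
open MeasureTheory Set Topology

namespace Vale.Agent.P354p

open Vale.Agent.P354 (Bilin LBasis P4)

section

variable {N : Spc} {e' : N.Chart} {c : ℝ → N.pt}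

/-- velocity of the curve at the end point, in the chart -/
noncomputable def endVel (e' : N.Chart) (c : ℝ → N.pt) : R4 :=
  derivWithin (fun s => co e' (c s)) (Icc 0 1) 1

lemma endVel_timelike (hp : On e' (c 1)) (hc : IsFutureCurve N 0 (Icc 0 1) c) :
    N.g e' (co e' (c 1)) (endVel e' c) (endVel e' c) < 0 :=
  ((hc.2 1 ⟨zero_le_one, le_rfl⟩ e' hp).2 _ _ rfl rfl).1

lemma endVel_future (hp : On e' (c 1)) (hc : IsFutureCurve N 0 (Icc 0 1) c) :
    N.g e' (co e' (c 1)) (endVel e' c) (N.X e' (co e' (c 1))) < 0 :=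
  ((hc.2 1 ⟨zero_le_one, le_rfl⟩ e' hp).2 _ _ rfl rfl).2.2

lemma curve_hasDerivWithinAt (hp : On e' (c 1)) (hc : IsFutureCurve N 0 (Icc 0 1) c) :
    HasDerivWithinAt (fun t => co e' (c t)) (endVel e' c) (Icc 0 1) 1 := by
  have h1 := (hc.2 1 ⟨zero_le_one, le_rfl⟩ e' hp).1
  exact (h1.differentiableWithinAt (by simp)).hasDerivWithinAt

lemma curve_contDiffOn (hp : On e' (c 1)) (hc : IsFutureCurve N 0 (Icc 0 1) c) :
    ∃ δ : ℝ, 0 < δ ∧ δ < 1 ∧ (∀ t ∈ Icc (1 - δ) 1, On e' (c t)) ∧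
      ContDiffOn ℝ 1 (fun t => co e' (c t)) (Icc (1 - δ) 1) := by
  have hcont : ContinuousWithinAt c (Icc 0 1) 1 := hc.1 1 ⟨zero_le_one, le_rfl⟩
  have h1 : c ⁻¹' (N.toE e').source ∈ 𝓝[Icc 0 1] (1 : ℝ) :=
    hcont.preimage_mem_nhdsWithin ((N.toE e').open_source.mem_nhds hp)
  rw [Metric.mem_nhdsWithin_iff] at h1
  obtain ⟨ε, hε, hball⟩ := h1
  set δ := min (ε / 2) (1 / 2) with hδ
  have hδ0 : 0 < δ := by (clear * - hε; positivity)
  have hδ1 : δ ≤ 1 / 2 := min_le_right _ _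
  have hδ2 : δ ≤ ε / 2 := min_le_left _ _
  have hsub : ∀ t ∈ Icc (1 - δ) 1, On e' (c t) := by
    intro t ht
    apply hball
    refine ⟨?_, ⟨by linarith only [hδ0, hδ1, ht.1], ht.2⟩⟩
    rw [Metric.mem_ball, Real.dist_eq, abs_lt]
    constructor <;> linarith only [hδ0, hδ2, ht.1, ht.2]
  refine ⟨δ, hδ0, by linarith only [hδ0, hδ1], hsub, ?_⟩
  have hIcc : Icc (1 - δ) (1:ℝ) ⊆ Icc 0 1 := Icc_subset_Icc (by linarith only [hδ1]) le_rfl
  intro t ht
  exact ((hc.2 t (hIcc ht) e' (hsub t ht)).1).mono hIcc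

/-- the curve in the exotic coordinates -/
noncomputable def gam (e' : N.Chart) (A : R4 ≃L[ℝ] R4) (c : ℝ → N.pt) (t : ℝ) :
    R4 := A.symm (co e' (c t) - co e' (c 1))

lemma gam_one (A : R4 ≃L[ℝ] R4) : gam e' A c 1 = 0 := by simp only [gam, sub_self, map_zero]

lemma yv_gam (A : R4 ≃L[ℝ] R4) (t : ℝ) :
    yv (co e' (c 1)) A (gam e' A c t) = co e' (c t) := by
  simp [yv, gam]

lemma gam_cone (hp : On e' (c 1))
    (hc : IsFutureCurve N 0 (Icc 0 1) c) {A : R4 ≃L[ℝ] R4} {l : ℝ} (hl : 0 < l)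
    (hA : A (1, 0, 0, 0) = l • endVel e' c) {κ : ℝ} (hκ : 0 < κ) :
    ∃ δ : ℝ, 0 < δ ∧ δ < 1 ∧ (∀ t ∈ Icc (1 - δ) 1, On e' (c t)) ∧
      ContinuousOn (gam e' A c) (Icc (1 - δ) 1) ∧
      ∀ t ∈ Icc (1 - δ) 1, ∀ t' ∈ Icc (1 - δ) 1, t < t' →
        0 < (gam e' A c t' - gam e' A c t).1 ∧
        ‖(gam e' A c t' - gam e' A c t).2‖ ≤ κ * (gam e' A c t' - gam e' A c t).1 := by
  obtain ⟨δ, hδ0, hδ1, hsrc, hCD⟩ := curve_contDiffOn hp hc
  have hγ : ContDiffOn ℝ 1 (gam e' A c) (Icc (1 - δ) 1) := by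
    have : gam e' A c = fun t => A.symm (co e' (c t) - co e' (c 1)) := rfl
    rw [this]
    exact A.symm.contDiff.comp_contDiffOn (hCD.sub contDiffOn_const)
  have hud : UniqueDiffOn ℝ (Icc (1 - δ) (1:ℝ)) := uniqueDiffOn_Icc (by linarith only [hδ0])
  have h1mem : (1:ℝ) ∈ Icc (1 - δ) (1:ℝ) := ⟨by linarith only [hδ0], le_rfl⟩
  -- derivative at 1
  have hd1 : HasDerivWithinAt (gam e' A c) (A.symm (endVel e' c)) (Icc (1 - δ) 1) 1 := by
    have h2 := (curve_hasDerivWithinAt hp hc).mono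
      (Icc_subset_Icc (show (0:ℝ) ≤ 1 - δ by linarith) le_rfl)
    have h3 := (h2.sub_const (co e' (c 1)))
    exact A.symm.hasFDerivAt.comp_hasDerivWithinAt 1 h3
  have hval : A.symm (endVel e' c) = ((1 / l, 0, 0, 0) : R4) := by
    have h2 : endVel e' c = A ((1 / l, 0, 0, 0) : R4) := by
      have h3 : ((1 / l, 0, 0, 0) : R4) = (1 / l) • ((1, 0, 0, 0) : R4) := by simp
      rw [h3, map_smul, hA, smul_smul]
      field_simp
      simp
    rw [h2, A.symm_apply_apply]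
  -- continuity of the derivative
  have hcontd : ContinuousOn (derivWithin (gam e' A c) (Icc (1 - δ) 1)) (Icc (1 - δ) 1) :=
    hγ.continuousOn_derivWithin hud le_rfl
  set η : ℝ := min (1 / (2 * l)) (κ / (2 * l)) with hη
  have hη0 : 0 < η := by positivity
  have hev := Metric.continuousWithinAt_iff.1 (hcontd 1 h1mem) η hη0
  obtain ⟨ε, hε, hball⟩ := hev
  set δ' := min (ε / 2) δ with hδ'
  have hδ'0 : 0 < δ' := by (clear * - hε hδ0; positivity)
  have hδ'1 : δ' ≤ δ := min_le_right _ _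
  have hδ'2 : δ' ≤ ε / 2 := min_le_left _ _
  have hsub : Icc (1 - δ') (1:ℝ) ⊆ Icc (1 - δ) 1 := Icc_subset_Icc (by linarith only [hδ'1]) le_rfl
  refine ⟨δ', hδ'0, by linarith only [hδ1, hδ'1], fun t ht => hsrc t (hsub ht), hγ.continuousOn.mono hsub, ?_⟩
  intro t ht t' ht' htt'
  -- mean value inequality
  have hbound : ∀ x ∈ Icc (1 - δ') (1:ℝ),
      ‖derivWithin (gam e' A c) (Icc (1 - δ) 1) x - A.symm (endVel e' c)‖ ≤ η := by
    intro x hx
    have h2 := hball (hsub hx) (by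
      rw [Real.dist_eq, abs_lt]; constructor <;> linarith only [hδ'0, hδ'2, hx.1, hx.2])
    rw [hd1.derivWithin (hud 1 h1mem), dist_eq_norm] at h2
    exact h2.le
  have hmv : ‖(gam e' A c t' - t' • A.symm (endVel e' c)) -
      (gam e' A c t - t • A.symm (endVel e' c))‖ ≤ η * ‖t' - t‖ := by
    have hder : ∀ x ∈ Icc (1 - δ') (1:ℝ), HasDerivWithinAt
        (fun x => gam e' A c x - x • A.symm (endVel e' c))
        (derivWithin (gam e' A c) (Icc (1 - δ) 1) x - A.symm (endVel e' c))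
        (Icc (1 - δ') 1) x := by
      intro x hx
      have h3 : HasDerivWithinAt (gam e' A c)
          (derivWithin (gam e' A c) (Icc (1 - δ) 1) x) (Icc (1 - δ) 1) x :=
        ((hγ.differentiableOn (by simp)) x (hsub hx)).hasDerivWithinAt
      have h4 := (h3.mono hsub).sub
        (((hasDerivAt_id x).smul_const (A.symm (endVel e' c))).hasDerivWithinAt)
      rw [one_smul] at h4
      exact h4
    exact (convex_Icc (1 - δ') (1:ℝ)).norm_image_sub_le_of_norm_hasDerivWithin_le hder hbound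
      ht ht'
  have hpos : 0 < t' - t := by linarith only [htt']
  rw [Real.norm_of_nonneg hpos.le, hval] at hmv
  set d := gam e' A c t' - gam e' A c t with hd
  have heq : (gam e' A c t' - t' • ((1 / l, 0, 0, 0) : R4)) -
      (gam e' A c t - t • ((1 / l, 0, 0, 0) : R4)) = d - (t' - t) • ((1 / l, 0, 0, 0) : R4) := by
    rw [hd, sub_smul]; abel
  rw [heq] at hmv
  have hfst : |d.1 - (t' - t) * (1 / l)| ≤ η * (t' - t) := by
    have := (norm_fst_le (d - (t' - t) • ((1 / l, 0, 0, 0) : R4))).trans hmv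
    simpa only [one_div, ge_iff_le, Prod.smul_mk, smul_eq_mul, mul_zero, Prod.fst_sub, Real.norm_eq_abs] using this
  have hsnd : ‖d.2‖ ≤ η * (t' - t) := by
    have := (norm_snd_le (d - (t' - t) • ((1 / l, 0, 0, 0) : R4))).trans hmv
    have h2 : (d - (t' - t) • ((1 / l, 0, 0, 0) : R4)).2 = d.2 := by
      ext <;> simp only [one_div, Prod.smul_mk, smul_eq_mul, mul_zero, Prod.snd_sub, Prod.fst_sub, sub_zero]
    rwa [h2] at this
  have hη1 : η ≤ 1 / (2 * l) := min_le_left _ _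
  have hη2 : η ≤ κ / (2 * l) := min_le_right _ _
  have hl' : 1 / l = 2 * (1 / (2 * l)) := by (clear * - hl; field_simp)
  have hd1pos : (t' - t) * (1 / (2 * l)) ≤ d.1 := by
    have h2 := (abs_le.1 hfst).1
    have h3 : η * (t' - t) ≤ 1 / (2 * l) * (t' - t) := by (clear * - hη1 htt'; gcongr)
    rw [hl'] at h2
    linarith only [h2, h3]
  refine ⟨lt_of_lt_of_le (by (clear * - htt' hl; positivity)) hd1pos, ?_⟩
  calc ‖d.2‖ ≤ η * (t' - t) := hsnd
    _ ≤ κ / (2 * l) * (t' - t) := by (clear * - hη2 htt'; gcongr)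
    _ = κ * ((t' - t) * (1 / (2 * l))) := by ring
    _ ≤ κ * d.1 := by (clear * - hd1pos hκ; gcongr)

end

section

variable {M N : Spc} [Nonempty M.pt] {e : M.Chart} {e' : N.Chart}
  {ι : M.pt → N.pt} {h : IsOpenEmbedding ι} {Reg Reg' : (R4 → ℝ) → Set R4 → Prop}
  {C : ℕ → R4 → ℝ} {Om : Set R4}

lemma g_X_continuousOn {pp : ENNReal} (hg' : IsSpacetime (IsC0W1 pp) N) (e' : N.Chart) (a : R4) :
    ContinuousOn (fun y => N.g e' y a (N.X e' y)) (tgt e') := by
  have h1 : ContinuousOn (fun y => ∑ i, ∑ j, crd i a * crd j (N.X e' y) *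
      N.g e' y (bas i) (bas j)) (tgt e') := by
    refine continuousOn_finsetSum _ fun i _ => continuousOn_finsetSum _ fun j _ => ?_
    exact (continuousOn_const.mul ((crd j).continuous.comp_continuousOn
      (hg'.continuous e'))).mul (hg'.regular e' _ _).1
  refine h1.congr fun y hy => ?_
  exact bilin_expand (hg'.bilin e' hy) a (N.X e' y)

/-- future directed timelike vectors of N have positive v component. -/
lemma beta_pos (hg : IsSpacetime Reg M) (hg' : IsSpacetime Reg' N)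
    (hI : IsIsom ι)
    (hC : ∀ x ∈ Om, ∀ a b, M.g e x a b = form C x a b)
    (hom : ∀ x ∈ Om, 0 < C 3 x)
    (hu : ∀ x ∈ Om, 0 < cv (M.X e x))
    {y : R4} (hy : y ∈ (theta e e' ι h).target) (hyO : (theta e e' ι h).symm y ∈ Om)
    {a : R4} (ha : N.g e' y a a < 0) (hfut : N.g e' y a (N.X e' y) < 0) :
    0 < cv (fderiv ℝ (theta e e' ι h).symm y a) := by
  set x := (theta e e' ι h).symm y with hx
  set t : R4 := fderiv ℝ (theta e e' ι h).symm y a with ht
  have hxs := (theta e e' ι h).map_target hy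
  have hxe := (mem_theta_source.1 hxs).1
  have hye := (mem_theta_target.1 hy).1
  have hdx : fderiv ℝ (theta e e' ι h) x t = a := theta_fderiv_symm hg hg' hI hy a
  have hΘx : theta e e' ι h x = y := (theta e e' ι h).right_inv hy
  have h1' : M.g e x t t < 0 := by
    rw [theta_pull (h := h) (e' := e') hI hxs, hdx, hΘx]; exact ha
  have h2' : N.g e' y (fderiv ℝ (theta e e' ι h) x (M.X e x)) (N.X e' y) < 0 := by
    have := theta_orient (h := h) (e' := e') hI hxs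
    rw [hΘx] at this
    exact this
  have h3 : N.g e' y (fderiv ℝ (theta e e' ι h) x (M.X e x))
      (fderiv ℝ (theta e e' ι h) x (M.X e x)) < 0 := by
    have := theta_pull (h := h) (e' := e') hI hxs (M.X e x) (M.X e x)
    rw [hΘx] at this
    rw [← this]
    exact hg.timelike e x hxe
  have h4 : N.g e' y a (fderiv ℝ (theta e e' ι h) x (M.X e x)) < 0 :=
    hg'.same_cone e' hye (hg'.timelike e' y hye) ha hfut h3.le h2'
  have h5 : M.g e x t (M.X e x) < 0 := by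
    rw [theta_pull (h := h) (e' := e') hI hxs, hdx, hΘx]; exact h4
  -- a null vector of positive u component
  set n : R4 := (1, 0, C 6 x, C 7 x) with hn
  have hf : ∀ b, form C x n b = - (C 3 x * cv b) := by
    intro b
    simp only [form, ang, h1, c1, hn, cv, mul_zero, sub_zero, cu, mul_one, sub_self, zero_mul, h2, c2, add_zero, one_mul, zero_sub]
  have hf' : ∀ b, form C x b n = - (C 3 x * cv b) := by
    intro b
    simp only [form, ang, h1, c1, cv, cu, hn, mul_zero, sub_zero, mul_one, sub_self, h2, c2, add_zero, zero_add, zero_sub]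
  have h6 : M.g e x t n < 0 := by
    refine hg.same_cone e hxe (hg.timelike e x hxe) h1' h5 ?_ ?_
    · rw [hC x hyO, hf]
      simp [cv, hn]
    · rw [hC x hyO, hf]
      have h7 := hu x hyO
      have h8 := hom x hyO
      have : 0 < C 3 x * cv (M.X e x) := mul_pos h8 h7
      linarith only [this]
  rw [hC x hyO, hf'] at h6
  have h8 := hom x hyO
  have h9 : 0 < C 3 x * cv t := by linarith only [h6]
  exact (pos_iff_pos_of_mul_pos h9).1 h8

end

end Vale.Agent.P354p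
end
end

section

section

set_option maxSynthPendingDepth 3

open Set Filter Topology

namespace Vale.Agent.P354

lemma cross_bd {C A e om g11 g12 g22 X1 X2 p1 p2 av pu : ℝ} (hC : 1 ≤ C) (hA : 1 ≤ A)
    (he : 0 ≤ e) (he1 : e ≤ 1) (hom : |om| ≤ C) (hg11 : |g11| ≤ C) (hg12 : |g12| ≤ C)
    (hg22 : |g22| ≤ C) (hX1 : |X1| ≤ 2 * C * A) (hX2 : |X2| ≤ 2 * C * A) (hp1 : |p1| ≤ e)
    (hp2 : |p2| ≤ e) (hav : |av| ≤ A) (hpu : |pu| ≤ e) :
    2 * (-om * (av * pu) + g11 * (X1 * p1) + g12 * (X1 * p2 + X2 * p1) + g22 * (X2 * p2)) +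
      (g11 * (p1 * p1) + 2 * (g12 * (p1 * p2)) + g22 * (p2 * p2)) ≤ 22 * C ^ 2 * A * e := by
  have hC0 : 0 < C := by linarith only [hC]
  have hA0 : 0 < A := by linarith only [hA]
  have t0 : -om * (av * pu) ≤ C * (A * e) := by
    refine (le_abs_self _).trans ?_
    rw [abs_mul, abs_mul, abs_neg]
    (clear * - hom hav hpu hA hC; gcongr)
  have t1 : g11 * (X1 * p1) ≤ C * (2 * C * A * e) := by
    refine (le_abs_self _).trans ?_
    rw [abs_mul, abs_mul]; (clear * - hg11 hX1 hp1 hC hA; gcongr)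
  have t2 : g12 * (X1 * p2 + X2 * p1) ≤ C * (2 * C * A * e + 2 * C * A * e) := by
    refine (le_abs_self _).trans ?_
    rw [abs_mul]
    gcongr
    refine (abs_add_le _ _).trans ?_
    rw [abs_mul, abs_mul]; (clear * - hX1 hp2 hC hA hX2 hp1; gcongr)
  have t3 : g22 * (X2 * p2) ≤ C * (2 * C * A * e) := by
    refine (le_abs_self _).trans ?_
    rw [abs_mul, abs_mul]; (clear * - hg22 hX2 hp2 hC hA; gcongr)
  have t4 : g11 * (p1 * p1) ≤ C * (e * e) := by
    refine (le_abs_self _).trans ?_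
    rw [abs_mul, abs_mul]; (clear * - hg11 hp1 he hC; gcongr)
  have t5 : g12 * (p1 * p2) ≤ C * (e * e) := by
    refine (le_abs_self _).trans ?_
    rw [abs_mul, abs_mul]; (clear * - hg12 hp1 hp2 he hC; gcongr)
  have t6 : g22 * (p2 * p2) ≤ C * (e * e) := by
    refine (le_abs_self _).trans ?_
    rw [abs_mul, abs_mul]; (clear * - hg22 hp2 he hC; gcongr)
  have t7 : C * (e * e) ≤ C ^ 2 * A * e := by
    have h1 : C * (e * e) ≤ C * (1 * e) := by (clear * - he1 he hC; gcongr)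
    have h2 : C * (1 * e) ≤ C * (C * A * e) := by
      have : 1 ≤ C * A := by linarith only [mul_nonneg (sub_nonneg.2 hC) (sub_nonneg.2 hA), hA, hC]
      (clear * - this he hC; gcongr)
    calc C * (e * e) ≤ C * (C * A * e) := h1.trans h2
      _ = _ := by ring
  have t8 : C * (A * e) ≤ C ^ 2 * A * e := by
    have : C ≤ C ^ 2 := (powC hC).1
    calc C * (A * e) = C * A * e := by ring
      _ ≤ C ^ 2 * A * e := by (clear * - this hA he; gcongr)
  linarith only [t0, t1, t2, t3, t4, t5, t6, t7, t8]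

/-- a small perturbation of a timelike vector is timelike -/
lemma pert_neg {K : Coef} {C : ℝ} {x y a p : P4} {A e e' : ℝ} (hx : CBd K C x) (hy : CBd K C y)
    (hlip : LipPair K C y x) (hd : ‖y - x‖ ≤ e) (he : 0 ≤ e) (hA : 1 ≤ A) (ha : ‖a‖ ≤ A)
    (hav : 0 < a.2.1) (hneg : K.gF x a a ≤ -(1 / 2)) (hp : ‖p‖ ≤ e') (he' : 0 ≤ e')
    (hpv : p.2.1 = 0) (h1 : 224 * C ^ 4 * A ^ 2 * e ≤ 1) (h2 : 176 * C ^ 2 * A * e' ≤ 1) :
    K.gF y (a + p) (a + p) < 0 := by
  have hC := hx.one_le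
  have hC0 := hx.C_pos
  have hau := hx.u_pos (by linarith only [hneg] : K.gF x a a < 0) hav
  have hC4 : 1 ≤ C ^ 4 := one_le_pow₀ hC
  have hA2 : 1 ≤ A ^ 2 := one_le_pow₀ hA
  have he1 : e ≤ 1 := by
    have h3 : 1 ≤ 224 * C ^ 4 * A ^ 2 := by linarith only [mul_nonneg (sq_nonneg (A : ℝ)) (sub_nonneg.2 hC4), hA2]
    nlinarith only [h1, h3]
  have he1' : e' ≤ 1 := by
    have h4 : 1 ≤ C ^ 2 := one_le_pow₀ hC
    have h5 : 1 ≤ C ^ 2 * A := by nlinarith only [h4, hA]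
    have h3 : 1 ≤ 176 * C ^ 2 * A := by linarith only [h5]
    (by_contra nlg; linarith only [nlg, mul_nonneg (le_of_lt (sub_pos.2 (not_le.1 nlg))) (sub_nonneg.2 h5), h5, h2])
  have hn : C * ‖y - x‖ ≤ C * e := by gcongr
  have hX : ∀ s s' t : ℝ, |s - s'| ≤ C * ‖y - x‖ →
      |(t - s * a.2.1) - (t - s' * a.2.1)| ≤ C * e * a.2.1 := by
    intro s s' t h
    have : (t - s * a.2.1) - (t - s' * a.2.1) = -((s - s') * a.2.1) := by ring
    rw [this, abs_neg, abs_mul, abs_of_pos hav]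
    exact mul_le_mul_of_nonneg_right (h.trans hn) hav.le
  have hhat : K.h1 x a ^ 2 + K.h2 x a ^ 2 ≤ 2 * C ^ 2 * (a.2.1 * a.2.2.1) := by
    rcases hx.hat_le (by linarith only [hneg] : K.gF x a a ≤ 0) with h | h
    · exact h
    · have := hx.uv_pos (by linarith only [hneg] : K.gF x a a < 0)
      linarith only [h, this]
  have herr := err_est (C := C) (e := e) (lam := K.om y - K.om x)
    (D1 := Qg K y (K.h1 y a) (K.h2 y a)) (D2 := Qg K x (K.h1 x a) (K.h2 x a))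
    (g11 := K.g11 y) (g12 := K.g12 y) (g22 := K.g22 y)
    (k11 := K.g11 x) (k12 := K.g12 x) (k22 := K.g22 x) (X1 := K.h1 y a) (X2 := K.h2 y a)
    (Y1 := K.h1 x a) (Y2 := K.h2 x a) (p := a.2.1) (U := a.2.2.1) hC he he1 hav.le
    hy.g11_hi hy.g12_hi hy.g22_hi (hlip.g11.trans hn) (hlip.g12.trans hn) (hlip.g22.trans hn)
    (hX _ _ _ hlip.s1) (hX _ _ _ hlip.s2) hhat hau.le (hlip.om.trans hn) rfl rfl
  obtain ⟨a1, a2, a3, a4⟩ := norm_P4_le.1 ha
  obtain ⟨p1, p2, p3, p4⟩ := norm_P4_le.1 hp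
  have b1 : a.2.1 * a.2.2.1 + a.2.1 ^ 2 ≤ 2 * A ^ 2 := by
    have h3 : a.2.1 ≤ A := (le_abs_self _).trans a2
    have h4 : a.2.2.1 ≤ A := (le_abs_self _).trans a3
    have h5 : a.2.1 * a.2.2.1 ≤ A * A := by (clear * - h3 h4 hau hA; gcongr)
    have h6 : a.2.1 ^ 2 ≤ A ^ 2 := by (clear * - hav h3; gcongr)
    linarith only [h5, h6]
  have h3 : K.gF y a a ≤ K.gF x a a + 1 / 8 := by
    rw [gF_diag, gF_diag]
    have h4 := (abs_le.1 herr).1
    have h5 : e * (14 * C ^ 4) * (a.2.1 * a.2.2.1 + a.2.1 ^ 2) ≤ 1 / 8 := by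
      calc e * (14 * C ^ 4) * (a.2.1 * a.2.2.1 + a.2.1 ^ 2) ≤ e * (14 * C ^ 4) * (2 * A ^ 2) := by
            (clear * - b1 he hC; gcongr)
        _ = (224 * C ^ 4 * A ^ 2 * e) / 8 := by ring
        _ ≤ 1 / 8 := by linarith only [h1]
    linarith only [h5, h4]
  have hh1 : |K.h1 y a| ≤ 2 * C * A := by
    unfold Coef.h1
    refine (abs_sub _ _).trans ?_
    rw [abs_mul]
    have : |K.s1 y| * |a.2.1| ≤ C * A := mul_le_mul hy.s1_hi a2 (abs_nonneg _) hC0.le
    linarith only [mul_nonneg (sub_nonneg.2 hC) (sub_nonneg.2 hA), this, a1, hC]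
  have hh2 : |K.h2 y a| ≤ 2 * C * A := by
    unfold Coef.h2
    refine (abs_sub _ _).trans ?_
    rw [abs_mul]
    have : |K.s2 y| * |a.2.1| ≤ C * A := mul_le_mul hy.s2_hi a2 (abs_nonneg _) hC0.le
    linarith only [mul_nonneg (sub_nonneg.2 hC) (sub_nonneg.2 hA), this, a4, hC]
  have hom : |K.om y| ≤ C := by
    rw [abs_of_pos hy.om_pos]; exact hy.om_hi
  have hcross := cross_bd hC hA he' he1' hom hy.g11_hi hy.g12_hi hy.g22_hi hh1 hh2 p1 p4 a2 p3
  have hfin : K.gF y (a + p) (a + p) = K.gF y a a +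
      (2 * (-K.om y * (a.2.1 * p.2.2.1) + K.g11 y * (K.h1 y a * p.1) +
        K.g12 y * (K.h1 y a * p.2.2.2 + K.h2 y a * p.1) + K.g22 y * (K.h2 y a * p.2.2.2)) +
      (K.g11 y * (p.1 * p.1) + 2 * (K.g12 y * (p.1 * p.2.2.2)) +
        K.g22 y * (p.2.2.2 * p.2.2.2))) := by
    simp only [Coef.gF, Coef.h1, Coef.h2, Prod.fst_add, Prod.snd_add, hpv]
    ring
  rw [hfin]
  have h6 : 22 * C ^ 2 * A * e' ≤ 1 / 8 := by linarith only [h2]
  linarith only [hneg, h2, h3, hcross]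

end Vale.Agent.P354
end
end

section

section

set_option linter.unusedSectionVars false
set_option maxSynthPendingDepth 3

open scoped Manifold ContDiff
open MeasureTheory Set Topology Filter

namespace Vale.Agent.P354c

/-- the same space, with the definitions of the internal folder -/
abbrev Up (M : Spc) : P354p.Spc where
  pt := M.pt
  top := M.top
  hausdorff := M.hausdorff
  Chart := M.Chart
  toE := M.toE
  cover := M.cover
  g := M.g
  X := M.X

section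

variable {M N : Spc} {Reg : (R4 → ℝ) → Set R4 → Prop} {ι : M.pt → N.pt}

theorem IsIsom.up {f : M.pt → N.pt} (h : IsIsom f) :
    P354p.IsIsom (M := Up M) (N := Up N) f := by
  rintro e e' F D rfl rfl
  exact ⟨fun y hy => ((h e e' _ rfl y hy.1 hy.2).1).contDiffWithinAt,
    fun y hy => (h e e' _ rfl y hy.1 hy.2).2⟩

theorem IsSpacetime.up (h : IsSpacetime Reg M) : P354p.IsSpacetime Reg (Up M) where
  tensor := h.tensor.up
  signature := h.signature
  timelike := h.timelike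
  continuous := h.continuous
  regular := h.regular

theorem IsSpacetime.upL (h : IsSpacetime IsLip M) :
    P354p.IsSpacetime (P354p.IsC0W1 ⊤) (Up M) where
  tensor := h.tensor.up
  signature := h.signature
  timelike := h.timelike
  continuous := h.continuous
  regular := fun e a b => P354k.isC0W1_of_locallyLipschitzOn (M.toE e).open_target
    (h.regular e a b)

theorem IsFutureCurve.up {m : ℝ} {A : Set ℝ} {c : ℝ → M.pt} (h : IsFutureCurve M m A c)
    (hm : 0 ≤ m) : P354p.IsFutureCurve (Up M) m A c := by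
  refine ⟨h.1, fun t ht e he => ?_⟩
  obtain ⟨h1, h2⟩ := h.2 t ht e he
  refine ⟨h1, fun y w hy hw => ?_⟩
  obtain ⟨h3, h4⟩ := h2 y w hy hw
  exact ⟨lt_of_lt_of_le h3 (by linarith), h3.le, h4⟩

theorem IsFutureCurve.of {A : Set ℝ} {c : ℝ → M.pt}
    (h : P354p.IsFutureCurve (Up M) 0 A c) : IsFutureCurve M 0 A c := by
  refine ⟨h.1, fun t ht e he => ?_⟩
  obtain ⟨h1, h2⟩ := h.2 t ht e he
  refine ⟨h1, fun y w hy hw => ?_⟩
  obtain ⟨h3, _, h4⟩ := h2 y w hy hw
  exact ⟨by rw [neg_zero]; exact h3, h4⟩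

theorem isFar_up {a : ℝ → M.pt} (h : IsFar M a) : P354p.IsFar (Up M) a := by
  intro b hb
  obtain ⟨s, hs, h1⟩ := h b hb
  refine ⟨s, hs, fun L => ?_⟩
  obtain ⟨t, ht, H, h2, h3, h4, h5⟩ := h1 (max L 0)
  refine ⟨t, ht, fun p => H p.1 p.2, h2, h3, fun y hy => ⟨(h4 y hy).1.up le_rfl, (h4 y hy).2⟩, ?_⟩
  have h6 := h5.up (le_max_right _ _)
  refine ⟨h6.1, fun t ht e he => ⟨(h6.2 t ht e he).1, fun y w hy hw => ?_⟩⟩
  obtain ⟨k1, k2, k3⟩ := (h6.2 t ht e he).2 y w hy hw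
  exact ⟨k1, k2.trans (by linarith [le_max_left L 0]), k3⟩

lemma nullBox_eq (z : R4) (r : ℝ) : nullBox z r = P354p.nullBox z r := by
  ext x
  show (x ∈ Metric.ball z r ∧ cv x < 0) ↔ (‖x - z‖ < r ∧ P354p.cv x < 0)
  rw [mem_ball_iff_norm]
  rfl

lemma cornerBox_eq (z : R4) (r : ℝ) : cornerBox z r = P354p.cornerBox z r := by
  ext x
  show (x ∈ nullBox z r ∧ cu x < 0) ↔ (x ∈ P354p.nullBox z r ∧ P354p.cu x < 0)
  rw [nullBox_eq]
  rfl

end

end Vale.Agent.P354c
end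
end

section

section

set_option linter.unusedSectionVars false
set_option maxSynthPendingDepth 3

open scoped Manifold ContDiff
open MeasureTheory Set Topology Filter

namespace Vale.Agent.P354c

/-- the coefficients g12, om instead of 2 g12, 2 om -/
noncomputable def half (C : ℕ → R4 → ℝ) (i : ℕ) (x : R4) : ℝ :=
  if i = 1 ∨ i = 3 then C i x / 2 else C i x

lemma half_abs (C : ℕ → R4 → ℝ) (i : ℕ) (x : R4) : |half C i x| ≤ |C i x| := by
  unfold half
  split_ifs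
  · rw [abs_div, abs_of_pos (by norm_num : (0:ℝ) < 2)]
    have := abs_nonneg (C i x)
    linarith
  · exact le_rfl

lemma half_deriv (C : ℕ → R4 → ℝ) (i : ℕ) (x a : R4) :
    deriv (half C i) x a = if i = 1 ∨ i = 3 then deriv (C i) x a / 2 else deriv (C i) x a := by
  split_ifs with h
  · have e : half C i = fun x => C i x / 2 := by
      funext x
      rw [half, if_pos h]
    rw [e]
    show _root_.deriv (fun t : ℝ => C i (x + t • a) / 2) 0 = _
    rw [deriv_div_const]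
    rfl
  · have e : half C i = C i := by
      funext x
      rw [half, if_neg h]
    rw [e]

lemma half_deriv_abs (C : ℕ → R4 → ℝ) (i : ℕ) (x a : R4) :
    |deriv (half C i) x a| ≤ |deriv (C i) x a| := by
  rw [half_deriv]
  split_ifs
  · rw [abs_div, abs_of_pos (by norm_num : (0:ℝ) < 2)]
    have := abs_nonneg (deriv (C i) x a)
    linarith only [this]
  · exact le_rfl

lemma half_smooth {C : ℕ → R4 → ℝ} {D : Set R4} (h : ∀ i, IsSmooth (C i) D) (i : ℕ) :
    IsSmooth (half C i) D := by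
  by_cases hi : i = 1 ∨ i = 3
  · have e : half C i = fun x => C i x / 2 := by
      funext x
      rw [half, if_pos hi]
    rw [e]
    exact ContDiffOn.div_const (h i) 2
  · have e : half C i = C i := by
      funext x
      rw [half, if_neg hi]
    rw [e]
    exact h i

lemma form_half (C : ℕ → R4 → ℝ) (x a : R4) : P354p.form (half C) x a a = form C x a := by
  simp only [P354p.form, P354p.ang, P354p.h1, P354p.h2, form, h1, h2, half, P354p.cu, P354p.cv,
    P354p.c1, P354p.c2, cu, cv, c1, c2]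
  norm_num
  ring

lemma form_pol (C : ℕ → R4 → ℝ) (x a b : R4) :
    P354p.form C x (a + b) (a + b) = P354p.form C x a a + 2 * P354p.form C x a b +
      P354p.form C x b b := by
  simp only [P354p.form, P354p.ang, P354p.h1, P354p.h2, P354p.cu, P354p.cv,
    P354p.c1, P354p.c2, Prod.fst_add, Prod.snd_add]
  ring

section

variable {M N : Spc} {Reg : (R4 → ℝ) → Set R4 → Prop}

lemma form_of_quad (hM : IsSpacetime Reg M) {e : M.Chart} {C : ℕ → R4 → ℝ} {x : R4}
    (hx : x ∈ tgt e) (h : ∀ a, M.g e x a a = form C x a) (a b : R4) :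
    M.g e x a b = P354p.form (half C) x a b := by
  have hb := hM.up.bilin (M := Up M) e hx
  have hs := hM.up.symm (M := Up M) e hx a b
  have h0 : M.g e x (a + b) (a + b) = M.g e x a a + 2 * M.g e x a b + M.g e x b b := by
    have e1 : M.g e x (a + b) (a + b) = M.g e x a (a + b) + M.g e x b (a + b) :=
      hb.add_left a b (a + b)
    have e2 : M.g e x a (a + b) = M.g e x a a + M.g e x a b := hb.add_right a a b
    have e3 : M.g e x b (a + b) = M.g e x b a + M.g e x b b := hb.add_right b a b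
    have e4 : M.g e x a b = M.g e x b a := hs
    rw [e1, e2, e3, ← e4]
    ring
  have h1 := form_pol (half C) x a b
  rw [form_half, form_half, form_half, ← h, ← h, ← h] at h1
  linarith only [h0, h1]

lemma norm_sph {p q : ℝ} : p ^ 2 + q ^ 2 ≤ 2 * ‖((0, 0, p, q) : R4)‖ ^ 2 := by
  have h1 : |p| ≤ ‖((0, 0, p, q) : R4)‖ :=
    (norm_fst_le ((p, q) : ℝ × ℝ)).trans ((norm_snd_le ((0, p, q) : ℝ × ℝ × ℝ)).trans
      (norm_snd_le ((0, 0, p, q) : R4)))
  have h2 : |q| ≤ ‖((0, 0, p, q) : R4)‖ :=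
    (norm_snd_le ((p, q) : ℝ × ℝ)).trans ((norm_snd_le ((0, p, q) : ℝ × ℝ × ℝ)).trans
      (norm_snd_le ((0, 0, p, q) : R4)))
  have h3 : |p| ^ 2 ≤ ‖((0, 0, p, q) : R4)‖ ^ 2 := by gcongr
  have h4 : |q| ^ 2 ≤ ‖((0, 0, p, q) : R4)‖ ^ 2 := by gcongr
  rw [sq_abs] at h3 h4
  linarith only [h3, h4]

theorem IsDNBox.up {e : M.Chart} {C : ℕ → R4 → ℝ} {D : Set R4} {r K : ℝ} {k n : ℝ → ℝ}
    (h : IsDNBox M e C D K k n) (hM : IsSpacetime Reg M) (hr : 0 < r) {n' : ℝ → ℝ}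
    (hn : ∀ x ∈ D, n (cu x) ≤ n' (cu x))
    (hn' : ∀ f, f = k ∨ f = n' → Measurable f ∧ P354p.InLp 1 f (-r)) :
    P354p.IsDNBox (Up M) e (half C) D r (2 * K) k n' where
  r_pos := hr
  subset := h.subset
  smooth := fun i => half_smooth h.smooth i
  box := by
    intro x hx
    obtain ⟨h1, h2, h3, h4, h5, h6⟩ := h.metric x hx
    have h40 := (h4 0 rfl rfl).2
    have hK : 0 ≤ K := (abs_nonneg _).trans (h40 0 (by norm_num)).1
    refine ⟨form_of_quad hM (h.subset hx) h1, h2, ?_⟩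
    exact
      { om_lower := by
          have e : half C 3 x = C 3 x / 2 := by simp [half]
          show 1 ≤ 2 * K * half C 3 x
          rw [e]
          linarith only [h3]
        g_lower := by
          intro p q
          have k1 := (h4 (0, 0, p, q) rfl rfl).1
          have k2 := norm_sph (p := p) (q := q)
          have k3 : form C x (0, 0, p, q) = P354p.ang (half C) x p q p q := by
            simp only [form, P354c.h1, c1, cv, cu, P354c.h2, c2, P354p.ang, half]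
            norm_num
            ring
          rw [k3] at k1
          show p ^ 2 + q ^ 2 ≤ 2 * K * P354p.ang (half C) x p q p q
          linarith only [k1, k2]
        bound := by
          intro i hi
          refine ⟨(half_abs C i x).trans ((h40 i hi).1.trans (by linarith only [hK])), fun a ha hb => ?_⟩
          have k1 := ((h4 a ha hb).2 i hi).2
          have k2 := half_deriv_abs C i x a
          have k3 : 0 ≤ K * ‖a‖ := by (clear * - hK; positivity)
          show |deriv (half C i) x a| ≤ 2 * K * ‖a‖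
          linarith only [k1, k2, k3]
        torsion := by
          intro i hi
          have k1 := h5 i hi
          show |deriv (half C i) x du - deriv (half C (i + 2)) x dv| ≤ 2 * K
          rw [half_deriv, half_deriv, if_neg (by omega), if_neg (by omega)]
          linarith only [hK, k1]
        deriv_vu := by
          intro i hi
          obtain ⟨k1, k2⟩ := h6 i hi
          exact ⟨(half_deriv_abs C i x dv).trans k1,
            (half_deriv_abs C i x du).trans (k2.trans (hn x hx))⟩ }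
  integrable := hn'

end

end Vale.Agent.P354c
end
end
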