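import Mathlib

set_option linter.all false

section

section

set_option maxSynthPendingDepth 3

namespace Vale.Agent.P354w

/-- Four real coordinates. Standard side: `(th1, v, u, th2)`. -/
abbrev P4 : Type := ℝ × ℝ × ℝ × ℝ

/-- coefficient functions of a double null metric
`-om (dv du + du dv) + gAB (dthA - sA dv - wA du)(dthB - sB dv - wB du)`. -/
structure Coef where
  om : P4 → ℝ
  s1 : P4 → ℝ
  s2 : P4 → ℝ
  w1 : P4 → ℝ
  w2 : P4 → ℝ
  g11 : P4 → ℝ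
  g12 : P4 → ℝ
  g22 : P4 → ℝ

namespace Coef

variable (K : Coef)

def h1 (x a : P4) : ℝ := a.1 - K.s1 x * a.2.1 - K.w1 x * a.2.2.1
def h2 (x a : P4) : ℝ := a.2.2.2 - K.s2 x * a.2.1 - K.w2 x * a.2.2.1

/-- the metric -/
def gF (x a b : P4) : ℝ :=
  - K.om x * (a.2.1 * b.2.2.1 + a.2.2.1 * b.2.1)
    + K.g11 x * (K.h1 x a * K.h1 x b)
    + K.g12 x * (K.h1 x a * K.h2 x b + K.h2 x a * K.h1 x b)
    + K.g22 x * (K.h2 x a * K.h2 x b)

/-- minus the derivatives of `h1`, `h2` in direction `h` -/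
noncomputable def d1 (x h a : P4) : ℝ := fderiv ℝ K.s1 x h * a.2.1 + fderiv ℝ K.w1 x h * a.2.2.1
noncomputable def d2 (x h a : P4) : ℝ := fderiv ℝ K.s2 x h * a.2.1 + fderiv ℝ K.w2 x h * a.2.2.1

/-- derivative of the metric coefficients in direction `h` -/
noncomputable def dgF (x h a b : P4) : ℝ :=
  - (fderiv ℝ K.om x h) * (a.2.1 * b.2.2.1 + a.2.2.1 * b.2.1)
    + (fderiv ℝ K.g11 x h) * (K.h1 x a * K.h1 x b)
    + (fderiv ℝ K.g12 x h) * (K.h1 x a * K.h2 x b + K.h2 x a * K.h1 x b)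
    + (fderiv ℝ K.g22 x h) * (K.h2 x a * K.h2 x b)
    - K.g11 x * (K.d1 x h a * K.h1 x b + K.h1 x a * K.d1 x h b)
    - K.g12 x * (K.d1 x h a * K.h2 x b + K.h1 x a * K.d2 x h b
        + K.d2 x h a * K.h1 x b + K.h2 x a * K.d1 x h b)
    - K.g22 x * (K.d2 x h a * K.h2 x b + K.h2 x a * K.d2 x h b)

lemma gF_symm (x a b : P4) : K.gF x a b = K.gF x b a := by
  unfold gF; ring

lemma gF_add_left (x a b c : P4) : K.gF x (a + b) c = K.gF x a c + K.gF x b c := by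
  simp only [gF, Prod.snd_add, Prod.fst_add, h1, h2]; ring

lemma gF_add_right (x a b c : P4) : K.gF x a (b + c) = K.gF x a b + K.gF x a c := by
  simp only [gF, Prod.snd_add, Prod.fst_add, h1, h2]; ring

end Coef

/-- Differentiability of all coefficients at a point. -/
structure Coef.DiffAt (K : Coef) (x : P4) : Prop where
  om : DifferentiableAt ℝ K.om x
  s1 : DifferentiableAt ℝ K.s1 x
  s2 : DifferentiableAt ℝ K.s2 x
  w1 : DifferentiableAt ℝ K.w1 x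
  w2 : DifferentiableAt ℝ K.w2 x
  g11 : DifferentiableAt ℝ K.g11 x
  g12 : DifferentiableAt ℝ K.g12 x
  g22 : DifferentiableAt ℝ K.g22 x

/-- derivative of `gF (x τ) (a τ) (b τ)` along a curve -/
lemma Coef.hasDerivAt_gF (K : Coef) {X A B : ℝ → P4} {X' A' B' : P4} {τ : ℝ}
    (hK : K.DiffAt (X τ)) (hX : HasDerivAt X X' τ) (hA : HasDerivAt A A' τ)
    (hB : HasDerivAt B B' τ) :
    HasDerivAt (fun τ => K.gF (X τ) (A τ) (B τ))
      (K.dgF (X τ) X' (A τ) (B τ) + K.gF (X τ) A' (B τ) + K.gF (X τ) (A τ) B') τ := by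
  have hom : HasDerivAt (fun τ => K.om (X τ)) (fderiv ℝ K.om (X τ) X') τ :=
    hK.om.hasFDerivAt.comp_hasDerivAt τ hX
  have hs1 : HasDerivAt (fun τ => K.s1 (X τ)) (fderiv ℝ K.s1 (X τ) X') τ :=
    hK.s1.hasFDerivAt.comp_hasDerivAt τ hX
  have hs2 : HasDerivAt (fun τ => K.s2 (X τ)) (fderiv ℝ K.s2 (X τ) X') τ :=
    hK.s2.hasFDerivAt.comp_hasDerivAt τ hX
  have hw1 : HasDerivAt (fun τ => K.w1 (X τ)) (fderiv ℝ K.w1 (X τ) X') τ :=
    hK.w1.hasFDerivAt.comp_hasDerivAt τ hX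
  have hw2 : HasDerivAt (fun τ => K.w2 (X τ)) (fderiv ℝ K.w2 (X τ) X') τ :=
    hK.w2.hasFDerivAt.comp_hasDerivAt τ hX
  have hg11 : HasDerivAt (fun τ => K.g11 (X τ)) (fderiv ℝ K.g11 (X τ) X') τ :=
    hK.g11.hasFDerivAt.comp_hasDerivAt τ hX
  have hg12 : HasDerivAt (fun τ => K.g12 (X τ)) (fderiv ℝ K.g12 (X τ) X') τ :=
    hK.g12.hasFDerivAt.comp_hasDerivAt τ hX
  have hg22 : HasDerivAt (fun τ => K.g22 (X τ)) (fderiv ℝ K.g22 (X τ) X') τ :=
    hK.g22.hasFDerivAt.comp_hasDerivAt τ hX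
  have hA1 : HasDerivAt (fun τ => (A τ).1) A'.1 τ := hA.fst
  have hA2 : HasDerivAt (fun τ => (A τ).2.1) A'.2.1 τ := hA.snd.fst
  have hA3 : HasDerivAt (fun τ => (A τ).2.2.1) A'.2.2.1 τ := hA.snd.snd.fst
  have hA4 : HasDerivAt (fun τ => (A τ).2.2.2) A'.2.2.2 τ := hA.snd.snd.snd
  have hB1 : HasDerivAt (fun τ => (B τ).1) B'.1 τ := hB.fst
  have hB2 : HasDerivAt (fun τ => (B τ).2.1) B'.2.1 τ := hB.snd.fst
  have hB3 : HasDerivAt (fun τ => (B τ).2.2.1) B'.2.2.1 τ := hB.snd.snd.fst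
  have hB4 : HasDerivAt (fun τ => (B τ).2.2.2) B'.2.2.2 τ := hB.snd.snd.snd
  have hh1A := (hA1.sub (hs1.mul hA2)).sub (hw1.mul hA3)
  have hh2A := (hA4.sub (hs2.mul hA2)).sub (hw2.mul hA3)
  have hh1B := (hB1.sub (hs1.mul hB2)).sub (hw1.mul hB3)
  have hh2B := (hB4.sub (hs2.mul hB2)).sub (hw2.mul hB3)
  have := (((hom.neg.mul ((hA2.mul hB3).add (hA3.mul hB2))).add
    (hg11.mul (hh1A.mul hh1B))).add
    (hg12.mul ((hh1A.mul hh2B).add (hh2A.mul hh1B)))).add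
    (hg22.mul (hh2A.mul hh2B))
  refine this.congr_deriv ?_
  simp only [Coef.gF, Coef.dgF, Coef.h1, Coef.h2, Coef.d1, Coef.d2, Pi.mul_apply, Pi.sub_apply,
    Pi.add_apply, Pi.neg_apply]
  ring

end Vale.Agent.P354w
end
end

section

section

set_option maxSynthPendingDepth 3

namespace Vale.Agent.P354w

/-- `Psi : V → standard side` is a `C^2` isometry from the metric `G` to the double null metric. -/
structure Iso (K : Coef) (G : P4 → P4 →L[ℝ] P4 →L[ℝ] ℝ) (Psi : P4 → P4) (V : Set P4) : Prop where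
  isOpen : IsOpen V
  smooth : ContDiffOn ℝ 2 Psi V
  diffG : ∀ z ∈ V, DifferentiableAt ℝ G z
  diffK : ∀ z ∈ V, K.DiffAt (Psi z)
  iso : ∀ z ∈ V, ∀ a b, G z a b = K.gF (Psi z) (fderiv ℝ Psi z a) (fderiv ℝ Psi z b)

/-- second derivative -/
noncomputable def Sd (Psi : P4 → P4) (z a b : P4) : P4 := fderiv ℝ (fderiv ℝ Psi) z a b

namespace Iso

variable {K : Coef} {G : P4 → P4 →L[ℝ] P4 →L[ℝ] ℝ} {Psi : P4 → P4} {V : Set P4}

lemma contDiffAt (h : Iso K G Psi V) {z : P4} (hz : z ∈ V) : ContDiffAt ℝ 2 Psi z :=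
  h.smooth.contDiffAt (h.isOpen.mem_nhds hz)

lemma hasFDerivAt (h : Iso K G Psi V) {z : P4} (hz : z ∈ V) :
    HasFDerivAt Psi (fderiv ℝ Psi z) z :=
  ((h.contDiffAt hz).differentiableAt (by norm_num)).hasFDerivAt

lemma contDiffAt_fderiv (h : Iso K G Psi V) {z : P4} (hz : z ∈ V) :
    ContDiffAt ℝ 1 (fderiv ℝ Psi) z :=
  (h.contDiffAt hz).fderiv_right (by norm_num)

lemma hasFDerivAt_fderiv (h : Iso K G Psi V) {z : P4} (hz : z ∈ V) :
    HasFDerivAt (fderiv ℝ Psi) (fderiv ℝ (fderiv ℝ Psi) z) z :=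
  ((h.contDiffAt_fderiv hz).differentiableAt (by norm_num)).hasFDerivAt

lemma Sd_symm (h : Iso K G Psi V) {z : P4} (hz : z ∈ V) (a b : P4) :
    Sd Psi z a b = Sd Psi z b a :=
  ((h.contDiffAt hz).isSymmSndFDerivAt (by simp)) a b

lemma deriv_iso (h : Iso K G Psi V) {z : P4} (hz : z ∈ V) (a b c : P4) :
    fderiv ℝ G z c a b = K.dgF (Psi z) (fderiv ℝ Psi z c) (fderiv ℝ Psi z a) (fderiv ℝ Psi z b)
      + K.gF (Psi z) (Sd Psi z c a) (fderiv ℝ Psi z b)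
      + K.gF (Psi z) (fderiv ℝ Psi z a) (Sd Psi z c b) := by
  have hl : HasDerivAt (fun τ : ℝ => z + τ • c) c 0 := by
    simpa using ((hasDerivAt_id (0:ℝ)).smul_const c).const_add z
  have hz0 : z + (0:ℝ) • c = z := by simp
  have hX : HasDerivAt (fun τ : ℝ => Psi (z + τ • c)) (fderiv ℝ Psi z c) 0 := by
    have h1 : HasFDerivAt Psi (fderiv ℝ Psi z) (z + (0:ℝ) • c) := by
      rw [hz0]; exact h.hasFDerivAt hz
    exact h1.comp_hasDerivAt (0:ℝ) hl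
  have hD : HasDerivAt (fun τ : ℝ => fderiv ℝ Psi (z + τ • c)) (fderiv ℝ (fderiv ℝ Psi) z c) 0 := by
    have h1 : HasFDerivAt (fderiv ℝ Psi) (fderiv ℝ (fderiv ℝ Psi) z) (z + (0:ℝ) • c) := by
      rw [hz0]; exact h.hasFDerivAt_fderiv hz
    exact h1.comp_hasDerivAt (0:ℝ) hl
  have hA : ∀ a : P4, HasDerivAt (fun τ : ℝ => fderiv ℝ Psi (z + τ • c) a) (Sd Psi z c a) 0 := by
    intro a
    have := hD.clm_apply (hasDerivAt_const (0:ℝ) a)
    simpa only [Sd, zero_smul, add_zero, map_zero] using this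
  have hG : HasDerivAt (fun τ : ℝ => G (z + τ • c)) (fderiv ℝ G z c) 0 := by
    have h1 : HasFDerivAt G (fderiv ℝ G z) (z + (0:ℝ) • c) := by
      rw [hz0]; exact (h.diffG z hz).hasFDerivAt
    exact h1.comp_hasDerivAt (0:ℝ) hl
  have hGab : HasDerivAt (fun τ : ℝ => G (z + τ • c) a b) (fderiv ℝ G z c a b) 0 := by
    have h2 := (hG.clm_apply (hasDerivAt_const (0:ℝ) a)).clm_apply (hasDerivAt_const (0:ℝ) b)
    simpa only [zero_smul, add_zero, map_zero] using h2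
  have hK0 : K.DiffAt (Psi (z + (0:ℝ) • c)) := by rw [hz0]; exact h.diffK z hz
  have hR := Coef.hasDerivAt_gF K (X := fun τ : ℝ => Psi (z + τ • c))
    (A := fun τ : ℝ => fderiv ℝ Psi (z + τ • c) a) (B := fun τ : ℝ => fderiv ℝ Psi (z + τ • c) b)
    hK0 hX (hA a) (hA b)
  have hev : (fun τ : ℝ => G (z + τ • c) a b) =ᶠ[nhds 0]
      (fun τ : ℝ => K.gF (Psi (z + τ • c)) (fderiv ℝ Psi (z + τ • c) a)
        (fderiv ℝ Psi (z + τ • c) b)) := by
    have hc : Filter.Tendsto (fun τ : ℝ => z + τ • c) (nhds 0) (nhds (z + (0:ℝ) • c)) :=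
      hl.continuousAt
    rw [hz0] at hc
    filter_upwards [hc.eventually (h.isOpen.mem_nhds hz)] with τ hτ
    exact h.iso _ hτ a b
  have := (hGab.congr_of_eventuallyEq hev.symm).unique hR
  rw [this]
  simp only [hz0]

/-- Christoffel transformation law (doubled, first kind). -/
lemma transf (h : Iso K G Psi V) {z : P4} (hz : z ∈ V) (a b c : P4) :
    2 * K.gF (Psi z) (Sd Psi z a b) (fderiv ℝ Psi z c) =
      (fderiv ℝ G z a b c + fderiv ℝ G z b a c - fderiv ℝ G z c a b)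
      - (K.dgF (Psi z) (fderiv ℝ Psi z a) (fderiv ℝ Psi z b) (fderiv ℝ Psi z c)
        + K.dgF (Psi z) (fderiv ℝ Psi z b) (fderiv ℝ Psi z a) (fderiv ℝ Psi z c)
        - K.dgF (Psi z) (fderiv ℝ Psi z c) (fderiv ℝ Psi z a) (fderiv ℝ Psi z b)) := by
  rw [h.deriv_iso hz b c a, h.deriv_iso hz a c b, h.deriv_iso hz a b c,
    h.Sd_symm hz b a, h.Sd_symm hz c a, h.Sd_symm hz c b]
  rw [K.gF_symm (Psi z) (fderiv ℝ Psi z b) (Sd Psi z a c),
    K.gF_symm (Psi z) (fderiv ℝ Psi z a) (Sd Psi z b c)]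
  ring

end Iso

end Vale.Agent.P354w
end
end

section

section

set_option maxSynthPendingDepth 3

namespace Vale.Agent.P354w

/-- basis vectors of the standard side; `e1` is also the exotic vertical direction `T`. -/
def e1 : P4 := (1, 0, 0, 0)
def ev : P4 := (0, 1, 0, 0)
def eu : P4 := (0, 0, 1, 0)
def e2 : P4 := (0, 0, 0, 1)

/-- the null vector `d_u + w` -/
def e3 (K : Coef) (x : P4) : P4 := (K.w1 x, 0, 1, K.w2 x)

/-- the null vector `d_v + s` -/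
def e4 (K : Coef) (x : P4) : P4 := (K.s1 x, 1, 0, K.s2 x)

lemma clm_decomp (L : P4 →L[ℝ] ℝ) (a : P4) :
    L a = a.1 * L e1 + a.2.1 * L ev + a.2.2.1 * L eu + a.2.2.2 * L e2 := by
  have : a = a.1 • e1 + a.2.1 • ev + a.2.2.1 • eu + a.2.2.2 • e2 := by
    simp only [e1, Prod.smul_mk, smul_eq_mul, mul_one, mul_zero, ev, Prod.mk_add_mk, add_zero, zero_add, eu, e2, Prod.mk.eta]
  conv_lhs => rw [this]
  simp only [map_add, map_smul, smul_eq_mul]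

lemma clm_decomp' (K : Coef) (x : P4) (L : P4 →L[ℝ] ℝ) (a : P4) :
    L a = K.h1 x a * L e1 + a.2.1 * L (e4 K x) + a.2.2.1 * L (e3 K x) + K.h2 x a * L e2 := by
  rw [clm_decomp L a, clm_decomp L (e4 K x), clm_decomp L (e3 K x)]
  simp only [Coef.h1, Coef.h2, e3, e4]
  ring

/-- uniform bounds at the point `x`. -/
structure Coef.Bd (K : Coef) (x : P4) (C cv cw cu : ℝ) : Prop where
  one_le : 1 ≤ C
  cv0 : 0 ≤ cv
  cw0 : 0 ≤ cw
  cu0 : 0 ≤ cu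
  om_lo : 1 ≤ C * K.om x
  om_hi : K.om x ≤ C
  g_lo : ∀ p q : ℝ, p ^ 2 + q ^ 2 ≤ C * (K.g11 x * p ^ 2 + 2 * K.g12 x * p * q + K.g22 x * q ^ 2)
  g11 : |K.g11 x| ≤ C
  g12 : |K.g12 x| ≤ C
  g22 : |K.g22 x| ≤ C
  om_1 : |fderiv ℝ K.om x e1| ≤ C
  om_2 : |fderiv ℝ K.om x e2| ≤ C
  g11_1 : |fderiv ℝ K.g11 x e1| ≤ C
  g11_2 : |fderiv ℝ K.g11 x e2| ≤ C
  g12_1 : |fderiv ℝ K.g12 x e1| ≤ C
  g12_2 : |fderiv ℝ K.g12 x e2| ≤ C
  g22_1 : |fderiv ℝ K.g22 x e1| ≤ C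
  g22_2 : |fderiv ℝ K.g22 x e2| ≤ C
  s1_1 : |fderiv ℝ K.s1 x e1| ≤ C
  s1_2 : |fderiv ℝ K.s1 x e2| ≤ C
  s2_1 : |fderiv ℝ K.s2 x e1| ≤ C
  s2_2 : |fderiv ℝ K.s2 x e2| ≤ C
  w1_1 : |fderiv ℝ K.w1 x e1| ≤ C
  w1_2 : |fderiv ℝ K.w1 x e2| ≤ C
  w2_1 : |fderiv ℝ K.w2 x e1| ≤ C
  w2_2 : |fderiv ℝ K.w2 x e2| ≤ C
  t1 : |fderiv ℝ K.s1 x (e3 K x) - fderiv ℝ K.w1 x (e4 K x)| ≤ C
  t2 : |fderiv ℝ K.s2 x (e3 K x) - fderiv ℝ K.w2 x (e4 K x)| ≤ C
  om_4 : |fderiv ℝ K.om x (e4 K x)| ≤ cw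
  g11_4 : |fderiv ℝ K.g11 x (e4 K x)| ≤ cv
  g12_4 : |fderiv ℝ K.g12 x (e4 K x)| ≤ cv
  g22_4 : |fderiv ℝ K.g22 x (e4 K x)| ≤ cv
  om_3 : |fderiv ℝ K.om x (e3 K x)| ≤ cu
  g11_3 : |fderiv ℝ K.g11 x (e3 K x)| ≤ cu
  g12_3 : |fderiv ℝ K.g12 x (e3 K x)| ≤ cu
  g22_3 : |fderiv ℝ K.g22 x (e3 K x)| ≤ cu

lemma aux_mul3 {x y z X Y Z : ℝ} (hx : |x| ≤ X) (hy : |y| ≤ Y) (hz : |z| ≤ Z) :
    |x * y * z| ≤ X * Y * Z := by
  rw [abs_mul, abs_mul]
  have := abs_nonneg x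
  have := abs_nonneg y
  have := abs_nonneg z
  have hX : 0 ≤ X := by (clear z Y Z hy hz this; linarith)
  have hY : 0 ≤ Y := by (clear z X Z hx hz this hX; linarith)
  exact mul_le_mul (mul_le_mul hx hy (abs_nonneg y) hX) hz (abs_nonneg z) (mul_nonneg hX hY)

lemma aux_mul2 {x y X Y : ℝ} (hx : |x| ≤ X) (hy : |y| ≤ Y) : |x * y| ≤ X * Y := by
  rw [abs_mul]
  have := abs_nonneg x
  exact mul_le_mul hx hy (abs_nonneg y) (by linarith only [hx, this])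

lemma aux_xy {x y M : ℝ} (h : x ^ 2 + y ^ 2 ≤ M) :
    |x * y| ≤ M ∧ |x ^ 2| ≤ M ∧ |y ^ 2| ≤ M := by
  refine ⟨?_, ?_, ?_⟩
  · rw [abs_le]; constructor <;> linarith only [h, sq_nonneg (x + y), sq_nonneg (x - y)]
  · rw [abs_of_nonneg (sq_nonneg x)]; linarith only [h, sq_nonneg y]
  · rw [abs_of_nonneg (sq_nonneg y)]; linarith only [h, sq_nonneg x]

/-- Real-number lemma for the `beta` and `alpha` equations. -/
lemma alg_q {C c4 c3 a b x1 x2 g11 g12 g22 o4 o1 o2 g113 g123 g223 t1 t2 w11 w12 w21 w22 : ℝ}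
    (hC : 1 ≤ C) (hc4 : 0 ≤ c4) (hc3 : 0 ≤ c3) (ha : 0 ≤ a) (hb : 0 ≤ b)
    (hx1 : |x1| ≤ C * (a + b)) (hx2 : |x2| ≤ C * (a + b))
    (hx : x1 ^ 2 + x2 ^ 2 ≤ 2 * C ^ 2 * (a * b))
    (hg11 : |g11| ≤ C) (hg12 : |g12| ≤ C) (hg22 : |g22| ≤ C)
    (ho4 : |o4| ≤ c4) (ho1 : |o1| ≤ C) (ho2 : |o2| ≤ C)
    (hg113 : |g113| ≤ c3) (hg123 : |g123| ≤ c3) (hg223 : |g223| ≤ c3)
    (ht1 : |t1| ≤ C) (ht2 : |t2| ≤ C) (hw11 : |w11| ≤ C) (hw12 : |w12| ≤ C)
    (hw21 : |w21| ≤ C) (hw22 : |w22| ≤ C) :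
    |-2 * (b * (b * o4 + x1 * o1 + x2 * o2))
      - (g113 * x1 ^ 2 + 2 * g123 * (x1 * x2) + g223 * x2 ^ 2)
      + 2 * (g11 * x1 * (b * t1 - (x1 * w11 + x2 * w12))
        + g12 * (x1 * (b * t2 - (x1 * w21 + x2 * w22)) + x2 * (b * t1 - (x1 * w11 + x2 * w12)))
        + g22 * x2 * (b * t2 - (x1 * w21 + x2 * w22)))|
    ≤ 60 * C ^ 4 * (b * (c4 * b + c3 * a + a + b)) := by
  have hC0 : 0 ≤ C := by linarith only [hC]
  have hab : 0 ≤ a + b := by linarith only [ha, hb]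
  have hC4 : 1 ≤ C ^ 4 := one_le_pow₀ hC
  have hC2 : C ^ 2 ≤ C ^ 4 := pow_le_pow_right₀ hC (by norm_num)
  have hC3 : C ^ 3 ≤ C ^ 4 := pow_le_pow_right₀ hC (by norm_num)
  have hP : 0 ≤ b * (c4 * b) := mul_nonneg hb (mul_nonneg hc4 hb)
  have hQ : 0 ≤ b * (c3 * a) := mul_nonneg hb (mul_nonneg hc3 ha)
  have hab2 : 0 ≤ b * (a + b) := mul_nonneg hb hab
  obtain ⟨hx12, hx11, hx22⟩ := aux_xy hx
  have hb' : |b| ≤ b := (abs_of_nonneg hb).le
  set A1 := C ^ 4 * (b * (c3 * a)) with hA1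
  set A2 := C ^ 4 * (b * (c4 * b)) with hA2
  set A3 := C ^ 4 * (b * (a + b)) with hA3
  have p1 : 0 ≤ A1 := by (clear * - hC hb hc3 ha; positivity)
  have p2 : 0 ≤ A2 := by (clear * - hC hb hc4; positivity)
  have p3 : 0 ≤ A3 := by (clear * - hC hb ha; positivity)
  have m1 : b * (c4 * b) ≤ A2 := by
    have := mul_le_mul_of_nonneg_right hC4 hP; linarith only [this]
  have m2 : C ^ 2 * (b * (a + b)) ≤ A3 := mul_le_mul_of_nonneg_right hC2 hab2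
  have m3 : C ^ 3 * (b * (a + b)) ≤ A3 := mul_le_mul_of_nonneg_right hC3 hab2
  have m4 : C ^ 4 * (a * b) ≤ A3 := by
    apply mul_le_mul_of_nonneg_left _ (by positivity)
    linarith only [mul_nonneg hb hb]
  have m5 : C ^ 2 * (b * (c3 * a)) ≤ A1 := mul_le_mul_of_nonneg_right hC2 hQ
  -- terms
  have t1' : |b * (b * o4)| ≤ A2 := by
    refine (aux_mul2 hb' (aux_mul2 hb' ho4)).trans ?_
    calc b * (b * c4) = b * (c4 * b) := by ring
      _ ≤ _ := m1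
  have tt : ∀ {x o : ℝ}, |x| ≤ C * (a + b) → |o| ≤ C → |b * (x * o)| ≤ A3 := by
    intro x o hx ho
    refine (aux_mul2 hb' (aux_mul2 hx ho)).trans ?_
    calc b * (C * (a + b) * C) = C ^ 2 * (b * (a + b)) := by ring
      _ ≤ _ := m2
  have t2' := tt hx1 ho1
  have t3' := tt hx2 ho2
  have tu : ∀ {g x o : ℝ}, |g| ≤ C → |x| ≤ C * (a + b) → |o| ≤ C → |g * x * (b * o)| ≤ A3 := by
    intro g x o hg hx ho
    refine (aux_mul2 (aux_mul2 hg hx) (aux_mul2 hb' ho)).trans ?_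
    calc C * (C * (a + b)) * (b * C) = C ^ 3 * (b * (a + b)) := by ring
      _ ≤ _ := m3
  have tq : ∀ {g q o : ℝ}, |g| ≤ C → |q| ≤ 2 * C ^ 2 * (a * b) → |o| ≤ C → |g * q * o| ≤ 2 * A3 := by
    intro g x o hg hx ho
    refine (aux_mul3 hg hx ho).trans ?_
    calc C * (2 * C ^ 2 * (a * b)) * C = 2 * (C ^ 4 * (a * b)) := by ring
      _ ≤ _ := by linarith only [m4]
  have u1 := tu hg11 hx1 ht1
  have u2 := tq hg11 hx11 hw11
  have u3 := tq hg11 hx12 hw12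
  have u4 := tu hg12 hx1 ht2
  have u5 := tq hg12 hx11 hw21
  have u6 := tq hg12 hx12 hw22
  have u7 := tu hg12 hx2 ht1
  have u8 := tq hg12 hx12 hw11
  have u9 := tq hg12 hx22 hw12
  have u10 := tu hg22 hx2 ht2
  have u11 := tq hg22 hx12 hw21
  have u12 := tq hg22 hx22 hw22
  have tv : ∀ {g q : ℝ}, |g| ≤ c3 → |q| ≤ 2 * C ^ 2 * (a * b) → |g * q| ≤ 2 * A1 := by
    intro g q hg hq
    refine (aux_mul2 hg hq).trans ?_
    calc c3 * (2 * C ^ 2 * (a * b)) = 2 * (C ^ 2 * (b * (c3 * a))) := by ring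
      _ ≤ _ := by linarith only [m5]
  have w1 := tv hg113 hx11
  have w2 := tv hg123 hx12
  have w3 := tv hg223 hx22
  have e : 60 * C ^ 4 * (b * (c4 * b + c3 * a + a + b)) = 60 * A1 + 60 * A2 + 60 * A3 := by
    rw [hA1, hA2, hA3]; ring
  have key : -2 * (b * (b * o4 + x1 * o1 + x2 * o2))
      - (g113 * x1 ^ 2 + 2 * g123 * (x1 * x2) + g223 * x2 ^ 2)
      + 2 * (g11 * x1 * (b * t1 - (x1 * w11 + x2 * w12))
        + g12 * (x1 * (b * t2 - (x1 * w21 + x2 * w22)) + x2 * (b * t1 - (x1 * w11 + x2 * w12)))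
        + g22 * x2 * (b * t2 - (x1 * w21 + x2 * w22)))
      = -2 * (b * (b * o4)) - 2 * (b * (x1 * o1)) - 2 * (b * (x2 * o2))
       + 2 * (g11 * x1 * (b * t1)) - 2 * (g11 * x1 ^ 2 * w11) - 2 * (g11 * (x1 * x2) * w12)
       + 2 * (g12 * x1 * (b * t2)) - 2 * (g12 * x1 ^ 2 * w21) - 2 * (g12 * (x1 * x2) * w22)
       + 2 * (g12 * x2 * (b * t1)) - 2 * (g12 * (x1 * x2) * w11) - 2 * (g12 * x2 ^ 2 * w12)
       + 2 * (g22 * x2 * (b * t2)) - 2 * (g22 * (x1 * x2) * w21) - 2 * (g22 * x2 ^ 2 * w22)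
       - g113 * x1 ^ 2 - 2 * (g123 * (x1 * x2)) - g223 * x2 ^ 2 := by ring
  rw [key, e]
  clear_value A1 A2 A3
  clear key e tt tu tq tv hA1 hA2 hA3
  generalize b * (b * o4) = q1 at t1' ⊢
  generalize b * (x1 * o1) = q2 at t2' ⊢
  generalize b * (x2 * o2) = q3 at t3' ⊢
  generalize g11 * x1 * (b * t1) = q4 at u1 ⊢
  generalize g11 * x1 ^ 2 * w11 = q5 at u2 ⊢
  generalize g11 * (x1 * x2) * w12 = q6 at u3 ⊢
  generalize g12 * x1 * (b * t2) = q7 at u4 ⊢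
  generalize g12 * x1 ^ 2 * w21 = q8 at u5 ⊢
  generalize g12 * (x1 * x2) * w22 = q9 at u6 ⊢
  generalize g12 * x2 * (b * t1) = q10 at u7 ⊢
  generalize g12 * (x1 * x2) * w11 = q11 at u8 ⊢
  generalize g12 * x2 ^ 2 * w12 = q12 at u9 ⊢
  generalize g22 * x2 * (b * t2) = q13 at u10 ⊢
  generalize g22 * (x1 * x2) * w21 = q14 at u11 ⊢
  generalize g22 * x2 ^ 2 * w22 = q15 at u12 ⊢
  generalize g113 * x1 ^ 2 = q16 at w1 ⊢
  generalize g123 * (x1 * x2) = q17 at w2 ⊢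
  generalize g223 * x2 ^ 2 = q18 at w3 ⊢
  clear * - t1' t2' t3' u1 u2 u3 u4 u5 u6 u7 u8 u9 u10 u11 u12 w1 w2 w3 p1 p2 p3
  rw [abs_le] at t1' t2' t3' u1 u2 u3 u4 u5 u6 u7 u8 u9 u10 u11 u12 w1 w2 w3 ⊢
  obtain ⟨_, _⟩ := t1'
  obtain ⟨_, _⟩ := t2'
  obtain ⟨_, _⟩ := t3'
  obtain ⟨_, _⟩ := u1
  obtain ⟨_, _⟩ := u2
  obtain ⟨_, _⟩ := u3
  obtain ⟨_, _⟩ := u4
  obtain ⟨_, _⟩ := u5
  obtain ⟨_, _⟩ := u6
  obtain ⟨_, _⟩ := u7
  obtain ⟨_, _⟩ := u8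
  obtain ⟨_, _⟩ := u9
  obtain ⟨_, _⟩ := u10
  obtain ⟨_, _⟩ := u11
  obtain ⟨_, _⟩ := u12
  obtain ⟨_, _⟩ := w1
  obtain ⟨_, _⟩ := w2
  obtain ⟨_, _⟩ := w3
  constructor <;> linarith

/-- Real-number lemma for the `Z` derivatives. -/
lemma alg_qZ {C c3 a b x1 x2 g11 g12 g22 o1 g113 g123 t1 t2 w11 w12 w21 w22 : ℝ}
    (hC : 1 ≤ C) (ha : 0 ≤ a) (hb : 0 ≤ b)
    (hx1 : |x1| ≤ C * (a + b)) (hx2 : |x2| ≤ C * (a + b))
    (hg11 : |g11| ≤ C) (hg12 : |g12| ≤ C) (hg22 : |g22| ≤ C)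
    (ho1 : |o1| ≤ C)
    (hg113 : |g113| ≤ c3) (hg123 : |g123| ≤ c3)
    (ht1 : |t1| ≤ C) (ht2 : |t2| ≤ C) (hw11 : |w11| ≤ C) (hw12 : |w12| ≤ C)
    (hw21 : |w21| ≤ C) (hw22 : |w22| ≤ C) :
    |- (o1 * b) - (g11 * x1 * w11 + g12 * (x1 * w21 + x2 * w11) + g22 * x2 * w21)
      - (g113 * x1 + g123 * x2)
      + (g11 * (b * t1 - (x1 * w11 + x2 * w12)) + g12 * (b * t2 - (x1 * w21 + x2 * w22)))|
    ≤ 15 * (C ^ 3 * (a + b)) + c3 * (|x1| + |x2|) := by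
  have hC0 : 0 < C := by linarith only [hC]
  have hb' : |b| ≤ b := (abs_of_nonneg hb).le
  set M := C ^ 3 * (a + b) with hM
  have hM0 : 0 ≤ M := by (clear * - hC ha hb; positivity)
  have c13 : C ≤ C ^ 3 := le_self_pow₀ hC (by norm_num)
  have c23 : C ^ 2 ≤ C ^ 3 := pow_le_pow_right₀ hC (by norm_num)
  have hC3 : 0 < C ^ 3 := pow_pos hC0 3
  have mab : C ^ 3 * b ≤ M := by
    rw [hM]; exact mul_le_mul_of_nonneg_left (by linarith only [ha]) hC3.le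
  have mCa : C * b ≤ M := (mul_le_mul_of_nonneg_right c13 hb).trans mab
  have mC2a : C * (b * C) ≤ M := by
    have : C * (b * C) = C ^ 2 * b := by ring
    rw [this]; exact (mul_le_mul_of_nonneg_right c23 hb).trans mab
  have mM : C * (C * (a + b)) * C ≤ M := by
    rw [hM]; apply le_of_eq; ring
  have b1 : |o1 * b| ≤ M := (aux_mul2 ho1 hb').trans mCa
  have u1 := (aux_mul3 hg11 hx1 hw11).trans mM
  have u2 := (aux_mul3 hg12 hx1 hw21).trans mM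
  have u3 := (aux_mul3 hg12 hx2 hw11).trans mM
  have u4 := (aux_mul3 hg22 hx2 hw21).trans mM
  have u5 := (aux_mul2 hg11 (aux_mul2 hb' ht1)).trans mC2a
  have u6 := (aux_mul3 hg11 hx2 hw12).trans mM
  have u7 := (aux_mul2 hg12 (aux_mul2 hb' ht2)).trans mC2a
  have u8 := (aux_mul3 hg12 hx2 hw22).trans mM
  have v1 := aux_mul2 hg113 (le_refl |x1|)
  have v2 := aux_mul2 hg123 (le_refl |x2|)
  have e3 : - (o1 * b) - (g11 * x1 * w11 + g12 * (x1 * w21 + x2 * w11) + g22 * x2 * w21)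
      - (g113 * x1 + g123 * x2)
      + (g11 * (b * t1 - (x1 * w11 + x2 * w12)) + g12 * (b * t2 - (x1 * w21 + x2 * w22)))
      = - (o1 * b) - 2 * (g11 * x1 * w11) - 2 * (g12 * x1 * w21) - g12 * x2 * w11
        - g22 * x2 * w21 + g11 * (b * t1) - g11 * x2 * w12 + g12 * (b * t2)
        - g12 * x2 * w22 - g113 * x1 - g123 * x2 := by ring
  rw [e3]
  clear e3
  generalize o1 * b = q1 at b1 ⊢
  generalize g11 * x1 * w11 = q2 at u1 ⊢
  generalize g12 * x1 * w21 = q3 at u2 ⊢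
  generalize g12 * x2 * w11 = q4 at u3 ⊢
  generalize g22 * x2 * w21 = q5 at u4 ⊢
  generalize g11 * (b * t1) = q6 at u5 ⊢
  generalize g11 * x2 * w12 = q7 at u6 ⊢
  generalize g12 * (b * t2) = q8 at u7 ⊢
  generalize g12 * x2 * w22 = q9 at u8 ⊢
  generalize g113 * x1 = q10 at v1 ⊢
  generalize g123 * x2 = q13 at v2 ⊢
  clear_value M
  clear * - b1 u1 u2 u3 u4 u5 u6 u7 u8 v1 v2 hM0
  rw [mul_add]
  generalize c3 * |x1| = r1 at *
  generalize c3 * |x2| = r2 at *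
  rw [abs_le] at b1 u1 u2 u3 u4 u5 u6 u7 u8 v1 v2 ⊢
  obtain ⟨_, _⟩ := b1
  obtain ⟨_, _⟩ := u1
  obtain ⟨_, _⟩ := u2
  obtain ⟨_, _⟩ := u3
  obtain ⟨_, _⟩ := u4
  obtain ⟨_, _⟩ := u5
  obtain ⟨_, _⟩ := u6
  obtain ⟨_, _⟩ := u7
  obtain ⟨_, _⟩ := u8
  obtain ⟨_, _⟩ := v1
  obtain ⟨_, _⟩ := v2
  constructor <;> linarith

end Vale.Agent.P354w
end
end

section

section

set_option maxSynthPendingDepth 3

namespace Vale.Agent.P354w

structure PtHyp (K : Coef) (G : P4 → P4 →L[ℝ] P4 →L[ℝ] ℝ) (Psi : P4 → P4) (V : Set P4)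
    (z : P4) (C cv cw cu : ℝ) : Prop where
  iso : Iso K G Psi V
  mem : z ∈ V
  bd : K.Bd (Psi z) C cv cw cu
  cone : ∀ a, ‖a‖ ^ 2 ≤ C * G z a a + C * (G z a e1) ^ 2
  tt : 1 ≤ C * (-(G z e1 e1))
  pos : 0 < (fderiv ℝ Psi z e1).2.1

variable {K : Coef} {G : P4 → P4 →L[ℝ] P4 →L[ℝ] ℝ} {Psi : P4 → P4} {V : Set P4}

lemma gF_e3 (K : Coef) (x b : P4) : K.gF x (e3 K x) b = - K.om x * b.2.1 := by
  simp only [Coef.gF, e3, zero_mul, one_mul, zero_add, neg_mul, Coef.h1, mul_zero, sub_zero, mul_one, sub_self, add_zero, Coef.h2]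

lemma gF_e4 (K : Coef) (x b : P4) : K.gF x (e4 K x) b = - K.om x * b.2.2.1 := by
  simp only [Coef.gF, e4, one_mul, zero_mul, add_zero, neg_mul, Coef.h1, mul_one, sub_self, mul_zero, Coef.h2]

lemma gF_e1 (K : Coef) (x b : P4) :
    K.gF x e1 b = K.g11 x * K.h1 x b + K.g12 x * K.h2 x b := by
  simp only [Coef.gF, e1, zero_mul, add_zero, mul_zero, Coef.h1, sub_zero, one_mul, zero_add, Coef.h2, sub_self]

namespace PtHyp

variable {z : P4} {C cv cw cu : ℝ}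

/-- exotic vertical vector seen from the standard side -/
noncomputable abbrev PP (Psi : P4 → P4) (z : P4) : P4 := fderiv ℝ Psi z e1

lemma norm_form (h : PtHyp K G Psi V z C cv cw cu) :
    G z e1 e1 = -2 * K.om (Psi z) * ((PP Psi z).2.2.1 * (PP Psi z).2.1)
      + (K.g11 (Psi z) * K.h1 (Psi z) (PP Psi z) ^ 2
        + 2 * K.g12 (Psi z) * K.h1 (Psi z) (PP Psi z) * K.h2 (Psi z) (PP Psi z)
        + K.g22 (Psi z) * K.h2 (Psi z) (PP Psi z) ^ 2) := by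
  rw [h.iso.iso z h.mem]
  simp only [Coef.gF]
  ring

lemma om_pos (h : PtHyp K G Psi V z C cv cw cu) : 0 < K.om (Psi z) := by
  have := h.bd.om_lo
  have := h.bd.one_le
  by_contra hcon
  push Not at hcon
  linarith [mul_nonpos_of_nonneg_of_nonpos (by linarith : (0 : ℝ) ≤ C) hcon]

lemma sq_le (h : PtHyp K G Psi V z C cv cw cu) :
    K.h1 (Psi z) (PP Psi z) ^ 2 + K.h2 (Psi z) (PP Psi z) ^ 2
      ≤ 2 * C ^ 2 * ((PP Psi z).2.2.1 * (PP Psi z).2.1) ∧ 0 < (PP Psi z).2.2.1 ∧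
      1 ≤ 2 * C ^ 2 * ((PP Psi z).2.2.1 * (PP Psi z).2.1) := by
  have hC := h.bd.one_le
  have hn := h.norm_form
  have hlo := h.bd.g_lo (K.h1 (Psi z) (PP Psi z)) (K.h2 (Psi z) (PP Psi z))
  have htt := h.tt
  have hom := h.om_pos
  have homhi := h.bd.om_hi
  have hpos := h.pos
  have hsq : 0 ≤ K.h1 (Psi z) (PP Psi z) ^ 2 + K.h2 (Psi z) (PP Psi z) ^ 2 := by (clear * -; positivity)
  set q := K.g11 (Psi z) * K.h1 (Psi z) (PP Psi z) ^ 2
        + 2 * K.g12 (Psi z) * K.h1 (Psi z) (PP Psi z) * K.h2 (Psi z) (PP Psi z)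
        + K.g22 (Psi z) * K.h2 (Psi z) (PP Psi z) ^ 2 with hq
  set s := K.h1 (Psi z) (PP Psi z) ^ 2 + K.h2 (Psi z) (PP Psi z) ^ 2 with hs
  set om := K.om (Psi z) with hom'
  set b := (PP Psi z).2.1 with hb
  set a := (PP Psi z).2.2.1 with ha
  have hpos' : 0 < b := hpos
  clear_value q s om a b
  have hCpos : 0 < C := by linarith only [hC]
  have hq0 : 0 ≤ q := by
    by_contra hcon
    push Not at hcon
    linarith only [hsq, hlo, mul_neg_of_pos_of_neg hCpos hcon]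
  have h1 : 1 ≤ C * (2 * om * (a * b) - q) := by
    have : -(G z e1 e1) = 2 * om * (a * b) - q := by rw [hn]; ring
    rw [← this]; exact htt
  have hab : 0 < a * b := by
    by_contra hcon
    push Not at hcon
    have h2 : om * (a * b) ≤ 0 := mul_nonpos_of_nonneg_of_nonpos hom.le hcon
    linarith only [h1, mul_nonpos_of_nonneg_of_nonpos hCpos.le (by linarith : 2 * om * (a * b) - q ≤ 0)]
  have ha0 : 0 < a := by
    by_contra hcon
    push Not at hcon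
    linarith only [hab, mul_nonpos_of_nonpos_of_nonneg hcon hpos'.le]
  have hqle : q ≤ 2 * om * (a * b) := by
    by_contra hc
    push Not at hc
    linarith only [h1, mul_neg_of_pos_of_neg hCpos (by linarith : 2 * om * (a * b) - q < 0)]
  have h3 : om * (a * b) ≤ C * (a * b) := by
    exact mul_le_mul_of_nonneg_right homhi hab.le
  refine ⟨?_, ha0, ?_⟩
  · calc s ≤ C * q := hlo
      _ ≤ C * (2 * om * (a * b)) := by (clear * - hqle hC; gcongr)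
      _ = 2 * C * (om * (a * b)) := by ring
      _ ≤ 2 * C * (C * (a * b)) := by (clear * - h3 hC; gcongr)
      _ = _ := by ring
  · calc (1:ℝ) ≤ C * (2 * om * (a * b) - q) := h1
      _ ≤ C * (2 * om * (a * b)) := by gcongr; linarith only [hq0]
      _ = 2 * C * (om * (a * b)) := by ring
      _ ≤ 2 * C * (C * (a * b)) := by (clear * - h3 hC; gcongr)
      _ = _ := by ring

lemma abs_h_le (h : PtHyp K G Psi V z C cv cw cu) :
    |K.h1 (Psi z) (PP Psi z)| ≤ C * ((PP Psi z).2.2.1 + (PP Psi z).2.1) ∧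
    |K.h2 (Psi z) (PP Psi z)| ≤ C * ((PP Psi z).2.2.1 + (PP Psi z).2.1) := by
  obtain ⟨h1, h2, h3⟩ := h.sq_le
  have hC := h.bd.one_le
  have hpos : 0 < (PP Psi z).2.1 := h.pos
  have key : ∀ x : ℝ, x ^ 2 ≤ 2 * C ^ 2 * ((PP Psi z).2.2.1 * (PP Psi z).2.1) →
      |x| ≤ C * ((PP Psi z).2.2.1 + (PP Psi z).2.1) := by
    intro x hx
    apply abs_le_of_sq_le_sq _ (by (clear * - hC h2 hpos; positivity))
    calc x ^ 2 ≤ 2 * C ^ 2 * ((PP Psi z).2.2.1 * (PP Psi z).2.1) := hx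
      _ = C ^ 2 * (2 * ((PP Psi z).2.2.1 * (PP Psi z).2.1)) := by ring
      _ ≤ C ^ 2 * ((PP Psi z).2.2.1 + (PP Psi z).2.1) ^ 2 := by
        gcongr
        linarith only [sq_nonneg ((PP Psi z).2.2.1), sq_nonneg ((PP Psi z).2.1)]
      _ = _ := by ring
  exact ⟨key _ (by linarith only [h1, sq_nonneg (K.h2 (Psi z) (PP Psi z))]),
    key _ (by linarith [sq_nonneg (K.h1 (Psi z) (PP Psi z))])⟩

/-- norm of the preimage of `eu` -/
lemma norm_N (h : PtHyp K G Psi V z C cv cw cu) {N : P4} (hN : fderiv ℝ Psi z N = e3 K (Psi z)) :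
    ‖N‖ ≤ C ^ 2 * (PP Psi z).2.1 := by
  have hC := h.bd.one_le
  have hpos : 0 < (PP Psi z).2.1 := h.pos
  have h1 := h.cone N
  rw [h.iso.iso z h.mem, h.iso.iso z h.mem, hN, gF_e3, gF_e3] at h1
  have : (e3 K (Psi z) : P4).2.1 = 0 := rfl
  rw [this] at h1
  have hom := h.om_pos
  have homhi := h.bd.om_hi
  apply le_of_sq_le_sq _ (by positivity) |> fun x => x
  calc ‖N‖ ^ 2 ≤ C * (-K.om (Psi z) * 0) + C * (-K.om (Psi z) * (PP Psi z).2.1) ^ 2 := h1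
    _ = C * (K.om (Psi z) * (PP Psi z).2.1) ^ 2 := by ring
    _ ≤ C * (C * (PP Psi z).2.1) ^ 2 := by gcongr
    _ = C ^ 3 * (PP Psi z).2.1 ^ 2 := by ring
    _ ≤ C ^ 4 * (PP Psi z).2.1 ^ 2 := by
      gcongr
      norm_num
    _ = _ := by ring

/-- norm of the preimage of `e4` -/
lemma norm_N' (h : PtHyp K G Psi V z C cv cw cu) {N : P4} (hN : fderiv ℝ Psi z N = e4 K (Psi z)) :
    ‖N‖ ≤ C ^ 2 * (PP Psi z).2.2.1 := by
  have hC := h.bd.one_le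
  have hpos : 0 < (PP Psi z).2.2.1 := h.sq_le.2.1
  have h1 := h.cone N
  rw [h.iso.iso z h.mem, h.iso.iso z h.mem, hN, gF_e4, gF_e4] at h1
  have : (e4 K (Psi z) : P4).2.2.1 = 0 := rfl
  rw [this] at h1
  have hom := h.om_pos
  have homhi := h.bd.om_hi
  apply le_of_sq_le_sq _ (by positivity) |> fun x => x
  calc ‖N‖ ^ 2 ≤ C * (-K.om (Psi z) * 0) + C * (-K.om (Psi z) * (PP Psi z).2.2.1) ^ 2 := h1
    _ = C * (K.om (Psi z) * (PP Psi z).2.2.1) ^ 2 := by ring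
    _ ≤ C * (C * (PP Psi z).2.2.1) ^ 2 := by gcongr
    _ = C ^ 3 * (PP Psi z).2.2.1 ^ 2 := by ring
    _ ≤ C ^ 4 * (PP Psi z).2.2.1 ^ 2 := by
      gcongr
      norm_num
    _ = _ := by ring

/-- the scalar `xi = g(T, d_theta1)` -/
noncomputable abbrev xi (K : Coef) (Psi : P4 → P4) (z : P4) : ℝ :=
  K.g11 (Psi z) * K.h1 (Psi z) (PP Psi z) + K.g12 (Psi z) * K.h2 (Psi z) (PP Psi z)

lemma sq_norm_Z (h : PtHyp K G Psi V z C cv cw cu) {Z : P4} (hZ : fderiv ℝ Psi z Z = e1) :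
    ‖Z‖ ^ 2 ≤ C ^ 2 + C * (xi K Psi z) ^ 2 := by
  have hC := h.bd.one_le
  have h1 := h.cone Z
  rw [h.iso.iso z h.mem, h.iso.iso z h.mem, hZ, gF_e1, gF_e1] at h1
  have h11 : K.h1 (Psi z) e1 = 1 := by simp [Coef.h1, e1]
  have h21 : K.h2 (Psi z) e1 = 0 := by simp [Coef.h2, e1]
  rw [h11, h21] at h1
  have := (abs_le.mp h.bd.g11).2
  calc ‖Z‖ ^ 2 ≤ _ := h1
    _ ≤ C * (C * 1 + K.g12 (Psi z) * 0) + C * (xi K Psi z) ^ 2 := by gcongr
    _ = _ := by ring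

lemma norm_e1 : ‖(e1 : P4)‖ = 1 := by
  simp only [e1, Prod.norm_def, norm_one, norm_zero, max_self, zero_le_one, sup_of_le_left]

lemma DG_le (G : P4 → P4 →L[ℝ] P4 →L[ℝ] ℝ) (z a b c : P4) :
    |fderiv ℝ G z a b c| ≤ ‖fderiv ℝ G z‖ * ‖a‖ * ‖b‖ * ‖c‖ := by
  have h1 := (fderiv ℝ G z a b).le_opNorm c
  have h2 := (fderiv ℝ G z a).le_opNorm b
  have h3 := (fderiv ℝ G z).le_opNorm a
  rw [Real.norm_eq_abs] at h1
  calc |fderiv ℝ G z a b c| ≤ ‖fderiv ℝ G z a b‖ * ‖c‖ := h1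
    _ ≤ (‖fderiv ℝ G z a‖ * ‖b‖) * ‖c‖ := by gcongr
    _ ≤ (‖fderiv ℝ G z‖ * ‖a‖ * ‖b‖) * ‖c‖ := by gcongr

lemma comb_beta (K : Coef) (x P : P4) :
    2 * K.dgF x P P (e3 K x) - K.dgF x (e3 K x) P P =
    -2 * (P.2.1 * (P.2.1 * fderiv ℝ K.om x (e4 K x) + K.h1 x P * fderiv ℝ K.om x e1
          + K.h2 x P * fderiv ℝ K.om x e2))
      - (fderiv ℝ K.g11 x (e3 K x) * K.h1 x P ^ 2
        + 2 * fderiv ℝ K.g12 x (e3 K x) * (K.h1 x P * K.h2 x P)
        + fderiv ℝ K.g22 x (e3 K x) * K.h2 x P ^ 2)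
      + 2 * (K.g11 x * K.h1 x P * (P.2.1 * (fderiv ℝ K.s1 x (e3 K x) - fderiv ℝ K.w1 x (e4 K x))
          - (K.h1 x P * fderiv ℝ K.w1 x e1 + K.h2 x P * fderiv ℝ K.w1 x e2))
        + K.g12 x * (K.h1 x P * (P.2.1 * (fderiv ℝ K.s2 x (e3 K x) - fderiv ℝ K.w2 x (e4 K x))
          - (K.h1 x P * fderiv ℝ K.w2 x e1 + K.h2 x P * fderiv ℝ K.w2 x e2))
          + K.h2 x P * (P.2.1 * (fderiv ℝ K.s1 x (e3 K x) - fderiv ℝ K.w1 x (e4 K x))
          - (K.h1 x P * fderiv ℝ K.w1 x e1 + K.h2 x P * fderiv ℝ K.w1 x e2)))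
        + K.g22 x * K.h2 x P * (P.2.1 * (fderiv ℝ K.s2 x (e3 K x) - fderiv ℝ K.w2 x (e4 K x))
          - (K.h1 x P * fderiv ℝ K.w2 x e1 + K.h2 x P * fderiv ℝ K.w2 x e2))) := by
  have hom := clm_decomp' K x (fderiv ℝ K.om x) P
  have hw1 := clm_decomp' K x (fderiv ℝ K.w1 x) P
  have hw2 := clm_decomp' K x (fderiv ℝ K.w2 x) P
  have k1 : K.h1 x (e3 K x) = 0 := by simp [Coef.h1, e3]
  have k2 : K.h2 x (e3 K x) = 0 := by simp [Coef.h2, e3]
  simp only [Coef.dgF, Coef.d1, Coef.d2, k1, k2,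
    show (e3 K x : P4).2.1 = 0 from rfl, show (e3 K x : P4).2.2.1 = 1 from rfl]
  rw [hom, hw1, hw2]
  ring

lemma comb_alpha (K : Coef) (x P : P4) :
    2 * K.dgF x P P (e4 K x) - K.dgF x (e4 K x) P P =
    -2 * (P.2.2.1 * (P.2.2.1 * fderiv ℝ K.om x (e3 K x) + K.h1 x P * fderiv ℝ K.om x e1
          + K.h2 x P * fderiv ℝ K.om x e2))
      - (fderiv ℝ K.g11 x (e4 K x) * K.h1 x P ^ 2
        + 2 * fderiv ℝ K.g12 x (e4 K x) * (K.h1 x P * K.h2 x P)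
        + fderiv ℝ K.g22 x (e4 K x) * K.h2 x P ^ 2)
      + 2 * (K.g11 x * K.h1 x P * (P.2.2.1 * (-(fderiv ℝ K.s1 x (e3 K x) - fderiv ℝ K.w1 x (e4 K x)))
          - (K.h1 x P * fderiv ℝ K.s1 x e1 + K.h2 x P * fderiv ℝ K.s1 x e2))
        + K.g12 x * (K.h1 x P * (P.2.2.1 * (-(fderiv ℝ K.s2 x (e3 K x) - fderiv ℝ K.w2 x (e4 K x)))
          - (K.h1 x P * fderiv ℝ K.s2 x e1 + K.h2 x P * fderiv ℝ K.s2 x e2))
          + K.h2 x P * (P.2.2.1 * (-(fderiv ℝ K.s1 x (e3 K x) - fderiv ℝ K.w1 x (e4 K x)))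
          - (K.h1 x P * fderiv ℝ K.s1 x e1 + K.h2 x P * fderiv ℝ K.s1 x e2)))
        + K.g22 x * K.h2 x P * (P.2.2.1 * (-(fderiv ℝ K.s2 x (e3 K x) - fderiv ℝ K.w2 x (e4 K x)))
          - (K.h1 x P * fderiv ℝ K.s2 x e1 + K.h2 x P * fderiv ℝ K.s2 x e2))) := by
  have hom := clm_decomp' K x (fderiv ℝ K.om x) P
  have hs1 := clm_decomp' K x (fderiv ℝ K.s1 x) P
  have hs2 := clm_decomp' K x (fderiv ℝ K.s2 x) P
  have k1 : K.h1 x (e4 K x) = 0 := by simp [Coef.h1, e4]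
  have k2 : K.h2 x (e4 K x) = 0 := by simp [Coef.h2, e4]
  simp only [Coef.dgF, Coef.d1, Coef.d2, k1, k2,
    show (e4 K x : P4).2.1 = 1 from rfl, show (e4 K x : P4).2.2.1 = 0 from rfl]
  rw [hom, hs1, hs2]
  ring

end PtHyp

end Vale.Agent.P354w
end
end

section

section

set_option maxSynthPendingDepth 3

namespace Vale.Agent.P354w

variable {K : Coef} {G : P4 → P4 →L[ℝ] P4 →L[ℝ] ℝ} {Psi : P4 → P4} {V : Set P4}

namespace PtHyp

variable {z : P4} {C cv cw cu : ℝ}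

lemma comb_betaZ (K : Coef) (x P : P4) :
    K.dgF x e1 P (e3 K x) + K.dgF x P e1 (e3 K x) - K.dgF x (e3 K x) e1 P =
    - (fderiv ℝ K.om x e1 * P.2.1)
      - (K.g11 x * K.h1 x P * fderiv ℝ K.w1 x e1
        + K.g12 x * (K.h1 x P * fderiv ℝ K.w2 x e1 + K.h2 x P * fderiv ℝ K.w1 x e1)
        + K.g22 x * K.h2 x P * fderiv ℝ K.w2 x e1)
      - (fderiv ℝ K.g11 x (e3 K x) * K.h1 x P + fderiv ℝ K.g12 x (e3 K x) * K.h2 x P)
      + (K.g11 x * (P.2.1 * (fderiv ℝ K.s1 x (e3 K x) - fderiv ℝ K.w1 x (e4 K x))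
          - (K.h1 x P * fderiv ℝ K.w1 x e1 + K.h2 x P * fderiv ℝ K.w1 x e2))
        + K.g12 x * (P.2.1 * (fderiv ℝ K.s2 x (e3 K x) - fderiv ℝ K.w2 x (e4 K x))
          - (K.h1 x P * fderiv ℝ K.w2 x e1 + K.h2 x P * fderiv ℝ K.w2 x e2))) := by
  have hw1 := clm_decomp' K x (fderiv ℝ K.w1 x) P
  have hw2 := clm_decomp' K x (fderiv ℝ K.w2 x) P
  have k1 : K.h1 x (e3 K x) = 0 := by simp [Coef.h1, e3]
  have k2 : K.h2 x (e3 K x) = 0 := by simp [Coef.h2, e3]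
  have k3 : K.h1 x e1 = 1 := by simp only [Coef.h1, e1, mul_zero, sub_zero]
  have k4 : K.h2 x e1 = 0 := by simp [Coef.h2, e1]
  simp only [Coef.dgF, Coef.d1, Coef.d2, k1, k2, k3, k4,
    show (e3 K x : P4).2.1 = 0 from rfl, show (e3 K x : P4).2.2.1 = 1 from rfl,
    show (e1 : P4).2.1 = 0 from rfl, show (e1 : P4).2.2.1 = 0 from rfl]
  rw [hw1, hw2]
  ring

lemma comb_alphaZ (K : Coef) (x P : P4) :
    K.dgF x e1 P (e4 K x) + K.dgF x P e1 (e4 K x) - K.dgF x (e4 K x) e1 P =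
    - (fderiv ℝ K.om x e1 * P.2.2.1)
      - (K.g11 x * K.h1 x P * fderiv ℝ K.s1 x e1
        + K.g12 x * (K.h1 x P * fderiv ℝ K.s2 x e1 + K.h2 x P * fderiv ℝ K.s1 x e1)
        + K.g22 x * K.h2 x P * fderiv ℝ K.s2 x e1)
      - (fderiv ℝ K.g11 x (e4 K x) * K.h1 x P + fderiv ℝ K.g12 x (e4 K x) * K.h2 x P)
      + (K.g11 x * (P.2.2.1 * (-(fderiv ℝ K.s1 x (e3 K x) - fderiv ℝ K.w1 x (e4 K x)))
          - (K.h1 x P * fderiv ℝ K.s1 x e1 + K.h2 x P * fderiv ℝ K.s1 x e2))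
        + K.g12 x * (P.2.2.1 * (-(fderiv ℝ K.s2 x (e3 K x) - fderiv ℝ K.w2 x (e4 K x)))
          - (K.h1 x P * fderiv ℝ K.s2 x e1 + K.h2 x P * fderiv ℝ K.s2 x e2))) := by
  have hs1 := clm_decomp' K x (fderiv ℝ K.s1 x) P
  have hs2 := clm_decomp' K x (fderiv ℝ K.s2 x) P
  have k1 : K.h1 x (e4 K x) = 0 := by simp [Coef.h1, e4]
  have k2 : K.h2 x (e4 K x) = 0 := by simp [Coef.h2, e4]
  have k3 : K.h1 x e1 = 1 := by simp [Coef.h1, e1]
  have k4 : K.h2 x e1 = 0 := by simp only [Coef.h2, e1, mul_zero, sub_self]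
  simp only [Coef.dgF, Coef.d1, Coef.d2, k1, k2, k3, k4,
    show (e4 K x : P4).2.1 = 1 from rfl, show (e4 K x : P4).2.2.1 = 0 from rfl,
    show (e1 : P4).2.1 = 0 from rfl, show (e1 : P4).2.2.1 = 0 from rfl]
  rw [hs1, hs2]
  ring

lemma dgF_e1_P_e1 (K : Coef) (x P : P4) :
    K.dgF x e1 P e1 = fderiv ℝ K.g11 x e1 * K.h1 x P + fderiv ℝ K.g12 x e1 * K.h2 x P
      - P.2.1 * (K.g11 x * fderiv ℝ K.s1 x e1 + K.g12 x * fderiv ℝ K.s2 x e1)
      - P.2.2.1 * (K.g11 x * fderiv ℝ K.w1 x e1 + K.g12 x * fderiv ℝ K.w2 x e1) := by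
  have k3 : K.h1 x e1 = 1 := by simp only [Coef.h1, e1, mul_zero, sub_zero]
  have k4 : K.h2 x e1 = 0 := by simp only [Coef.h2, e1, mul_zero, sub_self]
  simp only [Coef.dgF, Coef.d1, Coef.d2, k3, k4,
    show (e1 : P4).2.1 = 0 from rfl, show (e1 : P4).2.2.1 = 0 from rfl]
  ring

lemma dgF_P_e1_e1 (K : Coef) (x P : P4) :
    K.dgF x P e1 e1 = fderiv ℝ K.g11 x P := by
  have k3 : K.h1 x e1 = 1 := by simp [Coef.h1, e1]
  have k4 : K.h2 x e1 = 0 := by simp [Coef.h2, e1]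
  simp only [Coef.dgF, Coef.d1, Coef.d2, k3, k4,
    show (e1 : P4).2.1 = 0 from rfl, show (e1 : P4).2.2.1 = 0 from rfl]
  ring

lemma dgF_symm (K : Coef) (x h a b : P4) : K.dgF x h a b = K.dgF x h b a := by
  simp only [Coef.dgF]; ring

lemma DG_symm (h : PtHyp K G Psi V z C cv cw cu) (a b c : P4) :
    fderiv ℝ G z a b c = fderiv ℝ G z a c b := by
  rw [h.iso.deriv_iso h.mem b c a, h.iso.deriv_iso h.mem c b a, dgF_symm,
    K.gF_symm _ (Sd Psi z a b), K.gF_symm _ (Sd Psi z a c)]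
  ring

/-- the `beta` equation -/
lemma Sv_TT (h : PtHyp K G Psi V z C cv cw cu) {N : P4} (hN : fderiv ℝ Psi z N = e3 K (Psi z)) :
    |(Sd Psi z e1 e1).2.1| ≤ 100 * C ^ 5 * ((PP Psi z).2.1 * (‖fderiv ℝ G z‖
      + cw * (PP Psi z).2.1 + cu * (PP Psi z).2.2.1 + (PP Psi z).2.2.1 + (PP Psi z).2.1)) := by
  have hC := h.bd.one_le
  have hb : 0 < (PP Psi z).2.1 := h.pos
  have ha : 0 < (PP Psi z).2.2.1 := h.sq_le.2.1
  have ht := h.iso.transf h.mem e1 e1 N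
  rw [hN, K.gF_symm, gF_e3] at ht
  have hcomb := comb_beta K (Psi z) (PP Psi z)
  have halg := alg_q (C := C) (c4 := cw) (c3 := cu) (a := (PP Psi z).2.2.1)
    (b := (PP Psi z).2.1) hC h.bd.cw0 h.bd.cu0 ha.le hb.le h.abs_h_le.1 h.abs_h_le.2
    h.sq_le.1 h.bd.g11 h.bd.g12 h.bd.g22 h.bd.om_4 h.bd.om_1 h.bd.om_2
    h.bd.g11_3 h.bd.g12_3 h.bd.g22_3 h.bd.t1 h.bd.t2 h.bd.w1_1 h.bd.w1_2 h.bd.w2_1 h.bd.w2_2
  rw [← hcomb] at halg
  have hL := norm_nonneg (fderiv ℝ G z)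
  set L := ‖fderiv ℝ G z‖ with hLdef
  have hNn := h.norm_N hN
  have d1 : |fderiv ℝ G z e1 e1 N| ≤ L * (C ^ 2 * (PP Psi z).2.1) := by
    have := DG_le G z e1 e1 N
    rw [norm_e1, mul_one, mul_one] at this
    exact this.trans (by gcongr)
  have d2 : |fderiv ℝ G z N e1 e1| ≤ L * (C ^ 2 * (PP Psi z).2.1) := by
    have := DG_le G z N e1 e1
    rw [norm_e1, mul_one, mul_one] at this
    exact this.trans (by gcongr)
  have hom := h.om_pos
  have homlo := h.bd.om_lo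
  set E := cw * (PP Psi z).2.1 + cu * (PP Psi z).2.2.1 + (PP Psi z).2.2.1 + (PP Psi z).2.1 with hE
  have hE0 : 0 ≤ E := by
    have := h.bd.cw0
    have := h.bd.cu0
    (clear N hN hC ht hcomb L hL hLdef hNn d1 d2 hom homlo halg hE; positivity)
  have hmain : 2 * K.om (Psi z) * |(Sd Psi z e1 e1).2.1|
      ≤ 3 * (L * (C ^ 2 * (PP Psi z).2.1)) + 60 * C ^ 4 * ((PP Psi z).2.1 * E) := by
    have e : 2 * K.om (Psi z) * |(Sd Psi z e1 e1).2.1|
        = |2 * (-K.om (Psi z) * (Sd Psi z e1 e1).2.1)| := by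
      rw [abs_mul, abs_mul, abs_neg, abs_of_pos hom, abs_of_pos (by norm_num : (0:ℝ) < 2)]; ring
    rw [e, ht]
    have e2 : fderiv ℝ G z e1 e1 N + fderiv ℝ G z e1 e1 N - fderiv ℝ G z N e1 e1 -
        (K.dgF (Psi z) (PP Psi z) (PP Psi z) (e3 K (Psi z))
          + K.dgF (Psi z) (PP Psi z) (PP Psi z) (e3 K (Psi z))
          - K.dgF (Psi z) (e3 K (Psi z)) (PP Psi z) (PP Psi z))
        = 2 * fderiv ℝ G z e1 e1 N - fderiv ℝ G z N e1 e1 -
         (2 * K.dgF (Psi z) (PP Psi z) (PP Psi z) (e3 K (Psi z))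
          - K.dgF (Psi z) (e3 K (Psi z)) (PP Psi z) (PP Psi z)) := by
      ring
    rw [e2]
    rw [abs_le] at d1 d2 halg ⊢
    constructor <;> linarith only [d1.1, d2.2, halg.2, d1.2, d2.1, halg.1]
  have hS0 := abs_nonneg (Sd Psi z e1 e1).2.1
  have hfin : |(Sd Psi z e1 e1).2.1| ≤ C * (3 * (L * (C ^ 2 * (PP Psi z).2.1))
      + 60 * C ^ 4 * ((PP Psi z).2.1 * E)) := by
    calc |(Sd Psi z e1 e1).2.1| = 1 * |(Sd Psi z e1 e1).2.1| := by ring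
      _ ≤ (C * K.om (Psi z)) * |(Sd Psi z e1 e1).2.1| := by (clear * - homlo; gcongr)
      _ ≤ C * (2 * K.om (Psi z) * |(Sd Psi z e1 e1).2.1|) := by
        linarith only [mul_nonneg (mul_nonneg (by linarith only [hC] : (0:ℝ) ≤ C) hom.le) hS0]
      _ ≤ _ := by (clear * - hmain hC; gcongr)
  calc |(Sd Psi z e1 e1).2.1| ≤ _ := hfin
    _ = 3 * C ^ 3 * ((PP Psi z).2.1 * L) + 60 * C ^ 5 * ((PP Psi z).2.1 * E) := by ring
    _ ≤ 100 * C ^ 5 * ((PP Psi z).2.1 * L) + 100 * C ^ 5 * ((PP Psi z).2.1 * E) := by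
      have c1 : C ^ 3 ≤ C ^ 5 := pow_le_pow_right₀ hC (by norm_num)
      have c3 : 0 ≤ C ^ 5 := by positivity
      gcongr
      · norm_num
      · norm_num
    _ = _ := by rw [hE]; ring

/-- the `alpha` equation -/
lemma Su_TT (h : PtHyp K G Psi V z C cv cw cu) {N : P4} (hN : fderiv ℝ Psi z N = e4 K (Psi z)) :
    |(Sd Psi z e1 e1).2.2.1| ≤ 100 * C ^ 5 * ((PP Psi z).2.2.1 * (‖fderiv ℝ G z‖
      + cv * (PP Psi z).2.1 + cu * (PP Psi z).2.2.1 + (PP Psi z).2.2.1 + (PP Psi z).2.1)) := by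
  have hC := h.bd.one_le
  have hb : 0 < (PP Psi z).2.1 := h.pos
  have ha : 0 < (PP Psi z).2.2.1 := h.sq_le.2.1
  have ht := h.iso.transf h.mem e1 e1 N
  rw [hN, K.gF_symm, gF_e4] at ht
  have hcomb := comb_alpha K (Psi z) (PP Psi z)
  have hx1 := h.abs_h_le.1
  have hx2 := h.abs_h_le.2
  rw [add_comm (PP Psi z).2.2.1] at hx1 hx2
  have hsq := h.sq_le.1
  rw [mul_comm (PP Psi z).2.2.1] at hsq
  have ht1 : |(-(fderiv ℝ K.s1 (Psi z) (e3 K (Psi z)) - fderiv ℝ K.w1 (Psi z) (e4 K (Psi z))))| ≤ C := by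
    rw [abs_neg]; exact h.bd.t1
  have ht2 : |(-(fderiv ℝ K.s2 (Psi z) (e3 K (Psi z)) - fderiv ℝ K.w2 (Psi z) (e4 K (Psi z))))| ≤ C := by
    rw [abs_neg]; exact h.bd.t2
  have halg := alg_q (C := C) (c4 := cu) (c3 := cv) (a := (PP Psi z).2.1)
    (b := (PP Psi z).2.2.1) hC h.bd.cu0 h.bd.cv0 hb.le ha.le hx1 hx2
    hsq h.bd.g11 h.bd.g12 h.bd.g22 h.bd.om_3 h.bd.om_1 h.bd.om_2
    h.bd.g11_4 h.bd.g12_4 h.bd.g22_4 ht1 ht2 h.bd.s1_1 h.bd.s1_2 h.bd.s2_1 h.bd.s2_2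
  rw [← hcomb] at halg
  have hL := norm_nonneg (fderiv ℝ G z)
  set L := ‖fderiv ℝ G z‖ with hLdef
  have hNn := h.norm_N' hN
  have d1 : |fderiv ℝ G z e1 e1 N| ≤ L * (C ^ 2 * (PP Psi z).2.2.1) := by
    have := DG_le G z e1 e1 N
    rw [norm_e1, mul_one, mul_one] at this
    exact this.trans (by gcongr)
  have d2 : |fderiv ℝ G z N e1 e1| ≤ L * (C ^ 2 * (PP Psi z).2.2.1) := by
    have := DG_le G z N e1 e1
    rw [norm_e1, mul_one, mul_one] at this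
    exact this.trans (by gcongr)
  have hom := h.om_pos
  have homlo := h.bd.om_lo
  set E := cu * (PP Psi z).2.2.1 + cv * (PP Psi z).2.1 + (PP Psi z).2.1 + (PP Psi z).2.2.1 with hE
  have hE0 : 0 ≤ E := by
    have := h.bd.cv0
    have := h.bd.cu0
    (clear N hN hC ht hcomb hx1 hx2 hsq ht1 ht2 L hL hLdef hNn d1 d2 hom homlo halg hE; positivity)
  have hmain : 2 * K.om (Psi z) * |(Sd Psi z e1 e1).2.2.1|
      ≤ 3 * (L * (C ^ 2 * (PP Psi z).2.2.1)) + 60 * C ^ 4 * ((PP Psi z).2.2.1 * E) := by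
    have e : 2 * K.om (Psi z) * |(Sd Psi z e1 e1).2.2.1|
        = |2 * (-K.om (Psi z) * (Sd Psi z e1 e1).2.2.1)| := by
      rw [abs_mul, abs_mul, abs_neg, abs_of_pos hom, abs_of_pos (by norm_num1 : (0:ℝ) < 2)]; ring
    rw [e, ht]
    have e2 : fderiv ℝ G z e1 e1 N + fderiv ℝ G z e1 e1 N - fderiv ℝ G z N e1 e1 -
        (K.dgF (Psi z) (PP Psi z) (PP Psi z) (e4 K (Psi z))
          + K.dgF (Psi z) (PP Psi z) (PP Psi z) (e4 K (Psi z))
          - K.dgF (Psi z) (e4 K (Psi z)) (PP Psi z) (PP Psi z))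
        = 2 * fderiv ℝ G z e1 e1 N - fderiv ℝ G z N e1 e1 -
         (2 * K.dgF (Psi z) (PP Psi z) (PP Psi z) (e4 K (Psi z))
          - K.dgF (Psi z) (e4 K (Psi z)) (PP Psi z) (PP Psi z)) := by
      ring
    rw [e2]
    rw [abs_le] at d1 d2 halg ⊢
    constructor <;> linarith only [d1.1, d2.2, halg.2, d1.2, d2.1, halg.1]
  have hS0 := abs_nonneg (Sd Psi z e1 e1).2.2.1
  have hfin : |(Sd Psi z e1 e1).2.2.1| ≤ C * (3 * (L * (C ^ 2 * (PP Psi z).2.2.1))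
      + 60 * C ^ 4 * ((PP Psi z).2.2.1 * E)) := by
    calc |(Sd Psi z e1 e1).2.2.1| = 1 * |(Sd Psi z e1 e1).2.2.1| := by ring
      _ ≤ (C * K.om (Psi z)) * |(Sd Psi z e1 e1).2.2.1| := by (clear * - homlo; gcongr)
      _ ≤ C * (2 * K.om (Psi z) * |(Sd Psi z e1 e1).2.2.1|) := by
        linarith only [mul_nonneg (mul_nonneg (by linarith only [hC] : (0:ℝ) ≤ C) hom.le) hS0]
      _ ≤ _ := by (clear * - hmain hC; gcongr)
  calc |(Sd Psi z e1 e1).2.2.1| ≤ _ := hfin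
    _ = 3 * C ^ 3 * ((PP Psi z).2.2.1 * L) + 60 * C ^ 5 * ((PP Psi z).2.2.1 * E) := by ring
    _ ≤ 100 * C ^ 5 * ((PP Psi z).2.2.1 * L) + 100 * C ^ 5 * ((PP Psi z).2.2.1 * E) := by
      have c1 : C ^ 3 ≤ C ^ 5 := pow_le_pow_right₀ hC (by norm_num)
      have c3 : 0 ≤ C ^ 5 := by positivity
      gcongr
      · norm_num
      · norm_num
    _ = _ := by rw [hE]; ring

end PtHyp

end Vale.Agent.P354w
end
end

section

section

set_option maxSynthPendingDepth 3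

namespace Vale.Agent.P354x

open Vale.Agent.P354w

/-- real number lemma for the v component -/
lemma alg_bV {C c4 c3 a b x1 x2 s1 s2 g11 g12 g22 o4 o3 o1 o2 g113 g123 g223 t1 t2 : ℝ}
    (hC : 1 ≤ C) (hc4 : 0 ≤ c4) (hc3 : 0 ≤ c3) (ha : 0 ≤ a) (hb : 0 ≤ b)
    (hx1 : |x1| ≤ C * (a + b)) (hx2 : |x2| ≤ C * (a + b)) (hs1 : |s1| ≤ C) (hs2 : |s2| ≤ C)
    (hg11 : |g11| ≤ C) (hg12 : |g12| ≤ C) (hg22 : |g22| ≤ C)
    (ho4 : |o4| ≤ c4) (ho3 : |o3| ≤ c3) (ho1 : |o1| ≤ C) (ho2 : |o2| ≤ C)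
    (hg113 : |g113| ≤ c3) (hg123 : |g123| ≤ c3) (hg223 : |g223| ≤ c3)
    (ht1 : |t1| ≤ C) (ht2 : |t2| ≤ C) :
    |-((o4 - s1 * o1 - s2 * o2) * b) - (x1 * o1 + b * o4 + a * o3 + x2 * o2) + o3 * a
      + (s1 * x1 * g113 + (s1 * x2 + s2 * x1) * g123 + s2 * x2 * g223)
      + (g11 * (t1 * x1 - s1 * t1 * b) + g12 * (t1 * x2 - s1 * t2 * b + t2 * x1 - s2 * t1 * b)
        + g22 * (t2 * x2 - s2 * t2 * b))|
    ≤ 20 * C ^ 3 * ((1 + c4 + c3) * (a + b)) := by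
  have hC0 : 0 < C := by linarith only [hC]
  have hM : 0 ≤ a + b := by linarith only [ha, hb]
  have c13 : C ≤ C ^ 3 := le_self_pow₀ hC (by norm_num)
  have c23 : C ^ 2 ≤ C ^ 3 := pow_le_pow_right₀ hC (by norm_num)
  have c03 : 1 ≤ C ^ 3 := one_le_pow₀ hC
  have hb' : |b| ≤ a + b := by rw [abs_of_nonneg hb]; linarith only [ha]
  have ha' : |a| ≤ a + b := by rw [abs_of_nonneg ha]; linarith only [hb]
  set A := C ^ 3 * (a + b) with hA
  set B4 := C ^ 3 * (c4 * (a + b)) with hB4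
  set B3 := C ^ 3 * (c3 * (a + b)) with hB3
  have m4 : c4 * (a + b) ≤ B4 := le_mul_of_one_le_left (by (clear * - hc4 ha hb; positivity)) c03
  have m3 : c3 * (a + b) ≤ B3 := le_mul_of_one_le_left (by (clear * - hc3 ha hb; positivity)) c03
  have m33 : C ^ 2 * (c3 * (a + b)) ≤ B3 := mul_le_mul_of_nonneg_right c23 (by (clear * - hc3 ha hb; positivity))
  have mA : C ^ 2 * (a + b) ≤ A := mul_le_mul_of_nonneg_right c23 hM
  have u1 : |o4 * b| ≤ B4 := (aux_mul2 ho4 hb').trans m4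
  have u2 : |s1 * o1 * b| ≤ A := (aux_mul3 hs1 ho1 hb').trans (by linarith only [mA])
  have u3 : |s2 * o2 * b| ≤ A := (aux_mul3 hs2 ho2 hb').trans (by linarith only [mA])
  have u4 : |x1 * o1| ≤ A := (aux_mul2 hx1 ho1).trans (by linarith only [mA])
  have u5 : |x2 * o2| ≤ A := (aux_mul2 hx2 ho2).trans (by linarith only [mA])
  have u6 : |o3 * a| ≤ B3 := (aux_mul2 ho3 ha').trans m3
  have v1 : |s1 * x1 * g113| ≤ B3 := (aux_mul3 hs1 hx1 hg113).trans (by linarith only [m33])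
  have v2 : |s1 * x2 * g123| ≤ B3 := (aux_mul3 hs1 hx2 hg123).trans (by linarith only [m33])
  have v3 : |s2 * x1 * g123| ≤ B3 := (aux_mul3 hs2 hx1 hg123).trans (by linarith only [m33])
  have v4 : |s2 * x2 * g223| ≤ B3 := (aux_mul3 hs2 hx2 hg223).trans (by linarith only [m33])
  have w : ∀ {g t x : ℝ}, |g| ≤ C → |t| ≤ C → |x| ≤ C * (a + b) → |g * t * x| ≤ A := by
    intro g t x h1 h2 h3
    exact (aux_mul3 h1 h2 h3).trans (by rw [hA]; apply le_of_eq; ring)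
  have w' : ∀ {g s t : ℝ}, |g| ≤ C → |s| ≤ C → |t| ≤ C → |g * s * t * b| ≤ A := by
    intro g s t h1 h2 h3
    exact (aux_mul2 (aux_mul3 h1 h2 h3) hb').trans (by rw [hA]; apply le_of_eq; ring)
  have w1 := w hg11 ht1 hx1
  have w2 := w' hg11 hs1 ht1
  have w3 := w hg12 ht1 hx2
  have w4 := w' hg12 hs1 ht2
  have w5 := w hg12 ht2 hx1
  have w6 := w' hg12 hs2 ht1
  have w7 := w hg22 ht2 hx2
  have w8 := w' hg22 hs2 ht2
  have e : -((o4 - s1 * o1 - s2 * o2) * b) - (x1 * o1 + b * o4 + a * o3 + x2 * o2) + o3 * a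
      + (s1 * x1 * g113 + (s1 * x2 + s2 * x1) * g123 + s2 * x2 * g223)
      + (g11 * (t1 * x1 - s1 * t1 * b) + g12 * (t1 * x2 - s1 * t2 * b + t2 * x1 - s2 * t1 * b)
        + g22 * (t2 * x2 - s2 * t2 * b))
      = -2 * (o4 * b) + s1 * o1 * b + s2 * o2 * b - x1 * o1 - x2 * o2
        + s1 * x1 * g113 + s1 * x2 * g123 + s2 * x1 * g123 + s2 * x2 * g223
        + g11 * t1 * x1 - g11 * s1 * t1 * b + g12 * t1 * x2 - g12 * s1 * t2 * b
        + g12 * t2 * x1 - g12 * s2 * t1 * b + g22 * t2 * x2 - g22 * s2 * t2 * b := by ring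
  have eR : 20 * C ^ 3 * ((1 + c4 + c3) * (a + b)) = 20 * A + 20 * B4 + 20 * B3 := by
    rw [hA, hB4, hB3]; ring
  rw [e, eR]
  have pA : 0 ≤ A := by (clear * - hC ha hb; positivity)
  have pB4 : 0 ≤ B4 := by (clear * - hC hc4 ha hb; positivity)
  have pB3 : 0 ≤ B3 := by (clear * - hC hc3 ha hb; positivity)
  clear_value A B4 B3
  clear e eR w w' hA hB4 hB3
  generalize o4 * b = q1 at *
  generalize s1 * o1 * b = q2 at *
  generalize s2 * o2 * b = q3 at *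
  generalize x1 * o1 = q4 at *
  generalize x2 * o2 = q5 at *
  generalize s1 * x1 * g113 = q6 at *
  generalize s1 * x2 * g123 = q7 at *
  generalize s2 * x1 * g123 = q8 at *
  generalize s2 * x2 * g223 = q9 at *
  generalize g11 * t1 * x1 = q10 at *
  generalize g11 * s1 * t1 * b = q11 at *
  generalize g12 * t1 * x2 = q12 at *
  generalize g12 * s1 * t2 * b = q13 at *
  generalize g12 * t2 * x1 = q14 at *
  generalize g12 * s2 * t1 * b = q15 at *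
  generalize g22 * t2 * x2 = q16 at *
  generalize g22 * s2 * t2 * b = q17 at *
  clear * - u1 u2 u3 u4 u5 v1 v2 v3 v4 w1 w2 w3 w4 w5 w6 w7 w8 pA pB4 pB3
  rw [abs_le] at *
  obtain ⟨_, _⟩ := u1
  obtain ⟨_, _⟩ := u2
  obtain ⟨_, _⟩ := u3
  obtain ⟨_, _⟩ := u4
  obtain ⟨_, _⟩ := u5
  obtain ⟨_, _⟩ := v1
  obtain ⟨_, _⟩ := v2
  obtain ⟨_, _⟩ := v3
  obtain ⟨_, _⟩ := v4
  obtain ⟨_, _⟩ := w1
  obtain ⟨_, _⟩ := w2
  obtain ⟨_, _⟩ := w3
  obtain ⟨_, _⟩ := w4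
  obtain ⟨_, _⟩ := w5
  obtain ⟨_, _⟩ := w6
  obtain ⟨_, _⟩ := w7
  obtain ⟨_, _⟩ := w8
  constructor <;> linarith

/-- real number lemma for the u component -/
lemma alg_aV {C c4 a b x1 x2 s1 s2 g11 g12 g22 o1 o2 g114 g124 g224 s11 s12 s13 s21 s22 s23 : ℝ}
    (hC : 1 ≤ C) (hc4 : 0 ≤ c4) (ha : 0 ≤ a) (hb : 0 ≤ b)
    (hx1 : |x1| ≤ C * (a + b)) (hx2 : |x2| ≤ C * (a + b)) (hs1 : |s1| ≤ C) (hs2 : |s2| ≤ C)
    (hg11 : |g11| ≤ C) (hg12 : |g12| ≤ C) (hg22 : |g22| ≤ C)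
    (ho1 : |o1| ≤ C) (ho2 : |o2| ≤ C)
    (hg114 : |g114| ≤ c4) (hg124 : |g124| ≤ c4) (hg224 : |g224| ≤ c4)
    (h11 : |s11| ≤ C) (h12 : |s12| ≤ C) (h13 : |s13| ≤ C)
    (h21 : |s21| ≤ C) (h22 : |s22| ≤ C) (h23 : |s23| ≤ C) :
    |a * (s1 * o1 + s2 * o2) + (s1 * x1 * g114 + (s1 * x2 + s2 * x1) * g124 + s2 * x2 * g224)
      + (g11 * (x1 * (s1 * s11 + s2 * s12) + s1 * (x1 * s11 + a * s13 + x2 * s12))
        + g12 * (x1 * (s1 * s21 + s2 * s22) + s1 * (x1 * s21 + a * s23 + x2 * s22)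
          + x2 * (s1 * s11 + s2 * s12) + s2 * (x1 * s11 + a * s13 + x2 * s12))
        + g22 * (x2 * (s1 * s21 + s2 * s22) + s2 * (x1 * s21 + a * s23 + x2 * s22)))|
    ≤ 40 * C ^ 4 * ((1 + c4) * (a + b)) := by
  have hC0 : 0 < C := by linarith only [hC]
  have hM : 0 ≤ a + b := by linarith only [ha, hb]
  have c24 : C ^ 2 ≤ C ^ 4 := pow_le_pow_right₀ hC (by norm_num)
  have c34 : C ^ 3 ≤ C ^ 4 := pow_le_pow_right₀ hC (by norm_num)
  have ha' : |a| ≤ a + b := by rw [abs_of_nonneg ha]; linarith only [hb]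
  set A := C ^ 4 * (a + b) with hA
  set B4 := C ^ 4 * (c4 * (a + b)) with hB4
  have m33 : C ^ 2 * (c4 * (a + b)) ≤ B4 := mul_le_mul_of_nonneg_right c24 (by (clear * - hc4 ha hb; positivity))
  have mA : C ^ 2 * (a + b) ≤ A := mul_le_mul_of_nonneg_right c24 hM
  have mA3 : C ^ 3 * (a + b) ≤ A := mul_le_mul_of_nonneg_right c34 hM
  have pA : 0 ≤ A := by (clear * - hC ha hb; positivity)
  have pB4 : 0 ≤ B4 := by (clear * - hC hc4 ha hb; positivity)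
  -- pair sums
  have y1 : |s1 * o1 + s2 * o2| ≤ 2 * C ^ 2 := by
    have k1 := aux_mul2 hs1 ho1
    have k2 := aux_mul2 hs2 ho2
    refine (abs_add_le _ _).trans ?_
    linarith only [k1, k2]
  have y2 : |s1 * s11 + s2 * s12| ≤ 2 * C ^ 2 := by
    have k1 := aux_mul2 hs1 h11
    have k2 := aux_mul2 hs2 h12
    refine (abs_add_le _ _).trans ?_
    linarith only [k1, k2]
  have y3 : |s1 * s21 + s2 * s22| ≤ 2 * C ^ 2 := by
    have k1 := aux_mul2 hs1 h21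
    have k2 := aux_mul2 hs2 h22
    refine (abs_add_le _ _).trans ?_
    linarith only [k1, k2]
  have k4 : (a + b) * C ≤ C ^ 2 * (a + b) := by
    have h1 : C ≤ C ^ 2 := le_self_pow₀ hC (by norm_num)
    calc (a + b) * C = C * (a + b) := by ring
      _ ≤ C ^ 2 * (a + b) := mul_le_mul_of_nonneg_right h1 hM
  have yy : ∀ {p q r : ℝ}, |p| ≤ C → |q| ≤ C → |r| ≤ C →
      |x1 * p + a * q + x2 * r| ≤ 3 * C ^ 2 * (a + b) := by
    intro p q r hp hq hr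
    have k1 := aux_mul2 hx1 hp
    have k2 := aux_mul2 ha' hq
    have k3 := aux_mul2 hx2 hr
    have h1 := abs_add_le (x1 * p + a * q) (x2 * r)
    have h2 := abs_add_le (x1 * p) (a * q)
    have e1 : C * (a + b) * C = C ^ 2 * (a + b) := by ring
    rw [e1] at k1 k3
    linarith only [k4, k1, k2, k3, h1, h2]
  have y4 := yy h11 h13 h12
  have y5 := yy h21 h23 h22
  have u1 : |a * (s1 * o1 + s2 * o2)| ≤ 2 * A := (aux_mul2 ha' y1).trans (by linarith only [mA])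
  have v1 : |s1 * x1 * g114| ≤ B4 := (aux_mul3 hs1 hx1 hg114).trans (by linarith only [m33])
  have v2 : |s1 * x2 * g124| ≤ B4 := (aux_mul3 hs1 hx2 hg124).trans (by linarith only [m33])
  have v3 : |s2 * x1 * g124| ≤ B4 := (aux_mul3 hs2 hx1 hg124).trans (by linarith only [m33])
  have v4 : |s2 * x2 * g224| ≤ B4 := (aux_mul3 hs2 hx2 hg224).trans (by linarith only [m33])
  have w : ∀ {g x y : ℝ}, |g| ≤ C → |x| ≤ C * (a + b) → |y| ≤ 2 * C ^ 2 → |g * x * y| ≤ 2 * A := by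
    intro g x y h1 h2 h3
    exact (aux_mul3 h1 h2 h3).trans (by rw [hA]; apply le_of_eq; ring)
  have w' : ∀ {g s y : ℝ}, |g| ≤ C → |s| ≤ C → |y| ≤ 3 * C ^ 2 * (a + b) →
      |g * s * y| ≤ 3 * A := by
    intro g s y h1 h2 h3
    exact (aux_mul3 h1 h2 h3).trans (by rw [hA]; apply le_of_eq; ring)
  have w1 := w hg11 hx1 y2
  have w2 := w' hg11 hs1 y4
  have w3 := w hg12 hx1 y3
  have w4 := w' hg12 hs1 y5
  have w5 := w hg12 hx2 y2
  have w6 := w' hg12 hs2 y4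
  have w7 := w hg22 hx2 y3
  have w8 := w' hg22 hs2 y5
  clear y1 y2 y3 y4 y5 w w' yy k4
  have eR : 40 * C ^ 4 * ((1 + c4) * (a + b)) = 40 * A + 40 * B4 := by
    rw [hA, hB4]; ring
  rw [eR]
  generalize s1 * o1 + s2 * o2 = r1 at *
  generalize s1 * s11 + s2 * s12 = r2 at *
  generalize s1 * s21 + s2 * s22 = r3 at *
  generalize x1 * s11 + a * s13 + x2 * s12 = r4 at *
  generalize x1 * s21 + a * s23 + x2 * s22 = r5 at *
  have e : a * r1 + (s1 * x1 * g114 + (s1 * x2 + s2 * x1) * g124 + s2 * x2 * g224)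
      + (g11 * (x1 * r2 + s1 * r4) + g12 * (x1 * r3 + s1 * r5 + x2 * r2 + s2 * r4)
        + g22 * (x2 * r3 + s2 * r5))
      = a * r1 + s1 * x1 * g114 + s1 * x2 * g124 + s2 * x1 * g124 + s2 * x2 * g224
        + g11 * x1 * r2 + g11 * s1 * r4 + g12 * x1 * r3 + g12 * s1 * r5 + g12 * x2 * r2
        + g12 * s2 * r4 + g22 * x2 * r3 + g22 * s2 * r5 := by ring
  rw [e]
  clear_value A B4
  clear e eR hA hB4
  generalize a * r1 = q1 at *
  generalize s1 * x1 * g114 = q2 at *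
  generalize s1 * x2 * g124 = q3 at *
  generalize s2 * x1 * g124 = q4 at *
  generalize s2 * x2 * g224 = q5 at *
  generalize g11 * x1 * r2 = q6 at *
  generalize g11 * s1 * r4 = q7 at *
  generalize g12 * x1 * r3 = q8 at *
  generalize g12 * s1 * r5 = q9 at *
  generalize g12 * x2 * r2 = q10 at *
  generalize g12 * s2 * r4 = q11 at *
  generalize g22 * x2 * r3 = q12 at *
  generalize g22 * s2 * r5 = q13 at *
  clear * - u1 v1 v2 v3 v4 w1 w2 w3 w4 w5 w6 w7 w8 pA pB4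
  rw [abs_le] at *
  obtain ⟨_, _⟩ := u1
  obtain ⟨_, _⟩ := v1
  obtain ⟨_, _⟩ := v2
  obtain ⟨_, _⟩ := v3
  obtain ⟨_, _⟩ := v4
  obtain ⟨_, _⟩ := w1
  obtain ⟨_, _⟩ := w2
  obtain ⟨_, _⟩ := w3
  obtain ⟨_, _⟩ := w4
  obtain ⟨_, _⟩ := w5
  obtain ⟨_, _⟩ := w6
  obtain ⟨_, _⟩ := w7
  obtain ⟨_, _⟩ := w8
  constructor <;> linarith

/-- decomposition of the derivative in the direction `ev` -/
lemma fderiv_ev (K : Coef) (x : P4) (L : P4 →L[ℝ] ℝ) :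
    L ev = L (e4 K x) - K.s1 x * L e1 - K.s2 x * L e2 := by
  rw [clm_decomp L (e4 K x)]
  simp only [e4]
  ring

lemma comb_betaV (K : Coef) (x P : P4) (h1w : ∀ a, fderiv ℝ K.w1 x a = 0)
    (h2w : ∀ a, fderiv ℝ K.w2 x a = 0) :
    K.dgF x ev P (e3 K x) + K.dgF x P ev (e3 K x) - K.dgF x (e3 K x) ev P =
    -((fderiv ℝ K.om x (e4 K x) - K.s1 x * fderiv ℝ K.om x e1 - K.s2 x * fderiv ℝ K.om x e2)
        * P.2.1)
      - (K.h1 x P * fderiv ℝ K.om x e1 + P.2.1 * fderiv ℝ K.om x (e4 K x)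
        + P.2.2.1 * fderiv ℝ K.om x (e3 K x) + K.h2 x P * fderiv ℝ K.om x e2)
      + fderiv ℝ K.om x (e3 K x) * P.2.2.1
      + (K.s1 x * K.h1 x P * fderiv ℝ K.g11 x (e3 K x)
        + (K.s1 x * K.h2 x P + K.s2 x * K.h1 x P) * fderiv ℝ K.g12 x (e3 K x)
        + K.s2 x * K.h2 x P * fderiv ℝ K.g22 x (e3 K x))
      + (K.g11 x * ((fderiv ℝ K.s1 x (e3 K x) - fderiv ℝ K.w1 x (e4 K x)) * K.h1 x P
          - K.s1 x * (fderiv ℝ K.s1 x (e3 K x) - fderiv ℝ K.w1 x (e4 K x)) * P.2.1)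
        + K.g12 x * ((fderiv ℝ K.s1 x (e3 K x) - fderiv ℝ K.w1 x (e4 K x)) * K.h2 x P
          - K.s1 x * (fderiv ℝ K.s2 x (e3 K x) - fderiv ℝ K.w2 x (e4 K x)) * P.2.1
          + (fderiv ℝ K.s2 x (e3 K x) - fderiv ℝ K.w2 x (e4 K x)) * K.h1 x P
          - K.s2 x * (fderiv ℝ K.s1 x (e3 K x) - fderiv ℝ K.w1 x (e4 K x)) * P.2.1)
        + K.g22 x * ((fderiv ℝ K.s2 x (e3 K x) - fderiv ℝ K.w2 x (e4 K x)) * K.h2 x P
          - K.s2 x * (fderiv ℝ K.s2 x (e3 K x) - fderiv ℝ K.w2 x (e4 K x)) * P.2.1)) := by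
  have hom := clm_decomp' K x (fderiv ℝ K.om x) P
  have hev := fderiv_ev K x (fderiv ℝ K.om x)
  have k1 : K.h1 x (e3 K x) = 0 := by simp only [Coef.h1, e3, mul_zero, sub_zero, mul_one, sub_self]
  have k2 : K.h2 x (e3 K x) = 0 := by simp [Coef.h2, e3]
  have k3 : K.h1 x ev = - K.s1 x := by simp [Coef.h1, ev]
  have k4 : K.h2 x ev = - K.s2 x := by simp only [Coef.h2, ev, mul_one, zero_sub, mul_zero, sub_zero]
  simp only [Coef.dgF, Coef.d1, Coef.d2, k1, k2, k3, k4, h1w, h2w,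
    show (e3 K x : P4).2.1 = 0 from rfl, show (e3 K x : P4).2.2.1 = 1 from rfl,
    show (ev : P4).2.1 = 1 from rfl, show (ev : P4).2.2.1 = 0 from rfl]
  rw [hom, hev]
  ring

lemma comb_alphaV (K : Coef) (x P : P4) (h1w : ∀ a, fderiv ℝ K.w1 x a = 0)
    (h2w : ∀ a, fderiv ℝ K.w2 x a = 0) :
    K.dgF x ev P (e4 K x) + K.dgF x P ev (e4 K x) - K.dgF x (e4 K x) ev P =
    P.2.2.1 * (K.s1 x * fderiv ℝ K.om x e1 + K.s2 x * fderiv ℝ K.om x e2)
      + (K.s1 x * K.h1 x P * fderiv ℝ K.g11 x (e4 K x)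
        + (K.s1 x * K.h2 x P + K.s2 x * K.h1 x P) * fderiv ℝ K.g12 x (e4 K x)
        + K.s2 x * K.h2 x P * fderiv ℝ K.g22 x (e4 K x))
      + (K.g11 x * (K.h1 x P * (K.s1 x * fderiv ℝ K.s1 x e1 + K.s2 x * fderiv ℝ K.s1 x e2)
          + K.s1 x * (K.h1 x P * fderiv ℝ K.s1 x e1 + P.2.2.1 * fderiv ℝ K.s1 x (e3 K x)
            + K.h2 x P * fderiv ℝ K.s1 x e2))
        + K.g12 x * (K.h1 x P * (K.s1 x * fderiv ℝ K.s2 x e1 + K.s2 x * fderiv ℝ K.s2 x e2)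
          + K.s1 x * (K.h1 x P * fderiv ℝ K.s2 x e1 + P.2.2.1 * fderiv ℝ K.s2 x (e3 K x)
            + K.h2 x P * fderiv ℝ K.s2 x e2)
          + K.h2 x P * (K.s1 x * fderiv ℝ K.s1 x e1 + K.s2 x * fderiv ℝ K.s1 x e2)
          + K.s2 x * (K.h1 x P * fderiv ℝ K.s1 x e1 + P.2.2.1 * fderiv ℝ K.s1 x (e3 K x)
            + K.h2 x P * fderiv ℝ K.s1 x e2))
        + K.g22 x * (K.h2 x P * (K.s1 x * fderiv ℝ K.s2 x e1 + K.s2 x * fderiv ℝ K.s2 x e2)
          + K.s2 x * (K.h1 x P * fderiv ℝ K.s2 x e1 + P.2.2.1 * fderiv ℝ K.s2 x (e3 K x)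
            + K.h2 x P * fderiv ℝ K.s2 x e2))) := by
  have hs1 := clm_decomp' K x (fderiv ℝ K.s1 x) P
  have hs2 := clm_decomp' K x (fderiv ℝ K.s2 x) P
  have hev := fderiv_ev K x (fderiv ℝ K.om x)
  have hev1 := fderiv_ev K x (fderiv ℝ K.s1 x)
  have hev2 := fderiv_ev K x (fderiv ℝ K.s2 x)
  have k1 : K.h1 x (e4 K x) = 0 := by simp [Coef.h1, e4]
  have k2 : K.h2 x (e4 K x) = 0 := by simp [Coef.h2, e4]
  have k3 : K.h1 x ev = - K.s1 x := by simp [Coef.h1, ev]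
  have k4 : K.h2 x ev = - K.s2 x := by simp [Coef.h2, ev]
  simp only [Coef.dgF, Coef.d1, Coef.d2, k1, k2, k3, k4, h1w, h2w,
    show (e4 K x : P4).2.1 = 1 from rfl, show (e4 K x : P4).2.2.1 = 0 from rfl,
    show (ev : P4).2.1 = 1 from rfl, show (ev : P4).2.2.1 = 0 from rfl]
  rw [hs1, hs2, hev, hev1, hev2]
  ring

variable {K : Coef} {G : P4 → P4 →L[ℝ] P4 →L[ℝ] ℝ} {Psi : P4 → P4} {V : Set P4}
variable {z : P4} {C cv cw cu : ℝ}

/-- norm of the preimage of `ev` -/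
lemma norm_Xv (h : PtHyp K G Psi V z C cv cw cu) (hs1 : |K.s1 (Psi z)| ≤ C)
    (hs2 : |K.s2 (Psi z)| ≤ C) {X : P4} (hX : fderiv ℝ Psi z X = ev) :
    ‖X‖ ≤ 20 * C ^ 7 * ((PtHyp.PP Psi z).2.2.1 + (PtHyp.PP Psi z).2.1) := by
  have hC := h.bd.one_le
  have hC0 : 0 < C := by linarith only [hC]
  have ha : 0 < (PtHyp.PP Psi z).2.2.1 := h.sq_le.2.1
  have hb : 0 < (PtHyp.PP Psi z).2.1 := h.pos
  obtain ⟨hx1, hx2⟩ := h.abs_h_le
  have hab := h.sq_le.2.2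
  have h1 := h.cone X
  rw [h.iso.iso z h.mem, h.iso.iso z h.mem, hX] at h1
  have k3 : K.h1 (Psi z) ev = - K.s1 (Psi z) := by simp [Coef.h1, ev]
  have k4 : K.h2 (Psi z) ev = - K.s2 (Psi z) := by simp [Coef.h2, ev]
  have g1 : K.gF (Psi z) ev ev = K.g11 (Psi z) * K.s1 (Psi z) * K.s1 (Psi z)
      + 2 * (K.g12 (Psi z) * K.s1 (Psi z) * K.s2 (Psi z))
      + K.g22 (Psi z) * K.s2 (Psi z) * K.s2 (Psi z) := by
    simp only [Coef.gF, k3, k4, show (ev : P4).2.1 = 1 from rfl,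
      show (ev : P4).2.2.1 = 0 from rfl]
    ring
  have g2 : K.gF (Psi z) ev (fderiv ℝ Psi z e1) = - (K.om (Psi z) * (PtHyp.PP Psi z).2.2.1)
      - K.g11 (Psi z) * K.s1 (Psi z) * K.h1 (Psi z) (PtHyp.PP Psi z)
      - K.g12 (Psi z) * K.s1 (Psi z) * K.h2 (Psi z) (PtHyp.PP Psi z)
      - K.g12 (Psi z) * K.s2 (Psi z) * K.h1 (Psi z) (PtHyp.PP Psi z)
      - K.g22 (Psi z) * K.s2 (Psi z) * K.h2 (Psi z) (PtHyp.PP Psi z) := by
    simp only [Coef.gF, k3, k4, show (ev : P4).2.1 = 1 from rfl,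
      show (ev : P4).2.2.1 = 0 from rfl, PtHyp.PP]
    ring
  set a := (PtHyp.PP Psi z).2.2.1 with hadef
  set b := (PtHyp.PP Psi z).2.1 with hbdef
  have b1 : K.gF (Psi z) ev ev ≤ 4 * C ^ 3 := by
    rw [g1]
    have u1 := (abs_le.mp (aux_mul3 h.bd.g11 hs1 hs1)).2
    have u2 := (abs_le.mp (aux_mul3 h.bd.g12 hs1 hs2)).2
    have u3 := (abs_le.mp (aux_mul3 h.bd.g22 hs2 hs2)).2
    linarith only [u1, u2, u3]
  have b2 : |K.gF (Psi z) ev (fderiv ℝ Psi z e1)| ≤ 5 * C ^ 3 * (a + b) := by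
    rw [g2]
    have hom : |K.om (Psi z) * a| ≤ C ^ 3 * (a + b) := by
      rw [abs_of_pos (mul_pos h.om_pos ha)]
      calc K.om (Psi z) * a ≤ C * (a + b) := by
            apply mul_le_mul h.bd.om_hi (by linarith only [hb]) ha.le hC0.le
        _ ≤ C ^ 3 * (a + b) := by
            apply mul_le_mul_of_nonneg_right (le_self_pow₀ hC (by norm_num)) (by linarith only [ha, hb])
    have u1 := aux_mul3 h.bd.g11 hs1 hx1
    have u2 := aux_mul3 h.bd.g12 hs1 hx2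
    have u3 := aux_mul3 h.bd.g12 hs2 hx1
    have u4 := aux_mul3 h.bd.g22 hs2 hx2
    have e : C * C * (C * (a + b)) = C ^ 3 * (a + b) := by ring
    rw [e] at u1 u2 u3 u4
    clear h1 g1 g2
    rw [abs_le] at *
    obtain ⟨_, _⟩ := hom
    obtain ⟨_, _⟩ := u1
    obtain ⟨_, _⟩ := u2
    obtain ⟨_, _⟩ := u3
    obtain ⟨_, _⟩ := u4
    constructor <;> linarith
  have hab2 : 1 ≤ 2 * C ^ 2 * (a + b) ^ 2 := by
    refine hab.trans ?_
    apply mul_le_mul_of_nonneg_left _ (by positivity)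
    linarith only [sq_nonneg (a + b), sq_nonneg a, sq_nonneg b]
  have hsq : (K.gF (Psi z) ev (fderiv ℝ Psi z e1)) ^ 2 ≤ (5 * C ^ 3 * (a + b)) ^ 2 := by
    rw [← sq_abs]
    (clear * - b2; gcongr)
  apply le_of_sq_le_sq _ (by (clear * - hC ha hb; positivity)) |> fun x => x
  have c1 : C ^ 6 ≤ C ^ 14 := pow_le_pow_right₀ hC (by norm_num)
  have c2 : C ^ 7 ≤ C ^ 14 := pow_le_pow_right₀ hC (by norm_num)
  have hs : 0 ≤ (a + b) ^ 2 := by (clear * - ha hb; positivity)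
  calc ‖X‖ ^ 2 ≤ C * K.gF (Psi z) ev ev + C * (K.gF (Psi z) ev (fderiv ℝ Psi z e1)) ^ 2 := h1
    _ ≤ C * (4 * C ^ 3) + C * (5 * C ^ 3 * (a + b)) ^ 2 := by (clear * - b1 hC hsq; gcongr)
    _ = 4 * C ^ 4 * 1 + 25 * C ^ 7 * (a + b) ^ 2 := by ring
    _ ≤ 4 * C ^ 4 * (2 * C ^ 2 * (a + b) ^ 2) + 25 * C ^ 7 * (a + b) ^ 2 := by (clear * - hab2 hC; gcongr)
    _ = 8 * (C ^ 6 * (a + b) ^ 2) + 25 * (C ^ 7 * (a + b) ^ 2) := by ring
    _ ≤ 8 * (C ^ 14 * (a + b) ^ 2) + 25 * (C ^ 14 * (a + b) ^ 2) := by (clear * - c1 ha hb c2; gcongr)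
    _ ≤ (20 * C ^ 7 * (a + b)) ^ 2 := by
      have : 0 ≤ C ^ 14 * (a + b) ^ 2 := by (clear * - hC ha hb; positivity)
      have e : (20 * C ^ 7 * (a + b)) ^ 2 = 400 * (C ^ 14 * (a + b) ^ 2) := by ring
      rw [e]; linarith only [this]

end Vale.Agent.P354x
end
end

section

section

set_option maxSynthPendingDepth 3

namespace Vale.Agent.P354x

open Vale.Agent.P354w

variable {K : Coef} {G : P4 → P4 →L[ℝ] P4 →L[ℝ] ℝ} {Psi : P4 → P4} {V : Set P4}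
variable {z : P4} {C cv cw cu : ℝ}

/-- pointwise extra hypotheses: the shift along `u` vanishes, the other one is bounded -/
structure PtW (K : Coef) (x : P4) (C : ℝ) : Prop where
  s1 : |K.s1 x| ≤ C
  s2 : |K.s2 x| ≤ C
  dw1 : ∀ a, fderiv ℝ K.w1 x a = 0
  dw2 : ∀ a, fderiv ℝ K.w2 x a = 0

lemma PtW.s1_3 {x : P4} (h : PtW K x C) (hb : K.Bd x C cv cw cu) :
    |fderiv ℝ K.s1 x (e3 K x)| ≤ C := by
  have := hb.t1
  rw [h.dw1, sub_zero] at this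
  exact this

lemma PtW.s2_3 {x : P4} (h : PtW K x C) (hb : K.Bd x C cv cw cu) :
    |fderiv ℝ K.s2 x (e3 K x)| ≤ C := by
  have := hb.t2
  rw [h.dw2, sub_zero] at this
  exact this

lemma S_vX (h : PtHyp K G Psi V z C cv cw cu) (hw : PtW K (Psi z) C) {X N : P4}
    (hX : fderiv ℝ Psi z X = ev) (hN : fderiv ℝ Psi z N = e3 K (Psi z)) :
    |(Sd Psi z X e1).2.1| ≤ 20 * C ^ 4 * (‖fderiv ℝ G z‖ * ‖X‖ * (PtHyp.PP Psi z).2.1
      + (1 + cw + cu) * ((PtHyp.PP Psi z).2.2.1 + (PtHyp.PP Psi z).2.1)) := by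
  have hC := h.bd.one_le
  have hC0 : 0 < C := by linarith
  have hb : 0 < (PtHyp.PP Psi z).2.1 := h.pos
  have ha : 0 < (PtHyp.PP Psi z).2.2.1 := h.sq_le.2.1
  have ht := h.iso.transf h.mem X e1 N
  rw [hN, K.gF_symm, gF_e3, hX] at ht
  have hcomb := comb_betaV K (Psi z) (PtHyp.PP Psi z) hw.dw1 hw.dw2
  have hL := norm_nonneg (fderiv ℝ G z)
  have hXn := norm_nonneg X
  have hNn := h.norm_N hN
  obtain ⟨hx1, hx2⟩ := h.abs_h_le
  have hcu := h.bd.cu0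
  have hcw := h.bd.cw0
  have d : ∀ p q r : P4, ‖p‖ * ‖q‖ * ‖r‖ ≤ ‖X‖ * (C ^ 2 * (PtHyp.PP Psi z).2.1) →
      |fderiv ℝ G z p q r| ≤ ‖fderiv ℝ G z‖ * (‖X‖ * (C ^ 2 * (PtHyp.PP Psi z).2.1)) := by
    intro p q r hpqr
    calc |fderiv ℝ G z p q r| ≤ ‖fderiv ℝ G z‖ * ‖p‖ * ‖q‖ * ‖r‖ := PtHyp.DG_le G z p q r
      _ = ‖fderiv ℝ G z‖ * (‖p‖ * ‖q‖ * ‖r‖) := by ring
      _ ≤ _ := by gcongr
  have d1 := d X e1 N (by rw [PtHyp.norm_e1, mul_one]; (clear * - hNn; gcongr))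
  have d2 := d e1 X N (by rw [PtHyp.norm_e1, one_mul]; (clear * - hNn; gcongr))
  have d3 := d N X e1 (by rw [PtHyp.norm_e1, mul_one, mul_comm]; (clear * - hNn; gcongr))
  have halg := alg_bV (c4 := cw) (c3 := cu) hC hcw hcu ha.le hb.le hx1 hx2 hw.s1 hw.s2
    h.bd.g11 h.bd.g12 h.bd.g22 h.bd.om_4 h.bd.om_3 h.bd.om_1 h.bd.om_2
    h.bd.g11_3 h.bd.g12_3 h.bd.g22_3 h.bd.t1 h.bd.t2
  rw [← hcomb] at halg
  have hom := h.om_pos
  have homlo := h.bd.om_lo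
  have hmain : 2 * K.om (Psi z) * |(Sd Psi z X e1).2.1|
      ≤ 3 * (‖fderiv ℝ G z‖ * (‖X‖ * (C ^ 2 * (PtHyp.PP Psi z).2.1)))
        + 20 * C ^ 3 * ((1 + cw + cu) * ((PtHyp.PP Psi z).2.2.1 + (PtHyp.PP Psi z).2.1)) := by
    have e : 2 * K.om (Psi z) * |(Sd Psi z X e1).2.1|
        = |2 * (-K.om (Psi z) * (Sd Psi z X e1).2.1)| := by
      rw [abs_mul, abs_mul, abs_neg, abs_of_pos hom, abs_of_pos (by norm_num : (0:ℝ) < 2)]; ring
    rw [e, ht]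
    clear e ht hcomb
    rw [abs_le] at d1 d2 d3 halg ⊢
    obtain ⟨_, _⟩ := d1
    obtain ⟨_, _⟩ := d2
    obtain ⟨_, _⟩ := d3
    obtain ⟨_, _⟩ := halg
    constructor <;> linarith
  have hS0 := abs_nonneg (Sd Psi z X e1).2.1
  clear d1 d2 d3 halg hcomb ht d
  generalize ‖fderiv ℝ G z‖ = L at *
  set a := (PtHyp.PP Psi z).2.2.1
  set b := (PtHyp.PP Psi z).2.1
  have hfin : 2 * |(Sd Psi z X e1).2.1| ≤ C * (3 * (L * (‖X‖ * (C ^ 2 * b)))
      + 20 * C ^ 3 * ((1 + cw + cu) * (a + b))) := by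
    calc 2 * |(Sd Psi z X e1).2.1| = 1 * (2 * |(Sd Psi z X e1).2.1|) := by ring
      _ ≤ (C * K.om (Psi z)) * (2 * |(Sd Psi z X e1).2.1|) := by (clear * - homlo; gcongr)
      _ = C * (2 * K.om (Psi z) * |(Sd Psi z X e1).2.1|) := by ring
      _ ≤ _ := by (clear * - hmain hC; gcongr)
  have c3 : C ^ 3 ≤ C ^ 4 := pow_le_pow_right₀ hC (by norm_num)
  calc |(Sd Psi z X e1).2.1| = (1/2) * (2 * |(Sd Psi z X e1).2.1|) := by ring
    _ ≤ (1/2) * (C * (3 * (L * (‖X‖ * (C ^ 2 * b)))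
      + 20 * C ^ 3 * ((1 + cw + cu) * (a + b)))) := by (clear * - hfin; gcongr)
    _ = 3/2 * C ^ 3 * (L * ‖X‖ * b) + 10 * C ^ 4 * ((1 + cw + cu) * (a + b)) := by ring
    _ ≤ 20 * C ^ 4 * (L * ‖X‖ * b) + 20 * C ^ 4 * ((1 + cw + cu) * (a + b)) := by
      gcongr <;> norm_num
    _ = _ := by ring

lemma S_uX (h : PtHyp K G Psi V z C cv cw cu) (hw : PtW K (Psi z) C) {X N : P4}
    (hX : fderiv ℝ Psi z X = ev) (hN : fderiv ℝ Psi z N = e4 K (Psi z)) :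
    |(Sd Psi z X e1).2.2.1| ≤ 20 * C ^ 5 * (‖fderiv ℝ G z‖ * ‖X‖ * (PtHyp.PP Psi z).2.2.1
      + (1 + cv) * ((PtHyp.PP Psi z).2.2.1 + (PtHyp.PP Psi z).2.1)) := by
  have hC := h.bd.one_le
  have hC0 : 0 < C := by linarith
  have hb : 0 < (PtHyp.PP Psi z).2.1 := h.pos
  have ha : 0 < (PtHyp.PP Psi z).2.2.1 := h.sq_le.2.1
  have ht := h.iso.transf h.mem X e1 N
  rw [hN, K.gF_symm, gF_e4, hX] at ht
  have hcomb := comb_alphaV K (Psi z) (PtHyp.PP Psi z) hw.dw1 hw.dw2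
  have hL := norm_nonneg (fderiv ℝ G z)
  have hXn := norm_nonneg X
  have hNn := h.norm_N' hN
  obtain ⟨hx1, hx2⟩ := h.abs_h_le
  have hcv := h.bd.cv0
  have d : ∀ p q r : P4, ‖p‖ * ‖q‖ * ‖r‖ ≤ ‖X‖ * (C ^ 2 * (PtHyp.PP Psi z).2.2.1) →
      |fderiv ℝ G z p q r| ≤ ‖fderiv ℝ G z‖ * (‖X‖ * (C ^ 2 * (PtHyp.PP Psi z).2.2.1)) := by
    intro p q r hpqr
    calc |fderiv ℝ G z p q r| ≤ ‖fderiv ℝ G z‖ * ‖p‖ * ‖q‖ * ‖r‖ := PtHyp.DG_le G z p q r
      _ = ‖fderiv ℝ G z‖ * (‖p‖ * ‖q‖ * ‖r‖) := by ring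
      _ ≤ _ := by gcongr
  have d1 := d X e1 N (by rw [PtHyp.norm_e1, mul_one]; (clear * - hNn; gcongr))
  have d2 := d e1 X N (by rw [PtHyp.norm_e1, one_mul]; (clear * - hNn; gcongr))
  have d3 := d N X e1 (by rw [PtHyp.norm_e1, mul_one, mul_comm]; (clear * - hNn; gcongr))
  have halg := alg_aV (c4 := cv) hC hcv ha.le hb.le hx1 hx2 hw.s1 hw.s2
    h.bd.g11 h.bd.g12 h.bd.g22 h.bd.om_1 h.bd.om_2
    h.bd.g11_4 h.bd.g12_4 h.bd.g22_4 h.bd.s1_1 h.bd.s1_2 (hw.s1_3 h.bd)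
    h.bd.s2_1 h.bd.s2_2 (hw.s2_3 h.bd)
  rw [← hcomb] at halg
  have hom := h.om_pos
  have homlo := h.bd.om_lo
  have hmain : 2 * K.om (Psi z) * |(Sd Psi z X e1).2.2.1|
      ≤ 3 * (‖fderiv ℝ G z‖ * (‖X‖ * (C ^ 2 * (PtHyp.PP Psi z).2.2.1)))
        + 40 * C ^ 4 * ((1 + cv) * ((PtHyp.PP Psi z).2.2.1 + (PtHyp.PP Psi z).2.1)) := by
    have e : 2 * K.om (Psi z) * |(Sd Psi z X e1).2.2.1|
        = |2 * (-K.om (Psi z) * (Sd Psi z X e1).2.2.1)| := by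
      rw [abs_mul, abs_mul, abs_neg, abs_of_pos hom, abs_of_pos (by norm_num : (0:ℝ) < 2)]; ring
    rw [e, ht]
    clear e ht hcomb
    rw [abs_le] at d1 d2 d3 halg ⊢
    obtain ⟨_, _⟩ := d1
    obtain ⟨_, _⟩ := d2
    obtain ⟨_, _⟩ := d3
    obtain ⟨_, _⟩ := halg
    constructor <;> linarith
  have hS0 := abs_nonneg (Sd Psi z X e1).2.2.1
  clear d1 d2 d3 halg hcomb ht d
  generalize ‖fderiv ℝ G z‖ = L at *
  set a := (PtHyp.PP Psi z).2.2.1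
  set b := (PtHyp.PP Psi z).2.1
  have hfin : 2 * |(Sd Psi z X e1).2.2.1| ≤ C * (3 * (L * (‖X‖ * (C ^ 2 * a)))
      + 40 * C ^ 4 * ((1 + cv) * (a + b))) := by
    calc 2 * |(Sd Psi z X e1).2.2.1| = 1 * (2 * |(Sd Psi z X e1).2.2.1|) := by ring
      _ ≤ (C * K.om (Psi z)) * (2 * |(Sd Psi z X e1).2.2.1|) := by (clear * - homlo; gcongr)
      _ = C * (2 * K.om (Psi z) * |(Sd Psi z X e1).2.2.1|) := by ring
      _ ≤ _ := by (clear * - hmain hC; gcongr)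
  have c3 : C ^ 3 ≤ C ^ 5 := pow_le_pow_right₀ hC (by norm_num)
  calc |(Sd Psi z X e1).2.2.1| = (1/2) * (2 * |(Sd Psi z X e1).2.2.1|) := by ring
    _ ≤ (1/2) * (C * (3 * (L * (‖X‖ * (C ^ 2 * a)))
      + 40 * C ^ 4 * ((1 + cv) * (a + b)))) := by (clear * - hfin; gcongr)
    _ = 3/2 * C ^ 3 * (L * ‖X‖ * a) + 20 * C ^ 5 * ((1 + cv) * (a + b)) := by ring
    _ ≤ 20 * C ^ 5 * (L * ‖X‖ * a) + 20 * C ^ 5 * ((1 + cv) * (a + b)) := by
      gcongr; norm_num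
    _ = _ := by ring

/-- the logarithmic derivative of `a + b` along the generators -/
lemma S_q (h : PtHyp K G Psi V z C cv cw cu) (hw : PtW K (Psi z) C) {X N3 N4 : P4}
    (hX : fderiv ℝ Psi z X = ev) (hN3 : fderiv ℝ Psi z N3 = e3 K (Psi z))
    (hN4 : fderiv ℝ Psi z N4 = e4 K (Psi z)) :
    |(Sd Psi z X e1).2.1 + (Sd Psi z X e1).2.2.1| ≤ 800 * C ^ 12 *
      (((PtHyp.PP Psi z).2.2.1 + (PtHyp.PP Psi z).2.1) * ((1 + cv + cw + cu)
        + ‖fderiv ℝ G z‖ * ((PtHyp.PP Psi z).2.2.1 + (PtHyp.PP Psi z).2.1))) := by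
  have hC := h.bd.one_le
  have hC0 : 0 < C := by linarith
  have hb : 0 < (PtHyp.PP Psi z).2.1 := h.pos
  have ha : 0 < (PtHyp.PP Psi z).2.2.1 := h.sq_le.2.1
  have h1 := S_vX h hw hX hN3
  have h2 := S_uX h hw hX hN4
  have h3 := norm_Xv h hw.s1 hw.s2 hX
  have hcu := h.bd.cu0
  have hcw := h.bd.cw0
  have hcv := h.bd.cv0
  have hL := norm_nonneg (fderiv ℝ G z)
  have hX0 := norm_nonneg X
  generalize (Sd Psi z X e1).2.1 = p at *
  generalize (Sd Psi z X e1).2.2.1 = q at *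
  generalize ‖fderiv ℝ G z‖ = L at *
  generalize ‖X‖ = x at *
  set a := (PtHyp.PP Psi z).2.2.1
  set b := (PtHyp.PP Psi z).2.1
  clear_value a b
  have c45 : C ^ 4 ≤ C ^ 5 := pow_le_pow_right₀ hC (by norm_num)
  have c512 : C ^ 5 ≤ C ^ 12 := pow_le_pow_right₀ hC (by norm_num)
  have hs : 0 ≤ a + b := by linarith only [ha, hb]
  calc |p + q| ≤ |p| + |q| := abs_add_le _ _
    _ ≤ 20 * C ^ 4 * (L * x * b + (1 + cw + cu) * (a + b))
        + 20 * C ^ 5 * (L * x * a + (1 + cv) * (a + b)) := add_le_add h1 h2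
    _ ≤ 20 * C ^ 5 * (L * x * b + (1 + cw + cu) * (a + b))
        + 20 * C ^ 5 * (L * x * a + (1 + cv) * (a + b)) := by
      (clear * - c45 hL hX0 hb hcw hcu ha; gcongr)
    _ = 20 * C ^ 5 * (L * x * (a + b)) + 20 * C ^ 5 * ((2 + cv + cw + cu) * (a + b)) := by ring
    _ ≤ 20 * C ^ 5 * (L * (20 * C ^ 7 * (a + b)) * (a + b))
        + 20 * C ^ 5 * ((2 + cv + cw + cu) * (a + b)) := by (clear * - h3 hL ha hb hC; gcongr)
    _ = 400 * C ^ 12 * (L * (a + b) * (a + b)) + 20 * C ^ 5 * ((2 + cv + cw + cu) * (a + b)) := by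
      ring
    _ ≤ 800 * C ^ 12 * (L * (a + b) * (a + b))
        + 400 * C ^ 12 * ((2 + cv + cw + cu) * (a + b)) := by
      gcongr <;> norm_num
    _ ≤ 800 * C ^ 12 * (L * (a + b) * (a + b))
        + 400 * C ^ 12 * ((2 * (1 + cv + cw + cu)) * (a + b)) := by
      gcongr
      linarith only [hcu, hcw, hcv]
    _ = _ := by ring

end Vale.Agent.P354x
end
end

section

section

set_option maxSynthPendingDepth 3

open Set MeasureTheory

namespace Vale.Agent.P354w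

/-- the base space of the exotic vertical lines -/
abbrev P3 : Type := ℝ × ℝ × ℝ

/-- All coefficients are `C^1` on the open set `U`. -/
structure Coef.SmoothOn (K : Coef) (U : Set P4) : Prop where
  om : ContDiffOn ℝ 1 K.om U
  s1 : ContDiffOn ℝ 1 K.s1 U
  s2 : ContDiffOn ℝ 1 K.s2 U
  w1 : ContDiffOn ℝ 1 K.w1 U
  w2 : ContDiffOn ℝ 1 K.w2 U
  g11 : ContDiffOn ℝ 1 K.g11 U
  g12 : ContDiffOn ℝ 1 K.g12 U
  g22 : ContDiffOn ℝ 1 K.g22 U

/-- the region swept by the vertical lines `t ↦ (t, x)`, `t0 < t < f x`, `x ∈ ball 0 r` -/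
def DD (t0 r : ℝ) (f : P3 → ℝ) : Set P4 :=
  {z | z.2 ∈ Metric.ball (0 : P3) r ∧ t0 < z.1 ∧ z.1 < f z.2}

structure PreHyp (K : Coef) (G : P4 → P4 →L[ℝ] P4 →L[ℝ] ℝ) (Psi : P4 → P4) (V U : Set P4)
    (C R : ℝ) (cv cw cu : ℝ → ℝ) (t0 r : ℝ) (f : P3 → ℝ) : Prop where
  openU : IsOpen U
  smoothK : K.SmoothOn U
  bd : ∀ y ∈ U, K.Bd y C (cv y.2.1) (cw y.2.1) (cu y.2.2.1)
  U_sub : ∀ y ∈ U, |y.1| ≤ R ∧ -R ≤ y.2.1 ∧ y.2.1 < 0 ∧ |y.2.2.1| ≤ R ∧ |y.2.2.2| ≤ R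
  cv_meas : Measurable cv
  cw_meas : Measurable cw
  cu_meas : Measurable cu
  cv_int : ∫⁻ v in Ico (-R) 0, ENNReal.ofReal (cv v) ≠ ⊤
  cw_int : ∫⁻ v in Ico (-R) 0, ENNReal.ofReal (cw v) ≠ ⊤
  cu_int : ∫⁻ u in Icc (-R) R, ENNReal.ofReal (cu u) ≠ ⊤
  iso : Iso K G Psi V
  inj : InjOn Psi V
  maps : MapsTo Psi V U
  cone : ∀ z ∈ V, ∀ a, ‖a‖ ^ 2 ≤ C * G z a a + C * (G z a e1) ^ 2
  tt : ∀ z ∈ V, 1 ≤ C * (-(G z e1 e1))
  pos : ∀ z ∈ V, 0 < (fderiv ℝ Psi z e1).2.1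
  det_lo : ∀ z ∈ V, 1 ≤ C * |(fderiv ℝ Psi z).det|
  det_hi : ∀ z ∈ V, |(fderiv ℝ Psi z).det| ≤ C
  r_pos : 0 < r
  t0f : ∀ x ∈ Metric.ball (0 : P3) r, t0 < f x
  memV : ∀ x ∈ Metric.ball (0 : P3) r, ∀ t ∈ Ico t0 (f x), (t, x) ∈ V
  openD : IsOpen (DD t0 r f)
  finD : volume (DD t0 r f) ≠ ⊤
  L2 : ∫⁻ z in DD t0 r f, ‖fderiv ℝ G z‖ₑ ^ 2 ≠ ⊤

structure CoreHyp (K : Coef) (G : P4 → P4 →L[ℝ] P4 →L[ℝ] ℝ) (Psi : P4 → P4) (V U : Set P4)
    (C R : ℝ) (cv cw cu : ℝ → ℝ) (t0 r : ℝ) (f : P3 → ℝ) : Prop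
    extends PreHyp K G Psi V U C R cv cw cu t0 r f where
  cpt : ∀ r' < r, ∀ v2 < 0, IsCompact {z : P4 | ‖z.2‖ ≤ r' ∧ t0 ≤ z.1 ∧ z.1 < f z.2 ∧
    (Psi z).2.1 ≤ v2}
  exit : ∀ x ∈ Metric.ball (0 : P3) r, ∀ v2 < 0, ∃ t ∈ Ico t0 (f x), v2 < (Psi (t, x)).2.1

namespace PreHyp

variable {K : Coef} {G : P4 → P4 →L[ℝ] P4 →L[ℝ] ℝ} {Psi : P4 → P4} {V U : Set P4}
    {C R : ℝ} {cv cw cu : ℝ → ℝ} {t0 r : ℝ} {f : P3 → ℝ}

lemma pt (h : PreHyp K G Psi V U C R cv cw cu t0 r f) {z : P4} (hz : z ∈ V) :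
    PtHyp K G Psi V z C (cv (Psi z).2.1) (cw (Psi z).2.1) (cu (Psi z).2.2.1) where
  iso := h.iso
  mem := hz
  bd := h.bd _ (h.maps hz)
  cone := h.cone z hz
  tt := h.tt z hz
  pos := h.pos z hz

/-- the derivative of `Psi` is injective, hence an equivalence -/
lemma deriv_inj (h : PreHyp K G Psi V U C R cv cw cu t0 r f) {z : P4} (hz : z ∈ V) :
    Function.Injective (fderiv ℝ Psi z) := by
  rw [injective_iff_map_eq_zero]
  intro a ha
  have h1 := h.cone z hz a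
  rw [h.iso.iso z hz, h.iso.iso z hz, ha] at h1
  simp only [Coef.gF, Coef.h1, Coef.h2, Prod.fst_zero, Prod.snd_zero] at h1
  have : ‖a‖ ^ 2 ≤ 0 := by linarith only [h1]
  have h2 : ‖a‖ = 0 := by
    have := norm_nonneg a
    exact (pow_eq_zero_iff two_ne_zero).1 (le_antisymm ‹‖a‖ ^ 2 ≤ 0› (sq_nonneg _))
  exact norm_eq_zero.mp h2

/-- the derivative of `Psi` as an equivalence -/
noncomputable def Aeq (h : PreHyp K G Psi V U C R cv cw cu t0 r f) {z : P4} (hz : z ∈ V) :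
    P4 ≃L[ℝ] P4 :=
  (LinearEquiv.ofInjectiveEndo (fderiv ℝ Psi z : P4 →ₗ[ℝ] P4)
    (h.deriv_inj hz)).toContinuousLinearEquiv

lemma Aeq_apply (h : PreHyp K G Psi V U C R cv cw cu t0 r f) {z : P4} (hz : z ∈ V) (a : P4) :
    h.Aeq hz a = fderiv ℝ Psi z a := rfl

lemma Aeq_coe (h : PreHyp K G Psi V U C R cv cw cu t0 r f) {z : P4} (hz : z ∈ V) :
    (h.Aeq hz : P4 →L[ℝ] P4) = fderiv ℝ Psi z := rfl

lemma exists_pre (h : PreHyp K G Psi V U C R cv cw cu t0 r f) {z : P4} (hz : z ∈ V) (w : P4) :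
    ∃ a, fderiv ℝ Psi z a = w :=
  ⟨(h.Aeq hz).symm w, by rw [← h.Aeq_apply hz]; simp⟩

end PreHyp

end Vale.Agent.P354w
end
end

section

section

set_option maxSynthPendingDepth 3

open Set MeasureTheory

namespace Vale.Agent.P354w

/-- substitution along a strictly increasing function -/
lemma subst_eq {φ φ' : ℝ → ℝ} {s : Set ℝ} (hs : MeasurableSet s) (hconn : s.OrdConnected)
    (hφ : ∀ t ∈ s, HasDerivAt φ (φ' t) t) (hpos : ∀ t ∈ s, 0 < φ' t) (F : ℝ → ENNReal) :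
    ∫⁻ t in s, ENNReal.ofReal (φ' t) * F (φ t) = ∫⁻ y in φ '' s, F y := by
  have hmono : StrictMonoOn φ s := by
    apply strictMonoOn_of_deriv_pos (convex_iff_ordConnected.mpr hconn)
    · intro t ht
      exact (hφ t ht).continuousAt.continuousWithinAt
    · intro t ht
      rw [(hφ t (interior_subset ht)).deriv]
      exact hpos t (interior_subset ht)
  rw [lintegral_image_eq_lintegral_abs_deriv_mul hs (fun t ht => (hφ t ht).hasDerivWithinAt)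
    hmono.injOn]
  apply setLIntegral_congr_fun hs
  intro t ht
  simp only [abs_of_pos (hpos t ht)]

lemma subst_le {φ φ' : ℝ → ℝ} {s S : Set ℝ} (hs : MeasurableSet s) (hconn : s.OrdConnected)
    (hφ : ∀ t ∈ s, HasDerivAt φ (φ' t) t) (hpos : ∀ t ∈ s, 0 < φ' t)
    (hmap : MapsTo φ s S) (F : ℝ → ENNReal) :
    ∫⁻ t in s, ENNReal.ofReal (φ' t) * F (φ t) ≤ ∫⁻ y in S, F y := by
  rw [subst_eq hs hconn hφ hpos]
  exact lintegral_mono_set hmap.image_subset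

/-- logarithmic Gronwall in `lintegral` form. -/
lemma log_bound {q q' : ℝ → ℝ} {a b : ℝ} (hab : a ≤ b) (hq : ∀ t ∈ Icc a b, HasDerivAt q (q' t) t)
    (hq'c : ContinuousOn q' (Icc a b)) (hpos : ∀ t ∈ Icc a b, 0 < q t) {W : ℝ → ENNReal}
    (hW : ∀ t ∈ Icc a b, ENNReal.ofReal (|q' t| / q t) ≤ W t) :
    ENNReal.ofReal |Real.log (q b) - Real.log (q a)| ≤ ∫⁻ t in Icc a b, W t := by
  have hlog : ∀ t ∈ Icc a b, HasDerivAt (fun t => Real.log (q t)) (q' t / q t) t := by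
    intro t ht
    exact (hq t ht).log (hpos t ht).ne'
  have hqc : ContinuousOn q (Icc a b) := fun t ht => (hq t ht).continuousAt.continuousWithinAt
  have hcont : ContinuousOn (fun t => q' t / q t) (Icc a b) :=
    hq'c.div hqc (fun t ht => (hpos t ht).ne')
  have hint : IntervalIntegrable (fun t => q' t / q t) volume a b := by
    apply ContinuousOn.intervalIntegrable
    rwa [uIcc_of_le hab]
  have heq := intervalIntegral.integral_eq_sub_of_hasDerivAt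
    (f := fun t => Real.log (q t)) (f' := fun t => q' t / q t) (a := a) (b := b)
    (by rw [uIcc_of_le hab]; exact hlog) hint
  rw [← heq, intervalIntegral.integral_of_le hab]
  have h1 := enorm_integral_le_lintegral_enorm (μ := volume.restrict (Ioc a b))
    (fun t => q' t / q t)
  have h2 : ENNReal.ofReal |∫ t in Ioc a b, q' t / q t| = ‖∫ t in Ioc a b, q' t / q t‖ₑ := by
    rw [← Real.norm_eq_abs, ofReal_norm]
  rw [h2]
  refine h1.trans ?_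
  calc ∫⁻ t in Ioc a b, ‖q' t / q t‖ₑ ≤ ∫⁻ t in Icc a b, ‖q' t / q t‖ₑ :=
        lintegral_mono_set Ioc_subset_Icc_self
    _ ≤ ∫⁻ t in Icc a b, W t := by
      apply setLIntegral_mono' measurableSet_Icc
      intro t ht
      refine le_trans (le_of_eq ?_) (hW t ht)
      rw [← ofReal_norm, Real.norm_eq_abs, abs_div, abs_of_pos (hpos t ht)]

namespace PreHyp

variable {K : Coef} {G : P4 → P4 →L[ℝ] P4 →L[ℝ] ℝ} {Psi : P4 → P4} {V U : Set P4}
    {C R : ℝ} {cv cw cu : ℝ → ℝ} {t0 r : ℝ} {f : P3 → ℝ}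

/-- derivative of the curve `t ↦ Psi (t, x)` -/
lemma hasDerivAt_line (h : PreHyp K G Psi V U C R cv cw cu t0 r f) {t : ℝ} {x : P3}
    (hz : (t, x) ∈ V) : HasDerivAt (fun t => Psi (t, x)) (fderiv ℝ Psi (t, x) e1) t := by
  have hl : HasDerivAt (fun t : ℝ => ((t, x) : P4)) e1 t := by
    have := (hasDerivAt_id t).prodMk (hasDerivAt_const t x)
    exact this
  exact (h.iso.hasFDerivAt hz).comp_hasDerivAt t hl

lemma hasDerivAt_line2 (h : PreHyp K G Psi V U C R cv cw cu t0 r f) {t : ℝ} {x : P3}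
    (hz : (t, x) ∈ V) : HasDerivAt (fun t => fderiv ℝ Psi (t, x) e1) (Sd Psi (t, x) e1 e1) t := by
  have hl : HasDerivAt (fun t : ℝ => ((t, x) : P4)) e1 t := by
    have := (hasDerivAt_id t).prodMk (hasDerivAt_const t x)
    exact this
  have h1 := (h.iso.hasFDerivAt_fderiv hz).comp_hasDerivAt t hl
  have h2 := h1.clm_apply (hasDerivAt_const t e1)
  simpa only [Sd, Function.comp_apply, map_zero, add_zero] using h2

lemma continuousOn_Sd (h : PreHyp K G Psi V U C R cv cw cu t0 r f) (a b : P4) :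
    ContinuousOn (fun z => Sd Psi z a b) V := by
  intro z hz
  have h1 : ContDiffAt ℝ 1 (fderiv ℝ Psi) z := h.iso.contDiffAt_fderiv hz
  have h2 : ContDiffAt ℝ 0 (fderiv ℝ (fderiv ℝ Psi)) z := h1.fderiv_right (by norm_num)
  have h3 : ContinuousAt (fderiv ℝ (fderiv ℝ Psi)) z := h2.continuousAt
  have h4 : ContinuousAt (fun z => fderiv ℝ (fderiv ℝ Psi) z a b) z :=
    (h3.clm_apply continuousAt_const).clm_apply continuousAt_const
  exact h4.continuousWithinAt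

/-- Along an exotic vertical line with integrable `|DG|`, the frame components stay bounded. -/
lemma line_bound (h : PreHyp K G Psi V U C R cv cw cu t0 r f) {x : P3}
    (hx : x ∈ Metric.ball (0 : P3) r)
    (hn : ∫⁻ t in Ico t0 (f x), ‖fderiv ℝ G (t, x)‖ₑ ≠ ⊤) :
    ∃ M : ℝ, ∀ t ∈ Ico t0 (f x),
      |Real.log (fderiv ℝ Psi (t, x) e1).2.1 - Real.log (fderiv ℝ Psi (t0, x) e1).2.1| ≤ M ∧
      |Real.log (fderiv ℝ Psi (t, x) e1).2.2.1 - Real.log (fderiv ℝ Psi (t0, x) e1).2.2.1| ≤ M := by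
  classical
  have hC : 1 ≤ C := by
    have : (t0, x) ∈ V := h.memV x hx t0 ⟨le_refl _, h.t0f x hx⟩
    exact (h.pt this).bd.one_le
  set n := ∫⁻ t in Ico t0 (f x), ‖fderiv ℝ G (t, x)‖ₑ with hndef
  set Iv := ∫⁻ v in Ico (-R) 0, ENNReal.ofReal (cv v) with hIv
  set Iu := ∫⁻ u in Icc (-R) R, ENNReal.ofReal (cu u) with hIu
  set Iw := ∫⁻ v in Ico (-R) 0, ENNReal.ofReal (cw v) with hIw
  set T : ENNReal := ENNReal.ofReal (100 * C ^ 5) * (n + Iv + Iw + Iu + volume (Icc (-R) R)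
    + volume (Ico (-R) (0:ℝ))) with hT
  have hTfin : T ≠ ⊤ := by
    apply ENNReal.mul_ne_top ENNReal.ofReal_ne_top
    have hvol1 : volume (Icc (-R) R) ≠ ⊤ := by simp only [Real.volume_Icc, sub_neg_eq_add, ne_eq, ENNReal.ofReal_ne_top, not_false_eq_true]
    have hvol2 : volume (Ico (-R) (0:ℝ)) ≠ ⊤ := by simp only [Real.volume_Ico, sub_neg_eq_add, zero_add, ne_eq, ENNReal.ofReal_ne_top, not_false_eq_true]
    exact ENNReal.add_ne_top.mpr ⟨ENNReal.add_ne_top.mpr ⟨ENNReal.add_ne_top.mpr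
      ⟨ENNReal.add_ne_top.mpr ⟨ENNReal.add_ne_top.mpr ⟨hn, h.cv_int⟩, h.cw_int⟩, h.cu_int⟩,
      hvol1⟩, hvol2⟩
  refine ⟨T.toReal, fun t ht => ?_⟩
  have hsub : ∀ s ∈ Icc t0 t, (s, x) ∈ V := fun s hs =>
    h.memV x hx s ⟨hs.1, lt_of_le_of_lt hs.2 ht.2⟩
  have hline : ContinuousOn (fun s : ℝ => ((s, x) : P4)) (Icc t0 t) := by fun_prop
  have hmapsV : MapsTo (fun s : ℝ => ((s, x) : P4)) (Icc t0 t) V := hsub
  -- the common majorant
  set W : ℝ → ENNReal := fun s => ENNReal.ofReal (100 * C ^ 5) * (‖fderiv ℝ G (s, x)‖ₑ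
    + ENNReal.ofReal (fderiv ℝ Psi (s, x) e1).2.1 * ENNReal.ofReal (cv (Psi (s, x)).2.1)
    + ENNReal.ofReal (fderiv ℝ Psi (s, x) e1).2.1 * ENNReal.ofReal (cw (Psi (s, x)).2.1)
    + ENNReal.ofReal (fderiv ℝ Psi (s, x) e1).2.2.1 * ENNReal.ofReal (cu (Psi (s, x)).2.2.1)
    + ENNReal.ofReal (fderiv ℝ Psi (s, x) e1).2.2.1 * 1
    + ENNReal.ofReal (fderiv ℝ Psi (s, x) e1).2.1 * 1) with hWdef
  have hv : ∀ s ∈ Icc t0 t, HasDerivAt (fun s => (Psi (s, x)).2.1) (fderiv ℝ Psi (s, x) e1).2.1 s :=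
    fun s hs => (h.hasDerivAt_line (hsub s hs)).snd.fst
  have hu : ∀ s ∈ Icc t0 t, HasDerivAt (fun s => (Psi (s, x)).2.2.1)
      (fderiv ℝ Psi (s, x) e1).2.2.1 s :=
    fun s hs => (h.hasDerivAt_line (hsub s hs)).snd.snd.fst
  have hposv : ∀ s ∈ Icc t0 t, 0 < (fderiv ℝ Psi (s, x) e1).2.1 := fun s hs => h.pos _ (hsub s hs)
  have hposu : ∀ s ∈ Icc t0 t, 0 < (fderiv ℝ Psi (s, x) e1).2.2.1 :=
    fun s hs => (h.pt (hsub s hs)).sq_le.2.1
  have hmv : MapsTo (fun s => (Psi (s, x)).2.1) (Icc t0 t) (Ico (-R) 0) := by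
    intro s hs
    obtain ⟨_, h1, h2, _, _⟩ := h.U_sub _ (h.maps (hsub s hs))
    exact ⟨h1, h2⟩
  have hmu : MapsTo (fun s => (Psi (s, x)).2.2.1) (Icc t0 t) (Icc (-R) R) := by
    intro s hs
    obtain ⟨_, _, _, h3, _⟩ := h.U_sub _ (h.maps (hsub s hs))
    exact abs_le.mp h3
  have i1 : ∫⁻ s in Icc t0 t, ‖fderiv ℝ G (s, x)‖ₑ ≤ n := by
    apply lintegral_mono_set
    intro s hs
    exact ⟨hs.1, lt_of_le_of_lt hs.2 ht.2⟩
  have i2 := subst_le (φ := fun s => (Psi (s, x)).2.1) measurableSet_Icc ordConnected_Icc hv hposv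
    hmv (fun v => ENNReal.ofReal (cv v))
  have i2w := subst_le (φ := fun s => (Psi (s, x)).2.1) measurableSet_Icc ordConnected_Icc hv hposv
    hmv (fun v => ENNReal.ofReal (cw v))
  have i3 := subst_le (φ := fun s => (Psi (s, x)).2.2.1) measurableSet_Icc ordConnected_Icc hu
    hposu hmu (fun v => ENNReal.ofReal (cu v))
  have i4 := subst_le (φ := fun s => (Psi (s, x)).2.2.1) measurableSet_Icc ordConnected_Icc hu
    hposu hmu (fun v => (1 : ENNReal))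
  have i5 := subst_le (φ := fun s => (Psi (s, x)).2.1) measurableSet_Icc ordConnected_Icc hv hposv
    hmv (fun v => (1 : ENNReal))
  simp only [lintegral_const, one_mul, Measure.restrict_apply MeasurableSet.univ, univ_inter]
    at i4 i5
  have hcontb : ContinuousOn (fun s : ℝ => (fderiv ℝ Psi (s, x) e1).2.1) (Icc t0 t) := by
    intro s hs
    exact ((h.hasDerivAt_line2 (hsub s hs)).continuousAt.snd.fst).continuousWithinAt
  have hconta : ContinuousOn (fun s : ℝ => (fderiv ℝ Psi (s, x) e1).2.2.1) (Icc t0 t) := by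
    intro s hs
    exact ((h.hasDerivAt_line2 (hsub s hs)).continuousAt.snd.snd.fst).continuousWithinAt
  have hPsi : ContinuousOn (fun s : ℝ => Psi (s, x)) (Icc t0 t) := by
    intro s hs
    exact (h.hasDerivAt_line (hsub s hs)).continuousAt.continuousWithinAt
  have hmeasline : Measurable (fun s : ℝ => ((s, x) : P4)) := by fun_prop
  have m1 : AEMeasurable (fun s : ℝ => ‖fderiv ℝ G (s, x)‖ₑ) (volume.restrict (Icc t0 t)) :=
    ((measurable_fderiv ℝ G).comp hmeasline).enorm.aemeasurable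
  have m2 : AEMeasurable (fun s : ℝ => ENNReal.ofReal (fderiv ℝ Psi (s, x) e1).2.1)
      (volume.restrict (Icc t0 t)) :=
    (hcontb.aemeasurable measurableSet_Icc).ennreal_ofReal
  have m3 : AEMeasurable (fun s : ℝ => ENNReal.ofReal (fderiv ℝ Psi (s, x) e1).2.2.1)
      (volume.restrict (Icc t0 t)) :=
    (hconta.aemeasurable measurableSet_Icc).ennreal_ofReal
  have mP : AEMeasurable (fun s : ℝ => Psi (s, x)) (volume.restrict (Icc t0 t)) :=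
    hPsi.aemeasurable measurableSet_Icc
  have m4 : AEMeasurable (fun s : ℝ => ENNReal.ofReal (cv (Psi (s, x)).2.1))
      (volume.restrict (Icc t0 t)) :=
    (h.cv_meas.comp_aemeasurable mP.snd.fst).ennreal_ofReal
  have m4w : AEMeasurable (fun s : ℝ => ENNReal.ofReal (cw (Psi (s, x)).2.1))
      (volume.restrict (Icc t0 t)) :=
    (h.cw_meas.comp_aemeasurable mP.snd.fst).ennreal_ofReal
  have m5 : AEMeasurable (fun s : ℝ => ENNReal.ofReal (cu (Psi (s, x)).2.2.1))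
      (volume.restrict (Icc t0 t)) :=
    (h.cu_meas.comp_aemeasurable mP.snd.snd.fst).ennreal_ofReal
  have hWle : ∫⁻ s in Icc t0 t, W s ≤ T := by
    rw [hWdef, hT]
    rw [lintegral_const_mul'' _ (by
      exact (((((m1.add (m2.mul m4)).add (m2.mul m4w)).add (m3.mul m5)).add
        (m3.mul aemeasurable_const)).add (m2.mul aemeasurable_const)))]
    gcongr
    rw [lintegral_add_left' (by
      exact ((((m1.add (m2.mul m4)).add (m2.mul m4w)).add (m3.mul m5)).add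
        (m3.mul aemeasurable_const)))]
    rw [lintegral_add_left' (by exact (((m1.add (m2.mul m4)).add (m2.mul m4w)).add (m3.mul m5)))]
    rw [lintegral_add_left' (by exact ((m1.add (m2.mul m4)).add (m2.mul m4w)))]
    rw [lintegral_add_left' (by exact (m1.add (m2.mul m4)))]
    rw [lintegral_add_left' m1]
    (clear * - i1 i2 i2w i3 i4 i5; gcongr)
  have hC5 : 0 ≤ C ^ 5 := by positivity
  have key : ∀ s ∈ Icc t0 t, ∀ q' q : ℝ, 0 < q → |q'| ≤ 100 * C ^ 5 * (q * (‖fderiv ℝ G (s, x)‖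
      + cv (Psi (s, x)).2.1 * (fderiv ℝ Psi (s, x) e1).2.1
      + cw (Psi (s, x)).2.1 * (fderiv ℝ Psi (s, x) e1).2.1
      + cu (Psi (s, x)).2.2.1 * (fderiv ℝ Psi (s, x) e1).2.2.1
      + (fderiv ℝ Psi (s, x) e1).2.2.1 + (fderiv ℝ Psi (s, x) e1).2.1)) →
      ENNReal.ofReal (|q'| / q) ≤ W s := by
    intro s hs q' q hq hle
    have hb := hposv s hs
    have ha := hposu s hs
    have hcv := (h.pt (hsub s hs)).bd.cv0
    have hcw := (h.pt (hsub s hs)).bd.cw0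
    have hcu := (h.pt (hsub s hs)).bd.cu0
    have h1 : |q'| / q ≤ 100 * C ^ 5 * (‖fderiv ℝ G (s, x)‖
      + cv (Psi (s, x)).2.1 * (fderiv ℝ Psi (s, x) e1).2.1
      + cw (Psi (s, x)).2.1 * (fderiv ℝ Psi (s, x) e1).2.1
      + cu (Psi (s, x)).2.2.1 * (fderiv ℝ Psi (s, x) e1).2.2.1
      + (fderiv ℝ Psi (s, x) e1).2.2.1 + (fderiv ℝ Psi (s, x) e1).2.1) := by
      rw [div_le_iff₀ hq]
      linarith only [hle]
    refine (ENNReal.ofReal_le_ofReal h1).trans ?_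
    rw [hWdef]
    simp only [mul_one]
    rw [ENNReal.ofReal_mul (by positivity), ENNReal.ofReal_add (by (clear * - hcv hb hcw hcu ha; (clear * - hcv hb hcw hcu ha; positivity))) hb.le,
      ENNReal.ofReal_add (by (clear * - hcv hb hcw hcu ha; positivity)) ha.le, ENNReal.ofReal_add (by (clear * - hcv hb hcw; positivity)) (by (clear * - hcu ha; positivity)),
      ENNReal.ofReal_add (by (clear * - hcv hb; positivity)) (by (clear * - hcw hb; positivity)),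
      ENNReal.ofReal_add (by (clear * -; positivity)) (by (clear * - hcv hb; positivity)), ENNReal.ofReal_mul hcv,
      ENNReal.ofReal_mul hcw, ENNReal.ofReal_mul hcu, ofReal_norm,
      mul_comm (ENNReal.ofReal (cv _)), mul_comm (ENNReal.ofReal (cw _)),
      mul_comm (ENNReal.ofReal (cu _))]
  have hsdc : ContinuousOn (fun s : ℝ => Sd Psi (s, x) e1 e1) (Icc t0 t) :=
    (h.continuousOn_Sd e1 e1).comp hline hmapsV
  constructor
  · have h1 := log_bound (q := fun s => (fderiv ℝ Psi (s, x) e1).2.1)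
      (q' := fun s => (Sd Psi (s, x) e1 e1).2.1) (W := W) ht.1
      (fun s hs => (h.hasDerivAt_line2 (hsub s hs)).snd.fst)
      (hsdc.snd.fst) hposv (by
        intro s hs
        obtain ⟨N, hN⟩ := h.exists_pre (hsub s hs) (e3 K (Psi (s, x)))
        have h2 := (h.pt (hsub s hs)).Sv_TT hN
        refine key s hs _ _ (hposv s hs) (h2.trans ?_)
        have hb := hposv s hs
        have ha := hposu s hs
        have hcv := (h.pt (hsub s hs)).bd.cv0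
        have : (0:ℝ) ≤ C ^ 5 * ((fderiv ℝ Psi (s, x) e1).2.1 *
          (cv (Psi (s, x)).2.1 * (fderiv ℝ Psi (s, x) e1).2.1)) := by (clear * - hC hb hcv; positivity)
        linarith only [this])
    have h2 := h1.trans hWle
    rwa [ENNReal.ofReal_le_iff_le_toReal hTfin] at h2
  · have h1 := log_bound (q := fun s => (fderiv ℝ Psi (s, x) e1).2.2.1)
      (q' := fun s => (Sd Psi (s, x) e1 e1).2.2.1) (W := W) ht.1
      (fun s hs => (h.hasDerivAt_line2 (hsub s hs)).snd.snd.fst)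
      (hsdc.snd.snd.fst) hposu (by
        intro s hs
        obtain ⟨N, hN⟩ := h.exists_pre (hsub s hs) (e4 K (Psi (s, x)))
        have h2 := (h.pt (hsub s hs)).Su_TT hN
        refine key s hs _ _ (hposu s hs) (h2.trans ?_)
        have hb := hposv s hs
        have ha := hposu s hs
        have hcw := (h.pt (hsub s hs)).bd.cw0
        have : (0:ℝ) ≤ C ^ 5 * ((fderiv ℝ Psi (s, x) e1).2.2.1 *
          (cw (Psi (s, x)).2.1 * (fderiv ℝ Psi (s, x) e1).2.1)) := by (clear * - hC ha hcw hb; positivity)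
        linarith only [this])
    have h2 := h1.trans hWle
    rwa [ENNReal.ofReal_le_iff_le_toReal hTfin] at h2

end PreHyp

end Vale.Agent.P354w
end
end

section

section

set_option maxSynthPendingDepth 3

open Set MeasureTheory

namespace Vale.Agent.P354w

/-- cutoff: `1` on `(-∞, 1]`, `0` on `[2, ∞)`. -/
noncomputable def eta (s : ℝ) : ℝ := Real.smoothTransition (2 - s)

lemma eta_nonneg (s : ℝ) : 0 ≤ eta s := Real.smoothTransition.nonneg _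
lemma eta_le_one (s : ℝ) : eta s ≤ 1 := Real.smoothTransition.le_one _
lemma eta_one {s : ℝ} (h : s ≤ 1) : eta s = 1 := Real.smoothTransition.one_of_one_le (by linarith only [h])
lemma eta_zero {s : ℝ} (h : 2 ≤ s) : eta s = 0 := Real.smoothTransition.zero_of_nonpos (by linarith only [h])
lemma eta_contDiff {n : WithTop ℕ∞} (hn : n ≤ (⊤ : ℕ∞)) : ContDiff ℝ n eta := by
  have h1 : ContDiff ℝ (⊤ : ℕ∞) Real.smoothTransition := Real.smoothTransition.contDiff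
  exact ((h1.comp (contDiff_const.sub contDiff_id)).of_le hn)

lemma eta_diff (s : ℝ) : HasDerivAt eta (deriv eta s) s :=
  ((eta_contDiff (n := 1) (by norm_num)).differentiable (by norm_num) s).hasDerivAt

lemma deriv_eta_zero_left {s : ℝ} (h : s < 1) : deriv eta s = 0 := by
  have : eta =ᶠ[nhds s] fun _ => (1:ℝ) := by
    filter_upwards [Iio_mem_nhds h] with y hy
    exact eta_one (le_of_lt hy)
  rw [this.deriv_eq]; simp only [deriv_const']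

lemma deriv_eta_zero_right {s : ℝ} (h : 2 < s) : deriv eta s = 0 := by
  have : eta =ᶠ[nhds s] fun _ => (0:ℝ) := by
    filter_upwards [Ioi_mem_nhds h] with y hy
    exact eta_zero (le_of_lt hy)
  rw [this.deriv_eq]; simp

lemma exists_eta_bound : ∃ B : ℝ, 1 ≤ B ∧ ∀ s, |deriv eta s| ≤ B := by
  have hc : Continuous (deriv eta) :=
    (eta_contDiff (n := 1) (by norm_num)).continuous_deriv (by norm_num)
  obtain ⟨B, hB⟩ := (isCompact_Icc (a := (1:ℝ)) (b := 2)).exists_bound_of_continuousOn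
    hc.continuousOn
  refine ⟨max B 1, le_max_right _ _, fun s => ?_⟩
  by_cases h1 : s < 1
  · rw [deriv_eta_zero_left h1]; simp only [abs_zero, le_sup_iff, zero_le_one, or_true]
  · by_cases h2 : 2 < s
    · rw [deriv_eta_zero_right h2]; simp only [abs_zero, le_sup_iff, zero_le_one, or_true]
    · push Not at h1 h2
      have := hB s ⟨h1, h2⟩
      rw [Real.norm_eq_abs] at this
      exact this.trans (le_max_left _ _)

/-- the test function -/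
noncomputable def Theta (K : Coef) (Psi : P4 → P4) (hh : P3 → ℝ) (κ : ℝ) (z : P4) : ℝ :=
  hh z.2 * (eta ((fderiv ℝ Psi z e1).2.1 / κ) * (eta ((fderiv ℝ Psi z e1).2.2.1 / κ)
    * K.gF (Psi z) (fderiv ℝ Psi z e1) e1))

namespace PreHyp

variable {K : Coef} {G : P4 → P4 →L[ℝ] P4 →L[ℝ] ℝ} {Psi : P4 → P4} {V U : Set P4}
    {C R : ℝ} {cv cw cu : ℝ → ℝ} {t0 r : ℝ} {f : P3 → ℝ}

lemma contDiffAt_P (h : PreHyp K G Psi V U C R cv cw cu t0 r f) {z : P4} (hz : z ∈ V) (a : P4) :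
    ContDiffAt ℝ 1 (fun z => fderiv ℝ Psi z a) z :=
  (h.iso.contDiffAt_fderiv hz).clm_apply contDiffAt_const

lemma contDiffAt_gF (h : PreHyp K G Psi V U C R cv cw cu t0 r f) {z : P4} (hz : z ∈ V) (a b : P4) :
    ContDiffAt ℝ 1 (fun z => K.gF (Psi z) (fderiv ℝ Psi z a) b) z := by
  have hP := h.contDiffAt_P hz a
  have hPsi : ContDiffAt ℝ 1 Psi z := (h.iso.contDiffAt hz).of_le (by norm_num)
  have hU : U ∈ nhds (Psi z) := h.openU.mem_nhds (h.maps hz)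
  have c1 : ContDiffAt ℝ 1 (fun z => K.om (Psi z)) z := (h.smoothK.om.contDiffAt hU).comp z hPsi
  have c2 : ContDiffAt ℝ 1 (fun z => K.s1 (Psi z)) z := (h.smoothK.s1.contDiffAt hU).comp z hPsi
  have c3 : ContDiffAt ℝ 1 (fun z => K.s2 (Psi z)) z := (h.smoothK.s2.contDiffAt hU).comp z hPsi
  have cw1 : ContDiffAt ℝ 1 (fun z => K.w1 (Psi z)) z := (h.smoothK.w1.contDiffAt hU).comp z hPsi
  have cw2 : ContDiffAt ℝ 1 (fun z => K.w2 (Psi z)) z := (h.smoothK.w2.contDiffAt hU).comp z hPsi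
  have c4 : ContDiffAt ℝ 1 (fun z => K.g11 (Psi z)) z := (h.smoothK.g11.contDiffAt hU).comp z hPsi
  have c5 : ContDiffAt ℝ 1 (fun z => K.g12 (Psi z)) z := (h.smoothK.g12.contDiffAt hU).comp z hPsi
  have c6 : ContDiffAt ℝ 1 (fun z => K.g22 (Psi z)) z := (h.smoothK.g22.contDiffAt hU).comp z hPsi
  have p1 : ContDiffAt ℝ 1 (fun z => (fderiv ℝ Psi z a).1) z := contDiffAt_fst.comp z hP
  have p2 : ContDiffAt ℝ 1 (fun z => (fderiv ℝ Psi z a).2.1) z :=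
    contDiffAt_fst.comp z (contDiffAt_snd.comp z hP)
  have p3 : ContDiffAt ℝ 1 (fun z => (fderiv ℝ Psi z a).2.2.1) z :=
    contDiffAt_fst.comp z (contDiffAt_snd.comp z (contDiffAt_snd.comp z hP))
  have p4 : ContDiffAt ℝ 1 (fun z => (fderiv ℝ Psi z a).2.2.2) z :=
    contDiffAt_snd.comp z (contDiffAt_snd.comp z (contDiffAt_snd.comp z hP))
  simp only [Coef.gF, Coef.h1, Coef.h2]
  (clear * - c1 hP c4 c2 cw1 c5 c3 cw2 c6; fun_prop)

lemma contDiffAt_Theta (h : PreHyp K G Psi V U C R cv cw cu t0 r f) {z : P4} (hz : z ∈ V)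
    {hh : P3 → ℝ} (hhs : ContDiff ℝ 1 hh) (κ : ℝ) :
    ContDiffAt ℝ 1 (Theta K Psi hh κ) z := by
  have hP := h.contDiffAt_P hz e1
  have p2 : ContDiffAt ℝ 1 (fun z => (fderiv ℝ Psi z e1).2.1 / κ) z :=
    (contDiffAt_fst.comp z (contDiffAt_snd.comp z hP)).div_const κ
  have p3 : ContDiffAt ℝ 1 (fun z => (fderiv ℝ Psi z e1).2.2.1 / κ) z :=
    (contDiffAt_fst.comp z (contDiffAt_snd.comp z (contDiffAt_snd.comp z hP))).div_const κ
  have he : ContDiff ℝ 1 eta := eta_contDiff (by norm_num)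
  have q2 : ContDiffAt ℝ 1 (fun z => eta ((fderiv ℝ Psi z e1).2.1 / κ)) z :=
    he.contDiffAt.comp z p2
  have q3 : ContDiffAt ℝ 1 (fun z => eta ((fderiv ℝ Psi z e1).2.2.1 / κ)) z :=
    he.contDiffAt.comp z p3
  have q1 : ContDiffAt ℝ 1 (fun z : P4 => hh z.2) z := hhs.contDiffAt.comp z contDiffAt_snd
  exact q1.mul (q2.mul (q3.mul (h.contDiffAt_gF hz e1 e1)))

lemma fderiv_Theta (h : PreHyp K G Psi V U C R cv cw cu t0 r f) {z : P4} (hz : z ∈ V)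
    {hh : P3 → ℝ} (hhs : ContDiff ℝ 1 hh) (κ : ℝ) {Z : P4} (hZ : fderiv ℝ Psi z Z = e1) :
    fderiv ℝ (Theta K Psi hh κ) z Z =
      fderiv ℝ hh z.2 Z.2 * (eta ((fderiv ℝ Psi z e1).2.1 / κ)
          * (eta ((fderiv ℝ Psi z e1).2.2.1 / κ) * K.gF (Psi z) (fderiv ℝ Psi z e1) e1))
      + hh z.2 * ((deriv eta ((fderiv ℝ Psi z e1).2.1 / κ) * ((Sd Psi z Z e1).2.1 / κ))
          * (eta ((fderiv ℝ Psi z e1).2.2.1 / κ) * K.gF (Psi z) (fderiv ℝ Psi z e1) e1))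
      + hh z.2 * (eta ((fderiv ℝ Psi z e1).2.1 / κ)
          * ((deriv eta ((fderiv ℝ Psi z e1).2.2.1 / κ) * ((Sd Psi z Z e1).2.2.1 / κ))
            * K.gF (Psi z) (fderiv ℝ Psi z e1) e1))
      + hh z.2 * (eta ((fderiv ℝ Psi z e1).2.1 / κ) * (eta ((fderiv ℝ Psi z e1).2.2.1 / κ)
          * (K.dgF (Psi z) e1 (fderiv ℝ Psi z e1) e1 + K.gF (Psi z) (Sd Psi z Z e1) e1))) := by
  have hl : HasDerivAt (fun τ : ℝ => z + τ • Z) Z 0 := by
    simpa using ((hasDerivAt_id (0:ℝ)).smul_const Z).const_add z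
  have hz0 : z + (0:ℝ) • Z = z := by simp
  have hT : HasDerivAt (fun τ : ℝ => Theta K Psi hh κ (z + τ • Z))
      (fderiv ℝ (Theta K Psi hh κ) z Z) 0 := by
    have h1 : HasFDerivAt (Theta K Psi hh κ) (fderiv ℝ (Theta K Psi hh κ) z) (z + (0:ℝ) • Z) := by
      rw [hz0]; exact ((h.contDiffAt_Theta hz hhs κ).differentiableAt (by norm_num)).hasFDerivAt
    exact h1.comp_hasDerivAt (0:ℝ) hl
  have hX : HasDerivAt (fun τ : ℝ => Psi (z + τ • Z)) (fderiv ℝ Psi z Z) 0 := by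
    have h1 : HasFDerivAt Psi (fderiv ℝ Psi z) (z + (0:ℝ) • Z) := by
      rw [hz0]; exact h.iso.hasFDerivAt hz
    exact h1.comp_hasDerivAt (0:ℝ) hl
  have hD : HasDerivAt (fun τ : ℝ => fderiv ℝ Psi (z + τ • Z)) (fderiv ℝ (fderiv ℝ Psi) z Z) 0 := by
    have h1 : HasFDerivAt (fderiv ℝ Psi) (fderiv ℝ (fderiv ℝ Psi) z) (z + (0:ℝ) • Z) := by
      rw [hz0]; exact h.iso.hasFDerivAt_fderiv hz
    exact h1.comp_hasDerivAt (0:ℝ) hl
  have hA : HasDerivAt (fun τ : ℝ => fderiv ℝ Psi (z + τ • Z) e1) (Sd Psi z Z e1) 0 := by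
    have := hD.clm_apply (hasDerivAt_const (0:ℝ) e1)
    simpa only [Sd, zero_smul, add_zero, map_zero] using this
  have hK0 : K.DiffAt (Psi (z + (0:ℝ) • Z)) := by rw [hz0]; exact h.iso.diffK z hz
  have hG := Coef.hasDerivAt_gF K (X := fun τ : ℝ => Psi (z + τ • Z))
    (A := fun τ : ℝ => fderiv ℝ Psi (z + τ • Z) e1) (B := fun _ : ℝ => e1)
    hK0 hX hA (hasDerivAt_const _ _)
  have hhd : HasDerivAt (fun τ : ℝ => hh (z + τ • Z).2) (fderiv ℝ hh z.2 Z.2) 0 := by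
    have h1 : HasFDerivAt hh (fderiv ℝ hh z.2) (z + (0:ℝ) • Z).2 := by
      rw [hz0]; exact (hhs.differentiable (by norm_num) z.2).hasFDerivAt
    exact h1.comp_hasDerivAt (0:ℝ) hl.snd
  have hb : HasDerivAt (fun τ : ℝ => (fderiv ℝ Psi (z + τ • Z) e1).2.1 / κ)
      ((Sd Psi z Z e1).2.1 / κ) 0 := (HasDerivAt.div_const hA.snd.fst κ)
  have ha : HasDerivAt (fun τ : ℝ => (fderiv ℝ Psi (z + τ • Z) e1).2.2.1 / κ)
      ((Sd Psi z Z e1).2.2.1 / κ) 0 := (HasDerivAt.div_const hA.snd.snd.fst κ)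
  have heb : HasDerivAt (fun τ : ℝ => eta ((fderiv ℝ Psi (z + τ • Z) e1).2.1 / κ))
      (deriv eta ((fderiv ℝ Psi z e1).2.1 / κ) * ((Sd Psi z Z e1).2.1 / κ)) 0 := by
    have := (eta_diff ((fderiv ℝ Psi (z + (0:ℝ) • Z) e1).2.1 / κ)).comp (0:ℝ) hb
    simpa only [Function.comp_def, zero_smul, add_zero] using this
  have hea : HasDerivAt (fun τ : ℝ => eta ((fderiv ℝ Psi (z + τ • Z) e1).2.2.1 / κ))
      (deriv eta ((fderiv ℝ Psi z e1).2.2.1 / κ) * ((Sd Psi z Z e1).2.2.1 / κ)) 0 := by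
    have := (eta_diff ((fderiv ℝ Psi (z + (0:ℝ) • Z) e1).2.2.1 / κ)).comp (0:ℝ) ha
    simpa only [Function.comp_def, zero_smul, add_zero] using this
  have hR := hhd.mul (heb.mul (hea.mul hG))
  have := hT.unique hR
  rw [this]
  have hgF0 : K.gF (Psi z) (fderiv ℝ Psi z e1) 0 = 0 := by
    simp only [Coef.gF, Prod.snd_zero, Prod.fst_zero, mul_zero, add_zero, Coef.h1, sub_self, Coef.h2]
  simp only [hz0, hZ, hgF0, add_zero, Pi.mul_apply]
  ring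

end PreHyp

end Vale.Agent.P354w
end
end

section

section

set_option maxSynthPendingDepth 3

open Set MeasureTheory

namespace Vale.Agent.P354w

lemma pe_y {C a b x1 x2 : ℝ} (hx : x1 ^ 2 + x2 ^ 2 ≤ 2 * C ^ 2 * (a * b)) :
    (|x1| + |x2|) ^ 2 ≤ 4 * C ^ 2 * (a * b) := by
  have h1 : |x1| ^ 2 = x1 ^ 2 := sq_abs x1
  have h2 : |x2| ^ 2 = x2 ^ 2 := sq_abs x2
  linarith only [hx, h1, h2, sq_nonneg (|x1| - |x2|)]

lemma pe_bounds {C κ a b y X Zn : ℝ} (hC : 1 ≤ C) (hκ : 1 ≤ κ)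
    (ha : 0 < a) (hbp : 0 < b) (ha2 : a ≤ 2 * κ) (hb2 : b ≤ 2 * κ)
    (hy0 : 0 ≤ y) (hy2 : y ^ 2 ≤ 4 * C ^ 2 * (a * b))
    (hX : |X| ≤ C * y) (hZ0 : 0 ≤ Zn) (hZ : Zn ^ 2 ≤ C ^ 2 + C * X ^ 2) :
    1 ≤ 9 * C ^ 3 * κ ∧ a ≤ 9 * C ^ 3 * κ ∧ b ≤ 9 * C ^ 3 * κ ∧ |X| ≤ 9 * C ^ 3 * κ ∧
      Zn ≤ 9 * C ^ 3 * κ := by
  have hC0 : 0 < C := by linarith only [hC]
  have hκ0 : 0 < κ := by linarith only [hκ]
  have hC3 : 1 ≤ C ^ 3 := one_le_pow₀ hC
  have hC32 : C ^ 2 ≤ C ^ 3 := pow_le_pow_right₀ hC (by norm_num)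
  have hCκ : κ ≤ C ^ 3 * κ := le_mul_of_one_le_left hκ0.le hC3
  have hab : a * b ≤ 4 * κ ^ 2 := by
    have := mul_le_mul ha2 hb2 hbp.le (by linarith only [hκ])
    linarith only [this]
  have hyM : y ≤ 4 * C * κ := by
    apply abs_le_of_sq_le_sq' _ (by positivity) |>.2
    calc y ^ 2 ≤ 4 * C ^ 2 * (a * b) := hy2
      _ ≤ 4 * C ^ 2 * (4 * κ ^ 2) := by (clear * - hab hC; gcongr)
      _ = (4 * C * κ) ^ 2 := by ring
  have hXM' : |X| ≤ 4 * C ^ 2 * κ := by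
    calc |X| ≤ C * y := hX
      _ ≤ C * (4 * C * κ) := by (clear * - hyM hC; gcongr)
      _ = _ := by ring
  refine ⟨by linarith only [hκ, hCκ], by linarith only [hκ, ha2, hCκ], by linarith only [hκ, hb2, hCκ], ?_, ?_⟩
  · refine hXM'.trans ?_
    calc 4 * C ^ 2 * κ ≤ 9 * C ^ 3 * κ := by
          gcongr
          norm_num
      _ = _ := rfl
  · apply abs_le_of_sq_le_sq' _ (by positivity) |>.2
    have hX2 : X ^ 2 ≤ (4 * C ^ 2 * κ) ^ 2 := by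
      rw [← sq_abs X]; exact pow_le_pow_left₀ (abs_nonneg X) hXM' 2
    calc Zn ^ 2 ≤ C ^ 2 + C * X ^ 2 := hZ
      _ ≤ C ^ 2 + C * (4 * C ^ 2 * κ) ^ 2 := by (clear * - hX2 hC; gcongr)
      _ = C ^ 2 * 1 + 16 * C ^ 5 * κ ^ 2 := by ring
      _ ≤ C ^ 6 * κ ^ 2 + 16 * C ^ 6 * κ ^ 2 := by
        have e1 : C ^ 2 ≤ C ^ 6 := pow_le_pow_right₀ hC (by norm_num)
        have e2 : C ^ 5 ≤ C ^ 6 := pow_le_pow_right₀ hC (by norm_num)
        have e3 : 1 ≤ κ ^ 2 := one_le_pow₀ hκ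
        (clear * - e1 e3 hC e2 hκ; gcongr)
      _ = 17 * (C ^ 6 * κ ^ 2) := by ring
      _ ≤ 81 * (C ^ 6 * κ ^ 2) := by
        gcongr
        norm_num
      _ = (9 * C ^ 3 * κ) ^ 2 := by ring

lemma abs_div_le {q κ : ℝ} (hκ : 1 ≤ κ) : |q / κ| ≤ |q| := by
  rw [abs_div, abs_of_pos (by linarith : 0 < κ)]
  exact div_le_self (abs_nonneg q) hκ

lemma pe_T1 {M hb H' eb ea X Zn cu L : ℝ} (hcu : 0 ≤ cu) (hL : 0 ≤ L) (hM : 1 ≤ M)
    (hXM : |X| ≤ M) (hZM : Zn ≤ M) (hhb : 0 ≤ hb) (hH' : |H'| ≤ hb * Zn)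
    (heb : |eb| ≤ 1) (hea : |ea| ≤ 1) :
    |H' * (eb * (ea * X))| ≤ hb * M ^ 2 * (1 + cu + L) := by
  have h1 : |H'| ≤ hb * M := hH'.trans (by (clear * - hZM hhb; gcongr))
  have h2 := aux_mul2 h1 (aux_mul2 heb (aux_mul2 hea hXM))
  refine h2.trans ?_
  calc hb * M * (1 * (1 * M)) = hb * M ^ 2 * 1 := by ring
    _ ≤ _ := by gcongr; linarith only [hcu, hL]

lemma pe_T2 {C B κ M H db Sv eb ea X Zn cu L a b : ℝ} (hC : 1 ≤ C) (hB : 1 ≤ B) (hκ : 1 ≤ κ)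
    (hcu : 0 ≤ cu) (hL : 0 ≤ L) (hM : 1 ≤ M) (ha : 0 < a) (hb : 0 < b) (haM : a ≤ M) (hbM : b ≤ M)
    (hXM : |X| ≤ M) (hZM : Zn ≤ M) (hZ0 : 0 ≤ Zn) (hH : |H| ≤ 1)
    (hdb : |db| ≤ B) (hea : |ea| ≤ 1)
    (hSv : |Sv| ≤ 10 * C ^ 4 * (L * Zn * b + cu * (a + b) + (a + b))) :
    |H * ((db * (Sv / κ)) * (ea * X))| ≤ 20 * C ^ 4 * B * M ^ 3 * (1 + cu + L) := by
  have hC0 : 0 < C := by linarith only [hC]
  have hC34 : C ^ 3 ≤ C ^ 4 := pow_le_pow_right₀ hC (by norm_num)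
  have hM12 : M ≤ M ^ 2 := le_self_pow₀ hM (by norm_num)
  have hSvM : |Sv| ≤ 20 * C ^ 4 * M ^ 2 * (1 + cu + L) := by
    refine hSv.trans ?_
    have e1 : L * Zn * b ≤ L * M ^ 2 := by
      calc L * Zn * b = L * (Zn * b) := by ring
        _ ≤ L * (M * M) := by (clear * - hZM hbM hb hM hL; gcongr)
        _ = _ := by ring
    have e2 : cu * (a + b) ≤ cu * (2 * M ^ 2) := by
      apply mul_le_mul_of_nonneg_left _ hcu; linarith only [haM, hbM, hM12]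
    have e4 : L * Zn * b + cu * (a + b) + (a + b) ≤ 2 * M ^ 2 * (1 + cu + L) := by
      have : 0 ≤ M ^ 2 * L := by (clear * - hM hL; positivity)
      linarith only [haM, hbM, hM12, e1, e2, this]
    calc 10 * C ^ 4 * (L * Zn * b + cu * (a + b) + (a + b))
        ≤ 10 * C ^ 4 * (2 * M ^ 2 * (1 + cu + L)) := by (clear * - e4 hC; gcongr)
      _ = _ := by ring
  have h2 := aux_mul2 hH (aux_mul2 (aux_mul2 hdb ((abs_div_le hκ).trans hSvM))
      (aux_mul2 hea hXM))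
  refine h2.trans ?_
  have hS : 0 ≤ 1 + cu + L := by linarith only [hcu, hL]
  calc 1 * (B * (20 * C ^ 4 * M ^ 2 * (1 + cu + L)) * (1 * M))
      = 20 * C ^ 4 * B * M ^ 3 * (1 + cu + L) := by ring
    _ ≤ _ := le_refl _

lemma pe_T4 {C B M H eb ea XZ gv Zn cu L a b : ℝ} (hC : 1 ≤ C) (hB : 1 ≤ B)
    (hcu : 0 ≤ cu) (hL : 0 ≤ L) (hM : 1 ≤ M) (ha : 0 < a) (hb : 0 < b) (haM : a ≤ M) (hbM : b ≤ M)
    (hZM : Zn ≤ M) (hZ0 : 0 ≤ Zn) (hH : |H| ≤ 1)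
    (heb : |eb| ≤ 1) (hea : |ea| ≤ 1)
    (hXZ : |XZ + (1/2) * b * gv| ≤ 10 * C ^ 2 * (L * Zn ^ 2 + cu * a + a + b)) :
    |H * (eb * (ea * XZ)) + (1/2) * b * gv * (H * (eb * ea))|
      ≤ 20 * C ^ 4 * B * M ^ 3 * (1 + cu + L) := by
  have hC0 : 0 < C := by linarith only [hC]
  have hC24 : C ^ 2 ≤ C ^ 4 := pow_le_pow_right₀ hC (by norm_num)
  have hM12 : M ≤ M ^ 2 := le_self_pow₀ hM (by norm_num)
  have hM23 : M ^ 2 ≤ M ^ 3 := pow_le_pow_right₀ hM (by norm_num)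
  have e : H * (eb * (ea * XZ)) + (1/2) * b * gv * (H * (eb * ea))
      = H * (eb * (ea * (XZ + (1/2) * b * gv))) := by ring
  rw [e]
  have h2 := aux_mul2 hH (aux_mul2 heb (aux_mul2 hea hXZ))
  refine h2.trans ?_
  have e1 : L * Zn ^ 2 ≤ L * M ^ 2 := by (clear * - hZ0 hZM hL; gcongr)
  have e2 : cu * a ≤ cu * M ^ 2 := by
    apply mul_le_mul_of_nonneg_left _ hcu; linarith only [haM, hM12]
  have e4 : L * Zn ^ 2 + cu * a + a + b ≤ 2 * M ^ 2 * (1 + cu + L) := by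
    have : 0 ≤ M ^ 2 * L := by positivity
    have : 0 ≤ M ^ 2 * cu := by positivity
    (clear C B H eb ea XZ gv hC hB ha hb hH heb hea hXZ hC0 hC24 hM23 e h2; linarith)
  have hS : 0 ≤ 1 + cu + L := by linarith only [hcu, hL]
  calc 1 * (1 * (1 * (10 * C ^ 2 * (L * Zn ^ 2 + cu * a + a + b))))
      = 10 * C ^ 2 * (L * Zn ^ 2 + cu * a + a + b) := by ring
    _ ≤ 10 * C ^ 2 * (2 * M ^ 2 * (1 + cu + L)) := by (clear * - e4 hC; gcongr)
    _ = 20 * C ^ 2 * 1 * M ^ 2 * (1 + cu + L) := by ring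
    _ ≤ 20 * C ^ 4 * B * M ^ 3 * (1 + cu + L) := by (clear * - hC24 hB hC hM23 hM hcu hL; gcongr)

lemma pe_T3 {C B κ M H da Su eb X Zn cv cu L a b y : ℝ} (hC : 1 ≤ C) (hB : 1 ≤ B) (hκ : 1 ≤ κ)
    (hcv : 0 ≤ cv) (hcu : 0 ≤ cu) (hL : 0 ≤ L) (hM : 1 ≤ M) (ha : 0 < a) (hb : 0 < b)
    (haM : a ≤ M) (hbM : b ≤ M) (ha2 : a ≤ 2 * κ)
    (hXM : |X| ≤ M) (hZM : Zn ≤ M) (hZ0 : 0 ≤ Zn) (hH0 : 0 ≤ H) (hH1 : H ≤ 1)
    (heb0 : 0 ≤ eb) (heb1 : eb ≤ 1)
    (hy0 : 0 ≤ y) (hy2 : y ^ 2 ≤ 4 * C ^ 2 * (a * b)) (hX : |X| ≤ C * y)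
    (hda : |da| ≤ B) (hda0 : a < κ → da = 0)
    (hSu : |Su| ≤ 40 * C ^ 4 * (L * Zn * a + a + b) + C * (cv * y)) :
    |H * (eb * ((da * (Su / κ)) * X))| ≤ 400 * C ^ 4 * B * M ^ 3 * (1 + cu + L)
      + 8 * C ^ 4 * B * (cv * b * (H * eb) * (if κ ≤ a then 1 else 0)) := by
  have hC0 : 0 < C := by linarith only [hC]
  have hκ0 : 0 < κ := by linarith only [hκ]
  have hM12 : M ≤ M ^ 2 := le_self_pow₀ hM (by norm_num)
  have hS : 0 ≤ 1 + cu + L := by linarith only [hcu, hL]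
  by_cases hka : κ ≤ a
  · rw [if_pos hka]
    have h1 : |Su| ≤ 80 * C ^ 4 * M ^ 2 * (1 + cu + L) + C * (cv * y) := by
      refine hSu.trans ?_
      have e1 : L * Zn * a ≤ L * M ^ 2 := by
        calc L * Zn * a = L * (Zn * a) := by ring
          _ ≤ L * (M * M) := by (clear * - hZM haM ha hM hL; gcongr)
          _ = _ := by ring
      have e4 : L * Zn * a + a + b ≤ 2 * M ^ 2 * (1 + cu + L) := by
        have : 0 ≤ M ^ 2 * L := by (clear * - hM hL; positivity)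
        have : 0 ≤ M ^ 2 * cu := by positivity
        (clear C B κ H da Su eb X cv y hC hB hκ hcv hb ha2 hXM hZ0 hH0 hH1 heb0 heb1 hy0 hy2 hX hda hda0 hSu hC0 hκ0 hS hka; linarith)
      have : 40 * C ^ 4 * (L * Zn * a + a + b) ≤ 80 * C ^ 4 * M ^ 2 * (1 + cu + L) := by
        calc 40 * C ^ 4 * (L * Zn * a + a + b) ≤ 40 * C ^ 4 * (2 * M ^ 2 * (1 + cu + L)) := by
              (clear * - e4 hC; gcongr)
          _ = _ := by ring
      linarith only [this]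
    have e0 : |H * (eb * ((da * (Su / κ)) * X))| = H * eb * (|da| * (|Su| / κ) * |X|) := by
      rw [abs_mul, abs_mul, abs_mul, abs_mul, abs_div, abs_of_nonneg hH0, abs_of_nonneg heb0,
        abs_of_pos hκ0]
      ring
    rw [e0]
    have hHeb : H * eb ≤ 1 := by
      calc H * eb ≤ 1 * 1 := by (clear * - hH1 heb1 heb0; gcongr)
        _ = 1 := by ring
    have hHeb0 : 0 ≤ H * eb := by (clear * - hH0 heb0; positivity)
    have hd0 := abs_nonneg da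
    have s1 : |Su| / κ ≤ 80 * C ^ 4 * M ^ 2 * (1 + cu + L) + C * (cv * y) / κ := by
      calc |Su| / κ ≤ (80 * C ^ 4 * M ^ 2 * (1 + cu + L) + C * (cv * y)) / κ := by (clear * - h1 hκ; gcongr)
        _ = 80 * C ^ 4 * M ^ 2 * (1 + cu + L) / κ + C * (cv * y) / κ := by ring
        _ ≤ _ := by
          gcongr
          exact div_le_self (by (clear * - hC hM hcu hL; positivity)) hκ
    have e5 : |da| * (|Su| / κ) * |X| ≤ B * (80 * C ^ 4 * M ^ 2 * (1 + cu + L)) * M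
        + B * (C * (cv * y) / κ) * (C * y) := by
      calc |da| * (|Su| / κ) * |X|
          ≤ B * (80 * C ^ 4 * M ^ 2 * (1 + cu + L) + C * (cv * y) / κ) * |X| := by (clear * - hda s1 hκ hB; gcongr)
        _ = B * (80 * C ^ 4 * M ^ 2 * (1 + cu + L)) * |X| + B * (C * (cv * y) / κ) * |X| := by
          ring
        _ ≤ _ := by (clear * - hXM hB hC hM hcu hL hX hcv hy0 hκ; gcongr)
    have e6 : B * (C * (cv * y) / κ) * (C * y) ≤ 8 * C ^ 4 * B * (cv * b) := by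
      calc B * (C * (cv * y) / κ) * (C * y) = B * C ^ 2 * cv * (y ^ 2 / κ) := by ring
        _ ≤ B * C ^ 2 * cv * (4 * C ^ 2 * (a * b) / κ) := by (clear * - hy2 hκ hB hC hcv; gcongr)
        _ = B * C ^ 4 * cv * b * (4 * (a / κ)) := by ring
        _ ≤ B * C ^ 4 * cv * b * (4 * 2) := by
          gcongr
          rw [div_le_iff₀ hκ0]; linarith only [ha2]
        _ = _ := by ring
    have e7 : |da| * (|Su| / κ) * |X| ≤ B * (80 * C ^ 4 * M ^ 2 * (1 + cu + L)) * M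
        + 8 * C ^ 4 * B * (cv * b) := by linarith only [e6, e5]
    calc H * eb * (|da| * (|Su| / κ) * |X|)
        ≤ H * eb * (B * (80 * C ^ 4 * M ^ 2 * (1 + cu + L)) * M + 8 * C ^ 4 * B * (cv * b)) := by
          (clear * - e7 hH0 heb0; gcongr)
      _ = H * eb * (80 * C ^ 4 * B * M ^ 3 * (1 + cu + L))
          + 8 * C ^ 4 * B * (cv * b * (H * eb) * 1) := by ring
      _ ≤ 1 * (400 * C ^ 4 * B * M ^ 3 * (1 + cu + L))
          + 8 * C ^ 4 * B * (cv * b * (H * eb) * 1) := by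
          gcongr
          norm_num
      _ = _ := by ring
  · push Not at hka
    rw [hda0 hka]
    simp only [zero_mul, mul_zero, abs_zero]
    (clear * - hC hB hM hcu hL hcv hb hH0 heb0; positivity)

/-- Real-number part of the pointwise estimate. -/
lemma pe_alg {C B κ cv cu L a b x1 x2 X Zn hb H' H eb ea db da Sv Su XZ gv : ℝ}
    (hC : 1 ≤ C) (hB : 1 ≤ B) (hκ : 1 ≤ κ) (hcv : 0 ≤ cv) (hcu : 0 ≤ cu) (hL : 0 ≤ L)
    (ha : 0 < a) (hbp : 0 < b) (ha2 : a ≤ 2 * κ) (hb2 : b ≤ 2 * κ)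
    (hx : x1 ^ 2 + x2 ^ 2 ≤ 2 * C ^ 2 * (a * b))
    (hX : |X| ≤ C * (|x1| + |x2|)) (hZ0 : 0 ≤ Zn) (hZ : Zn ^ 2 ≤ C ^ 2 + C * X ^ 2)
    (hhb : 0 ≤ hb) (hH' : |H'| ≤ hb * Zn) (hH0 : 0 ≤ H) (hH1 : H ≤ 1)
    (heb0 : 0 ≤ eb) (heb1 : eb ≤ 1) (hea0 : 0 ≤ ea) (hea1 : ea ≤ 1)
    (hdb : |db| ≤ B) (hda : |da| ≤ B) (hda0 : a < κ → da = 0)
    (hSv : |Sv| ≤ 10 * C ^ 4 * (L * Zn * b + cu * (a + b) + (a + b)))
    (hSu : |Su| ≤ 40 * C ^ 4 * (L * Zn * a + a + b) + C * (cv * (|x1| + |x2|)))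
    (hXZ : |XZ + (1/2) * b * gv| ≤ 10 * C ^ 2 * (L * Zn ^ 2 + cu * a + a + b)) :
    |(H' * (eb * (ea * X)) + H * ((db * (Sv / κ)) * (ea * X)) + H * (eb * ((da * (Su / κ)) * X))
      + H * (eb * (ea * XZ))) + (1/2) * b * gv * (H * (eb * ea))|
    ≤ 8 * C ^ 4 * B * (cv * b * (H * eb) * (if κ ≤ a then 1 else 0))
      + (hb * (9 * C ^ 3 * κ) ^ 2 + 500 * C ^ 4 * B * (9 * C ^ 3 * κ) ^ 3) * (1 + cu + L) := by
  have hy2 := pe_y hx
  have hy0 : 0 ≤ |x1| + |x2| := by (clear * -; positivity)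
  obtain ⟨hM, haM, hbM, hXM, hZM⟩ := pe_bounds hC hκ ha hbp ha2 hb2 hy0 hy2 hX hZ0 hZ
  have habsH : |H| ≤ 1 := by rw [abs_of_nonneg hH0]; exact hH1
  have habseb : |eb| ≤ 1 := by rw [abs_of_nonneg heb0]; exact heb1
  have habsea : |ea| ≤ 1 := by rw [abs_of_nonneg hea0]; exact hea1
  have T1 := pe_T1 hcu hL hM hXM hZM hhb hH' habseb habsea
  have T2 := pe_T2 (db := db) hC hB hκ hcu hL hM ha hbp haM hbM hXM hZM hZ0 habsH hdb habsea hSv
    (eb := eb)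
  have T3 := pe_T3 hC hB hκ hcv hcu hL hM ha hbp haM hbM ha2 hXM hZM hZ0 hH0 hH1 heb0 heb1 hy0
    hy2 hX hda hda0 hSu
  have T4 := pe_T4 hC hB hcu hL hM ha hbp haM hbM hZM hZ0 habsH habseb habsea hXZ
  have e : (H' * (eb * (ea * X)) + H * ((db * (Sv / κ)) * (ea * X))
      + H * (eb * ((da * (Su / κ)) * X)) + H * (eb * (ea * XZ))) + (1/2) * b * gv * (H * (eb * ea))
      = H' * (eb * (ea * X)) + H * ((db * (Sv / κ)) * (ea * X))
        + H * (eb * ((da * (Su / κ)) * X))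
        + (H * (eb * (ea * XZ)) + (1/2) * b * gv * (H * (eb * ea))) := by ring
  rw [e]
  have hfin := (abs_add_le (H' * (eb * (ea * X)) + H * ((db * (Sv / κ)) * (ea * X))
        + H * (eb * ((da * (Su / κ)) * X)))
        (H * (eb * (ea * XZ)) + (1/2) * b * gv * (H * (eb * ea))))
  have hfin2 := abs_add_le (H' * (eb * (ea * X)) + H * ((db * (Sv / κ)) * (ea * X)))
    (H * (eb * ((da * (Su / κ)) * X)))
  have hfin3 := abs_add_le (H' * (eb * (ea * X))) (H * ((db * (Sv / κ)) * (ea * X)))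
  have hC0 : 0 < C := by linarith only [hC]
  have hB0 : 0 < B := by linarith only [hB]
  have hκ0 : 0 < κ := by linarith only [hκ]
  have hq : 0 ≤ C ^ 4 * B * (9 * C ^ 3 * κ) ^ 3 * (1 + cu + L) := by (clear * - hC hB hκ hcu hL; positivity)
  generalize 9 * C ^ 3 * κ = M at *
  have eR : (hb * M ^ 2 + 500 * C ^ 4 * B * M ^ 3) * (1 + cu + L)
     = hb * M ^ 2 * (1 + cu + L) + 500 * (C ^ 4 * B * M ^ 3 * (1 + cu + L)) := by ring
  rw [eR]
  have T2' : |H * ((db * (Sv / κ)) * (ea * X))| ≤ 20 * (C ^ 4 * B * M ^ 3 * (1 + cu + L)) := by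
    refine T2.trans (le_of_eq (by ring))
  have T3' : |H * (eb * ((da * (Su / κ)) * X))| ≤ 400 * (C ^ 4 * B * M ^ 3 * (1 + cu + L))
      + 8 * C ^ 4 * B * (cv * b * (H * eb) * (if κ ≤ a then 1 else 0)) := by
    refine T3.trans (le_of_eq (by ring))
  have T4' : |H * (eb * (ea * XZ)) + (1/2) * b * gv * (H * (eb * ea))|
      ≤ 20 * (C ^ 4 * B * M ^ 3 * (1 + cu + L)) := by
    refine T4.trans (le_of_eq (by ring))
  clear T2 T3 T4 eR e
  generalize C ^ 4 * B * M ^ 3 * (1 + cu + L) = Q at *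
  linarith only [hfin, hfin2, hfin3, T1, hq, T2', T3', T4']

end Vale.Agent.P354w
end
end

section

section

set_option maxSynthPendingDepth 3

open Set MeasureTheory Filter

namespace Vale.Agent.P354w

namespace PreHyp

variable {K : Coef} {G : P4 → P4 →L[ℝ] P4 →L[ℝ] ℝ} {Psi : P4 → P4} {V U : Set P4}
    {C R : ℝ} {cv cw cu : ℝ → ℝ} {t0 r : ℝ} {f : P3 → ℝ}

lemma strict (h : PreHyp K G Psi V U C R cv cw cu t0 r f) {z : P4} (hz : z ∈ V) :
    HasStrictFDerivAt Psi (h.Aeq hz : P4 →L[ℝ] P4) z := by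
  rw [h.Aeq_coe hz]
  exact (h.iso.contDiffAt hz).hasStrictFDerivAt (by norm_num)

lemma map_nhds (h : PreHyp K G Psi V U C R cv cw cu t0 r f) {z : P4} (hz : z ∈ V) :
    Filter.map Psi (nhds z) = nhds (Psi z) :=
  (h.strict hz).map_nhds_eq_of_equiv

lemma isOpen_image (h : PreHyp K G Psi V U C R cv cw cu t0 r f) {W : Set P4} (hW : IsOpen W)
    (hWV : W ⊆ V) : IsOpen (Psi '' W) := by
  rw [isOpen_iff_mem_nhds]
  rintro y ⟨z, hz, rfl⟩
  rw [← h.map_nhds (hWV hz)]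
  exact image_mem_map (hW.mem_nhds hz)

/-- the inverse of `Psi` -/
noncomputable def Phi (Psi : P4 → P4) (V : Set P4) : P4 → P4 := Function.invFunOn Psi V

lemma Phi_left (h : PreHyp K G Psi V U C R cv cw cu t0 r f) {z : P4} (hz : z ∈ V) :
    Phi Psi V (Psi z) = z := h.inj.leftInvOn_invFunOn hz

lemma Phi_eventuallyEq (h : PreHyp K G Psi V U C R cv cw cu t0 r f) {z : P4} (hz : z ∈ V) :
    Phi Psi V =ᶠ[nhds (Psi z)] HasStrictFDerivAt.localInverse Psi (h.Aeq hz) z (h.strict hz) := by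
  have h1 := (h.strict hz).eventually_right_inverse
  have h2 := (h.strict hz).localInverse_continuousAt
  have h3 : V ∈ nhds (HasStrictFDerivAt.localInverse Psi (h.Aeq hz) z (h.strict hz) (Psi z)) := by
    rw [(h.strict hz).localInverse_apply_image]
    exact h.iso.isOpen.mem_nhds hz
  filter_upwards [h1, h2 h3] with y hy1 hy2
  rw [← h.Phi_left hy2, hy1]

lemma hasFDerivAt_Phi (h : PreHyp K G Psi V U C R cv cw cu t0 r f) {z : P4} (hz : z ∈ V) :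
    HasFDerivAt (Phi Psi V) ((h.Aeq hz).symm : P4 →L[ℝ] P4) (Psi z) :=
  ((h.strict hz).to_localInverse.hasFDerivAt).congr_of_eventuallyEq (h.Phi_eventuallyEq hz)

lemma contDiffAt_Phi (h : PreHyp K G Psi V U C R cv cw cu t0 r f) {z : P4} (hz : z ∈ V) :
    ContDiffAt ℝ 1 (Phi Psi V) (Psi z) := by
  have h1 : ContDiffAt ℝ 1 Psi z := (h.iso.contDiffAt hz).of_le (by norm_num)
  have h2 : HasFDerivAt Psi (h.Aeq hz : P4 →L[ℝ] P4) z := (h.strict hz).hasFDerivAt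
  have h3 := h1.to_localInverse h2 (by norm_num)
  exact h3.congr_of_eventuallyEq (h.Phi_eventuallyEq hz)

/-- the vector field `DPhi e1` seen on the exotic side -/
noncomputable def Zf (Psi : P4 → P4) (V : Set P4) (z : P4) : P4 :=
  fderiv ℝ (Phi Psi V) (Psi z) e1

lemma Zf_spec (h : PreHyp K G Psi V U C R cv cw cu t0 r f) {z : P4} (hz : z ∈ V) :
    fderiv ℝ Psi z (Zf Psi V z) = e1 := by
  rw [Zf, (h.hasFDerivAt_Phi hz).fderiv, ← h.Aeq_apply hz]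
  simp

lemma DD_sub (h : PreHyp K G Psi V U C R cv cw cu t0 r f) : DD t0 r f ⊆ V := by
  rintro ⟨t, x⟩ ⟨h1, h2, h3⟩
  exact h.memV x h1 t ⟨h2.le, h3⟩

end PreHyp

namespace CoreHyp

open PreHyp

variable {K : Coef} {G : P4 → P4 →L[ℝ] P4 →L[ℝ] ℝ} {Psi : P4 → P4} {V U : Set P4}
    {C R : ℝ} {cv cw cu : ℝ → ℝ} {t0 r : ℝ} {f : P3 → ℝ}

/-- the test function transplanted to the standard side -/
noncomputable def That (K : Coef) (Psi : P4 → P4) (V : Set P4) (t0 r : ℝ) (f : P3 → ℝ)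
    (hh : P3 → ℝ) (κ : ℝ) : P4 → ℝ :=
  (Psi '' DD t0 r f).indicator (fun y => Theta K Psi hh κ (Phi Psi V y))

/-- the compact set carrying the support -/
def KK (Psi : P4 → P4) (t0 r' : ℝ) (f : P3 → ℝ) (v2 : ℝ) : Set P4 :=
  {z : P4 | ‖z.2‖ ≤ r' ∧ t0 ≤ z.1 ∧ z.1 < f z.2 ∧ (Psi z).2.1 ≤ v2}

lemma KK_sub (h : CoreHyp K G Psi V U C R cv cw cu t0 r f) {r' v2 : ℝ} (hr' : r' < r) :
    KK Psi t0 r' f v2 ⊆ V := by
  rintro ⟨t, x⟩ ⟨h1, h2, h3, _⟩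
  have hx : x ∈ Metric.ball (0 : P3) r := by
    rw [mem_ball_zero_iff]; exact lt_of_le_of_lt h1 hr'
  exact h.memV x hx t ⟨h2, h3⟩

lemma isCompact_image_KK (h : CoreHyp K G Psi V U C R cv cw cu t0 r f) {r' v2 : ℝ} (hr' : r' < r)
    (hv2 : v2 < 0) : IsCompact (Psi '' KK Psi t0 r' f v2) :=
  (h.cpt r' hr' v2 hv2).image_of_continuousOn
    (h.iso.smooth.continuousOn.mono (h.KK_sub hr'))

lemma That_eq (h : CoreHyp K G Psi V U C R cv cw cu t0 r f) {hh : P3 → ℝ} {κ : ℝ} {z : P4}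
    (hz : z ∈ DD t0 r f) : That K Psi V t0 r f hh κ (Psi z) = Theta K Psi hh κ z := by
  rw [That, indicator_of_mem (mem_image_of_mem _ hz), h.Phi_left (h.DD_sub hz)]

lemma That_zero_of (h : CoreHyp K G Psi V U C R cv cw cu t0 r f) {hh : P3 → ℝ} {κ : ℝ} {r' v2 : ℝ}
    (hhr : ∀ x, r' < ‖x‖ → hh x = 0) {y : P4} (hy : y ∉ Psi '' KK Psi t0 r' f v2)
    (hyv : y.2.1 ≤ v2) : That K Psi V t0 r f hh κ y = 0 := by
  by_cases hD : y ∈ Psi '' DD t0 r f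
  · obtain ⟨z, hz, rfl⟩ := hD
    rw [h.That_eq hz, Theta]
    have : r' < ‖z.2‖ := by
      by_contra hle
      push Not at hle
      exact hy ⟨z, ⟨hle, hz.2.1.le, hz.2.2, hyv⟩, rfl⟩
    rw [hhr _ this, zero_mul]
  · rw [That, indicator_of_notMem hD]

/-- on the slab `vlo < v < v2`, the transplanted test function is `C^1` -/
lemma contDiffAt_That (h : CoreHyp K G Psi V U C R cv cw cu t0 r f) {hh : P3 → ℝ}
    (hhs : ContDiff ℝ 1 hh) {κ : ℝ} {r' v2 vlo : ℝ} (hr' : r' < r) (hv2 : v2 < 0)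
    (hhr : ∀ x, r' < ‖x‖ → hh x = 0)
    (hvlo : ∀ x : P3, ‖x‖ ≤ r' → (Psi (t0, x)).2.1 ≤ vlo) {y : P4} (h1 : vlo < y.2.1)
    (h2 : y.2.1 < v2) : ContDiffAt ℝ 1 (That K Psi V t0 r f hh κ) y := by
  by_cases hy : y ∈ Psi '' DD t0 r f
  · obtain ⟨z, hz, rfl⟩ := hy
    have hzV := h.DD_sub hz
    have hc : ContDiffAt ℝ 1 (fun y => Theta K Psi hh κ (Phi Psi V y)) (Psi z) := by
      have e : Phi Psi V (Psi z) = z := h.Phi_left hzV
      have := h.contDiffAt_Theta hzV hhs κ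
      rw [← e] at this
      exact this.comp (Psi z) (h.contDiffAt_Phi hzV)
    apply hc.congr_of_eventuallyEq
    filter_upwards [(h.isOpen_image h.openD h.DD_sub).mem_nhds (mem_image_of_mem Psi hz)]
      with y hy
    rw [That, indicator_of_mem hy]
  · have hyK : y ∉ Psi '' KK Psi t0 r' f v2 := by
      rintro ⟨z, ⟨k1, k2, k3, k4⟩, rfl⟩
      apply hy
      refine ⟨z, ⟨?_, ?_, k3⟩, rfl⟩
      · rw [mem_ball_zero_iff]; exact lt_of_le_of_lt k1 hr'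
      · rcases lt_or_eq_of_le k2 with hlt | heq
        · exact hlt
        · exfalso
          have := hvlo z.2 k1
          rw [heq] at this
          have h3 : (Psi z).2.1 ≤ vlo := this
          linarith only [h1, this]
    have hev : That K Psi V t0 r f hh κ =ᶠ[nhds y] fun _ => (0:ℝ) := by
      have o1 : IsOpen (Psi '' KK Psi t0 r' f v2)ᶜ := (h.isCompact_image_KK hr' hv2).isClosed.isOpen_compl
      have o2 : IsOpen {y : P4 | y.2.1 < v2} :=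
        isOpen_lt (continuous_fst.comp continuous_snd) continuous_const
      filter_upwards [o1.mem_nhds hyK, o2.mem_nhds h2] with y' k1 k2
      exact h.That_zero_of hhr k1 (le_of_lt k2)
    exact contDiffAt_const.congr_of_eventuallyEq hev

/-- outside the image of `KK` the derivative vanishes -/
lemma fderiv_That_zero (h : CoreHyp K G Psi V U C R cv cw cu t0 r f) {hh : P3 → ℝ}
    {κ : ℝ} {r' v2 : ℝ} (hr' : r' < r) (hv2 : v2 < 0)
    (hhr : ∀ x, r' < ‖x‖ → hh x = 0) {y : P4} (hy : y ∉ Psi '' KK Psi t0 r' f v2)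
    (h2 : y.2.1 < v2) : fderiv ℝ (That K Psi V t0 r f hh κ) y = 0 := by
  have hev : That K Psi V t0 r f hh κ =ᶠ[nhds y] fun _ => (0:ℝ) := by
    have o1 : IsOpen (Psi '' KK Psi t0 r' f v2)ᶜ := (h.isCompact_image_KK hr' hv2).isClosed.isOpen_compl
    have o2 : IsOpen {y : P4 | y.2.1 < v2} :=
      isOpen_lt (continuous_fst.comp continuous_snd) continuous_const
    filter_upwards [o1.mem_nhds hy, o2.mem_nhds h2] with y' k1 k2
    exact h.That_zero_of hhr k1 (le_of_lt k2)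
  rw [hev.fderiv_eq]
  simp

/-- inside the image, the derivative is computed on the exotic side -/
lemma fderiv_That (h : CoreHyp K G Psi V U C R cv cw cu t0 r f) {hh : P3 → ℝ}
    (hhs : ContDiff ℝ 1 hh) {κ : ℝ} {z : P4} (hz : z ∈ DD t0 r f) :
    fderiv ℝ (That K Psi V t0 r f hh κ) (Psi z) e1 = fderiv ℝ (Theta K Psi hh κ) z (Zf Psi V z) := by
  have hzV := h.DD_sub hz
  have hev : That K Psi V t0 r f hh κ =ᶠ[nhds (Psi z)]
      (fun y => Theta K Psi hh κ (Phi Psi V y)) := by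
    filter_upwards [(h.isOpen_image h.openD h.DD_sub).mem_nhds (mem_image_of_mem Psi hz)]
      with y hy
    rw [That, indicator_of_mem hy]
  rw [hev.fderiv_eq]
  have e : Phi Psi V (Psi z) = z := h.Phi_left hzV
  have h1 : HasFDerivAt (Theta K Psi hh κ) (fderiv ℝ (Theta K Psi hh κ) z) (Phi Psi V (Psi z)) := by
    rw [e]; exact ((h.contDiffAt_Theta hzV hhs κ).differentiableAt (by norm_num)).hasFDerivAt
  have h2 := h.hasFDerivAt_Phi hzV
  have h3 := h1.comp (Psi z) h2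
  have h4 : fderiv ℝ (fun y => Theta K Psi hh κ (Phi Psi V y)) (Psi z)
      = (fderiv ℝ (Theta K Psi hh κ) z).comp ((h.Aeq hzV).symm : P4 →L[ℝ] P4) := h3.fderiv
  rw [h4, Zf, h2.fderiv]
  rfl

end CoreHyp

end Vale.Agent.P354w
end
end

section

section

set_option maxSynthPendingDepth 3

open Set MeasureTheory Filter

namespace Vale.Agent.P354w

theorem haarP2 : (volume : Measure (ℝ × ℝ)).IsAddHaarMeasure :=
  inferInstanceAs ((volume : Measure ℝ).prod (volume : Measure ℝ)).IsAddHaarMeasure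
theorem haarP3 : (volume : Measure P3).IsAddHaarMeasure :=
  haveI := haarP2
  inferInstanceAs ((volume : Measure ℝ).prod (volume : Measure (ℝ × ℝ))).IsAddHaarMeasure
theorem haarP4 : (volume : Measure P4).IsAddHaarMeasure :=
  haveI := haarP3
  inferInstanceAs ((volume : Measure ℝ).prod (volume : Measure P3)).IsAddHaarMeasure

namespace CoreHyp

open PreHyp

variable {K : Coef} {G : P4 → P4 →L[ℝ] P4 →L[ℝ] ℝ} {Psi : P4 → P4} {V U : Set P4}
    {C R : ℝ} {cv cw cu : ℝ → ℝ} {t0 r : ℝ} {f : P3 → ℝ}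

lemma mem_DD_of_KK {r' v2 vlo : ℝ} (hr' : r' < r)
    (hvlo : ∀ x : P3, ‖x‖ ≤ r' → (Psi (t0, x)).2.1 ≤ vlo) {z : P4} (hz : z ∈ KK Psi t0 r' f v2)
    (h1 : vlo < (Psi z).2.1) : z ∈ DD t0 r f := by
  obtain ⟨k1, k2, k3, k4⟩ := hz
  refine ⟨?_, ?_, k3⟩
  · rw [mem_ball_zero_iff]; exact lt_of_le_of_lt k1 hr'
  · rcases lt_or_eq_of_le k2 with hlt | heq
    · exact hlt
    · exfalso
      have := hvlo z.2 k1
      rw [heq] at this
      have h3 : (Psi z).2.1 ≤ vlo := this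
      linarith only [h1, this]

end CoreHyp

end Vale.Agent.P354w
end
end

section

section

set_option maxSynthPendingDepth 3

open Set MeasureTheory Filter

namespace Vale.Agent.P354w

lemma lintegral_le_of_integral_zero {α : Type*} [MeasurableSpace α] {μ : Measure α}
    {X g : α → ℝ} {E : α → ENNReal}
    (hX : Integrable X μ) (h0 : ∫ x, X x ∂μ = 0) (hg : AEStronglyMeasurable g μ)
    (hg0 : ∀ᵐ x ∂μ, 0 ≤ g x) (hE : ∀ᵐ x ∂μ, ‖X x + g x‖ₑ ≤ E x) :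
    ∫⁻ x, ENNReal.ofReal (g x) ∂μ ≤ ∫⁻ x, E x ∂μ := by
  by_cases hfin : ∫⁻ x, E x ∂μ = ⊤
  · rw [hfin]; exact le_top
  have hXg : Integrable (fun x => X x + g x) μ :=
    ⟨hX.aestronglyMeasurable.add hg,
      lt_of_le_of_lt (lintegral_mono_ae hE) (lt_top_iff_ne_top.mpr hfin)⟩
  have hgi : Integrable g μ := by
    have := hXg.sub hX
    refine this.congr (ae_of_all _ fun x => ?_)
    simp
  have e1 : ∫ x, (X x + g x) ∂μ = ∫ x, g x ∂μ := by
    rw [integral_add hX hgi, h0, zero_add]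
  rw [← ofReal_integral_eq_lintegral_ofReal hgi hg0, ← e1]
  calc ENNReal.ofReal (∫ x, (X x + g x) ∂μ) ≤ ‖∫ x, (X x + g x) ∂μ‖ₑ := by
        rw [← ofReal_norm]
        exact ENNReal.ofReal_le_ofReal (le_abs_self _)
    _ ≤ ∫⁻ x, ‖X x + g x‖ₑ ∂μ := enorm_integral_le_lintegral_enorm _
    _ ≤ _ := lintegral_mono_ae hE

namespace PreHyp

variable {K : Coef} {G : P4 → P4 →L[ℝ] P4 →L[ℝ] ℝ} {Psi : P4 → P4} {V U : Set P4}
    {C R : ℝ} {cv cw cu : ℝ → ℝ} {t0 r : ℝ} {f : P3 → ℝ}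

lemma measDD (h : PreHyp K G Psi V U C R cv cw cu t0 r f) : MeasurableSet (DD t0 r f) :=
  h.openD.measurableSet

lemma lintegral_DD (h : PreHyp K G Psi V U C R cv cw cu t0 r f) {F : P4 → ENNReal}
    (hF : AEMeasurable F (volume.restrict (DD t0 r f))) :
    ∫⁻ z in DD t0 r f, F z
      = ∫⁻ x in Metric.ball (0 : P3) r, ∫⁻ t in Ioo t0 (f x), F (t, x) := by
  rw [← lintegral_indicator h.measDD]
  have hF' : AEMeasurable ((DD t0 r f).indicator F) ((volume : Measure ℝ).prod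
      (volume : Measure P3)) := (aemeasurable_indicator_iff h.measDD).mpr hF
  rw [Measure.volume_eq_prod, lintegral_prod_symm _ hF',
    ← lintegral_indicator (Metric.isOpen_ball.measurableSet)]
  apply lintegral_congr
  intro x
  by_cases hx : x ∈ Metric.ball (0 : P3) r
  · rw [indicator_of_mem hx, ← lintegral_indicator measurableSet_Ioo]
    apply lintegral_congr
    intro t
    by_cases ht : t ∈ Ioo t0 (f x)
    · rw [indicator_of_mem ht, indicator_of_mem (show ((t, x) : P4) ∈ DD t0 r f from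
        ⟨hx, ht.1, ht.2⟩)]
    · rw [indicator_of_notMem ht, indicator_of_notMem]
      rintro ⟨_, h1, h2⟩
      exact ht ⟨h1, h2⟩
  · rw [indicator_of_notMem hx]
    have : (fun t => (DD t0 r f).indicator F (t, x)) = fun _ => 0 := by
      funext t
      rw [indicator_of_notMem]
      rintro ⟨h1, _⟩
      exact hx h1
    rw [this, lintegral_zero]

lemma aem_Psi (h : PreHyp K G Psi V U C R cv cw cu t0 r f) :
    AEMeasurable Psi (volume.restrict (DD t0 r f)) :=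
  (h.iso.smooth.continuousOn.mono h.DD_sub).aemeasurable h.measDD

/-- push forward bound -/
lemma push_le (h : PreHyp K G Psi V U C R cv cw cu t0 r f) (q : P4 → ENNReal) :
    ∫⁻ z in DD t0 r f, q (Psi z) ≤ ENNReal.ofReal C * ∫⁻ y in U, q y := by
  have := haarP4
  have hfd : ∀ z ∈ DD t0 r f, HasFDerivWithinAt Psi (fderiv ℝ Psi z) (DD t0 r f) z :=
    fun z hz => (h.iso.hasFDerivAt (h.DD_sub hz)).hasFDerivWithinAt
  have hinj : InjOn Psi (DD t0 r f) := h.inj.mono h.DD_sub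
  have e := lintegral_image_eq_lintegral_abs_det_fderiv_mul volume h.measDD hfd hinj q
  have hsub : Psi '' DD t0 r f ⊆ U := by
    rintro _ ⟨z, hz, rfl⟩
    exact h.maps (h.DD_sub hz)
  calc ∫⁻ z in DD t0 r f, q (Psi z)
      ≤ ∫⁻ z in DD t0 r f, ENNReal.ofReal C * (ENNReal.ofReal |(fderiv ℝ Psi z).det| * q (Psi z)) := by
        apply setLIntegral_mono' h.measDD
        intro z hz
        have h1 := h.det_lo z (h.DD_sub hz)
        have hC : 0 ≤ C := by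
          have := (h.pt (h.DD_sub hz)).bd.one_le
          linarith only [this]
        rw [← mul_assoc, ← ENNReal.ofReal_mul hC]
        calc q (Psi z) = 1 * q (Psi z) := (one_mul _).symm
          _ ≤ _ := by
            gcongr
            rw [← ENNReal.ofReal_one]
            exact ENNReal.ofReal_le_ofReal h1
    _ = ENNReal.ofReal C * ∫⁻ z in DD t0 r f, ENNReal.ofReal |(fderiv ℝ Psi z).det| * q (Psi z) := by
        rw [lintegral_const_mul' _ _ ENNReal.ofReal_ne_top]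
    _ = ENNReal.ofReal C * ∫⁻ y in Psi '' DD t0 r f, q y := by rw [e]
    _ ≤ _ := by
        (clear * - hsub; gcongr)

/-- push forward bound for products -/
lemma push_prod (h : PreHyp K G Psi V U C R cv cw cu t0 r f) {p s : ℝ → ENNReal}
    (hp : Measurable p) (hs : Measurable s) :
    ∫⁻ z in DD t0 r f, p (Psi z).2.1 * s (Psi z).2.2.1 ≤ ENNReal.ofReal C *
      (volume (Icc (-R) R) * ((∫⁻ v in Ico (-R) 0, p v) * ((∫⁻ u in Icc (-R) R, s u)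
        * volume (Icc (-R) R)))) := by
  refine (h.push_le (fun y => p y.2.1 * s y.2.2.1)).trans ?_
  gcongr
  have hsub : U ⊆ Icc (-R) R ×ˢ (Ico (-R) (0:ℝ) ×ˢ (Icc (-R) R ×ˢ Icc (-R) R)) := by
    intro y hy
    obtain ⟨k1, k2, k3, k4, k5⟩ := h.U_sub y hy
    exact ⟨abs_le.mp k1, ⟨k2, k3⟩, abs_le.mp k4, abs_le.mp k5⟩
  refine (lintegral_mono_set hsub).trans (le_of_eq ?_)
  rw [Measure.volume_eq_prod, ← Measure.prod_restrict]
  have e2 : (volume : Measure P3).restrict (Ico (-R) (0:ℝ) ×ˢ (Icc (-R) R ×ˢ Icc (-R) R))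
      = (volume.restrict (Ico (-R) (0:ℝ))).prod ((volume : Measure (ℝ × ℝ)).restrict
        (Icc (-R) R ×ˢ Icc (-R) R)) := by
    rw [Measure.volume_eq_prod, Measure.prod_restrict]
  have e3 : (volume : Measure (ℝ × ℝ)).restrict (Icc (-R) R ×ˢ Icc (-R) R)
      = (volume.restrict (Icc (-R) R)).prod (volume.restrict (Icc (-R) R)) := by
    rw [Measure.volume_eq_prod, Measure.prod_restrict]
  rw [e2, e3]
  have m0 : Measurable (fun y : P3 => p y.1 * s y.2.1) := by fun_prop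
  have m1 : Measurable (fun y : ℝ × ℝ => s y.1) := by fun_prop
  rw [lintegral_prod _ (by
    have : Measurable (fun y : P4 => p y.2.1 * s y.2.2.1) := by fun_prop
    exact this.aemeasurable)]
  simp only [lintegral_const, Measure.restrict_apply MeasurableSet.univ, univ_inter]
  rw [lintegral_prod _ m0.aemeasurable]
  simp only
  have : ∀ x : ℝ, ∫⁻ y : ℝ × ℝ, p x * s y.1 ∂((volume.restrict (Icc (-R) R)).prod
      (volume.restrict (Icc (-R) R))) = p x * ((∫⁻ u in Icc (-R) R, s u)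
        * volume (Icc (-R) R)) := by
    intro x
    rw [lintegral_const_mul _ m1, lintegral_prod _ m1.aemeasurable]
    simp only [lintegral_const, Measure.restrict_apply MeasurableSet.univ, univ_inter]
    rw [lintegral_mul_const _ hs]
  simp only [this]
  rw [lintegral_mul_const _ hp]
  ring

end PreHyp

namespace CoreHyp

open PreHyp

variable {K : Coef} {G : P4 → P4 →L[ℝ] P4 →L[ℝ] ℝ} {Psi : P4 → P4} {V U : Set P4}
    {C R : ℝ} {cv cw cu : ℝ → ℝ} {t0 r : ℝ} {f : P3 → ℝ}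

end CoreHyp

end Vale.Agent.P354w
end
end

section

section

set_option maxSynthPendingDepth 3

open Set MeasureTheory Filter

namespace Vale.Agent.P354w

/-- the set of lines along which one of the frame components exceeds `κ/2` -/
def NN (Psi : P4 → P4) (t0 r : ℝ) (f : P3 → ℝ) (κ : ℝ) : Set P3 :=
  Prod.snd '' (DD t0 r f ∩ {z | κ / 2 < (fderiv ℝ Psi z e1).2.1 ∨
    κ / 2 < (fderiv ℝ Psi z e1).2.2.1})

namespace PreHyp

variable {K : Coef} {G : P4 → P4 →L[ℝ] P4 →L[ℝ] ℝ} {Psi : P4 → P4} {V U : Set P4}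
    {C R : ℝ} {cv cw cu : ℝ → ℝ} {t0 r : ℝ} {f : P3 → ℝ}

lemma NN_sub {κ : ℝ} : NN Psi t0 r f κ ⊆ Metric.ball (0 : P3) r := by
  rintro x ⟨z, ⟨hz, _⟩, rfl⟩
  exact hz.1

lemma NN_anti : Antitone (fun n : ℕ => NN Psi t0 r f n) := by
  intro n m hnm x hx
  obtain ⟨z, ⟨hz, hz2⟩, rfl⟩ := hx
  have : (n : ℝ) ≤ m := by exact_mod_cast hnm
  refine ⟨z, ⟨hz, ?_⟩, rfl⟩
  rcases hz2 with h | h
  · left; linarith only [this, h]
  · right; linarith only [this, h]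

lemma isOpen_NN (h : PreHyp K G Psi V U C R cv cw cu t0 r f) {κ : ℝ} :
    IsOpen (NN Psi t0 r f κ) := by
  apply isOpenMap_snd
  have hc : ContinuousOn (fun z => fderiv ℝ Psi z e1) (DD t0 r f) := fun z hz =>
    ((h.contDiffAt_P (h.DD_sub hz) e1).continuousAt).continuousWithinAt
  have hb : ContinuousOn (fun z => (fderiv ℝ Psi z e1).2.1) (DD t0 r f) := hc.snd.fst
  have ha : ContinuousOn (fun z => (fderiv ℝ Psi z e1).2.2.1) (DD t0 r f) := hc.snd.snd.fst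
  have e : DD t0 r f ∩ {z | κ / 2 < (fderiv ℝ Psi z e1).2.1 ∨
    κ / 2 < (fderiv ℝ Psi z e1).2.2.1} =
    (DD t0 r f ∩ (fun z => (fderiv ℝ Psi z e1).2.1) ⁻¹' Ioi (κ/2)) ∪
    (DD t0 r f ∩ (fun z => (fderiv ℝ Psi z e1).2.2.1) ⁻¹' Ioi (κ/2)) := by
    rw [← inter_union_distrib_left]
    rfl
  rw [e]
  exact (hb.isOpen_inter_preimage h.openD isOpen_Ioi).union
    (ha.isOpen_inter_preimage h.openD isOpen_Ioi)

lemma not_NN {κ : ℝ} {z : P4} (hz : z ∈ DD t0 r f) (hn : z.2 ∉ NN Psi t0 r f κ) :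
    (fderiv ℝ Psi z e1).2.1 ≤ κ / 2 ∧ (fderiv ℝ Psi z e1).2.2.1 ≤ κ / 2 := by
  constructor
  · by_contra hc
    push Not at hc
    exact hn ⟨z, ⟨hz, Or.inl hc⟩, rfl⟩
  · by_contra hc
    push Not at hc
    exact hn ⟨z, ⟨hz, Or.inr hc⟩, rfl⟩

lemma L1_lt_top (h : PreHyp K G Psi V U C R cv cw cu t0 r f) :
    ∫⁻ z in DD t0 r f, ‖fderiv ℝ G z‖ₑ ≠ ⊤ := by
  have h1 : ∫⁻ z in DD t0 r f, ‖fderiv ℝ G z‖ₑ ≤ ∫⁻ z in DD t0 r f, (1 + ‖fderiv ℝ G z‖ₑ ^ 2) := by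
    apply lintegral_mono
    intro z
    simp only
    rcases le_total ‖fderiv ℝ G z‖ₑ 1 with h | h
    · exact h.trans le_self_add
    · calc ‖fderiv ℝ G z‖ₑ = ‖fderiv ℝ G z‖ₑ * 1 := (mul_one _).symm
        _ ≤ ‖fderiv ℝ G z‖ₑ * ‖fderiv ℝ G z‖ₑ := by (clear * - h; gcongr)
        _ = ‖fderiv ℝ G z‖ₑ ^ 2 := by ring
        _ ≤ _ := le_add_self
  have h2 : ∫⁻ z in DD t0 r f, (1 + ‖fderiv ℝ G z‖ₑ ^ 2) ≠ ⊤ := by
    rw [lintegral_add_left measurable_const, lintegral_const,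
      Measure.restrict_apply MeasurableSet.univ, univ_inter, one_mul]
    exact ENNReal.add_ne_top.mpr ⟨h.finD, h.L2⟩
  exact ne_top_of_le_ne_top h2 h1

lemma ae_line (h : PreHyp K G Psi V U C R cv cw cu t0 r f) :
    ∀ᵐ x : P3, x ∈ Metric.ball (0 : P3) r →
      ∫⁻ t in Ico t0 (f x), ‖fderiv ℝ G (t, x)‖ₑ ≠ ⊤ := by
  set F : P4 → ENNReal := (DD t0 r f).indicator (fun z => ‖fderiv ℝ G z‖ₑ) with hF
  have hFm : Measurable F := ((measurable_fderiv ℝ G).enorm).indicator h.measDD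
  have h1 : ∫⁻ z, F z ∂((volume : Measure ℝ).prod (volume : Measure P3)) ≠ ⊤ := by
    have := h.L1_lt_top
    rw [← lintegral_indicator h.measDD] at this
    exact this
  rw [lintegral_prod_symm _ hFm.aemeasurable] at h1
  have h2 : Measurable (fun x : P3 => ∫⁻ t : ℝ, F (t, x)) := hFm.lintegral_prod_left'
  filter_upwards [ae_lt_top h2 h1] with x hx hxb
  have e : ∫⁻ t in Ico t0 (f x), ‖fderiv ℝ G (t, x)‖ₑ = ∫⁻ t : ℝ, F (t, x) := by
    rw [setLIntegral_congr (Ioo_ae_eq_Ico (μ := volume) (a := t0) (b := f x)).symm,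
      ← lintegral_indicator measurableSet_Ioo]
    apply lintegral_congr
    intro t
    by_cases ht : t ∈ Ioo t0 (f x)
    · rw [indicator_of_mem ht, hF, indicator_of_mem (show ((t, x) : P4) ∈ DD t0 r f from
        ⟨hxb, ht.1, ht.2⟩)]
    · rw [indicator_of_notMem ht, hF, indicator_of_notMem]
      rintro ⟨_, h1, h2⟩
      exact ht ⟨h1, h2⟩
  rw [e]
  exact hx.ne

lemma exp_aux {q q0 M : ℝ} (hq : 0 < q) (hq0 : 0 < q0) (h : |Real.log q - Real.log q0| ≤ M) :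
    q ≤ q0 * Real.exp M := by
  have h1 : Real.log q ≤ Real.log q0 + M := by
    have := (abs_le.mp h).2
    linarith
  calc q = Real.exp (Real.log q) := (Real.exp_log hq).symm
    _ ≤ Real.exp (Real.log q0 + M) := Real.exp_le_exp.mpr h1
    _ = q0 * Real.exp M := by rw [Real.exp_add, Real.exp_log hq0]

lemma tendsto_NN (h : PreHyp K G Psi V U C R cv cw cu t0 r f) :
    Tendsto (fun n : ℕ => volume (NN Psi t0 r f n)) atTop (nhds 0) := by
  have h1 := tendsto_measure_iInter_atTop (μ := (volume : Measure P3))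
    (s := fun n : ℕ => NN Psi t0 r f n)
    (fun n => (h.isOpen_NN.measurableSet).nullMeasurableSet) NN_anti
    ⟨0, ne_top_of_le_ne_top (measure_ball_lt_top (x := (0 : P3)) (r := r)).ne
      (measure_mono NN_sub)⟩
  have h2 : volume (⋂ n : ℕ, NN Psi t0 r f n) = 0 := by
    rw [measure_eq_zero_iff_ae_notMem]
    filter_upwards [h.ae_line] with x hx hmem
    have hxb : x ∈ Metric.ball (0 : P3) r := NN_sub (mem_iInter.mp hmem 0)
    obtain ⟨M, hM⟩ := h.line_bound hxb (hx hxb)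
    have hz0 : (t0, x) ∈ V := h.memV x hxb t0 ⟨le_refl _, h.t0f x hxb⟩
    have hb0 : 0 < (fderiv ℝ Psi (t0, x) e1).2.1 := h.pos _ hz0
    have ha0 : 0 < (fderiv ℝ Psi (t0, x) e1).2.2.1 := (h.pt hz0).sq_le.2.1
    obtain ⟨n, hn⟩ := exists_nat_gt (2 * max ((fderiv ℝ Psi (t0, x) e1).2.1 * Real.exp M)
      ((fderiv ℝ Psi (t0, x) e1).2.2.1 * Real.exp M))
    obtain ⟨⟨t, x'⟩, ⟨hz, hz2⟩, rfl⟩ := mem_iInter.mp hmem n
    have htm : t ∈ Ico t0 (f x') := ⟨hz.2.1.le, hz.2.2⟩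
    have hzV : ((t, x') : P4) ∈ V := h.DD_sub hz
    obtain ⟨m1, m2⟩ := hM t htm
    have k1 := exp_aux (h.pos _ hzV) hb0 m1
    have k2 := exp_aux (h.pt hzV).sq_le.2.1 ha0 m2
    have l1 := le_max_left ((fderiv ℝ Psi (t0, x') e1).2.1 * Real.exp M)
      ((fderiv ℝ Psi (t0, x') e1).2.2.1 * Real.exp M)
    have l2 := le_max_right ((fderiv ℝ Psi (t0, x') e1).2.1 * Real.exp M)
      ((fderiv ℝ Psi (t0, x') e1).2.2.1 * Real.exp M)
    simp only at hn hz2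
    rcases hz2 with h3 | h3
    · have : (n:ℝ) / 2 < (fderiv ℝ Psi (t, x') e1).2.1 := h3
      linarith only [hn, k1, l1, h3]
    · have : (n:ℝ) / 2 < (fderiv ℝ Psi (t, x') e1).2.2.1 := h3
      linarith only [hn, k2, l2, h3]
  rw [h2] at h1
  exact h1

end PreHyp

end Vale.Agent.P354w
end
end

section

section

set_option maxSynthPendingDepth 3

open Set MeasureTheory Filter

namespace Vale.Agent.P354w

lemma lintegral_inv_top {a b M : ℝ} (hab : a < b) (hM : 0 < M) :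
    ∫⁻ t in Ioo a b, ENNReal.ofReal (1 / (M * (b - t))) = ⊤ := by
  by_contra hne
  have hmeas : Measurable (fun t : ℝ => 1 / (M * (b - t))) := by (clear * -; fun_prop)
  have hint : IntegrableOn (fun t : ℝ => 1 / (M * (b - t))) (Ioo a b) := by
    refine ⟨hmeas.aestronglyMeasurable, ?_⟩
    rw [hasFiniteIntegral_iff_ofReal]
    · exact lt_top_iff_ne_top.mpr hne
    · rw [EventuallyLE, ae_restrict_iff' measurableSet_Ioo]
      apply ae_of_all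
      intro t ht
      have : 0 < b - t := by linarith [ht.2]
      simp only [Pi.zero_apply]
      (clear * - hM this; positivity)
  have h2 : IntervalIntegrable (fun t : ℝ => (t - b)⁻¹) volume a b := by
    rw [intervalIntegrable_iff_integrableOn_Ioo_of_le hab.le]
    have h3 : IntegrableOn (fun t : ℝ => -M * (1 / (M * (b - t)))) (Ioo a b) := hint.const_mul (-M)
    apply IntegrableOn.congr_fun h3 _ measurableSet_Ioo
    intro t ht
    have h4 : b - t ≠ 0 := by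
      have := ht.2
      intro h; linarith
    have h5 : t - b ≠ 0 := by
      have := ht.2
      intro h; linarith
    simp only
    rw [show t - b = -(b - t) by ring, inv_neg]
    field_simp
  rw [intervalIntegrable_sub_inv_iff] at h2
  rcases h2 with h2 | h2
  · exact absurd h2 hab.ne
  · exact h2 right_mem_uIcc

lemma lintegral_rpow_lt {R : ℝ} (hR : 0 ≤ R) :
    ∫⁻ u in Icc (-R) R, ENNReal.ofReal (|u| ^ (-(1/2):ℝ)) ≠ ⊤ := by
  have h1 : IntervalIntegrable (fun u : ℝ => |u| ^ (-(1/2):ℝ)) volume (-R) R := by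
    have h0 : IntervalIntegrable (fun u : ℝ => |u| ^ (-(1/2):ℝ)) volume 0 R := by
      have := intervalIntegral.intervalIntegrable_rpow' (a := 0) (b := R) (r := -(1/2))
        (by norm_num)
      rw [intervalIntegrable_iff, uIoc_of_le hR] at this ⊢
      refine this.congr_fun ?_ measurableSet_Ioc
      intro u hu
      simp only
      rw [abs_of_pos hu.1]
    have h2 : IntervalIntegrable (fun u : ℝ => |u| ^ (-(1/2):ℝ)) volume (-R) 0 := by
      have := (IntervalIntegrable.iff_comp_neg (f := fun u : ℝ => |u| ^ (-(1/2):ℝ))).mp h0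
      simp only [abs_neg, neg_zero] at this
      exact this.symm
    exact h2.trans h0
  rw [intervalIntegrable_iff_integrableOn_Icc_of_le (by linarith)] at h1
  have h3 := h1.2
  rw [hasFiniteIntegral_iff_ofReal (ae_of_all _ fun u => by (clear * -; positivity))] at h3
  exact h3.ne

namespace PreHyp

variable {K : Coef} {G : P4 → P4 →L[ℝ] P4 →L[ℝ] ℝ} {Psi : P4 → P4} {V U : Set P4}
    {C R : ℝ} {cv cw cu : ℝ → ℝ} {t0 r : ℝ} {f : P3 → ℝ}

lemma line_lip (h : PreHyp K G Psi V U C R cv cw cu t0 r f) {x : P3}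
    (hx : x ∈ Metric.ball (0 : P3) r) {M : ℝ}
    (hM : ∀ t ∈ Ioo t0 (f x), (fderiv ℝ Psi (t, x) e1).2.1 ≤ M ∧
      (fderiv ℝ Psi (t, x) e1).2.2.1 ≤ M) {s t : ℝ} (hs : t0 < s) (hst : s ≤ t) (ht : t < f x) :
    (Psi (t, x)).2.1 - (Psi (s, x)).2.1 ≤ M * (t - s) ∧
    (Psi (t, x)).2.2.1 - (Psi (s, x)).2.2.1 ≤ M * (t - s) := by
  have hd : ∀ τ ∈ Icc s t, HasDerivAt (fun t => Psi (t, x)) (fderiv ℝ Psi (τ, x) e1) τ :=
    fun τ hτ => h.hasDerivAt_line (h.memV x hx τ ⟨by linarith [hτ.1], by linarith only [ht, hτ.2]⟩)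
  have hmem : ∀ τ ∈ Icc s t, τ ∈ Ioo t0 (f x) := fun τ hτ =>
    ⟨by linarith [hτ.1], by linarith [hτ.2]⟩
  constructor
  · have hd1 : ∀ τ ∈ Icc s t, HasDerivAt (fun t => (Psi (t, x)).2.1)
        (fderiv ℝ Psi (τ, x) e1).2.1 τ := fun τ hτ => (hd τ hτ).snd.fst
    apply (convex_Icc s t).image_sub_le_mul_sub_of_deriv_le
      (f := fun t => (Psi (t, x)).2.1) (fun τ hτ => (hd1 τ hτ).continuousAt.continuousWithinAt)
      (fun τ hτ => (hd1 τ (interior_subset hτ)).differentiableAt.differentiableWithinAt)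
      (fun τ hτ => by
        rw [(hd1 τ (interior_subset hτ)).deriv]
        exact (hM τ (hmem τ (interior_subset hτ))).1)
      s ⟨le_refl _, hst⟩ t ⟨hst, le_refl _⟩ hst
  · have hd1 : ∀ τ ∈ Icc s t, HasDerivAt (fun t => (Psi (t, x)).2.2.1)
        (fderiv ℝ Psi (τ, x) e1).2.2.1 τ := fun τ hτ => (hd τ hτ).snd.snd.fst
    apply (convex_Icc s t).image_sub_le_mul_sub_of_deriv_le
      (f := fun t => (Psi (t, x)).2.2.1) (fun τ hτ => (hd1 τ hτ).continuousAt.continuousWithinAt)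
      (fun τ hτ => (hd1 τ (interior_subset hτ)).differentiableAt.differentiableWithinAt)
      (fun τ hτ => by
        rw [(hd1 τ (interior_subset hτ)).deriv]
        exact (hM τ (hmem τ (interior_subset hτ))).2)
      s ⟨le_refl _, hst⟩ t ⟨hst, le_refl _⟩ hst

/-- if a line exits at the corner `(v, u) = (0, 0)` with bounded frame components, then
`-v, -u ≤ M (f x - t)` -/
lemma corner_line (h : PreHyp K G Psi V U C R cv cw cu t0 r f) {x : P3}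
    (hx : x ∈ Metric.ball (0 : P3) r) {M : ℝ} (hM0 : 0 ≤ M)
    (hM : ∀ t ∈ Ioo t0 (f x), (fderiv ℝ Psi (t, x) e1).2.1 ≤ M ∧
      (fderiv ℝ Psi (t, x) e1).2.2.1 ≤ M)
    (hlim : ∀ ε > 0, ∃ t1 < f x, ∀ t ∈ Ioo t1 (f x), t0 < t →
      |(Psi (t, x)).2.1| < ε ∧ |(Psi (t, x)).2.2.1| < ε) {s : ℝ} (hs : s ∈ Ioo t0 (f x)) :
    -(Psi (s, x)).2.1 ≤ M * (f x - s) ∧ -(Psi (s, x)).2.2.1 ≤ M * (f x - s) := by
  have key : ∀ ε > 0, -(Psi (s, x)).2.1 ≤ M * (f x - s) + ε ∧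
      -(Psi (s, x)).2.2.1 ≤ M * (f x - s) + ε := by
    intro ε hε
    obtain ⟨t1, ht1, ht1'⟩ := hlim ε hε
    set t := (max s t1 + f x) / 2 with ht
    have hmax : max s t1 < f x := max_lt hs.2 ht1
    have hst : s ≤ t := by have := le_max_left s t1; linarith only [ht, hmax, this]
    have htf : t < f x := by linarith only [ht, hmax]
    have ht1t : t1 < t := by have := le_max_right s t1; linarith only [ht, htf, this]
    obtain ⟨k1, k2⟩ := h.line_lip hx hM hs.1 hst htf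
    obtain ⟨l1, l2⟩ := ht1' t ⟨ht1t, htf⟩ (lt_of_lt_of_le hs.1 hst)
    have m1 := (abs_lt.mp l1).1
    have m2 := (abs_lt.mp l2).1
    have m3 : M * (t - s) ≤ M * (f x - s) := by (clear * - htf hM0; gcongr)
    constructor <;> linarith only [k1, m1, m3, k2, m2]
  constructor
  · exact le_of_forall_pos_le_add fun ε hε => (key ε hε).1
  · exact le_of_forall_pos_le_add fun ε hε => (key ε hε).2

/-- **Corner exclusion.** The vertical lines cannot all exit at the corner. -/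
theorem corner (h : PreHyp K G Psi V U C R cv cw cu t0 r f)
    (hu : ∀ y ∈ U, y.2.2.1 < 0)
    (hlim : ∀ x ∈ Metric.ball (0 : P3) r, ∀ ε > 0, ∃ t1 < f x, ∀ t ∈ Ioo t1 (f x), t0 < t →
      |(Psi (t, x)).2.1| < ε ∧ |(Psi (t, x)).2.2.1| < ε) : False := by
  have hr := h.r_pos
  have hmem0 : ((t0, 0) : P4) ∈ V := h.memV 0 (by simpa only [Metric.mem_ball, dist_self] using hr) t0
      ⟨le_refl _, h.t0f 0 (by simpa only [Metric.mem_ball, dist_self] using hr)⟩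
  have hR : 0 ≤ R := (abs_nonneg _).trans (h.U_sub _ (h.maps hmem0)).1
  set bI := volume (Metric.ball (0 : P3) r) with hbI
  have hbI0 : 0 < bI := Metric.isOpen_ball.measure_pos _ ⟨0, by simpa only [Metric.mem_ball, dist_self] using hr⟩
  have hbIt : bI ≠ ⊤ := measure_ball_lt_top.ne
  obtain ⟨n, hn1, hn⟩ : ∃ n : ℕ, 1 ≤ n ∧ volume (NN Psi t0 r f n) ≤ bI / 2 := by
    have h1 := ENNReal.tendsto_nhds_zero.mp h.tendsto_NN (bI / 2)
      (ENNReal.half_pos hbI0.ne')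
    obtain ⟨n, hn⟩ := (h1.and (eventually_ge_atTop 1)).exists
    exact ⟨n, hn.2, hn.1⟩
  set A : Set P3 := Metric.ball (0 : P3) r \ NN Psi t0 r f n with hA
  have hAm : MeasurableSet A := Metric.isOpen_ball.measurableSet.diff h.isOpen_NN.measurableSet
  have hA0 : volume A ≠ 0 := by
    intro hA0
    have h1 : bI ≤ volume A + volume (NN Psi t0 r f n) := by
      refine (measure_mono ?_).trans (measure_union_le _ _)
      intro x hx
      by_cases hx2 : x ∈ NN Psi t0 r f n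
      · exact Or.inr hx2
      · exact Or.inl ⟨hx, hx2⟩
    rw [hA0, zero_add] at h1
    have h2 := h1.trans hn
    exact absurd h2 (not_le.mpr (ENNReal.half_lt_self hbI0.ne' hbIt))
  set p : ℝ → ENNReal := fun v => ENNReal.ofReal (|v| ^ (-(1/2):ℝ)) with hp
  have hpm : Measurable p := by
    rw [hp]
    exact ((measurable_norm.pow_const _) : Measurable (fun v : ℝ => |v| ^ (-(1/2):ℝ))).ennreal_ofReal
  have hpI : ∫⁻ u in Icc (-R) R, p u ≠ ⊤ := lintegral_rpow_lt hR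
  have hpI2 : ∫⁻ v in Ico (-R) 0, p v ≠ ⊤ :=
    ne_top_of_le_ne_top hpI (lintegral_mono_set fun v hv => ⟨hv.1, by linarith only [hR, hv.2]⟩)
  have hvol : volume (Icc (-R) R) ≠ ⊤ := by simp only [Real.volume_Icc, sub_neg_eq_add, ne_eq, ENNReal.ofReal_ne_top, not_false_eq_true]
  have up := h.push_prod hpm hpm
  have hfin : ∫⁻ z in DD t0 r f, p (Psi z).2.1 * p (Psi z).2.2.1 ≠ ⊤ := by
    refine ne_top_of_le_ne_top ?_ up
    exact ENNReal.mul_ne_top ENNReal.ofReal_ne_top (ENNReal.mul_ne_top hvol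
      (ENNReal.mul_ne_top hpI2 (ENNReal.mul_ne_top hpI hvol)))
  apply hfin
  have haem : AEMeasurable (fun z => p (Psi z).2.1 * p (Psi z).2.2.1)
      (volume.restrict (DD t0 r f)) := (hpm.comp_aemeasurable h.aem_Psi.snd.fst).mul
    (hpm.comp_aemeasurable h.aem_Psi.snd.snd.fst)
  rw [h.lintegral_DD haem, eq_top_iff]
  have hMpos : (0:ℝ) < n := by exact_mod_cast hn1
  have hAsub : A ⊆ Metric.ball (0 : P3) r := fun x hx => hx.1
  calc (⊤ : ENNReal) = ∫⁻ x in A, (⊤ : ENNReal) := by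
        rw [lintegral_const, Measure.restrict_apply MeasurableSet.univ, univ_inter,
          ENNReal.top_mul hA0]
    _ ≤ ∫⁻ x in A, ∫⁻ t in Ioo t0 (f x), p (Psi (t, x)).2.1 * p (Psi (t, x)).2.2.1 := by
        apply setLIntegral_mono' hAm
        intro x hx
        rw [← lintegral_inv_top (h.t0f x hx.1) hMpos]
        apply setLIntegral_mono' measurableSet_Ioo
        intro t ht
        have hb : ∀ t ∈ Ioo t0 (f x), (fderiv ℝ Psi (t, x) e1).2.1 ≤ n ∧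
            (fderiv ℝ Psi (t, x) e1).2.2.1 ≤ n := by
          intro t ht
          obtain ⟨k1, k2⟩ := not_NN (z := (t, x)) ⟨hx.1, ht.1, ht.2⟩ hx.2
          constructor <;> linarith only [k1, k2]
        obtain ⟨k1, k2⟩ := h.corner_line hx.1 hMpos.le hb (hlim x hx.1) ht
        have hV : ((t, x) : P4) ∈ V := h.memV x hx.1 t ⟨ht.1.le, ht.2⟩
        have hv : (Psi (t, x)).2.1 < 0 := (h.U_sub _ (h.maps hV)).2.2.1
        have hu' : (Psi (t, x)).2.2.1 < 0 := hu _ (h.maps hV)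
        rw [hp]
        simp only
        rw [← ENNReal.ofReal_mul (by (clear * -; positivity))]
        apply ENNReal.ofReal_le_ofReal
        have hft : 0 < f x - t := by linarith only [ht.2]
        have e : 1 / ((n:ℝ) * (f x - t)) = (n * (f x - t)) ^ (-(1/2):ℝ) * (n * (f x - t)) ^ (-(1/2):ℝ) := by
          rw [← Real.rpow_add (by (clear * - hn1 hft; positivity))]
          norm_num
          rw [Real.rpow_neg_one]
          (clear * - hn1 hft; field_simp)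
        rw [e, abs_of_neg hv, abs_of_neg hu']
        have r1 : (n * (f x - t)) ^ (-(1/2):ℝ) ≤ (-(Psi (t, x)).2.1) ^ (-(1/2):ℝ) :=
          Real.rpow_le_rpow_of_nonpos (by linarith only [hv]) k1 (by norm_num)
        have r2 : (n * (f x - t)) ^ (-(1/2):ℝ) ≤ (-(Psi (t, x)).2.2.1) ^ (-(1/2):ℝ) :=
          Real.rpow_le_rpow_of_nonpos (by linarith only [hu']) k2 (by norm_num)
        exact mul_le_mul r1 r2 (by (clear * - hn1 hft; positivity)) (Real.rpow_nonneg (by linarith only [hv]) _)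
    _ ≤ _ := lintegral_mono_set hAsub

end PreHyp

end Vale.Agent.P354w
end
end

section

section

set_option maxSynthPendingDepth 3

open Set MeasureTheory Filter Topology

namespace Vale.Agent.P354w

namespace PreHyp

variable {K : Coef} {G : P4 → P4 →L[ℝ] P4 →L[ℝ] ℝ} {Psi : P4 → P4} {V U : Set P4}
    {C R : ℝ} {cv cw cu : ℝ → ℝ} {t0 r : ℝ} {f : P3 → ℝ}

lemma line_deriv_norm (h : PreHyp K G Psi V U C R cv cw cu t0 r f) {S0 : ℝ}
    (hsw : ∀ y ∈ U, |K.s1 y| ≤ S0 ∧ |K.s2 y| ≤ S0 ∧ |K.w1 y| ≤ S0 ∧ |K.w2 y| ≤ S0)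
    {z : P4} (hz : z ∈ V) {M : ℝ} (hb : (fderiv ℝ Psi z e1).2.1 ≤ M)
    (ha : (fderiv ℝ Psi z e1).2.2.1 ≤ M) : ‖fderiv ℝ Psi z e1‖ ≤ 2 * (C + S0) * M := by
  obtain ⟨k1, k2⟩ := (h.pt hz).abs_h_le
  have hC := (h.pt hz).bd.one_le
  have hbp : 0 < (fderiv ℝ Psi z e1).2.1 := h.pos z hz
  have hap : 0 < (fderiv ℝ Psi z e1).2.2.1 := (h.pt hz).sq_le.2.1
  obtain ⟨s1, s2, w1, w2⟩ := hsw _ (h.maps hz)
  have hM0 : 0 ≤ M := hbp.le.trans hb
  simp only [PtHyp.PP] at k1 k2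
  set a := (fderiv ℝ Psi z e1) with hadef
  have hS0 : 0 ≤ S0 := (abs_nonneg _).trans s1
  have hkey : ∀ s w x : ℝ, |s| ≤ S0 → |w| ≤ S0 →
      |x - s * a.2.1 - w * a.2.2.1| ≤ C * (a.2.2.1 + a.2.1) → |x| ≤ 2 * (C + S0) * M := by
    intro s w x hs hw hx
    have e : x = (x - s * a.2.1 - w * a.2.2.1) + (s * a.2.1 + w * a.2.2.1) := by ring
    rw [e]
    refine (abs_add_le _ _).trans ?_
    have h1 : |s * a.2.1 + w * a.2.2.1| ≤ S0 * a.2.1 + S0 * a.2.2.1 := by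
      refine (abs_add_le _ _).trans ?_
      rw [abs_mul, abs_mul, abs_of_pos hbp, abs_of_pos hap]
      gcongr
    have h2 : C * a.2.1 ≤ C * M := by (clear * - hb hC; gcongr)
    have h3 : C * a.2.2.1 ≤ C * M := by (clear * - ha hC; gcongr)
    have h4 : S0 * a.2.1 ≤ S0 * M := by (clear * - hb hS0; gcongr)
    have h5 : S0 * a.2.2.1 ≤ S0 * M := by (clear * - ha hS0; gcongr)
    linarith only [hx, h1, h2, h3, h4, h5]
  have hm : ‖a‖ = max |a.1| (max |a.2.1| (max |a.2.2.1| |a.2.2.2|)) := rfl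
  have hCM : M ≤ 2 * (C + S0) * M := by nlinarith only [hC, hM0, mul_nonneg hS0 hM0]
  rw [hm]
  refine max_le (hkey _ _ _ s1 w1 k1) (max_le ?_ (max_le ?_ (hkey _ _ _ s2 w2 k2)))
  · rw [abs_of_pos hbp]; linarith only [hb, hCM]
  · rw [abs_of_pos hap]; linarith only [ha, hCM]

end PreHyp

namespace CoreHyp

open PreHyp

variable {K : Coef} {G : P4 → P4 →L[ℝ] P4 →L[ℝ] ℝ} {Psi : P4 → P4} {V U : Set P4}
    {C R : ℝ} {cv cw cu : ℝ → ℝ} {t0 r : ℝ} {f : P3 → ℝ}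

end CoreHyp

end Vale.Agent.P354w
end
end
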