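import Mathlib
import Vale.Agent.P354.Bdl.B2
import Vale.Agent.P354.Bdl.B1
import Vale.Agent.P354n.Defs
attribute [-instance] ProperSMul.toContinuousSMul IsTopologicalTorsor.toContinuousSMul IdemSemiring.toCanonicallyOrderedAdd IdemSemiring.toMulLeftMono IdemSemiring.toMulRightMono AddQuantale.instAddLeftMono AddQuantale.instAddRightMono Quantale.instMulLeftMono Quantale.instMulRightMono FiniteDimensional.rclike_to_real IsScalarTower.complexToReal FiniteDimensional.complexToReal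

set_option linter.all false

section

section

set_option maxSynthPendingDepth 3

namespace Vale.Agent.P354w

variable {K : Coef} {G : P4 → P4 →L[ℝ] P4 →L[ℝ] ℝ} {Psi : P4 → P4} {V : Set P4}

namespace PtHyp

variable {z : P4} {C cv cw cu : ℝ}

lemma Sv_Z (h : PtHyp K G Psi V z C cv cw cu) {N Z : P4} (hN : fderiv ℝ Psi z N = e3 K (Psi z))
    (hZ : fderiv ℝ Psi z Z = e1) :
    |(Sd Psi z Z e1).2.1| ≤ 10 * C ^ 4 * (‖fderiv ℝ G z‖ * ‖Z‖ * (PP Psi z).2.1
      + cu * ((PP Psi z).2.2.1 + (PP Psi z).2.1) + ((PP Psi z).2.2.1 + (PP Psi z).2.1)) := by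
  have hC := h.bd.one_le
  have hC0 : 0 < C := by linarith only [hC]
  have hb : 0 < (PP Psi z).2.1 := h.pos
  have ha : 0 < (PP Psi z).2.2.1 := h.sq_le.2.1
  have ht := h.iso.transf h.mem Z e1 N
  rw [hN, K.gF_symm, gF_e3, hZ] at ht
  have hcomb := comb_betaZ K (Psi z) (PP Psi z)
  have hL := norm_nonneg (fderiv ℝ G z)
  have hZn := norm_nonneg Z
  have hNn := h.norm_N hN
  obtain ⟨hx1, hx2⟩ := h.abs_h_le
  have hcu := h.bd.cu0
  have d : ∀ p q r : P4, ‖p‖ * ‖q‖ * ‖r‖ ≤ ‖Z‖ * (C ^ 2 * (PP Psi z).2.1) →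
      |fderiv ℝ G z p q r| ≤ ‖fderiv ℝ G z‖ * (‖Z‖ * (C ^ 2 * (PP Psi z).2.1)) := by
    intro p q r hpqr
    calc |fderiv ℝ G z p q r| ≤ ‖fderiv ℝ G z‖ * ‖p‖ * ‖q‖ * ‖r‖ := DG_le G z p q r
      _ = ‖fderiv ℝ G z‖ * (‖p‖ * ‖q‖ * ‖r‖) := by ring
      _ ≤ _ := by gcongr
  have d1 := d Z e1 N (by rw [norm_e1, mul_one]; (clear * - hNn; gcongr))
  have d2 := d e1 Z N (by rw [norm_e1, one_mul]; (clear * - hNn; gcongr))
  have d3 := d N Z e1 (by rw [norm_e1, mul_one, mul_comm]; (clear * - hNn; gcongr))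
  have halg := alg_qZ hC ha.le hb.le hx1 hx2 h.bd.g11 h.bd.g12 h.bd.g22
    h.bd.om_1 h.bd.g11_3 h.bd.g12_3 h.bd.t1 h.bd.t2 h.bd.w1_1 h.bd.w1_2 h.bd.w2_1 h.bd.w2_2
  rw [← hcomb] at halg
  have hom := h.om_pos
  have homlo := h.bd.om_lo
  have hcux : cu * (|K.h1 (Psi z) (PP Psi z)| + |K.h2 (Psi z) (PP Psi z)|)
      ≤ 2 * C * (cu * ((PP Psi z).2.2.1 + (PP Psi z).2.1)) := by
    have : |K.h1 (Psi z) (PP Psi z)| + |K.h2 (Psi z) (PP Psi z)|
      ≤ 2 * C * ((PP Psi z).2.2.1 + (PP Psi z).2.1) := by linarith only [hx1, hx2]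
    calc _ ≤ cu * (2 * C * ((PP Psi z).2.2.1 + (PP Psi z).2.1)) := by (clear * - this hcu; gcongr)
      _ = _ := by ring
  have hmain : 2 * K.om (Psi z) * |(Sd Psi z Z e1).2.1|
      ≤ 3 * (‖fderiv ℝ G z‖ * (‖Z‖ * (C ^ 2 * (PP Psi z).2.1)))
        + (15 * (C ^ 3 * ((PP Psi z).2.2.1 + (PP Psi z).2.1))
          + 2 * C * (cu * ((PP Psi z).2.2.1 + (PP Psi z).2.1))) := by
    have e : 2 * K.om (Psi z) * |(Sd Psi z Z e1).2.1|
        = |2 * (-K.om (Psi z) * (Sd Psi z Z e1).2.1)| := by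
      rw [abs_mul, abs_mul, abs_neg, abs_of_pos hom, abs_of_pos (by norm_num : (0:ℝ) < 2)]; ring
    rw [e, ht]
    clear e ht hcomb
    rw [abs_le] at d1 d2 d3 halg ⊢
    obtain ⟨_, _⟩ := d1
    obtain ⟨_, _⟩ := d2
    obtain ⟨_, _⟩ := d3
    obtain ⟨_, _⟩ := halg
    constructor <;> linarith
  have hS0 := abs_nonneg (Sd Psi z Z e1).2.1
  clear d1 d2 d3 halg hcomb ht d hcux
  generalize ‖fderiv ℝ G z‖ = L at *
  have hfin : 2 * |(Sd Psi z Z e1).2.1| ≤ C * (3 * (L * (‖Z‖ * (C ^ 2 * (PP Psi z).2.1)))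
      + (15 * (C ^ 3 * ((PP Psi z).2.2.1 + (PP Psi z).2.1))
          + 2 * C * (cu * ((PP Psi z).2.2.1 + (PP Psi z).2.1)))) := by
    calc 2 * |(Sd Psi z Z e1).2.1| = 1 * (2 * |(Sd Psi z Z e1).2.1|) := by ring
      _ ≤ (C * K.om (Psi z)) * (2 * |(Sd Psi z Z e1).2.1|) := by (clear * - homlo; gcongr)
      _ = C * (2 * K.om (Psi z) * |(Sd Psi z Z e1).2.1|) := by ring
      _ ≤ _ := by (clear * - hmain hC; gcongr)
  calc |(Sd Psi z Z e1).2.1| = (1/2) * (2 * |(Sd Psi z Z e1).2.1|) := by ring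
    _ ≤ (1/2) * (C * (3 * (L * (‖Z‖ * (C ^ 2 * (PP Psi z).2.1)))
      + (15 * (C ^ 3 * ((PP Psi z).2.2.1 + (PP Psi z).2.1))
          + 2 * C * (cu * ((PP Psi z).2.2.1 + (PP Psi z).2.1))))) := by (clear * - hfin; gcongr)
    _ = 3/2 * C ^ 3 * (L * ‖Z‖ * (PP Psi z).2.1)
        + 1 * C ^ 2 * (cu * ((PP Psi z).2.2.1 + (PP Psi z).2.1))
        + 15/2 * C ^ 4 * ((PP Psi z).2.2.1 + (PP Psi z).2.1) := by
      ring
    _ ≤ 10 * C ^ 4 * (L * ‖Z‖ * (PP Psi z).2.1)
        + 10 * C ^ 4 * (cu * ((PP Psi z).2.2.1 + (PP Psi z).2.1))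
        + 10 * C ^ 4 * ((PP Psi z).2.2.1 + (PP Psi z).2.1) := by
      have c1 : C ^ 3 ≤ C ^ 4 := pow_le_pow_right₀ hC (by norm_num)
      have c2 : C ^ 2 ≤ C ^ 4 := pow_le_pow_right₀ hC (by norm_num)
      have c3 : 0 ≤ C ^ 4 := by positivity
      gcongr
      · norm_num
      · norm_num
      · norm_num
    _ = _ := by ring

lemma Su_Z (h : PtHyp K G Psi V z C cv cw cu) {N Z : P4} (hN : fderiv ℝ Psi z N = e4 K (Psi z))
    (hZ : fderiv ℝ Psi z Z = e1) :
    |(Sd Psi z Z e1).2.2.1| ≤ 40 * C ^ 4 * (‖fderiv ℝ G z‖ * ‖Z‖ * (PP Psi z).2.2.1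
      + (PP Psi z).2.2.1 + (PP Psi z).2.1)
      + C * (cv * (|K.h1 (Psi z) (PP Psi z)| + |K.h2 (Psi z) (PP Psi z)|)) := by
  have hC := h.bd.one_le
  have hC0 : 0 < C := by linarith
  have hb : 0 < (PP Psi z).2.1 := h.pos
  have ha : 0 < (PP Psi z).2.2.1 := h.sq_le.2.1
  have ht := h.iso.transf h.mem Z e1 N
  rw [hN, K.gF_symm, gF_e4, hZ] at ht
  have hcomb := comb_alphaZ K (Psi z) (PP Psi z)
  have hL := norm_nonneg (fderiv ℝ G z)
  have hZn := norm_nonneg Z
  have hNn := h.norm_N' hN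
  obtain ⟨hx1, hx2⟩ := h.abs_h_le
  rw [add_comm (PP Psi z).2.2.1] at hx1 hx2
  have hcv := h.bd.cv0
  have d : ∀ p q r : P4, ‖p‖ * ‖q‖ * ‖r‖ ≤ ‖Z‖ * (C ^ 2 * (PP Psi z).2.2.1) →
      |fderiv ℝ G z p q r| ≤ ‖fderiv ℝ G z‖ * (‖Z‖ * (C ^ 2 * (PP Psi z).2.2.1)) := by
    intro p q r hpqr
    calc |fderiv ℝ G z p q r| ≤ ‖fderiv ℝ G z‖ * ‖p‖ * ‖q‖ * ‖r‖ := DG_le G z p q r
      _ = ‖fderiv ℝ G z‖ * (‖p‖ * ‖q‖ * ‖r‖) := by ring
      _ ≤ _ := by gcongr
  have d1 := d Z e1 N (by rw [norm_e1, mul_one]; (clear * - hNn; gcongr))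
  have d2 := d e1 Z N (by rw [norm_e1, one_mul]; (clear * - hNn; gcongr))
  have d3 := d N Z e1 (by rw [norm_e1, mul_one, mul_comm]; (clear * - hNn; gcongr))
  have hom := h.om_pos
  have homlo := h.bd.om_lo
  have ht1 : |(-(fderiv ℝ K.s1 (Psi z) (e3 K (Psi z)) - fderiv ℝ K.w1 (Psi z) (e4 K (Psi z))))| ≤ C := by
    rw [abs_neg]; exact h.bd.t1
  have ht2 : |(-(fderiv ℝ K.s2 (Psi z) (e3 K (Psi z)) - fderiv ℝ K.w2 (Psi z) (e4 K (Psi z))))| ≤ C := by
    rw [abs_neg]; exact h.bd.t2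
  have halg := alg_qZ hC hb.le ha.le hx1 hx2 h.bd.g11 h.bd.g12 h.bd.g22
    h.bd.om_1 h.bd.g11_4 h.bd.g12_4 ht1 ht2 h.bd.s1_1 h.bd.s1_2 h.bd.s2_1 h.bd.s2_2
  rw [← hcomb] at halg
  have hmain : 2 * K.om (Psi z) * |(Sd Psi z Z e1).2.2.1|
      ≤ 3 * (‖fderiv ℝ G z‖ * (‖Z‖ * (C ^ 2 * (PP Psi z).2.2.1)))
        + (15 * (C ^ 3 * ((PP Psi z).2.1 + (PP Psi z).2.2.1)) + cv * (|K.h1 (Psi z) (PP Psi z)|
          + |K.h2 (Psi z) (PP Psi z)|)) := by
    have e : 2 * K.om (Psi z) * |(Sd Psi z Z e1).2.2.1|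
        = |2 * (-K.om (Psi z) * (Sd Psi z Z e1).2.2.1)| := by
      rw [abs_mul, abs_mul, abs_neg, abs_of_pos hom, abs_of_pos (by norm_num : (0:ℝ) < 2)]; ring
    rw [e, ht]
    clear e ht hcomb
    rw [abs_le] at d1 d2 d3 halg ⊢
    obtain ⟨_, _⟩ := d1
    obtain ⟨_, _⟩ := d2
    obtain ⟨_, _⟩ := d3
    obtain ⟨_, _⟩ := halg
    constructor <;> linarith
  have hS0 := abs_nonneg (Sd Psi z Z e1).2.2.1
  have hv0 : 0 ≤ cv * (|K.h1 (Psi z) (PP Psi z)| + |K.h2 (Psi z) (PP Psi z)|) := by (clear * - hcv; positivity)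
  clear d1 d2 d3 halg hcomb ht d
  generalize |K.h1 (Psi z) (PP Psi z)| + |K.h2 (Psi z) (PP Psi z)| = y at *
  generalize ‖fderiv ℝ G z‖ = L at *
  have hfin : 2 * |(Sd Psi z Z e1).2.2.1| ≤ C * (3 * (L * (‖Z‖ * (C ^ 2 * (PP Psi z).2.2.1)))
      + (15 * (C ^ 3 * ((PP Psi z).2.1 + (PP Psi z).2.2.1)) + cv * y)) := by
    calc 2 * |(Sd Psi z Z e1).2.2.1| = 1 * (2 * |(Sd Psi z Z e1).2.2.1|) := by ring
      _ ≤ (C * K.om (Psi z)) * (2 * |(Sd Psi z Z e1).2.2.1|) := by (clear * - homlo; gcongr)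
      _ = C * (2 * K.om (Psi z) * |(Sd Psi z Z e1).2.2.1|) := by ring
      _ ≤ _ := by (clear * - hmain hC; gcongr)
  calc |(Sd Psi z Z e1).2.2.1| ≤ 2 * |(Sd Psi z Z e1).2.2.1| := by linarith only [hS0]
    _ ≤ _ := hfin
    _ = 3 * C ^ 3 * (L * ‖Z‖ * (PP Psi z).2.2.1)
        + 15 * C ^ 4 * ((PP Psi z).2.2.1 + (PP Psi z).2.1) + C * (cv * y) := by
      ring
    _ ≤ 40 * C ^ 4 * (L * ‖Z‖ * (PP Psi z).2.2.1)
        + 40 * C ^ 4 * ((PP Psi z).2.2.1 + (PP Psi z).2.1) + C * (cv * y) := by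
      have c1 : C ^ 3 ≤ C ^ 4 := pow_le_pow_right₀ hC (by norm_num)
      have c3 : 0 ≤ C ^ 4 := by positivity
      gcongr
      · norm_num
      · norm_num
    _ = _ := by ring

/-- derivative of `xi` in direction `Z` -/
lemma xi_Z (h : PtHyp K G Psi V z C cv cw cu) {Z : P4} (hZ : fderiv ℝ Psi z Z = e1) :
    |(K.dgF (Psi z) e1 (PP Psi z) e1 + K.gF (Psi z) (Sd Psi z Z e1) e1)
      + (1/2) * (PP Psi z).2.1 * fderiv ℝ K.g11 (Psi z) (e4 K (Psi z))|
    ≤ 10 * C ^ 2 * (‖fderiv ℝ G z‖ * ‖Z‖ ^ 2 + cu * (PP Psi z).2.2.1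
        + (PP Psi z).2.2.1 + (PP Psi z).2.1) := by
  have hC := h.bd.one_le
  have hC0 : 0 < C := by linarith
  have hb : 0 < (PP Psi z).2.1 := h.pos
  have ha : 0 < (PP Psi z).2.2.1 := h.sq_le.2.1
  have ht := h.iso.transf h.mem Z e1 Z
  rw [hZ] at ht
  have hL := norm_nonneg (fderiv ℝ G z)
  have hZn := norm_nonneg Z
  obtain ⟨hx1, hx2⟩ := h.abs_h_le
  have hcu := h.bd.cu0
  have d1 : |fderiv ℝ G z e1 Z Z| ≤ ‖fderiv ℝ G z‖ * ‖Z‖ ^ 2 := by
    have := DG_le G z e1 Z Z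
    rw [norm_e1, mul_one] at this
    linarith only [this]
  rw [h.DG_symm Z e1 Z, dgF_symm K (Psi z) e1 e1 (fderiv ℝ Psi z e1)] at ht
  have hA := dgF_e1_P_e1 K (Psi z) (PP Psi z)
  have hB := dgF_P_e1_e1 K (Psi z) (PP Psi z)
  have hdec := clm_decomp' K (Psi z) (fderiv ℝ K.g11 (Psi z)) (PP Psi z)
  have b' : |(PP Psi z).2.1| ≤ (PP Psi z).2.1 := (abs_of_pos hb).le
  have a' : |(PP Psi z).2.2.1| ≤ (PP Psi z).2.2.1 := (abs_of_pos ha).le
  have t1 := aux_mul2 h.bd.g11_1 hx1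
  have t2 := aux_mul2 h.bd.g12_1 hx2
  have t3 := aux_mul2 b' (aux_mul2 h.bd.g11 h.bd.s1_1)
  have t4 := aux_mul2 b' (aux_mul2 h.bd.g12 h.bd.s2_1)
  have t3a := aux_mul2 a' (aux_mul2 h.bd.g11 h.bd.w1_1)
  have t4a := aux_mul2 a' (aux_mul2 h.bd.g12 h.bd.w2_1)
  have t5 := aux_mul2 hx1 h.bd.g11_1
  have t6 := aux_mul2 hx2 h.bd.g11_2
  have t7 := aux_mul2 a' h.bd.g11_3
  have e : (K.dgF (Psi z) e1 (PP Psi z) e1 + K.gF (Psi z) (Sd Psi z Z e1) e1)
      + (1/2) * (PP Psi z).2.1 * fderiv ℝ K.g11 (Psi z) (e4 K (Psi z))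
      = K.dgF (Psi z) e1 (PP Psi z) e1 + (1/2) * fderiv ℝ G z e1 Z Z
        - (1/2) * (K.h1 (Psi z) (PP Psi z) * fderiv ℝ K.g11 (Psi z) e1
          + (PP Psi z).2.2.1 * fderiv ℝ K.g11 (Psi z) (e3 K (Psi z))
          + K.h2 (Psi z) (PP Psi z) * fderiv ℝ K.g11 (Psi z) e2) := by
    have : K.dgF (Psi z) (fderiv ℝ Psi z e1) e1 e1 = fderiv ℝ K.g11 (Psi z) (PP Psi z) := hB
    rw [this, hdec] at ht
    linarith only [ht]
  rw [e, hA, mul_add ((PP Psi z).2.1), mul_add ((PP Psi z).2.2.1)]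
  clear e hA hB hdec ht
  generalize fderiv ℝ K.g11 (Psi z) e1 * K.h1 (Psi z) (PP Psi z) = q1 at *
  generalize fderiv ℝ K.g12 (Psi z) e1 * K.h2 (Psi z) (PP Psi z) = q2 at *
  generalize (PP Psi z).2.1 * (K.g11 (Psi z) * fderiv ℝ K.s1 (Psi z) e1) = q3 at *
  generalize (PP Psi z).2.1 * (K.g12 (Psi z) * fderiv ℝ K.s2 (Psi z) e1) = q4 at *
  generalize (PP Psi z).2.2.1 * (K.g11 (Psi z) * fderiv ℝ K.w1 (Psi z) e1) = q3a at *
  generalize (PP Psi z).2.2.1 * (K.g12 (Psi z) * fderiv ℝ K.w2 (Psi z) e1) = q4a at *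
  generalize K.h1 (Psi z) (PP Psi z) * fderiv ℝ K.g11 (Psi z) e1 = q5 at *
  generalize K.h2 (Psi z) (PP Psi z) * fderiv ℝ K.g11 (Psi z) e2 = q6 at *
  generalize (PP Psi z).2.2.1 * fderiv ℝ K.g11 (Psi z) (e3 K (Psi z)) = q7 at *
  generalize fderiv ℝ G z e1 Z Z = q8 at *
  set a := (PP Psi z).2.2.1 with hadef
  set b := (PP Psi z).2.1 with hbdef
  set Q := ‖fderiv ℝ G z‖ * ‖Z‖ ^ 2 with hQ
  have hQ0 : 0 ≤ Q := by positivity
  have hR0 : 0 ≤ cu * a := by (clear * - hcu ha; positivity)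
  clear_value Q a b
  have m0 : 1 ≤ C ^ 2 := one_le_pow₀ hC
  have m1 : Q ≤ C ^ 2 * Q := le_mul_of_one_le_left hQ0 m0
  have m2 : cu * a ≤ C ^ 2 * (cu * a) := le_mul_of_one_le_left hR0 m0
  have t1' : C * (C * (a + b)) = C ^ 2 * (a + b) := by ring
  have t3' : b * (C * C) = C ^ 2 * b := by ring
  have t3a' : a * (C * C) = C ^ 2 * a := by ring
  have t5' : C * (a + b) * C = C ^ 2 * (a + b) := by ring
  have t7' : a * cu = cu * a := by ring
  rw [t1'] at t1 t2
  rw [t3'] at t3 t4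
  rw [t3a'] at t3a t4a
  rw [t5'] at t5 t6
  rw [t7'] at t7
  have e2 : 10 * C ^ 2 * (Q + cu * a + a + b) = 10 * (C ^ 2 * Q) + 10 * (C ^ 2 * (cu * a))
     + 10 * (C ^ 2 * (a + b)) := by ring
  rw [e2]
  have m3 : C ^ 2 * b ≤ C ^ 2 * (a + b) := by
    apply mul_le_mul_of_nonneg_left _ (by positivity); linarith only [ha]
  have m3a : C ^ 2 * a ≤ C ^ 2 * (a + b) := by
    apply mul_le_mul_of_nonneg_left _ (by positivity); linarith only [hb]
  have m4 : 0 ≤ C ^ 2 * b := by positivity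
  have m4a : 0 ≤ C ^ 2 * a := by positivity
  clear * - t1 t2 t3 t4 t3a t4a t5 t6 t7 d1 m1 m2 m3 m4 m3a m4a hQ0 hR0
  generalize C ^ 2 * (a + b) = r1 at *
  generalize C ^ 2 * b = r2 at *
  generalize C ^ 2 * a = r2a at *
  generalize C ^ 2 * Q = r3 at *
  generalize C ^ 2 * (cu * a) = r4 at *
  generalize cu * a = r5 at *
  rw [abs_le] at t1 t2 t3 t4 t3a t4a t5 t6 t7 d1 ⊢
  obtain ⟨_, _⟩ := t1
  obtain ⟨_, _⟩ := t2
  obtain ⟨_, _⟩ := t3
  obtain ⟨_, _⟩ := t4
  obtain ⟨_, _⟩ := t3a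
  obtain ⟨_, _⟩ := t4a
  obtain ⟨_, _⟩ := t5
  obtain ⟨_, _⟩ := t6
  obtain ⟨_, _⟩ := t7
  obtain ⟨_, _⟩ := d1
  constructor <;> linarith

end PtHyp

end Vale.Agent.P354w
end
end

section

section

set_option maxSynthPendingDepth 3

open Set MeasureTheory Filter

namespace Vale.Agent.P354x

open Vale.Agent.P354w PreHyp CoreHyp

/-- insertion of the `v` coordinate; `y = (th1, u, th2)` -/
def ins (v : ℝ) (y : P3) : P4 := (y.1, v, y.2.1, y.2.2)

lemma hasDerivAt_ins (y : P3) (v : ℝ) : HasDerivAt (fun v => ins v y) ev v := by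
  have h1 : HasDerivAt (fun v : ℝ => ((v, y.2.1, y.2.2) : ℝ × ℝ × ℝ)) (1, 0, 0) v :=
    (hasDerivAt_id v).prodMk (hasDerivAt_const v _)
  exact (hasDerivAt_const v y.1).prodMk h1

lemma continuous_ins : Continuous (fun p : ℝ × P3 => ins p.1 p.2) := by
  unfold ins; fun_prop

/-- the sum of the two frame components -/
noncomputable def QQ (Psi : P4 → P4) (z : P4) : ℝ :=
  (fderiv ℝ Psi z e1).2.2.1 + (fderiv ℝ Psi z e1).2.1

variable {K : Coef} {G : P4 → P4 →L[ℝ] P4 →L[ℝ] ℝ} {Psi : P4 → P4} {V U : Set P4}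
    {C R : ℝ} {cv cw cu : ℝ → ℝ} {t0 r : ℝ} {f : P3 → ℝ}

lemma QQ_pos (h : PreHyp K G Psi V U C R cv cw cu t0 r f) {z : P4} (hz : z ∈ V) :
    0 < QQ Psi z := add_pos (h.pt hz).sq_le.2.1 (h.pos z hz)

lemma contAt_QQ (h : PreHyp K G Psi V U C R cv cw cu t0 r f) {z : P4} (hz : z ∈ V) :
    ContinuousAt (QQ Psi) z := by
  have h1 := (h.contDiffAt_P hz e1).continuousAt
  exact h1.snd.snd.fst.add h1.snd.fst

/-- the direction of the generators on the exotic side -/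
noncomputable def Xf (Psi : P4 → P4) (V : Set P4) (z : P4) : P4 :=
  fderiv ℝ (Phi Psi V) (Psi z) ev

lemma Xf_spec (h : PreHyp K G Psi V U C R cv cw cu t0 r f) {z : P4} (hz : z ∈ V) :
    fderiv ℝ Psi z (Xf Psi V z) = ev := by
  rw [Xf, (h.hasFDerivAt_Phi hz).fderiv, ← h.Aeq_apply hz]
  simp

lemma hasDerivAt_gen (h : PreHyp K G Psi V U C R cv cw cu t0 r f) {z : P4} (hz : z ∈ V)
    {v : ℝ} {y : P3} (hzy : Psi z = ins v y) :
    HasDerivAt (fun v => Phi Psi V (ins v y)) (Xf Psi V z) v := by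
  have h1 : HasFDerivAt (Phi Psi V) (fderiv ℝ (Phi Psi V) (Psi z)) (ins v y) := by
    rw [← hzy]; exact (h.hasFDerivAt_Phi hz).differentiableAt.hasFDerivAt
  exact h1.comp_hasDerivAt v (hasDerivAt_ins y v)

lemma hasDerivAt_PPgen (h : PreHyp K G Psi V U C R cv cw cu t0 r f) {z : P4} (hz : z ∈ V)
    {v : ℝ} {y : P3} (hzy : Psi z = ins v y) :
    HasDerivAt (fun v => fderiv ℝ Psi (Phi Psi V (ins v y)) e1)
      (Sd Psi z (Xf Psi V z) e1) v := by
  have h0 : Phi Psi V (ins v y) = z := by rw [← hzy]; exact h.Phi_left hz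
  have h1 := hasDerivAt_gen h hz hzy
  have h2 : HasFDerivAt (fderiv ℝ Psi) (fderiv ℝ (fderiv ℝ Psi) z) (Phi Psi V (ins v y)) := by
    rw [h0]; exact h.iso.hasFDerivAt_fderiv hz
  have h3 : HasDerivAt (fun v => fderiv ℝ Psi (Phi Psi V (ins v y)))
      (fderiv ℝ (fderiv ℝ Psi) z (Xf Psi V z)) v := h2.comp_hasDerivAt v h1
  have h4 := h3.clm_apply (hasDerivAt_const v e1)
  have e : fderiv ℝ (fderiv ℝ Psi) z (Xf Psi V z) e1
      + fderiv ℝ Psi (Phi Psi V (ins v y)) 0 = Sd Psi z (Xf Psi V z) e1 := by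
    rw [map_zero, add_zero]; rfl
  rw [e] at h4
  exact h4

lemma hasDerivAt_QQ (h : PreHyp K G Psi V U C R cv cw cu t0 r f) {z : P4} (hz : z ∈ V)
    {v : ℝ} {y : P3} (hzy : Psi z = ins v y) :
    HasDerivAt (fun v => QQ Psi (Phi Psi V (ins v y)))
      ((Sd Psi z (Xf Psi V z) e1).2.1 + (Sd Psi z (Xf Psi V z) e1).2.2.1) v := by
  have h4 := hasDerivAt_PPgen h hz hzy
  generalize Sd Psi z (Xf Psi V z) e1 = S at *
  have h5 : HasDerivAt (fun v => (fderiv ℝ Psi (Phi Psi V (ins v y)) e1).2.2.1) S.2.2.1 v :=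
    h4.snd.snd.fst
  have h6 : HasDerivAt (fun v => (fderiv ℝ Psi (Phi Psi V (ins v y)) e1).2.1) S.2.1 v :=
    h4.snd.fst
  have h7 := h5.add h6
  rw [add_comm S.2.1]
  exact h7

/-- `|dG|` along the generators, extended by zero -/
noncomputable def Lh (G : P4 → P4 →L[ℝ] P4 →L[ℝ] ℝ) (Psi : P4 → P4) (V : Set P4) (t0 r : ℝ)
    (f : P3 → ℝ) : P4 → ENNReal :=
  (Psi '' DD t0 r f).indicator (fun y => ‖fderiv ℝ G (Phi Psi V y)‖ₑ)

lemma norm_Xf (h : PreHyp K G Psi V U C R cv cw cu t0 r f) (hw : ∀ y ∈ U, PtW K y C) {z : P4}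
    (hz : z ∈ V) : ‖Xf Psi V z‖ ≤ 20 * C ^ 7 * QQ Psi z :=
  norm_Xv (h.pt hz) (hw _ (h.maps hz)).s1 (hw _ (h.maps hz)).s2 (Xf_spec h hz)

lemma deriv_QQ (h : PreHyp K G Psi V U C R cv cw cu t0 r f) (hw : ∀ y ∈ U, PtW K y C) {z : P4}
    (hz : z ∈ V) :
    |(Sd Psi z (Xf Psi V z) e1).2.1 + (Sd Psi z (Xf Psi V z) e1).2.2.1| ≤ 800 * C ^ 12 *
      (QQ Psi z * ((1 + cv (Psi z).2.1 + cw (Psi z).2.1 + cu (Psi z).2.2.1)
        + ‖fderiv ℝ G z‖ * QQ Psi z)) := by
  obtain ⟨N3, hN3⟩ := h.exists_pre hz (e3 K (Psi z))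
  obtain ⟨N4, hN4⟩ := h.exists_pre hz (e4 K (Psi z))
  exact S_q (h.pt hz) (hw _ (h.maps hz)) (Xf_spec h hz) hN3 hN4

/-- Growth of `QQ` along a piece of a generator. -/
lemma log_QQ (h : PreHyp K G Psi V U C R cv cw cu t0 r f) (hw : ∀ y ∈ U, PtW K y C)
    {y : P3} {v0 v1 κ : ℝ} (hv : v0 ≤ v1) (hκ : 0 ≤ κ)
    (hin : ∀ v ∈ Icc v0 v1, ∃ z ∈ DD t0 r f, Psi z = ins v y ∧ QQ Psi z ≤ κ) :
    ENNReal.ofReal |Real.log (QQ Psi (Phi Psi V (ins v1 y)))
        - Real.log (QQ Psi (Phi Psi V (ins v0 y)))| ≤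
      ENNReal.ofReal (800 * C ^ 12) * ((∫⁻ v in Icc v0 v1, ENNReal.ofReal
        (1 + cv v + cw v + cu y.2.1)) + ENNReal.ofReal κ *
          ∫⁻ v in Icc v0 v1, Lh G Psi V t0 r f (ins v y)) := by
  have hlog := log_bound (q := fun v => QQ Psi (Phi Psi V (ins v y)))
    (q' := fun v => (Sd Psi (Phi Psi V (ins v y)) (Xf Psi V (Phi Psi V (ins v y))) e1).2.1 +
      (Sd Psi (Phi Psi V (ins v y)) (Xf Psi V (Phi Psi V (ins v y))) e1).2.2.1)
    (a := v0) (b := v1) hv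
    (W := fun v => ENNReal.ofReal (800 * C ^ 12) * (ENNReal.ofReal
        (1 + cv v + cw v + cu y.2.1) + ENNReal.ofReal κ * Lh G Psi V t0 r f (ins v y)))
    (by
      intro v hvm
      obtain ⟨z, hz, hzy, _⟩ := hin v hvm
      have hzV := h.DD_sub hz
      have h0 : Phi Psi V (ins v y) = z := by rw [← hzy]; exact h.Phi_left hzV
      have h1 := hasDerivAt_QQ h hzV hzy
      rw [h0]
      exact h1)
    (by
      intro v hvm
      obtain ⟨z, hz, hzy, _⟩ := hin v hvm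
      have hzV := h.DD_sub hz
      have h0 : Phi Psi V (ins v y) = z := by rw [← hzy]; exact h.Phi_left hzV
      apply ContinuousAt.continuousWithinAt
      have c1 : ContinuousAt (fun v => Phi Psi V (ins v y)) v :=
        (hasDerivAt_gen h hzV hzy).continuousAt
      have c2 : ContinuousAt (fderiv ℝ (fderiv ℝ Psi)) (Phi Psi V (ins v y)) := by
        rw [h0]
        have h3 : ContDiffAt ℝ 0 (fderiv ℝ (fderiv ℝ Psi)) z :=
          (h.iso.contDiffAt_fderiv hzV).fderiv_right (by norm_num)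
        exact h3.continuousAt
      have c3 : ContinuousAt (fun v => fderiv ℝ (fderiv ℝ Psi) (Phi Psi V (ins v y))) v :=
        ContinuousAt.comp (g := fderiv ℝ (fderiv ℝ Psi)) (f := fun v => Phi Psi V (ins v y)) c2 c1
      have c4 : ContinuousAt (fderiv ℝ (Phi Psi V)) (ins v y) := by
        rw [← hzy]
        have h3 : ContDiffAt ℝ 0 (fderiv ℝ (Phi Psi V)) (Psi z) :=
          (h.contDiffAt_Phi hzV).fderiv_right (by norm_num)
        exact h3.continuousAt
      have c5 : ContinuousAt (fun v => fderiv ℝ (Phi Psi V) (ins v y) ev) v :=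
        (ContinuousAt.comp (g := fderiv ℝ (Phi Psi V)) (f := fun v => ins v y) c4
          (hasDerivAt_ins y v).continuousAt).clm_apply continuousAt_const
      have c6 : ContinuousAt (fun v => Xf Psi V (Phi Psi V (ins v y))) v := by
        apply c5.congr
        have o1 : ∀ᶠ w in nhds v, ins w y ∈ Psi '' DD t0 r f :=
          (hasDerivAt_ins y v).continuousAt.eventually
            ((h.isOpen_image h.openD h.DD_sub).mem_nhds
              (show ins v y ∈ _ by rw [← hzy]; exact mem_image_of_mem _ hz))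
        filter_upwards [o1] with w hwm
        obtain ⟨z', hz', hz'y⟩ := hwm
        rw [Xf, ← hz'y, h.Phi_left (h.DD_sub hz')]
      have c7 : ContinuousAt (fun v => Sd Psi (Phi Psi V (ins v y))
          (Xf Psi V (Phi Psi V (ins v y))) e1) v :=
        (c3.clm_apply c6).clm_apply continuousAt_const
      exact c7.snd.fst.add c7.snd.snd.fst)
    (by
      intro v hvm
      obtain ⟨z, hz, hzy, _⟩ := hin v hvm
      have hzV := h.DD_sub hz
      have h0 : Phi Psi V (ins v y) = z := by rw [← hzy]; exact h.Phi_left hzV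
      show 0 < QQ Psi (Phi Psi V (ins v y))
      rw [h0]; exact QQ_pos h hzV)
    (by
      intro v hvm
      obtain ⟨z, hz, hzy, hzκ⟩ := hin v hvm
      have hzV := h.DD_sub hz
      have h0 : Phi Psi V (ins v y) = z := by rw [← hzy]; exact h.Phi_left hzV
      have hq := QQ_pos h hzV
      have hd := deriv_QQ h hw hzV
      have hC : 1 ≤ C := (h.pt hzV).bd.one_le
      have hcv := (h.pt hzV).bd.cv0
      have hcw := (h.pt hzV).bd.cw0
      have hcu := (h.pt hzV).bd.cu0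
      rw [hzy] at hd hcv hcw hcu
      simp only [ins] at hd hcv hcw hcu
      have hL : Lh G Psi V t0 r f (ins v y) = ‖fderiv ℝ G z‖ₑ := by
        rw [Lh, indicator_of_mem (by rw [← hzy]; exact mem_image_of_mem _ hz), h0]
      have hLn := norm_nonneg (fderiv ℝ G z)
      simp only [h0]
      have h1 : |(Sd Psi z (Xf Psi V z) e1).2.1 + (Sd Psi z (Xf Psi V z) e1).2.2.1| / QQ Psi z ≤
          800 * C ^ 12 * ((1 + cv v + cw v + cu y.2.1) + κ * ‖fderiv ℝ G z‖) := by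
        rw [div_le_iff₀ hq]
        refine hd.trans ?_
        have : ‖fderiv ℝ G z‖ * QQ Psi z ≤ κ * ‖fderiv ℝ G z‖ := by
          rw [mul_comm κ]; gcongr
        calc 800 * C ^ 12 * (QQ Psi z * ((1 + cv v + cw v + cu y.2.1)
              + ‖fderiv ℝ G z‖ * QQ Psi z))
            ≤ 800 * C ^ 12 * (QQ Psi z * ((1 + cv v + cw v + cu y.2.1)
              + κ * ‖fderiv ℝ G z‖)) := by (clear * - this hq hC; gcongr)
          _ = _ := by ring
      refine (ENNReal.ofReal_le_ofReal h1).trans (le_of_eq ?_)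
      rw [hL, ENNReal.ofReal_mul (by positivity), ENNReal.ofReal_add (by (clear * - hcv hcw hcu; positivity))
        (by (clear * - hκ; (clear * - hκ; positivity))), ENNReal.ofReal_mul hκ, ofReal_norm])
  refine hlog.trans (le_of_eq ?_)
  rw [lintegral_const_mul' _ _ ENNReal.ofReal_ne_top]
  congr 1
  rw [lintegral_add_left, lintegral_const_mul' _ _ ENNReal.ofReal_ne_top]
  exact (((measurable_const.add h.cv_meas).add h.cw_meas).add measurable_const).ennreal_ofReal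

end Vale.Agent.P354x
end
end

section

section

set_option maxSynthPendingDepth 3

open Set MeasureTheory Filter Topology

namespace Vale.Agent.P354x

open Vale.Agent.P354w PreHyp CoreHyp

variable {K : Coef} {G : P4 → P4 →L[ℝ] P4 →L[ℝ] ℝ} {Psi : P4 → P4} {V U : Set P4}
    {C R : ℝ} {cv cw cu : ℝ → ℝ} {t0 r : ℝ} {f : P3 → ℝ}

lemma isOpen_good (h : PreHyp K G Psi V U C R cv cw cu t0 r f) (r2 κ : ℝ) :
    IsOpen (DD t0 r f ∩ {z | ‖z.2‖ < r2 ∧ QQ Psi z < κ}) := by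
  have hc : ContinuousOn (QQ Psi) (DD t0 r f) := fun z hz =>
    (contAt_QQ h (h.DD_sub hz)).continuousWithinAt
  have h1 := hc.isOpen_inter_preimage h.openD (isOpen_Iio (a := κ))
  have h2 : IsOpen {z : P4 | ‖z.2‖ < r2} :=
    isOpen_lt (continuous_norm.comp continuous_snd) continuous_const
  have e : DD t0 r f ∩ {z | ‖z.2‖ < r2 ∧ QQ Psi z < κ} =
      {z : P4 | ‖z.2‖ < r2} ∩ (DD t0 r f ∩ QQ Psi ⁻¹' Iio κ) := by
    ext z
    constructor
    · rintro ⟨h1, h2, h3⟩; exact ⟨h2, h1, h3⟩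
    · rintro ⟨h1, h2, h3⟩; exact ⟨h2, h1, h3⟩
  rw [e]
  exact h2.inter h1

/-- continuation of good generators -/
theorem gen_cont (h : CoreHyp K G Psi V U C R cv cw cu t0 r f) (hw : ∀ y ∈ U, PtW K y C)
    {y : P3} {v0 κ r1 r2 : ℝ} (hr2 : r2 < r) (hv0 : v0 < 0) (hκ : 0 < κ)
    (hvlo : ∀ x : P3, ‖x‖ ≤ r2 → (Psi (t0, x)).2.1 ≤ v0)
    (hstart : ∃ z ∈ DD t0 r f, Psi z = ins v0 y ∧ ‖z.2‖ ≤ r1 ∧ QQ Psi z ≤ κ)
    (hdist : r1 + 40 * C ^ 7 * κ * (-v0) < r2)
    (hgr : ENNReal.ofReal (800 * C ^ 12) * ((∫⁻ v in Ico v0 0, ENNReal.ofReal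
        (1 + cv v + cw v + cu y.2.1)) + ENNReal.ofReal (2 * κ) *
          ∫⁻ v in Ico v0 0, Lh G Psi V t0 r f (ins v y)) < ENNReal.ofReal (Real.log 2)) :
    ∀ v ∈ Ico v0 0, ∃ z ∈ DD t0 r f, Psi z = ins v y ∧ ‖z.2‖ ≤ r2 ∧ QQ Psi z ≤ 2 * κ := by
  have hpre : PreHyp K G Psi V U C R cv cw cu t0 r f := h.toPreHyp
  obtain ⟨z0, hz0, hz0y, hz0n, hz0q⟩ := hstart
  have hC : 1 ≤ C := (h.pt (h.DD_sub hz0)).bd.one_le
  set W : Set P4 := DD t0 r f ∩ {z | ‖z.2‖ < r2 ∧ QQ Psi z < 2 * κ} with hW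
  have hWo : IsOpen (Psi '' W) := h.isOpen_image (isOpen_good hpre r2 (2 * κ))
    (fun z hz => h.DD_sub hz.1)
  set Gd : Set ℝ := (fun v => ins v y) ⁻¹' (Psi '' W) with hGd
  have hcins : Continuous (fun v => ins v y) := by unfold ins; fun_prop
  have hGo : IsOpen Gd := hWo.preimage hcins
  have hpos : 0 ≤ 40 * C ^ 7 * κ := by positivity
  have hr12 : r1 < r2 := by
    have : 0 ≤ 40 * C ^ 7 * κ * (-v0) := mul_nonneg hpos (by linarith only [hv0])
    linarith only [hdist, this]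
  have hv0G : v0 ∈ Gd := ⟨z0, ⟨hz0, lt_of_le_of_lt hz0n hr12, by linarith⟩, hz0y⟩
  suffices hall : ∀ v ∈ Ico v0 0, v ∈ Gd by
    intro v hv
    obtain ⟨z, ⟨hz, hzn, hzq⟩, hzy⟩ := hall v hv
    exact ⟨z, hz, hzy, hzn.le, hzq.le⟩
  intro v1 hv1
  by_contra hcon
  have hcomp : IsCompact (Icc v0 v1 ∩ Gdᶜ) := isCompact_Icc.inter_right hGo.isClosed_compl
  obtain ⟨vs, ⟨⟨hs0, hs1⟩, hsG⟩, hleast⟩ := hcomp.exists_isLeast ⟨v1, ⟨hv1.1, le_refl _⟩, hcon⟩
  have hlt0 : v0 < vs := by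
    rcases lt_or_eq_of_le hs0 with h1 | h1
    · exact h1
    · exact absurd (h1 ▸ hv0G) hsG
  have hvs0 : vs < 0 := lt_of_le_of_lt hs1 hv1.2
  have hbelow : ∀ v ∈ Ico v0 vs, v ∈ Gd := by
    intro v hv
    by_contra hc
    have := hleast ⟨⟨hv.1, hv.2.le.trans hs1⟩, hc⟩
    exact absurd hv.2 (not_lt.mpr this)
  -- the end point
  have hcl : IsClosed ((fun v => ins v y) ⁻¹' (Psi '' KK Psi t0 r2 f vs)) :=
    (h.isCompact_image_KK hr2 hvs0).isClosed.preimage hcins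
  have hsub : Ico v0 vs ⊆ (fun v => ins v y) ⁻¹' (Psi '' KK Psi t0 r2 f vs) := by
    intro v hv
    obtain ⟨z, ⟨hz, hzn, hzq⟩, hzy⟩ := hbelow v hv
    refine ⟨z, ⟨hzn.le, hz.2.1.le, hz.2.2, ?_⟩, hzy⟩
    rw [hzy]; exact hv.2.le
  have hcl2 := closure_minimal hsub hcl
  rw [closure_Ico hlt0.ne] at hcl2
  obtain ⟨zs, hzsK, hzsy⟩ := hcl2 (right_mem_Icc.mpr hlt0.le)
  have hzsy' : Psi zs = ins vs y := hzsy
  have hzsv : (Psi zs).2.1 = vs := by rw [hzsy']; rfl
  have hzsD : zs ∈ DD t0 r f := CoreHyp.mem_DD_of_KK hr2 hvlo hzsK (by rw [hzsv]; exact hlt0)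
  have hzsV := h.DD_sub hzsD
  have hin0 : ∀ v ∈ Icc v0 vs, ∃ z ∈ DD t0 r f, Psi z = ins v y := by
    intro v hv
    rcases lt_or_eq_of_le hv.2 with h1 | h1
    · obtain ⟨z, ⟨hz, _, _⟩, hzy⟩ := hbelow v ⟨hv.1, h1⟩
      exact ⟨z, hz, hzy⟩
    · rw [h1]; exact ⟨zs, hzsD, hzsy'⟩
  have hPs : Phi Psi V (ins vs y) = zs := by rw [← hzsy']; exact h.Phi_left hzsV
  have hP0 : Phi Psi V (ins v0 y) = z0 := by rw [← hz0y]; exact h.Phi_left (h.DD_sub hz0)
  have hqs : QQ Psi zs ≤ 2 * κ := by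
    have hc : Tendsto (fun v => QQ Psi (Phi Psi V (ins v y))) (𝓝[<] vs) (𝓝 (QQ Psi zs)) := by
      have h1 := (hasDerivAt_QQ hpre hzsV hzsy').continuousAt
      have h2 : Tendsto (fun v => QQ Psi (Phi Psi V (ins v y))) (𝓝 vs)
          (𝓝 (QQ Psi (Phi Psi V (ins vs y)))) := h1
      rw [hPs] at h2
      exact h2.mono_left nhdsWithin_le_nhds
    apply le_of_tendsto hc
    have : Ioo v0 vs ∈ 𝓝[<] vs := Ioo_mem_nhdsLT hlt0
    filter_upwards [this] with v hv
    obtain ⟨z, ⟨hz, _, hzq⟩, hzy⟩ := hbelow v ⟨hv.1.le, hv.2⟩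
    have hzy' : Psi z = ins v y := hzy
    have : Phi Psi V (ins v y) = z := by rw [← hzy']; exact h.Phi_left (h.DD_sub hz)
    rw [this]; exact hzq.le
  have hin : ∀ v ∈ Icc v0 vs, ∃ z ∈ DD t0 r f, Psi z = ins v y ∧ QQ Psi z ≤ 2 * κ := by
    intro v hv
    rcases lt_or_eq_of_le hv.2 with h1 | h1
    · obtain ⟨z, ⟨hz, _, hzq⟩, hzy⟩ := hbelow v ⟨hv.1, h1⟩
      exact ⟨z, hz, hzy, hzq.le⟩
    · rw [h1]; exact ⟨zs, hzsD, hzsy', hqs⟩
  -- displacement
  have hmv := norm_image_sub_le_of_norm_deriv_le_segment' (a := v0) (b := vs)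
    (f := fun v => Phi Psi V (ins v y)) (f' := fun v => Xf Psi V (Phi Psi V (ins v y)))
    (C := 40 * C ^ 7 * κ)
    (by
      intro v hv
      obtain ⟨z, hz, hzy⟩ := hin0 v hv
      have h0 : Phi Psi V (ins v y) = z := by rw [← hzy]; exact h.Phi_left (h.DD_sub hz)
      rw [h0]
      exact (hasDerivAt_gen hpre (h.DD_sub hz) hzy).hasDerivWithinAt)
    (by
      intro v hv
      obtain ⟨z, hz, hzy, hzq⟩ := hin v ⟨hv.1, hv.2.le⟩
      have h0 : Phi Psi V (ins v y) = z := by rw [← hzy]; exact h.Phi_left (h.DD_sub hz)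
      rw [h0]
      refine (norm_Xf hpre hw (h.DD_sub hz)).trans ?_
      calc 20 * C ^ 7 * QQ Psi z ≤ 20 * C ^ 7 * (2 * κ) := by (clear * - hzq hC; gcongr)
        _ = _ := by ring) vs (right_mem_Icc.mpr hlt0.le)
  simp only [hPs, hP0] at hmv
  have hn : ‖zs.2‖ < r2 := by
    have h1 : ‖zs.2‖ ≤ ‖z0.2‖ + ‖(zs - z0).2‖ := by
      have : zs.2 = z0.2 + (zs - z0).2 := by simp
      calc ‖zs.2‖ = ‖z0.2 + (zs - z0).2‖ := by rw [← this]
        _ ≤ _ := norm_add_le _ _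
    have h2 : ‖(zs - z0).2‖ ≤ ‖zs - z0‖ := norm_snd_le _
    have h3 : 40 * C ^ 7 * κ * (vs - v0) ≤ 40 * C ^ 7 * κ * (-v0) := by
      apply mul_le_mul_of_nonneg_left _ hpos; linarith only [hvs0]
    linarith only [hdist, hz0n, hmv, h1, h2, h3]
  -- growth
  have hlog := log_QQ hpre hw hlt0.le (by linarith only [hκ] : (0:ℝ) ≤ 2 * κ) hin
  rw [hPs, hP0] at hlog
  have hlog2 : ENNReal.ofReal |Real.log (QQ Psi zs) - Real.log (QQ Psi z0)| <
      ENNReal.ofReal (Real.log 2) := by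
    refine lt_of_le_of_lt (hlog.trans ?_) hgr
    have hsub2 : Icc v0 vs ⊆ Ico v0 0 := fun v hv => ⟨hv.1, lt_of_le_of_lt hv.2 hvs0⟩
    (clear * - hsub2; gcongr)
  rw [ENNReal.ofReal_lt_ofReal_iff (Real.log_pos (by norm_num))] at hlog2
  have hq0 : 0 < QQ Psi z0 := QQ_pos hpre (h.DD_sub hz0)
  have hqs0 : 0 < QQ Psi zs := QQ_pos hpre hzsV
  have hlt : Real.log (QQ Psi zs) < Real.log (2 * QQ Psi z0) := by
    rw [Real.log_mul (by norm_num) hq0.ne']
    have := (abs_lt.mp hlog2).2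
    linarith only [this]
  have hfin : QQ Psi zs < 2 * QQ Psi z0 :=
    (Real.log_lt_log_iff hqs0 (by (clear * - hq0; positivity))).mp hlt
  exact hsG ⟨zs, ⟨hzsD, hn, by linarith only [hz0q, hfin]⟩, hzsy'⟩

end Vale.Agent.P354x
end
end

section

section

set_option maxSynthPendingDepth 3

open Set MeasureTheory Filter Topology

namespace Vale.Agent.P354x

open Vale.Agent.P354w

lemma vol_ball (y : P3) {ρ : ℝ} (hρ : 0 ≤ ρ) :
    volume (Metric.ball y ρ) = ENNReal.ofReal (8 * ρ ^ 3) := by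
  obtain ⟨a, b, c⟩ := y
  have e1 : Metric.ball ((a, b, c) : P3) ρ = Metric.ball a ρ ×ˢ Metric.ball ((b, c) : ℝ × ℝ) ρ :=
    (ball_prod_same a (b, c) ρ).symm
  have e2 : Metric.ball ((b, c) : ℝ × ℝ) ρ = Metric.ball b ρ ×ˢ Metric.ball c ρ :=
    (ball_prod_same b c ρ).symm
  rw [e1, Measure.volume_eq_prod, Measure.prod_prod, e2, Measure.volume_eq_prod,
    Measure.prod_prod, Real.volume_ball, Real.volume_ball, Real.volume_ball,
    ← ENNReal.ofReal_mul (by positivity), ← ENNReal.ofReal_mul (by positivity)]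
  congr 1
  ring

/-- the set where `y` is in the ball of radius `ε v` about `y0` -/
def Es (ε : ℝ → ℝ) : Set (P3 × ℝ × P3) := {p | ‖p.2.2 - p.1‖ < ε p.2.1}

lemma Es_1 (ε : ℝ → ℝ) (y0 y : P3) (v : ℝ) : (Es ε).indicator (fun _ => (1:ENNReal)) (y0, v, y) =
    (Metric.ball y (ε v)).indicator (fun _ => 1) y0 := by
  by_cases hy : ‖y - y0‖ < ε v
  · have h1 : (y0, v, y) ∈ Es ε := hy
    have h2 : y0 ∈ Metric.ball y (ε v) := by rw [Metric.mem_ball, dist_comm, dist_eq_norm]; exact hy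
    rw [indicator_of_mem h1, indicator_of_mem h2]
  · have h1 : (y0, v, y) ∉ Es ε := hy
    have h2 : y0 ∉ Metric.ball y (ε v) := by rw [Metric.mem_ball, dist_comm, dist_eq_norm]; exact hy
    rw [indicator_of_notMem h1, indicator_of_notMem h2]

lemma Es_2 (ε : ℝ → ℝ) (y0 y : P3) (v : ℝ) : (Es ε).indicator (fun _ => (1:ENNReal)) (y0, v, y) =
    (Metric.ball y0 (ε v)).indicator (fun _ => 1) y := by
  by_cases hy : ‖y - y0‖ < ε v
  · have h1 : (y0, v, y) ∈ Es ε := hy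
    have h2 : y ∈ Metric.ball y0 (ε v) := by rw [Metric.mem_ball, dist_eq_norm]; exact hy
    rw [indicator_of_mem h1, indicator_of_mem h2]
  · have h1 : (y0, v, y) ∉ Es ε := hy
    have h2 : y ∉ Metric.ball y0 (ε v) := by rw [Metric.mem_ball, dist_eq_norm]; exact hy
    rw [indicator_of_notMem h1, indicator_of_notMem h2]

lemma measurable_Es {ε : ℝ → ℝ} (hε : Measurable ε) : MeasurableSet (Es ε) := by
  have h1 : Measurable (fun p : P3 × ℝ × P3 => ‖p.2.2 - p.1‖) := by (clear * -; fun_prop)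
  have h2 : Measurable (fun p : P3 × ℝ × P3 => ε p.2.1) := by fun_prop
  exact measurableSet_lt h1 h2

/-- the localised density -/
noncomputable def FF (L : ℝ → P3 → ENNReal) (ε : ℝ → ℝ) (y0 : P3) (v : ℝ) (y : P3) : ENNReal :=
  ENNReal.ofReal (8 * (ε v)⁻¹ ^ 3) * ((Es ε).indicator (fun _ => 1) (y0, v, y) * L v y ^ 2)

variable {L : ℝ → P3 → ENNReal} {ε : ℝ → ℝ}

lemma measurable_FF (hL : Measurable (fun p : ℝ × P3 => L p.1 p.2)) (hε : Measurable ε) :
    Measurable (fun p : P3 × ℝ × P3 => FF L ε p.1 p.2.1 p.2.2) := by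
  have h1 : Measurable (fun p : P3 × ℝ × P3 => ENNReal.ofReal (8 * (ε p.2.1)⁻¹ ^ 3)) := by
    fun_prop
  have h3 : Measurable (fun p : P3 × ℝ × P3 => L p.2.1 p.2.2 ^ 2) :=
    (hL.comp measurable_snd).pow_const 2
  exact h1.mul ((measurable_const.indicator (measurable_Es hε)).mul h3)

lemma measurable_FF' (hL : Measurable (fun p : ℝ × P3 => L p.1 p.2)) (hε : Measurable ε) :
    Measurable (fun p : (P3 × ℝ) × P3 => FF L ε p.1.1 p.1.2 p.2) := by
  have h := measurable_FF hL hε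
  have e1 : Measurable (fun p : (P3 × ℝ) × P3 => p.1.1) := measurable_fst.comp measurable_fst
  have e2 : Measurable (fun p : (P3 × ℝ) × P3 => p.1.2) := measurable_snd.comp measurable_fst
  have e3 : Measurable (fun p : (P3 × ℝ) × P3 => p.2) := measurable_snd
  have h2 : Measurable (fun p : (P3 × ℝ) × P3 => ((p.1.1, p.1.2, p.2) : P3 × ℝ × P3)) :=
    e1.prodMk (e2.prodMk e3)
  show Measurable ((fun p : P3 × ℝ × P3 => FF L ε p.1 p.2.1 p.2.2) ∘
    (fun p : (P3 × ℝ) × P3 => ((p.1.1, p.1.2, p.2) : P3 × ℝ × P3)))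
  exact h.comp h2

lemma FF_int1 (v : ℝ) (y : P3) (hpos : 0 < ε v) : ∫⁻ y0, FF L ε y0 v y = 64 * L v y ^ 2 := by
  have hB : MeasurableSet (Metric.ball y (ε v)) := Metric.isOpen_ball.measurableSet
  have e : ∀ y0 : P3, FF L ε y0 v y = (ENNReal.ofReal (8 * (ε v)⁻¹ ^ 3) * L v y ^ 2) *
      (Metric.ball y (ε v)).indicator (fun _ => 1) y0 := by
    intro y0
    rw [FF, Es_1]
    ring
  simp only [e]
  rw [lintegral_const_mul _ (measurable_const.indicator hB), lintegral_indicator hB]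
  simp only [lintegral_const, Measure.restrict_apply MeasurableSet.univ, univ_inter, one_mul]
  rw [vol_ball y hpos.le, mul_right_comm, ← ENNReal.ofReal_mul (by positivity)]
  congr 1
  have hv := hpos.ne'
  have e2 : 8 * (ε v)⁻¹ ^ 3 * (8 * ε v ^ 3) = 64 := by field_simp; norm_num
  rw [e2]
  norm_num

lemma FF_int (hL : Measurable (fun p : ℝ × P3 => L p.1 p.2)) (hε : Measurable ε)
    (hpos : ∀ v, 0 < ε v) :
    ∫⁻ y0, ∫⁻ v, ∫⁻ y, FF L ε y0 v y = 64 * ∫⁻ v, ∫⁻ y, L v y ^ 2 := by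
  have hm := measurable_FF' hL hε
  have hm1 : AEMeasurable (Function.uncurry fun (y0 : P3) (v : ℝ) => ∫⁻ y, FF L ε y0 v y)
      ((volume : Measure P3).prod (volume : Measure ℝ)) :=
    (hm.lintegral_prod_right').aemeasurable
  rw [lintegral_lintegral_swap hm1, ← lintegral_const_mul' _ _ (by norm_num)]
  apply lintegral_congr
  intro v
  have h2 : Measurable (fun p : P3 × P3 => ((p.1, v, p.2) : P3 × ℝ × P3)) := by fun_prop
  have hm2 : AEMeasurable (Function.uncurry fun (y0 : P3) (y : P3) => FF L ε y0 v y)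
      ((volume : Measure P3).prod (volume : Measure P3)) :=
    ((measurable_FF hL hε).comp h2).aemeasurable
  rw [lintegral_lintegral_swap hm2, ← lintegral_const_mul' _ _ (by norm_num)]
  apply lintegral_congr
  intro y
  exact FF_int1 v y (hpos v)

end Vale.Agent.P354x
end
end

section

section

set_option maxSynthPendingDepth 3

open Set MeasureTheory Filter Topology

namespace Vale.Agent.P354z

open Vale.Agent.P354w Vale.Agent.P354x PreHyp CoreHyp

/-- finiteness of the `L^p` norm, `p = ∞` included -/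
def LpF {α : Type*} [MeasurableSpace α] (p : ENNReal) (μ : Measure α) (B : α → ENNReal) : Prop :=
  (p = ⊤ → ∃ c : ENNReal, c ≠ ⊤ ∧ ∀ᵐ v ∂μ, B v ≤ c) ∧ (p ≠ ⊤ → ∫⁻ v, B v ^ p.toReal ∂μ ≠ ⊤)

section
variable {α : Type*} [MeasurableSpace α] {p : ENNReal} {μ : Measure α} {A B : α → ENNReal}

lemma LpF.mono_ae (h : LpF p μ B) (hAB : ∀ᵐ v ∂μ, A v ≤ B v) : LpF p μ A := by
  constructor
  · intro hp
    obtain ⟨c, hc, hB⟩ := h.1 hp
    refine ⟨c, hc, ?_⟩
    filter_upwards [hB, hAB] with v h1 h2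
    exact h2.trans h1
  · intro hp
    refine ne_top_of_le_ne_top (h.2 hp) (lintegral_mono_ae ?_)
    filter_upwards [hAB] with v h2
    exact ENNReal.rpow_le_rpow h2 ENNReal.toReal_nonneg

lemma LpF.mono (h : LpF p μ B) (hAB : ∀ v, A v ≤ B v) : LpF p μ A :=
  h.mono_ae (Eventually.of_forall hAB)

lemma LpF.mono_meas {ν : Measure α} (h : LpF p μ B) (hν : ν ≤ μ) : LpF p ν B := by
  constructor
  · intro hp
    obtain ⟨c, hc, hB⟩ := h.1 hp
    exact ⟨c, hc, hB.filter_mono (ae_mono hν)⟩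
  · intro hp
    exact ne_top_of_le_ne_top (h.2 hp) (lintegral_mono' hν (le_refl _))

lemma LpF.const_mul (h : LpF p μ B) {c : ENNReal} (hc : c ≠ ⊤) :
    LpF p μ (fun v => c * B v) := by
  constructor
  · intro hp
    obtain ⟨b, hb, hB⟩ := h.1 hp
    refine ⟨c * b, ENNReal.mul_ne_top hc hb, ?_⟩
    filter_upwards [hB] with v h1
    (clear * - h1; gcongr)
  · intro hp
    have e : ∀ v, (c * B v) ^ p.toReal = c ^ p.toReal * B v ^ p.toReal :=
      fun v => ENNReal.mul_rpow_of_nonneg _ _ ENNReal.toReal_nonneg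
    simp only [e]
    rw [lintegral_const_mul' _ _ (ENNReal.rpow_ne_top_of_nonneg ENNReal.toReal_nonneg hc)]
    exact ENNReal.mul_ne_top (ENNReal.rpow_ne_top_of_nonneg ENNReal.toReal_nonneg hc) (h.2 hp)

lemma toReal_ge {p : ENNReal} (hp : 2 ≤ p) (ht : p ≠ ⊤) : 2 ≤ p.toReal := by
  have := ENNReal.toReal_mono ht hp
  simpa only [ge_iff_le, ENNReal.toReal_ofNat] using this

lemma LpF.add (hA : LpF p μ A) (hB : LpF p μ B) (hp : 2 ≤ p) (hm : AEMeasurable A μ) :
    LpF p μ (fun v => A v + B v) := by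
  constructor
  · intro hpt
    obtain ⟨a, ha, hA'⟩ := hA.1 hpt
    obtain ⟨b, hb, hB'⟩ := hB.1 hpt
    refine ⟨a + b, ENNReal.add_ne_top.mpr ⟨ha, hb⟩, ?_⟩
    filter_upwards [hA', hB'] with v h1 h2
    exact add_le_add h1 h2
  · intro hpt
    have hp1 : 1 ≤ p.toReal := by linarith [toReal_ge hp hpt]
    have hle := lintegral_mono (μ := μ)
      (fun v => ENNReal.rpow_add_le_mul_rpow_add_rpow (A v) (B v) hp1)
    refine ne_top_of_le_ne_top ?_ hle
    have hc : (2:ENNReal) ^ (p.toReal - 1) ≠ ⊤ :=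
      ENNReal.rpow_ne_top_of_nonneg (by linarith) (by norm_num)
    rw [lintegral_const_mul' _ _ hc, lintegral_add_left' (hm.pow_const _)]
    exact ENNReal.mul_ne_top hc (ENNReal.add_ne_top.mpr ⟨hA.2 hpt, hB.2 hpt⟩)

lemma LpF.const (hμ : μ univ ≠ ⊤) {c : ENNReal} (hc : c ≠ ⊤) : LpF p μ (fun _ => c) := by
  constructor
  · intro _
    exact ⟨c, hc, Eventually.of_forall fun _ => le_refl _⟩
  · intro _
    rw [lintegral_const]
    exact ENNReal.mul_ne_top (ENNReal.rpow_ne_top_of_nonneg ENNReal.toReal_nonneg hc) hμ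

lemma LpF_iff {f : α → ℝ} (hp : 2 ≤ p) : LpF p μ (fun v => ‖f v‖ₑ) ↔ eLpNorm f p μ ≠ ⊤ := by
  have hp0 : p ≠ 0 := by
    intro h
    rw [h] at hp
    norm_num at hp
  by_cases hpt : p = ⊤
  · constructor
    · intro h
      obtain ⟨c, hc, hb⟩ := h.1 hpt
      rw [hpt, eLpNorm_exponent_top]
      exact ne_top_of_le_ne_top hc (eLpNormEssSup_le_of_ae_enorm_bound hb)
    · intro h
      rw [hpt, eLpNorm_exponent_top] at h
      exact ⟨fun _ => ⟨_, h, ae_le_eLpNormEssSup⟩, fun h2 => absurd hpt h2⟩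
  · have h1 := eLpNorm_lt_top_iff_lintegral_rpow_enorm_lt_top (f := f) (μ := μ) hp0 hpt
    constructor
    · intro h
      exact (h1.2 (lt_top_iff_ne_top.2 (h.2 hpt))).ne
    · intro h
      exact ⟨fun h2 => absurd h2 hpt, fun _ => (h1.1 (lt_top_iff_ne_top.2 h)).ne⟩

end

variable {L : ℝ → P3 → ENNReal} {ε : ℝ → ℝ}

/-- averages over balls of variable radius -/
theorem avg_aeP {p : ENNReal} (hp : 2 ≤ p) (hL : Measurable (fun q : ℝ × P3 => L q.1 q.2))
    (htop : p = ⊤ → ∃ c : ENNReal, c ≠ ⊤ ∧ ∀ᵐ v : ℝ, ∀ᵐ y : P3, L v y ≤ c)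
    (hfin : p ≠ ⊤ → ∫⁻ v, ∫⁻ y, L v y ^ p.toReal ≠ ⊤) (hε : Measurable ε)
    (hpos : ∀ v, 0 < ε v) :
    ∀ᵐ y0 : P3, LpF p volume (fun v => ENNReal.ofReal ((ε v)⁻¹ ^ 3) *
      ∫⁻ y in Metric.ball y0 (ε v), L v y) := by
  by_cases hpt : p = ⊤
  · obtain ⟨c, hc, hcb⟩ := htop hpt
    refine Eventually.of_forall fun y0 => ⟨fun _ => ⟨8 * c, ENNReal.mul_ne_top (by norm_num) hc,
      ?_⟩, fun h => absurd hpt h⟩
    filter_upwards [hcb] with v hv
    have h1 : ∫⁻ y in Metric.ball y0 (ε v), L v y ≤ c * ENNReal.ofReal (8 * ε v ^ 3) := by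
      calc ∫⁻ y in Metric.ball y0 (ε v), L v y ≤ ∫⁻ _ in Metric.ball y0 (ε v), c :=
            lintegral_mono_ae (ae_restrict_of_ae hv)
        _ = _ := by rw [setLIntegral_const, vol_ball y0 (hpos v).le]
    calc ENNReal.ofReal ((ε v)⁻¹ ^ 3) * ∫⁻ y in Metric.ball y0 (ε v), L v y
        ≤ ENNReal.ofReal ((ε v)⁻¹ ^ 3) * (c * ENNReal.ofReal (8 * ε v ^ 3)) := by (clear * - h1; gcongr)
      _ = (ENNReal.ofReal ((ε v)⁻¹ ^ 3) * ENNReal.ofReal (8 * ε v ^ 3)) * c := by ring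
      _ = 8 * c := by
        have hv' := (hpos v).ne'
        have := hpos v
        rw [← ENNReal.ofReal_mul (by (clear * - this; positivity))]
        congr 1
        have e2 : (ε v)⁻¹ ^ 3 * (8 * ε v ^ 3) = 8 := by field_simp
        rw [e2]; norm_num
  · set q := p.toReal with hq
    have hq2 : 2 ≤ q := toReal_ge hp hpt
    set L' : ℝ → P3 → ENNReal := fun v y => L v y ^ (q / 2) with hL'
    have hL'm : Measurable (fun r : ℝ × P3 => L' r.1 r.2) := hL.pow_const _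
    have hsq : ∀ v y, L' v y ^ 2 = L v y ^ q := by
      intro v y
      rw [hL', ← ENNReal.rpow_natCast, ← ENNReal.rpow_mul]
      congr 1
      push_cast
      ring
    have hm := measurable_FF' hL'm hε
    have h2 : Measurable (fun r : P3 × ℝ => ∫⁻ y, FF L' ε r.1 r.2 y) := hm.lintegral_prod_right'
    have hmeas : Measurable (fun y0 => ∫⁻ v, ∫⁻ y, FF L' ε y0 v y) := h2.lintegral_prod_right'
    have hne : ∫⁻ y0, ∫⁻ v, ∫⁻ y, FF L' ε y0 v y ≠ ⊤ := by
      rw [FF_int hL'm hε hpos]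
      simp only [hsq]
      exact ENNReal.mul_ne_top (by norm_num) (hfin hpt)
    filter_upwards [ae_lt_top hmeas hne] with y0 hy0
    refine ⟨fun h => absurd h hpt, fun _ => ?_⟩
    have h8 : (8:ENNReal) ^ q ≠ ⊤ := ENNReal.rpow_ne_top_of_nonneg (by linarith only [hq2]) (by norm_num)
    have hbd : ∀ v, (ENNReal.ofReal ((ε v)⁻¹ ^ 3) * ∫⁻ y in Metric.ball y0 (ε v), L v y) ^ q ≤
        8 ^ q * ∫⁻ y, FF L' ε y0 v y := by
      intro v
      have hv := hpos v
      have hB : MeasurableSet (Metric.ball y0 (ε v)) := Metric.isOpen_ball.measurableSet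
      have hLv : Measurable (L v) := hL.comp measurable_prodMk_left
      have hconj : q.HolderConjugate (q / (q - 1)) :=
        Real.HolderConjugate.conjExponent (by linarith)
      have h1 := ENNReal.lintegral_mul_le_Lp_mul_Lq (volume.restrict (Metric.ball y0 (ε v)))
        hconj (f := L v) (g := fun _ => (1 : ENNReal)) hLv.aemeasurable aemeasurable_const
      simp only [Pi.mul_apply, mul_one, ENNReal.one_rpow, lintegral_const,
        Measure.restrict_apply MeasurableSet.univ, univ_inter, one_mul] at h1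
      rw [vol_ball y0 hv.le] at h1
      set I := ∫⁻ y in Metric.ball y0 (ε v), L v y ^ q with hI
      have e3 : ∫⁻ y, FF L' ε y0 v y = ENNReal.ofReal (8 * (ε v)⁻¹ ^ 3) * I := by
        simp only [FF, Es_2, hsq]
        rw [lintegral_const_mul' _ _ ENNReal.ofReal_ne_top, hI, ← lintegral_indicator hB]
        congr 1
        apply lintegral_congr
        intro y
        by_cases hy : y ∈ Metric.ball y0 (ε v)
        · rw [indicator_of_mem hy, indicator_of_mem hy, one_mul]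
        · rw [indicator_of_notMem hy, indicator_of_notMem hy, zero_mul]
      rw [e3]
      have hq0 : (0:ℝ) ≤ q := by linarith only [hq2]
      have hqn : q ≠ 0 := by linarith
      set a := ENNReal.ofReal ((ε v)⁻¹ ^ 3) with ha
      set b := ENNReal.ofReal (8 * ε v ^ 3) with hb
      have hab : a * b = 8 := by
        rw [ha, hb, ← ENNReal.ofReal_mul (by (clear * - hv; positivity))]
        have hv' := hv.ne'
        have e2 : (ε v)⁻¹ ^ 3 * (8 * ε v ^ 3) = 8 := by field_simp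
        rw [e2]; norm_num
      have e8 : ENNReal.ofReal (8 * (ε v)⁻¹ ^ 3) = 8 * a := by
        rw [ha, ENNReal.ofReal_mul (by norm_num)]
        norm_num
      rw [e8]
      have hexp : 1 / (q / (q - 1)) * q = q - 1 := by
        have : q - 1 ≠ 0 := by
          have : 0 < q - 1 := by linarith only [hq2]
          exact this.ne'
        field_simp
      calc (a * ∫⁻ y in Metric.ball y0 (ε v), L v y) ^ q
          ≤ (a * (I ^ (1 / q) * b ^ (1 / (q / (q - 1))))) ^ q := by (clear * - h1 hq2; gcongr)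
        _ = a ^ q * (I * b ^ (q - 1)) := by
          rw [ENNReal.mul_rpow_of_nonneg _ _ hq0, ENNReal.mul_rpow_of_nonneg _ _ hq0,
            ← ENNReal.rpow_mul, ← ENNReal.rpow_mul, hexp, one_div_mul_cancel hqn,
            ENNReal.rpow_one]
        _ = a * (a ^ (q - 1) * b ^ (q - 1)) * I := by
          have : a ^ q = a * a ^ (q - 1) := by
            have h5 := ENNReal.rpow_add_of_nonneg (x := a) 1 (q - 1) (by norm_num) (by linarith only [hq2])
            rw [ENNReal.rpow_one] at h5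
            rw [← h5]
            congr 1
            ring
          rw [this]; ring
        _ = a * 8 ^ (q - 1) * I := by
          rw [← ENNReal.mul_rpow_of_nonneg _ _ (by linarith only [hq2] : (0:ℝ) ≤ q - 1), hab]
        _ ≤ 8 * a * 8 ^ q * I := by
          have h8' : (8:ENNReal) ^ (q - 1) ≤ 8 * 8 ^ q := by
            calc (8:ENNReal) ^ (q - 1) ≤ 8 ^ q :=
                  ENNReal.rpow_le_rpow_of_exponent_le (by norm_num) (by linarith only [])
              _ = 1 * 8 ^ q := (one_mul _).symm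
              _ ≤ 8 * 8 ^ q := by gcongr; norm_num
          calc a * 8 ^ (q - 1) * I ≤ a * (8 * 8 ^ q) * I := by (clear * - h8'; gcongr)
            _ = _ := by ring
        _ = _ := by ring
    refine ne_top_of_le_ne_top ?_ (lintegral_mono hbd)
    rw [lintegral_const_mul' _ _ h8]
    exact ENNReal.mul_ne_top h8 hy0.ne

end Vale.Agent.P354z
end
end

section

section

set_option maxSynthPendingDepth 3

open Set MeasureTheory

namespace Vale.Agent.P354w

namespace PreHyp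

variable {K : Coef} {G : P4 → P4 →L[ℝ] P4 →L[ℝ] ℝ} {Psi : P4 → P4} {V U : Set P4}
    {C R : ℝ} {cv cw cu : ℝ → ℝ} {t0 r : ℝ} {f : P3 → ℝ}

/-- the constant of the pointwise estimate -/
noncomputable def Ck (C B hb κ : ℝ) : ℝ := hb * (9 * C ^ 3 * κ) ^ 2 + 500 * C ^ 4 * B * (9 * C ^ 3 * κ) ^ 3

end PreHyp

end Vale.Agent.P354w
end
end

section

section

set_option maxSynthPendingDepth 3

open Set MeasureTheory Filter Topology

namespace Vale.Agent.P354x

open Vale.Agent.P354w PreHyp CoreHyp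

lemma measurable_ins : Measurable (fun p : ℝ × P3 => ins p.1 p.2) := continuous_ins.measurable

/-- Tonelli on the slices -/
lemma lintegral_ins {F : P4 → ENNReal} (hF : Measurable F) :
    ∫⁻ x, F x = ∫⁻ v : ℝ, ∫⁻ y : P3, F (ins v y) := by
  have h1 : ∫⁻ x : P4, F x = ∫⁻ t : ℝ, ∫⁻ v : ℝ, ∫⁻ w : ℝ × ℝ, F (t, v, w) := by
    rw [Measure.volume_eq_prod, lintegral_prod _ hF.aemeasurable]
    apply lintegral_congr
    intro t
    have hm : Measurable (fun x : ℝ × ℝ × ℝ => F (t, x)) := hF.comp measurable_prodMk_left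
    rw [Measure.volume_eq_prod, lintegral_prod _ hm.aemeasurable]
  have h2 : ∀ v : ℝ, ∫⁻ y : P3, F (ins v y) = ∫⁻ t : ℝ, ∫⁻ w : ℝ × ℝ, F (t, v, w) := by
    intro v
    have hm : Measurable (fun y : P3 => F (ins v y)) := by
      have : Measurable (fun y : P3 => ins v y) := by unfold ins; fun_prop
      exact hF.comp this
    rw [Measure.volume_eq_prod, lintegral_prod _ hm.aemeasurable]
    rfl
  rw [h1]
  simp only [h2]
  rw [lintegral_lintegral_swap]
  have hm : Measurable (fun p : (ℝ × ℝ) × (ℝ × ℝ) => F (p.1.1, p.1.2, p.2)) :=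
    hF.comp (by fun_prop)
  exact (hm.lintegral_prod_right').aemeasurable

variable {K : Coef} {G : P4 → P4 →L[ℝ] P4 →L[ℝ] ℝ} {Psi : P4 → P4} {V U : Set P4}
    {C R : ℝ} {cv cw cu : ℝ → ℝ} {t0 r : ℝ} {f : P3 → ℝ}

lemma continuousOn_Phi (h : PreHyp K G Psi V U C R cv cw cu t0 r f) :
    ContinuousOn (Phi Psi V) (Psi '' DD t0 r f) := by
  rintro _ ⟨z, hz, rfl⟩
  exact (h.contDiffAt_Phi (h.DD_sub hz)).continuousAt.continuousWithinAt

lemma isOpen_imDD (h : PreHyp K G Psi V U C R cv cw cu t0 r f) : IsOpen (Psi '' DD t0 r f) :=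
  h.isOpen_image h.openD h.DD_sub

/-- functions of the exotic side, transplanted to the standard side, are measurable -/
lemma measurable_tr (h : PreHyp K G Psi V U C R cv cw cu t0 r f) {F : P4 → ENNReal}
    (hF : Measurable F) : Measurable ((Psi '' DD t0 r f).indicator (fun y => F (Phi Psi V y))) := by
  classical
  have hm : MeasurableSet (Psi '' DD t0 r f) := (isOpen_imDD h).measurableSet
  have h1 : Measurable ((Psi '' DD t0 r f).piecewise (Phi Psi V) (fun _ => (0 : P4))) :=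
    (continuousOn_Phi h).measurable_piecewise continuousOn_const hm
  have e : (Psi '' DD t0 r f).indicator (fun y => F (Phi Psi V y)) =
      (Psi '' DD t0 r f).indicator (fun y => F ((Psi '' DD t0 r f).piecewise (Phi Psi V)
        (fun _ => (0 : P4)) y)) := by
    ext y
    by_cases hy : y ∈ Psi '' DD t0 r f
    · rw [indicator_of_mem hy, indicator_of_mem hy, piecewise_eq_of_mem _ _ _ hy]
    · rw [indicator_of_notMem hy, indicator_of_notMem hy]
  rw [e]
  exact (hF.comp h1).indicator hm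

lemma measurable_Lh (h : PreHyp K G Psi V U C R cv cw cu t0 r f) :
    Measurable (Lh G Psi V t0 r f) :=
  measurable_tr h ((measurable_fderiv ℝ G).enorm)

/-- change of variables -/
lemma lintegral_tr (h : PreHyp K G Psi V U C R cv cw cu t0 r f) (F : P4 → ENNReal)
    {A : Set P4} (hA : MeasurableSet A) (hAD : A ⊆ DD t0 r f) :
    ∫⁻ y in Psi '' A, F (Phi Psi V y) =
      ∫⁻ z in A, ENNReal.ofReal |(fderiv ℝ Psi z).det| * F z := by
  have := haarP4
  have hfd : ∀ z ∈ A, HasFDerivWithinAt Psi (fderiv ℝ Psi z) A z :=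
    fun z hz => (h.iso.hasFDerivAt (h.DD_sub (hAD hz))).hasFDerivWithinAt
  have hinj : InjOn Psi A := h.inj.mono (hAD.trans h.DD_sub)
  rw [lintegral_image_eq_lintegral_abs_det_fderiv_mul volume hA hfd hinj]
  apply setLIntegral_congr_fun hA
  intro z hz
  simp only [h.Phi_left (h.DD_sub (hAD hz))]

/-- the energy of a generator -/
noncomputable def Lam (G : P4 → P4 →L[ℝ] P4 →L[ℝ] ℝ) (Psi : P4 → P4) (V : Set P4) (t0 r : ℝ)
    (f : P3 → ℝ) (y : P3) : ENNReal := ∫⁻ v : ℝ, (Lh G Psi V t0 r f (ins v y)) ^ 2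

lemma measurable_Lam (h : PreHyp K G Psi V U C R cv cw cu t0 r f) :
    Measurable (Lam G Psi V t0 r f) := by
  unfold Lam
  have hm : Measurable (fun p : P3 × ℝ => (Lh G Psi V t0 r f (ins p.2 p.1)) ^ 2) :=
    ((measurable_Lh h).comp (measurable_ins.comp measurable_swap)).pow_const 2
  exact hm.lintegral_prod_right'

lemma lintegral_Lh_sq (h : PreHyp K G Psi V U C R cv cw cu t0 r f) :
    ∫⁻ y, (Lh G Psi V t0 r f y) ^ 2 ≠ ⊤ := by
  have hm : MeasurableSet (Psi '' DD t0 r f) := (isOpen_imDD h).measurableSet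
  have e : (fun y => (Lh G Psi V t0 r f y) ^ 2) =
      (Psi '' DD t0 r f).indicator (fun y => ‖fderiv ℝ G (Phi Psi V y)‖ₑ ^ 2) := by
    ext y
    by_cases hy : y ∈ Psi '' DD t0 r f
    · rw [Lh, indicator_of_mem hy, indicator_of_mem hy]
    · rw [Lh, indicator_of_notMem hy, indicator_of_notMem hy, zero_pow (by norm_num)]
  rw [e, lintegral_indicator hm,
    lintegral_tr h (fun z => ‖fderiv ℝ G z‖ₑ ^ 2) h.measDD Subset.rfl]
  have h1 : ∫⁻ z in DD t0 r f, ENNReal.ofReal |(fderiv ℝ Psi z).det| * ‖fderiv ℝ G z‖ₑ ^ 2 ≤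
      ∫⁻ z in DD t0 r f, ENNReal.ofReal C * ‖fderiv ℝ G z‖ₑ ^ 2 := by
    apply setLIntegral_mono' h.measDD
    intro z hz
    gcongr
    exact h.det_hi z (h.DD_sub hz)
  refine ne_top_of_le_ne_top ?_ h1
  rw [lintegral_const_mul' _ _ ENNReal.ofReal_ne_top]
  exact ENNReal.mul_ne_top ENNReal.ofReal_ne_top h.L2

lemma lintegral_Lam (h : PreHyp K G Psi V U C R cv cw cu t0 r f) :
    ∫⁻ y, Lam G Psi V t0 r f y ≠ ⊤ := by
  have h1 := lintegral_Lh_sq h
  rw [lintegral_ins ((measurable_Lh h).pow_const 2)] at h1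
  rw [lintegral_lintegral_swap] at h1
  · exact h1
  · exact (((measurable_Lh h).comp measurable_ins).pow_const 2).aemeasurable

/-- Cauchy-Schwarz along a generator -/
lemma lintegral_Lh_le (h : PreHyp K G Psi V U C R cv cw cu t0 r f) {y : P3} {v0 M : ℝ}
    (hv0 : v0 < 0) (hM : Lam G Psi V t0 r f y ≤ ENNReal.ofReal M) (hM0 : 0 ≤ M) :
    ∫⁻ v in Ico v0 0, Lh G Psi V t0 r f (ins v y) ≤ ENNReal.ofReal (Real.sqrt (M * -v0)) := by
  have hcins : Measurable (fun v => ins v y) := by unfold ins; fun_prop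
  have h1 := cs (μ := volume.restrict (Ico v0 0)) (f := fun v => Lh G Psi V t0 r f (ins v y))
    (g := fun _ => (1 : ENNReal)) ((measurable_Lh h).comp hcins).aemeasurable aemeasurable_const
  simp only [mul_one, one_pow, lintegral_const, Measure.restrict_apply MeasurableSet.univ,
    univ_inter, one_mul, Real.volume_Ico, zero_sub] at h1
  refine h1.trans ?_
  have h2 : ∫⁻ v in Ico v0 0, (Lh G Psi V t0 r f (ins v y)) ^ 2 ≤ ENNReal.ofReal M :=
    (setLIntegral_le_lintegral _ _).trans hM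
  calc (∫⁻ v in Ico v0 0, (Lh G Psi V t0 r f (ins v y)) ^ 2) ^ (1/2:ℝ) *
        ENNReal.ofReal (-v0) ^ (1/2:ℝ)
      ≤ (ENNReal.ofReal M) ^ (1/2:ℝ) * ENNReal.ofReal (-v0) ^ (1/2:ℝ) := by (clear * - h2; gcongr)
    _ = ENNReal.ofReal (Real.sqrt (M * -v0)) := by
      rw [← ENNReal.mul_rpow_of_nonneg _ _ (by norm_num), ← ENNReal.ofReal_mul hM0,
        ENNReal.ofReal_rpow_of_nonneg (mul_nonneg hM0 (by linarith)) (by norm_num),
        Real.sqrt_eq_rpow]

end Vale.Agent.P354x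
end
end

section

section

set_option maxSynthPendingDepth 3

open Set MeasureTheory Filter Topology

namespace Vale.Agent.P354x

open Vale.Agent.P354w PreHyp CoreHyp

/-- integrals over shrinking intervals tend to zero -/
lemma exists_small {g : ℝ → ENNReal} {R : ℝ} (hR : 0 < R) (hg : ∫⁻ v in Ico (-R) 0, g v ≠ ⊤)
    {ε : ENNReal} (hε : 0 < ε) : ∃ v1 < 0, -R ≤ v1 ∧ ∫⁻ v in Ico v1 0, g v ≤ ε := by
  have h1 : Tendsto (fun n : ℕ => ∫⁻ v in Ico (-(R / (n + 1))) 0, g v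
      ∂(volume.restrict (Ico (-R) (0:ℝ)))) atTop (𝓝 0) := by
    apply tendsto_setLIntegral_zero hg
    have h2 : ∀ n : ℕ, (volume.restrict (Ico (-R) (0:ℝ))) (Ico (-(R / ((n:ℝ) + 1))) 0) ≤
        ENNReal.ofReal (R / (n + 1)) := by
      intro n
      refine (Measure.restrict_le_self _).trans ?_
      rw [Real.volume_Ico]; simp
    have h3 : Tendsto (fun n : ℕ => ENNReal.ofReal (R / ((n:ℝ) + 1))) atTop (𝓝 0) := by
      have h4 : Tendsto (fun n : ℕ => R / ((n:ℝ) + 1)) atTop (𝓝 0) := by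
        have := tendsto_one_div_add_atTop_nhds_zero_nat (𝕜 := ℝ)
        have h5 := this.const_mul R
        simp only [mul_zero] at h5
        refine h5.congr fun n => ?_
        ring
      have := ENNReal.tendsto_ofReal h4
      simpa only [ENNReal.ofReal_zero] using this
    exact tendsto_of_tendsto_of_tendsto_of_le_of_le tendsto_const_nhds h3 (fun _ => bot_le) h2
  obtain ⟨n, hn⟩ := (ENNReal.tendsto_nhds_zero.mp h1 ε hε).exists
  have hn1 : (1:ℝ) ≤ (n:ℝ) + 1 := by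
    have : (0:ℝ) ≤ n := Nat.cast_nonneg n
    linarith only []
  have hle : R / ((n:ℝ) + 1) ≤ R := div_le_self hR.le hn1
  have hpos : 0 < R / ((n:ℝ) + 1) := by (clear * - hR; positivity)
  refine ⟨-(R / ((n:ℝ) + 1)), by linarith only [hpos], by linarith only [hle], ?_⟩
  rwa [Measure.restrict_restrict measurableSet_Ico, inter_eq_self_of_subset_left
    (Ico_subset_Ico_left (by linarith only [hle]))] at hn

variable {K : Coef} {G : P4 → P4 →L[ℝ] P4 →L[ℝ] ℝ} {Psi : P4 → P4} {V U : Set P4}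
    {C R : ℝ} {cv cw cu : ℝ → ℝ} {t0 r : ℝ} {f : P3 → ℝ}

lemma exists_vlo (h : CoreHyp K G Psi V U C R cv cw cu t0 r f) :
    ∃ vlo < 0, -R ≤ vlo ∧ ∀ x : P3, ‖x‖ ≤ r / 2 → (Psi (t0, x)).2.1 ≤ vlo := by
  have hr := h.r_pos
  have hmem0 : ∀ x : P3, ‖x‖ ≤ r / 2 → ((t0, x) : P4) ∈ V := by
    intro x hx
    have hxb : x ∈ Metric.ball (0 : P3) r := by
      rw [mem_ball_zero_iff]; linarith only [hr, hx]
    exact h.memV x hxb t0 ⟨le_refl _, h.t0f x hxb⟩
  have hcomp : IsCompact (Metric.closedBall (0 : P3) (r/2)) := isCompact_closedBall _ _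
  have hne : (Metric.closedBall (0 : P3) (r/2)).Nonempty := ⟨0, by simp only [Metric.mem_closedBall, dist_self]; linarith only [hr]⟩
  have hcont : ContinuousOn (fun x : P3 => (Psi (t0, x)).2.1)
      (Metric.closedBall (0 : P3) (r/2)) := by
    intro x hx
    rw [mem_closedBall_zero_iff] at hx
    have h1 : ContinuousAt Psi (t0, x) := (h.iso.contDiffAt (hmem0 x hx)).continuousAt
    have h2 : ContinuousAt (fun x : P3 => ((t0, x) : P4)) x := by fun_prop
    have h3 : ContinuousAt (fun x : P3 => Psi (t0, x)) x :=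
      ContinuousAt.comp (g := Psi) (f := fun x : P3 => ((t0, x) : P4)) h1 h2
    exact (h3.snd.fst).continuousWithinAt
  obtain ⟨x0, hx0, hmax⟩ := hcomp.exists_isMaxOn hne hcont
  refine ⟨(Psi (t0, x0)).2.1, ?_, ?_, ?_⟩
  · rw [mem_closedBall_zero_iff] at hx0
    exact (h.U_sub _ (h.maps (hmem0 x0 hx0))).2.2.1
  · rw [mem_closedBall_zero_iff] at hx0
    exact (h.U_sub _ (h.maps (hmem0 x0 hx0))).2.1
  · intro x hx
    exact hmax (by rwa [mem_closedBall_zero_iff])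

end Vale.Agent.P354x
end
end

section

section

set_option maxSynthPendingDepth 3

open Set MeasureTheory Filter Topology

namespace Vale.Agent.P354x

open Vale.Agent.P354w PreHyp CoreHyp

variable {K : Coef} {G : P4 → P4 →L[ℝ] P4 →L[ℝ] ℝ} {Psi : P4 → P4} {V U : Set P4}
    {C R : ℝ} {cv cw cu : ℝ → ℝ} {t0 r : ℝ} {f : P3 → ℝ}

lemma pointwise' (h : PreHyp K G Psi V U C R cv cw cu t0 r f) {hh : P3 → ℝ} (hhs : ContDiff ℝ 1 hh)
    (hh0 : ∀ x, 0 ≤ hh x) (hh1 : ∀ x, hh x ≤ 1) {hb : ℝ} (hhb : ∀ x, ‖fderiv ℝ hh x‖ ≤ hb)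
    {B : ℝ} (hB : 1 ≤ B) (hBeta : ∀ s, |deriv eta s| ≤ B) {κ : ℝ} (hκ : 1 ≤ κ)
    {z : P4} (hz : z ∈ V) {Z : P4} (hZ : fderiv ℝ Psi z Z = e1) {c w u : ℝ}
    (hp : PtHyp K G Psi V z C c w u) :
    |fderiv ℝ (Theta K Psi hh κ) z Z + (1/2) * (fderiv ℝ Psi z e1).2.1
        * fderiv ℝ K.g11 (Psi z) (e4 K (Psi z)) * (hh z.2 * (eta ((fderiv ℝ Psi z e1).2.1 / κ)
          * eta ((fderiv ℝ Psi z e1).2.2.1 / κ)))|
    ≤ 8 * C ^ 4 * B * (c * (fderiv ℝ Psi z e1).2.1
        * (hh z.2 * eta ((fderiv ℝ Psi z e1).2.1 / κ))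
        * (if κ ≤ (fderiv ℝ Psi z e1).2.2.1 then 1 else 0))
      + Ck C B hb κ * (1 + u + ‖fderiv ℝ G z‖) := by
  have hC := hp.bd.one_le
  have hκ0 : 0 < κ := by linarith
  have hB0 : 0 < B := by linarith only [hB]
  have hC0 : 0 < C := by linarith
  have hbp : 0 < (fderiv ℝ Psi z e1).2.1 := hp.pos
  have hap : 0 < (fderiv ℝ Psi z e1).2.2.1 := hp.sq_le.2.1
  have hcv := hp.bd.cv0
  have hcu := hp.bd.cu0
  have hL := norm_nonneg (fderiv ℝ G z)
  have hhb0 : 0 ≤ hb := (norm_nonneg _).trans (hhb 0)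
  have hCk : 0 ≤ Ck C B hb κ := by unfold Ck; (clear * - hhb0 hC hκ hB; positivity)
  rw [h.fderiv_Theta hz hhs κ hZ]
  have hH0 := hh0 z.2
  have heb0 := eta_nonneg ((fderiv ℝ Psi z e1).2.1 / κ)
  by_cases hcase : (fderiv ℝ Psi z e1).2.2.1 ≤ 2 * κ ∧ (fderiv ℝ Psi z e1).2.1 ≤ 2 * κ
  · obtain ⟨ha2, hb2⟩ := hcase
    obtain ⟨Nu, hNu⟩ := h.exists_pre hz (e3 K (Psi z))
    obtain ⟨N4, hN4⟩ := h.exists_pre hz (e4 K (Psi z))
    have hxi : K.gF (Psi z) (fderiv ℝ Psi z e1) e1 = PtHyp.xi K Psi z := by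
      rw [K.gF_symm, gF_e1]
    have hX : |K.gF (Psi z) (fderiv ℝ Psi z e1) e1|
        ≤ C * (|K.h1 (Psi z) (fderiv ℝ Psi z e1)| + |K.h2 (Psi z) (fderiv ℝ Psi z e1)|) := by
      rw [hxi]
      have t1 := aux_mul2 hp.bd.g11 (le_refl |K.h1 (Psi z) (fderiv ℝ Psi z e1)|)
      have t2 := aux_mul2 hp.bd.g12 (le_refl |K.h2 (Psi z) (fderiv ℝ Psi z e1)|)
      refine (abs_add_le _ _).trans ?_
      rw [mul_add]
      exact add_le_add t1 t2
    have hZsq := hp.sq_norm_Z hZ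
    rw [← hxi] at hZsq
    have hH' : |fderiv ℝ hh z.2 Z.2| ≤ hb * ‖Z‖ := by
      have h1 := (fderiv ℝ hh z.2).le_opNorm Z.2
      rw [Real.norm_eq_abs] at h1
      refine h1.trans ?_
      have : ‖Z.2‖ ≤ ‖Z‖ := norm_snd_le Z
      gcongr
      exact hhb z.2
    have hda0 : (fderiv ℝ Psi z e1).2.2.1 < κ → deriv eta ((fderiv ℝ Psi z e1).2.2.1 / κ) = 0 := by
      intro hlt
      apply deriv_eta_zero_left
      rw [div_lt_one hκ0]; exact hlt
    exact pe_alg hC hB hκ hcv hcu hL hap hbp ha2 hb2 hp.sq_le.1 hX (norm_nonneg Z) hZsq hhb0 hH'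
      hH0 (hh1 z.2) heb0 (eta_le_one _) (eta_nonneg _) (eta_le_one _) (hBeta _) (hBeta _) hda0
      (hp.Sv_Z hNu hZ) (hp.Su_Z hN4 hZ) (hp.xi_Z hZ)
  · have hzero : fderiv ℝ hh z.2 Z.2 * (eta ((fderiv ℝ Psi z e1).2.1 / κ)
          * (eta ((fderiv ℝ Psi z e1).2.2.1 / κ) * K.gF (Psi z) (fderiv ℝ Psi z e1) e1))
      + hh z.2 * ((deriv eta ((fderiv ℝ Psi z e1).2.1 / κ) * ((Sd Psi z Z e1).2.1 / κ))
          * (eta ((fderiv ℝ Psi z e1).2.2.1 / κ) * K.gF (Psi z) (fderiv ℝ Psi z e1) e1))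
      + hh z.2 * (eta ((fderiv ℝ Psi z e1).2.1 / κ)
          * ((deriv eta ((fderiv ℝ Psi z e1).2.2.1 / κ) * ((Sd Psi z Z e1).2.2.1 / κ))
            * K.gF (Psi z) (fderiv ℝ Psi z e1) e1))
      + hh z.2 * (eta ((fderiv ℝ Psi z e1).2.1 / κ) * (eta ((fderiv ℝ Psi z e1).2.2.1 / κ)
          * (K.dgF (Psi z) e1 (fderiv ℝ Psi z e1) e1 + K.gF (Psi z) (Sd Psi z Z e1) e1)))
      + (1/2) * (fderiv ℝ Psi z e1).2.1
        * fderiv ℝ K.g11 (Psi z) (e4 K (Psi z)) * (hh z.2 * (eta ((fderiv ℝ Psi z e1).2.1 / κ)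
          * eta ((fderiv ℝ Psi z e1).2.2.1 / κ))) = 0 := by
      rw [not_and_or] at hcase
      rcases hcase with hc | hc
      · push Not at hc
        have h2 : 2 < (fderiv ℝ Psi z e1).2.2.1 / κ := by
          rw [lt_div_iff₀ hκ0]; exact hc
        rw [deriv_eta_zero_right h2, eta_zero h2.le]
        ring
      · push Not at hc
        have h2 : 2 < (fderiv ℝ Psi z e1).2.1 / κ := by
          rw [lt_div_iff₀ hκ0]; exact hc
        rw [deriv_eta_zero_right h2, eta_zero h2.le]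
        ring
    rw [hzero, abs_zero]
    have hif : (0:ℝ) ≤ (if κ ≤ (fderiv ℝ Psi z e1).2.2.1 then 1 else 0) := by
      split_ifs <;> norm_num
    (clear * - hC hB hcv hbp hH0 heb0 hCk hcu; (clear * - hC hB hcv hbp hH0 heb0 hCk hcu; positivity))


end Vale.Agent.P354x
end
end

section

section

set_option maxSynthPendingDepth 3

open Set MeasureTheory Filter Topology

namespace Vale.Agent.P354x

open Vale.Agent.P354w PreHyp CoreHyp

variable {K : Coef} {G : P4 → P4 →L[ℝ] P4 →L[ℝ] ℝ} {Psi : P4 → P4} {V U : Set P4}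
    {C R : ℝ} {cv cw cu : ℝ → ℝ} {t0 r : ℝ} {f : P3 → ℝ}

/-- the coefficient of the main term -/
noncomputable def mm (Psi : P4 → P4) (hh : P3 → ℝ) (κ : ℝ) (z : P4) : ℝ :=
  (1/2) * (fderiv ℝ Psi z e1).2.1 * (hh z.2 * (eta ((fderiv ℝ Psi z e1).2.1 / κ)
    * eta ((fderiv ℝ Psi z e1).2.2.1 / κ)))

lemma hasFDerivAt_insv (v : ℝ) (y : P3) : ∃ L : P3 →L[ℝ] P4, HasFDerivAt (fun y => ins v y) L y ∧
    L (1, 0, 0) = e1 := by
  refine ⟨(ContinuousLinearMap.fst ℝ ℝ (ℝ × ℝ)).prod ((0 : P3 →L[ℝ] ℝ).prod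
    (((ContinuousLinearMap.fst ℝ ℝ ℝ).comp (ContinuousLinearMap.snd ℝ ℝ (ℝ × ℝ))).prod
      ((ContinuousLinearMap.snd ℝ ℝ ℝ).comp (ContinuousLinearMap.snd ℝ ℝ (ℝ × ℝ))))), ?_, ?_⟩
  · unfold ins
    have h1 : HasFDerivAt (fun y : P3 => y.1) (ContinuousLinearMap.fst ℝ ℝ (ℝ × ℝ)) y :=
      hasFDerivAt_fst
    have h2 : HasFDerivAt (fun y : P3 => y.2.1)
        ((ContinuousLinearMap.fst ℝ ℝ ℝ).comp (ContinuousLinearMap.snd ℝ ℝ (ℝ × ℝ))) y :=
      ((ContinuousLinearMap.fst ℝ ℝ ℝ).comp (ContinuousLinearMap.snd ℝ ℝ (ℝ × ℝ))).hasFDerivAt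
    have h3 : HasFDerivAt (fun y : P3 => y.2.2)
        ((ContinuousLinearMap.snd ℝ ℝ ℝ).comp (ContinuousLinearMap.snd ℝ ℝ (ℝ × ℝ))) y :=
      ((ContinuousLinearMap.snd ℝ ℝ ℝ).comp (ContinuousLinearMap.snd ℝ ℝ (ℝ × ℝ))).hasFDerivAt
    exact h1.prodMk ((hasFDerivAt_const v y).prodMk (h2.prodMk h3))
  · rfl

lemma contDiff_insv (v : ℝ) : ContDiff ℝ 1 (fun y : P3 => ins v y) := by
  unfold ins; fun_prop

/-- the transplanted test function on the slice -/
noncomputable def Tv (K : Coef) (Psi : P4 → P4) (V : Set P4) (t0 r : ℝ) (f : P3 → ℝ)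
    (hh : P3 → ℝ) (κ v : ℝ) (y : P3) : ℝ := That K Psi V t0 r f hh κ (ins v y)

lemma contDiff_Tv (h : CoreHyp K G Psi V U C R cv cw cu t0 r f) {hh : P3 → ℝ}
    (hhs : ContDiff ℝ 1 hh) {κ r' v vlo : ℝ} (hr' : r' < r) (hv : v < 0)
    (hhr : ∀ x, r' < ‖x‖ → hh x = 0)
    (hvlo : ∀ x : P3, ‖x‖ ≤ r' → (Psi (t0, x)).2.1 ≤ vlo) (h1 : vlo < v) :
    ContDiff ℝ 1 (Tv K Psi V t0 r f hh κ v) := by
  rw [contDiff_iff_contDiffAt]
  intro y
  have h2 : ContDiffAt ℝ 1 (That K Psi V t0 r f hh κ) (ins v y) :=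
    h.contDiffAt_That hhs hr' (v2 := v / 2) (by linarith) hhr hvlo h1
      (show v < v / 2 by linarith only [hv])
  exact h2.comp y (contDiff_insv v).contDiffAt

lemma compact_Tv (h : CoreHyp K G Psi V U C R cv cw cu t0 r f) {hh : P3 → ℝ}
    {κ r' v : ℝ} (hr' : r' < r) (hv : v < 0) (hhr : ∀ x, r' < ‖x‖ → hh x = 0) :
    HasCompactSupport (Tv K Psi V t0 r f hh κ v) := by
  have hK := h.isCompact_image_KK hr' hv
  have hproj : Continuous (fun x : P4 => ((x.1, x.2.2.1, x.2.2.2) : P3)) := by fun_prop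
  apply HasCompactSupport.intro (hK.image hproj)
  intro y hy
  apply h.That_zero_of hhr (v2 := v)
  · intro hm
    exact hy ⟨ins v y, hm, rfl⟩
  · exact le_refl _

lemma fderiv_Tv (h : CoreHyp K G Psi V U C R cv cw cu t0 r f) {hh : P3 → ℝ}
    (hhs : ContDiff ℝ 1 hh) {κ r' v vlo : ℝ} (hr' : r' < r) (hv : v < 0)
    (hhr : ∀ x, r' < ‖x‖ → hh x = 0)
    (hvlo : ∀ x : P3, ‖x‖ ≤ r' → (Psi (t0, x)).2.1 ≤ vlo) (h1 : vlo < v) (y : P3) :
    fderiv ℝ (Tv K Psi V t0 r f hh κ v) y (1, 0, 0) =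
      fderiv ℝ (That K Psi V t0 r f hh κ) (ins v y) e1 := by
  have h2 : ContDiffAt ℝ 1 (That K Psi V t0 r f hh κ) (ins v y) :=
    h.contDiffAt_That hhs hr' (v2 := v / 2) (by linarith) hhr hvlo h1
      (show v < v / 2 by linarith only [hv])
  obtain ⟨L, hL, hL1⟩ := hasFDerivAt_insv v y
  have h3 := ((h2.differentiableAt (by norm_num)).hasFDerivAt).comp y hL
  have h4 : fderiv ℝ (Tv K Psi V t0 r f hh κ v) y =
      (fderiv ℝ (That K Psi V t0 r f hh κ) (ins v y)).comp L := h3.fderiv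
  rw [h4, ContinuousLinearMap.comp_apply, hL1]

/-- integration by parts on the slice -/
lemma slice_ibp (h : CoreHyp K G Psi V U C R cv cw cu t0 r f) {hh : P3 → ℝ}
    (hhs : ContDiff ℝ 1 hh) {κ r' v vlo : ℝ} (hr' : r' < r) (hv : v < 0)
    (hhr : ∀ x, r' < ‖x‖ → hh x = 0)
    (hvlo : ∀ x : P3, ‖x‖ ≤ r' → (Psi (t0, x)).2.1 ≤ vlo) (h1 : vlo < v) {φ : P3 → ℝ}
    (hφ : ContDiff ℝ 1 φ) (hφc : HasCompactSupport φ) :
    Integrable (fun y => φ y * fderiv ℝ (That K Psi V t0 r f hh κ) (ins v y) e1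
      + fderiv ℝ φ y (1, 0, 0) * Tv K Psi V t0 r f hh κ v y) ∧
    ∫ y, (φ y * fderiv ℝ (That K Psi V t0 r f hh κ) (ins v y) e1
      + fderiv ℝ φ y (1, 0, 0) * Tv K Psi V t0 r f hh κ v y) = 0 := by
  have := haarP3
  have hT := contDiff_Tv h hhs (κ := κ) hr' hv hhr hvlo h1
  have hTc := compact_Tv h (κ := κ) hr' hv hhr
  have c1 : Continuous (fun y => fderiv ℝ φ y (1, 0, 0)) :=
    (hφ.continuous_fderiv (by norm_num)).clm_apply continuous_const
  have c2 : Continuous (fun y => fderiv ℝ (Tv K Psi V t0 r f hh κ v) y (1, 0, 0)) :=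
    (hT.continuous_fderiv (by norm_num)).clm_apply continuous_const
  have i1 : Integrable (fun y => fderiv ℝ φ y (1, 0, 0) * Tv K Psi V t0 r f hh κ v y) :=
    (c1.mul hT.continuous).integrable_of_hasCompactSupport hTc.mul_left
  have i2 : Integrable (fun y => φ y * fderiv ℝ (Tv K Psi V t0 r f hh κ v) y (1, 0, 0)) :=
    (hφ.continuous.mul c2).integrable_of_hasCompactSupport hφc.mul_right
  have i3 : Integrable (fun y => φ y * Tv K Psi V t0 r f hh κ v y) :=
    (hφ.continuous.mul hT.continuous).integrable_of_hasCompactSupport hφc.mul_right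
  have e := integral_mul_fderiv_eq_neg_fderiv_mul_of_integrable (μ := (volume : Measure P3))
    (f := φ) (g := Tv K Psi V t0 r f hh κ v) (v := ((1, 0, 0) : P3)) i1 i2 i3
    (fun x _ => (hφ.differentiable (by norm_num)) x)
    (fun x _ => (hT.differentiable (by norm_num)) x)
  have e2 : ∀ y, fderiv ℝ (Tv K Psi V t0 r f hh κ v) y (1, 0, 0) =
      fderiv ℝ (That K Psi V t0 r f hh κ) (ins v y) e1 := fun y =>
    fderiv_Tv h hhs hr' hv hhr hvlo h1 y
  simp only [e2] at i2 e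
  refine ⟨i2.add i1, ?_⟩
  rw [integral_add i2 i1, e]
  simp

/-- bound of the test function -/
lemma Theta_le (h : PreHyp K G Psi V U C R cv cw cu t0 r f) {hh : P3 → ℝ}
    (hh0 : ∀ x, 0 ≤ hh x) (hh1 : ∀ x, hh x ≤ 1) {κ : ℝ} (hκ : 1 ≤ κ) {z : P4} (hz : z ∈ V) :
    |Theta K Psi hh κ z| ≤ 9 * C ^ 3 * κ := by
  have hp := h.pt hz
  have hC := hp.bd.one_le
  have hκ0 : 0 < κ := by linarith
  have hbp : 0 < (fderiv ℝ Psi z e1).2.1 := hp.pos
  have hap : 0 < (fderiv ℝ Psi z e1).2.2.1 := hp.sq_le.2.1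
  have hpos : 0 ≤ 9 * C ^ 3 * κ := by positivity
  by_cases hcase : (fderiv ℝ Psi z e1).2.2.1 ≤ 2 * κ ∧ (fderiv ℝ Psi z e1).2.1 ≤ 2 * κ
  · obtain ⟨ha2, hb2⟩ := hcase
    have hxi : K.gF (Psi z) (fderiv ℝ Psi z e1) e1 = PtHyp.xi K Psi z := by
      rw [K.gF_symm, gF_e1]
    have hX : |K.gF (Psi z) (fderiv ℝ Psi z e1) e1|
        ≤ C * (|K.h1 (Psi z) (fderiv ℝ Psi z e1)| + |K.h2 (Psi z) (fderiv ℝ Psi z e1)|) := by
      rw [hxi]
      have t1 := aux_mul2 hp.bd.g11 (le_refl |K.h1 (Psi z) (fderiv ℝ Psi z e1)|)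
      have t2 := aux_mul2 hp.bd.g12 (le_refl |K.h2 (Psi z) (fderiv ℝ Psi z e1)|)
      refine (abs_add_le _ _).trans ?_
      rw [mul_add]
      exact add_le_add t1 t2
    have hZsq := hp.sq_norm_Z (h.Zf_spec hz)
    rw [← hxi] at hZsq
    have hb := (pe_bounds hC hκ hap hbp ha2 hb2 (by (clear * -; positivity)) (pe_y hp.sq_le.1) hX
      (norm_nonneg _) hZsq).2.2.2.1
    rw [Theta, abs_mul, abs_mul, abs_mul, abs_of_nonneg (hh0 _), abs_of_nonneg (eta_nonneg _),
      abs_of_nonneg (eta_nonneg _)]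
    calc hh z.2 * (eta ((fderiv ℝ Psi z e1).2.1 / κ) * (eta ((fderiv ℝ Psi z e1).2.2.1 / κ)
          * |K.gF (Psi z) (fderiv ℝ Psi z e1) e1|))
        ≤ 1 * (1 * (1 * (9 * C ^ 3 * κ))) := by
          gcongr
          · exact mul_nonneg (eta_nonneg _) (mul_nonneg (eta_nonneg _) (abs_nonneg _))
          · exact hh1 _
          · exact mul_nonneg (eta_nonneg _) (abs_nonneg _)
          · exact eta_le_one _
          · exact eta_le_one _
      _ = _ := by ring
  · have : Theta K Psi hh κ z = 0 := by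
      rw [not_and_or] at hcase
      rw [Theta]
      rcases hcase with hc | hc
      · push Not at hc
        have h2 : 2 < (fderiv ℝ Psi z e1).2.2.1 / κ := by
          rw [lt_div_iff₀ hκ0]; exact hc
        rw [eta_zero h2.le]; ring
      · push Not at hc
        have h2 : 2 < (fderiv ℝ Psi z e1).2.1 / κ := by
          rw [lt_div_iff₀ hκ0]; exact hc
        rw [eta_zero h2.le]; ring
    rw [this, abs_zero]; exact hpos

lemma mm_nonneg (h : PreHyp K G Psi V U C R cv cw cu t0 r f) {hh : P3 → ℝ}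
    (hh0 : ∀ x, 0 ≤ hh x) {κ : ℝ} {z : P4} (hz : z ∈ V) : 0 ≤ mm Psi hh κ z := by
  have hbp : 0 < (fderiv ℝ Psi z e1).2.1 := h.pos z hz
  have := hh0 z.2
  have := eta_nonneg ((fderiv ℝ Psi z e1).2.1 / κ)
  have := eta_nonneg ((fderiv ℝ Psi z e1).2.2.1 / κ)
  unfold mm
  positivity

end Vale.Agent.P354x
end
end

section

section

set_option maxSynthPendingDepth 3

open Set MeasureTheory Filter Topology

namespace Vale.Agent.P354x

open Vale.Agent.P354w PreHyp CoreHyp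

variable {K : Coef} {G : P4 → P4 →L[ℝ] P4 →L[ℝ] ℝ} {Psi : P4 → P4} {V U : Set P4}
    {C R : ℝ} {cv cw cu : ℝ → ℝ} {t0 r : ℝ} {f : P3 → ℝ}

/-- the slice of the image -/
def Sv (Psi : P4 → P4) (t0 r : ℝ) (f : P3 → ℝ) (v : ℝ) : Set P3 := {y | ins v y ∈ Psi '' DD t0 r f}

lemma isOpen_Sv (h : PreHyp K G Psi V U C R cv cw cu t0 r f) (v : ℝ) :
    IsOpen (Sv Psi t0 r f v) :=
  (isOpen_imDD h).preimage (by unfold ins; fun_prop)

lemma image_sub (h : PreHyp K G Psi V U C R cv cw cu t0 r f) : Psi '' DD t0 r f ⊆ U := by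
  rintro _ ⟨z, hz, rfl⟩
  exact h.maps (h.DD_sub hz)

/-- the derivative of g11 in the direction `e4` -/
noncomputable def dg (K : Coef) (y : P4) : ℝ := fderiv ℝ K.g11 y (e4 K y)

lemma continuousOn_dg (h : PreHyp K G Psi V U C R cv cw cu t0 r f) : ContinuousOn (dg K) U := by
  have c1 : ContinuousOn (fderiv ℝ K.g11) U :=
    h.smoothK.g11.continuousOn_fderiv_of_isOpen h.openU (by norm_num)
  have c2 : ContinuousOn (e4 K) U := by
    unfold e4
    exact h.smoothK.s1.continuousOn.prodMk (continuousOn_const.prodMk (continuousOn_const.prodMk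
      h.smoothK.s2.continuousOn))
  exact c1.clm_apply c2

lemma continuousOn_mm (h : PreHyp K G Psi V U C R cv cw cu t0 r f) {hh : P3 → ℝ}
    (hhs : ContDiff ℝ 1 hh) (κ : ℝ) : ContinuousOn (mm Psi hh κ) (DD t0 r f) := by
  intro z hz
  have hP := (h.contDiffAt_P (h.DD_sub hz) e1).continuousAt
  have p2 : ContinuousAt (fun z => (fderiv ℝ Psi z e1).2.1) z := hP.snd.fst
  have p3 : ContinuousAt (fun z => (fderiv ℝ Psi z e1).2.2.1) z := hP.snd.snd.fst
  have he : Continuous eta := (eta_contDiff (n := 0) (by norm_num)).continuous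
  have q2 : ContinuousAt (fun z => eta ((fderiv ℝ Psi z e1).2.1 / κ)) z :=
    ContinuousAt.comp (g := eta) (f := fun z => (fderiv ℝ Psi z e1).2.1 / κ) he.continuousAt
      (p2.div_const κ)
  have q3 : ContinuousAt (fun z => eta ((fderiv ℝ Psi z e1).2.2.1 / κ)) z :=
    ContinuousAt.comp (g := eta) (f := fun z => (fderiv ℝ Psi z e1).2.2.1 / κ) he.continuousAt
      (p3.div_const κ)
  have q1 : ContinuousAt (fun z : P4 => hh z.2) z :=
    (hhs.continuous.comp continuous_snd).continuousAt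
  exact (((continuousAt_const.mul p2)).mul (q1.mul (q2.mul q3))).continuousWithinAt

/-- the slice inequality -/
lemma slice_ineq (h : CoreHyp K G Psi V U C R cv cw cu t0 r f) {hh : P3 → ℝ}
    (hhs : ContDiff ℝ 1 hh) (hh0 : ∀ x, 0 ≤ hh x) (hh1 : ∀ x, hh x ≤ 1) {hb : ℝ}
    (hhb : ∀ x, ‖fderiv ℝ hh x‖ ≤ hb) {B : ℝ} (hB : 1 ≤ B) (hBeta : ∀ s, |deriv eta s| ≤ B)
    {κ : ℝ} (hκ : 1 ≤ κ) {r' v vlo : ℝ} (hr' : r' < r) (hv : v < 0)
    (hhr : ∀ x, r' < ‖x‖ → hh x = 0)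
    (hvlo : ∀ x : P3, ‖x‖ ≤ r' → (Psi (t0, x)).2.1 ≤ vlo) (h1 : vlo < v) {φ : P3 → ℝ}
    (hφ : ContDiff ℝ 1 φ) (hφc : HasCompactSupport φ) (hφ0 : ∀ y, 0 ≤ φ y)
    {σ c : ℝ} (hσ : |σ| = 1) (hc0 : 0 ≤ c)
    (hc : ∀ y : P3, φ y ≠ 0 → ins v y ∈ Psi '' DD t0 r f →
      |fderiv ℝ K.g11 (ins v y) (e4 K (ins v y))| ≤ c ∧
      |fderiv ℝ K.g12 (ins v y) (e4 K (ins v y))| ≤ c ∧
      |fderiv ℝ K.g22 (ins v y) (e4 K (ins v y))| ≤ c ∧
      0 ≤ σ * fderiv ℝ K.g11 (ins v y) (e4 K (ins v y))) :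
    ∫⁻ y in Sv Psi t0 r f v, ENNReal.ofReal (φ y * (mm Psi hh κ (Phi Psi V (ins v y)) *
        (σ * dg K (ins v y)))) ≤
      (∫⁻ y in Sv Psi t0 r f v, ENNReal.ofReal (φ y) * (ENNReal.ofReal (16 * C ^ 4 * B * κ * c) *
          (if κ ≤ (fderiv ℝ Psi (Phi Psi V (ins v y)) e1).2.2.1 then 1 else 0)
        + ENNReal.ofReal (Ck C B hb κ) * (ENNReal.ofReal (1 + cu y.2.1)
          + Lh G Psi V t0 r f (ins v y))))
      + ENNReal.ofReal (9 * C ^ 3 * κ) * ∫⁻ y, ‖fderiv ℝ φ y (1, 0, 0)‖ₑ := by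
  have hpre := h.toPreHyp
  have hSo := isOpen_Sv hpre v
  have hSm : MeasurableSet (Sv Psi t0 r f v) := hSo.measurableSet
  obtain ⟨hXi, hX0⟩ := slice_ibp h hhs (κ := κ) hr' hv hhr hvlo h1 hφ hφc
  set X : P3 → ℝ := fun y => φ y * fderiv ℝ (That K Psi V t0 r f hh κ) (ins v y) e1
      + fderiv ℝ φ y (1, 0, 0) * Tv K Psi V t0 r f hh κ v y with hX
  set g : P3 → ℝ := (Sv Psi t0 r f v).indicator (fun y => φ y *
    (mm Psi hh κ (Phi Psi V (ins v y)) * (σ * dg K (ins v y)))) with hg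
  set E : P3 → ENNReal := fun y => (Sv Psi t0 r f v).indicator (fun y =>
    ENNReal.ofReal (φ y) * (ENNReal.ofReal (16 * C ^ 4 * B * κ * c) *
          (if κ ≤ (fderiv ℝ Psi (Phi Psi V (ins v y)) e1).2.2.1 then 1 else 0)
        + ENNReal.ofReal (Ck C B hb κ) * (ENNReal.ofReal (1 + cu y.2.1)
          + Lh G Psi V t0 r f (ins v y)))) y
      + ENNReal.ofReal (9 * C ^ 3 * κ) * ‖fderiv ℝ φ y (1, 0, 0)‖ₑ with hE
  have hcins : Continuous (fun y : P3 => ins v y) := by unfold ins; fun_prop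
  have hgm : AEStronglyMeasurable g volume := by
    apply AEMeasurable.aestronglyMeasurable
    rw [hg, aemeasurable_indicator_iff hSm]
    apply ContinuousOn.aemeasurable _ hSm
    have c1 : ContinuousOn (fun y : P3 => Phi Psi V (ins v y)) (Sv Psi t0 r f v) :=
      (continuousOn_Phi hpre).comp hcins.continuousOn (fun y hy => hy)
    have c2 : ContinuousOn (fun y : P3 => mm Psi hh κ (Phi Psi V (ins v y))) (Sv Psi t0 r f v) := by
      apply (continuousOn_mm hpre hhs κ).comp c1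
      rintro y ⟨z, hz, hzy⟩
      show Phi Psi V (ins v y) ∈ DD t0 r f
      rw [← hzy, h.Phi_left (h.DD_sub hz)]; exact hz
    have c3 : ContinuousOn (fun y : P3 => dg K (ins v y)) (Sv Psi t0 r f v) :=
      (continuousOn_dg hpre).comp hcins.continuousOn (fun y hy => image_sub hpre hy)
    exact hφ.continuous.continuousOn.mul (c2.mul (continuousOn_const.mul c3))
  have hXi' := hXi.const_mul σ
  have hX0' : ∫ y, σ * X y = 0 := by rw [integral_const_mul, hX0, mul_zero]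
  have main := lintegral_le_of_integral_zero (μ := (volume : Measure P3)) (E := E) hXi' hX0' hgm
    (by
      apply ae_of_all
      intro y
      rw [hg]
      by_cases hy : y ∈ Sv Psi t0 r f v
      · rw [indicator_of_mem hy]
        obtain ⟨z, hz, hzy⟩ := hy
        by_cases hφy : φ y = 0
        · simp [hφy]
        · have hmem : ins v y ∈ Psi '' DD t0 r f := ⟨z, hz, hzy⟩
          have h3 := (hc y hφy hmem).2.2.2
          have hP : Phi Psi V (ins v y) = z := by rw [← hzy]; exact h.Phi_left (h.DD_sub hz)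
          rw [hP]
          exact mul_nonneg (hφ0 y) (mul_nonneg (mm_nonneg hpre hh0 (h.DD_sub hz)) h3)
      · rw [indicator_of_notMem hy])
    (by
      apply ae_of_all
      intro y
      rw [hg, hE]
      simp only
      by_cases hy : y ∈ Sv Psi t0 r f v
      · rw [indicator_of_mem hy, indicator_of_mem hy]
        have hmem : ins v y ∈ Psi '' DD t0 r f := hy
        obtain ⟨z, hz, hzy⟩ := hy
        have hzV := h.DD_sub hz
        have hP : Phi Psi V (ins v y) = z := by rw [← hzy]; exact h.Phi_left hzV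
        have hC := (h.pt hzV).bd.one_le
        have hTle : |Tv K Psi V t0 r f hh κ v y| ≤ 9 * C ^ 3 * κ := by
          rw [Tv, ← hzy, h.That_eq hz]
          exact Theta_le hpre hh0 hh1 hκ hzV
        have hLh : Lh G Psi V t0 r f (ins v y) = ‖fderiv ℝ G z‖ₑ := by
          rw [Lh, indicator_of_mem hmem, hP]
        have hD : fderiv ℝ (That K Psi V t0 r f hh κ) (ins v y) e1 =
            fderiv ℝ (Theta K Psi hh κ) z (Zf Psi V z) := by
          rw [← hzy]; exact h.fderiv_That hhs hz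
        have e : σ * X y + φ y * (mm Psi hh κ (Phi Psi V (ins v y)) * (σ * dg K (ins v y))) =
            σ * (φ y * (fderiv ℝ (Theta K Psi hh κ) z (Zf Psi V z) +
              mm Psi hh κ z * dg K (Psi z)) + fderiv ℝ φ y (1, 0, 0) *
              Tv K Psi V t0 r f hh κ v y) := by
          rw [hX, hP, ← hzy]
          simp only
          rw [hzy, hD]; ring
        rw [e, enorm_mul]
        have hσ' : ‖σ‖ₑ = 1 := by
          rw [← ofReal_norm, Real.norm_eq_abs, hσ, ENNReal.ofReal_one]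
        rw [hσ', one_mul]
        refine (enorm_add_le _ _).trans ?_
        rw [hP]
        apply add_le_add
        · rw [enorm_mul]
          have hφe : ‖φ y‖ₑ = ENNReal.ofReal (φ y) := by
            rw [← ofReal_norm, Real.norm_eq_abs, abs_of_nonneg (hφ0 y)]
          rw [hφe]
          by_cases hφy : φ y = 0
          · simp only [hφy, ENNReal.ofReal_zero, zero_mul, mul_ite, mul_one, mul_zero, Std.le_refl]
          · gcongr
            obtain ⟨k1, k2, k3, _⟩ := hc y hφy hmem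
            have hp0 := h.pt hzV
            have hbd : K.Bd (Psi z) C c (cw (Psi z).2.1) (cu (Psi z).2.2.1) :=
              { hp0.bd with
                cv0 := hc0
                g11_4 := by rw [hzy]; exact k1
                g12_4 := by rw [hzy]; exact k2
                g22_4 := by rw [hzy]; exact k3 }
            have hp : PtHyp K G Psi V z C c (cw (Psi z).2.1) (cu (Psi z).2.2.1) :=
              { hp0 with bd := hbd }
            have hpw := pointwise' hpre hhs hh0 hh1 hhb hB hBeta hκ hzV (h.Zf_spec hzV) hp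
            have hcu : cu (Psi z).2.2.1 = cu y.2.1 := by rw [hzy]; rfl
            rw [hcu] at hpw
            have hcu0 : 0 ≤ cu y.2.1 := by rw [← hcu]; exact hp0.bd.cu0
            have hhb0 : 0 ≤ hb := (norm_nonneg _).trans (hhb 0)
            have hCk : 0 ≤ Ck C B hb κ := by unfold Ck; (clear * - hhb0 hC hκ hB; positivity)
            have hbp : 0 < (fderiv ℝ Psi z e1).2.1 := h.pos z hzV
            have hκ0 : 0 < κ := by linarith only [hκ]
            have hLn := norm_nonneg (fderiv ℝ G z)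
            have e1' := eta_nonneg ((fderiv ℝ Psi z e1).2.1 / κ)
            have e1'' := eta_le_one ((fderiv ℝ Psi z e1).2.1 / κ)
            have b1 : (fderiv ℝ Psi z e1).2.1 * (hh z.2 * eta ((fderiv ℝ Psi z e1).2.1 / κ)) ≤
                2 * κ := by
              by_cases hb2 : (fderiv ℝ Psi z e1).2.1 ≤ 2 * κ
              · have : hh z.2 * eta ((fderiv ℝ Psi z e1).2.1 / κ) ≤ 1 :=
                  mul_le_one₀ (hh1 _) e1' e1''
                have h0 : 0 ≤ hh z.2 * eta ((fderiv ℝ Psi z e1).2.1 / κ) :=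
                  mul_nonneg (hh0 _) e1'
                linarith only [hb2, mul_le_mul_of_nonneg_left this hbp.le]
              · push Not at hb2
                have h2 : 2 < (fderiv ℝ Psi z e1).2.1 / κ := by
                  rw [lt_div_iff₀ hκ0]; exact hb2
                rw [eta_zero h2.le]
                simp only [mul_zero]
                linarith only [hκ]
            have hmain : |fderiv ℝ (Theta K Psi hh κ) z (Zf Psi V z) +
                mm Psi hh κ z * dg K (Psi z)| ≤ 16 * C ^ 4 * B * κ * c *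
                  (if κ ≤ (fderiv ℝ Psi z e1).2.2.1 then 1 else 0)
                + Ck C B hb κ * ((1 + cu y.2.1) + ‖fderiv ℝ G z‖) := by
              have e3 : fderiv ℝ (Theta K Psi hh κ) z (Zf Psi V z) +
                mm Psi hh κ z * dg K (Psi z) = fderiv ℝ (Theta K Psi hh κ) z (Zf Psi V z)
                + (1/2) * (fderiv ℝ Psi z e1).2.1
        * fderiv ℝ K.g11 (Psi z) (e4 K (Psi z)) * (hh z.2 * (eta ((fderiv ℝ Psi z e1).2.1 / κ)
          * eta ((fderiv ℝ Psi z e1).2.2.1 / κ))) := by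
                rw [mm, dg]; ring
              rw [e3]
              refine hpw.trans ?_
              gcongr ?_ + _
              have hif : (0:ℝ) ≤ (if κ ≤ (fderiv ℝ Psi z e1).2.2.1 then 1 else 0) := by
                split_ifs <;> norm_num
              calc 8 * C ^ 4 * B * (c * (fderiv ℝ Psi z e1).2.1 * (hh z.2 *
                    eta ((fderiv ℝ Psi z e1).2.1 / κ)) *
                    (if κ ≤ (fderiv ℝ Psi z e1).2.2.1 then 1 else 0))
                  = 8 * C ^ 4 * B * c * ((fderiv ℝ Psi z e1).2.1 * (hh z.2 *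
                    eta ((fderiv ℝ Psi z e1).2.1 / κ))) *
                    (if κ ≤ (fderiv ℝ Psi z e1).2.2.1 then 1 else 0) := by ring
                _ ≤ 8 * C ^ 4 * B * c * (2 * κ) *
                    (if κ ≤ (fderiv ℝ Psi z e1).2.2.1 then 1 else 0) := by
                    (clear * - b1 hC hB hc0; gcongr)
                _ = _ := by ring
            rw [← ofReal_norm, Real.norm_eq_abs]
            refine (ENNReal.ofReal_le_ofReal hmain).trans (le_of_eq ?_)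
            rw [ENNReal.ofReal_add (by
              have hif : (0:ℝ) ≤ (if κ ≤ (fderiv ℝ Psi z e1).2.2.1 then 1 else 0) := by
                split_ifs <;> norm_num
              (clear * - hC hB hκ hc0; positivity)) (by (clear * - hCk hcu0; (clear * - hCk hcu0; positivity))), ENNReal.ofReal_mul (by (clear * - hC hB hκ hc0; positivity)),
              ENNReal.ofReal_mul hCk, ENNReal.ofReal_add (by linarith only [hcu0]) hLn, ofReal_norm, hLh]
            congr 2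
            split_ifs <;> simp
        · rw [enorm_mul, mul_comm]
          gcongr
          rw [← ofReal_norm, Real.norm_eq_abs]
          exact ENNReal.ofReal_le_ofReal hTle
      · rw [indicator_of_notMem hy, indicator_of_notMem hy, add_zero, zero_add]
        have hT0 : Tv K Psi V t0 r f hh κ v y = 0 := by
          have hy' : ins v y ∉ Psi '' DD t0 r f := hy
          rw [Tv, That, indicator_of_notMem hy']
        have hD0 : fderiv ℝ (That K Psi V t0 r f hh κ) (ins v y) e1 = 0 := by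
          have hnK : ins v y ∉ Psi '' KK Psi t0 r' f (v / 2) := by
            rintro ⟨z, hzK, hzy⟩
            have : z ∈ DD t0 r f := CoreHyp.mem_DD_of_KK hr' hvlo hzK (by rw [hzy]; exact h1)
            exact hy ⟨z, this, hzy⟩
          rw [h.fderiv_That_zero hr' (v2 := v / 2) (by linarith only [hv]) hhr hnK
            (show v < v / 2 by linarith only [hv])]
          rfl
        have : σ * X y = 0 := by rw [hX]; simp only; rw [hT0, hD0]; ring
        rw [this, enorm_zero]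
        exact bot_le)
  have e1' : ∫⁻ y, ENNReal.ofReal (g y) = ∫⁻ y in Sv Psi t0 r f v, ENNReal.ofReal (φ y *
      (mm Psi hh κ (Phi Psi V (ins v y)) * (σ * dg K (ins v y)))) := by
    rw [← lintegral_indicator hSm]
    apply lintegral_congr
    intro y
    rw [hg]
    by_cases hy : y ∈ Sv Psi t0 r f v
    · rw [indicator_of_mem hy, indicator_of_mem hy]
    · rw [indicator_of_notMem hy, indicator_of_notMem hy, ENNReal.ofReal_zero]
  rw [← e1']
  refine main.trans (le_of_eq ?_)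
  rw [hE, lintegral_add_right, lintegral_indicator hSm, lintegral_const_mul']
  · exact ENNReal.ofReal_ne_top
  · have c1 : Continuous (fun y => fderiv ℝ φ y (1, 0, 0)) :=
      (hφ.continuous_fderiv (by norm_num)).clm_apply continuous_const
    exact (c1.measurable.enorm).const_mul _

end Vale.Agent.P354x
end
end

section

section

set_option maxSynthPendingDepth 3

open Set MeasureTheory Filter Topology

namespace Vale.Agent.P354x

open Vale.Agent.P354w PreHyp CoreHyp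

/-- the basic bump function -/
noncomputable def be : ContDiffBump (0 : P3) := ⟨1/4, 1/2, by norm_num, by norm_num⟩

/-- the scaled bump function -/
noncomputable def ph (y0 : P3) (ε : ℝ) (y : P3) : ℝ := be (ε⁻¹ • (y - y0))

lemma exists_be_bound : ∃ N : ℝ, 0 ≤ N ∧ ∀ x, ‖fderiv ℝ (be : P3 → ℝ) x‖ ≤ N := by
  have hbs : ContDiff ℝ 1 (be : P3 → ℝ) := be.contDiff
  obtain ⟨N, hN⟩ := (be.hasCompactSupport.fderiv (𝕜 := ℝ)).exists_bound_of_continuous
      (hbs.continuous_fderiv (by norm_num))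
  exact ⟨N, (norm_nonneg _).trans (hN 0), hN⟩

lemma ph_contDiff (y0 : P3) (ε : ℝ) : ContDiff ℝ 1 (ph y0 ε) := by
  have hbs : ContDiff ℝ 1 (be : P3 → ℝ) := be.contDiff
  have : ContDiff ℝ 1 (fun y : P3 => ε⁻¹ • (y - y0)) := by (clear * -; fun_prop)
  exact hbs.comp this

lemma ph_nonneg (y0 : P3) (ε : ℝ) (y : P3) : 0 ≤ ph y0 ε y := be.nonneg

lemma ph_le_one (y0 : P3) (ε : ℝ) (y : P3) : ph y0 ε y ≤ 1 := be.le_one

lemma ph_one {y0 : P3} {ε : ℝ} (hε : 0 < ε) {y : P3} (hy : y ∈ Metric.ball y0 (ε / 4)) :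
    ph y0 ε y = 1 := by
  apply be.one_of_mem_closedBall
  rw [mem_closedBall_zero_iff, norm_smul, norm_inv, Real.norm_eq_abs, abs_of_pos hε]
  rw [Metric.mem_ball, dist_eq_norm] at hy
  show ε⁻¹ * ‖y - y0‖ ≤ 1/4
  rw [inv_mul_le_iff₀ hε]
  linarith only [hy]

lemma ph_zero {y0 : P3} {ε : ℝ} (hε : 0 < ε) {y : P3} (hy : y ∉ Metric.closedBall y0 (ε / 2)) :
    ph y0 ε y = 0 := by
  apply be.zero_of_le_dist
  rw [dist_zero_right, norm_smul, norm_inv, Real.norm_eq_abs, abs_of_pos hε]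
  rw [Metric.mem_closedBall, dist_eq_norm, not_le] at hy
  show 1/2 ≤ ε⁻¹ * ‖y - y0‖
  rw [le_inv_mul_iff₀ hε]
  linarith

lemma ph_compact {y0 : P3} {ε : ℝ} (hε : 0 < ε) : HasCompactSupport (ph y0 ε) :=
  HasCompactSupport.intro (isCompact_closedBall y0 (ε / 2)) (fun _ hy => ph_zero hε hy)

lemma ph_fderiv_zero {y0 : P3} {ε : ℝ} (hε : 0 < ε) {y : P3}
    (hy : y ∉ Metric.closedBall y0 (ε / 2)) : fderiv ℝ (ph y0 ε) y = 0 := by
  have : ph y0 ε =ᶠ[𝓝 y] fun _ => (0:ℝ) := by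
    filter_upwards [Metric.isClosed_closedBall.isOpen_compl.mem_nhds hy] with y' hy'
    exact ph_zero hε hy'
  rw [this.fderiv_eq]; simp

lemma ph_fderiv_le {N : ℝ} (hN : ∀ x, ‖fderiv ℝ (be : P3 → ℝ) x‖ ≤ N) {y0 : P3} {ε : ℝ}
    (hε : 0 < ε) (y : P3) : ‖fderiv ℝ (ph y0 ε) y (1, 0, 0)‖ ≤ N / ε := by
  have hbs : ContDiff ℝ 1 (be : P3 → ℝ) := be.contDiff
  have h1 : HasFDerivAt (be : P3 → ℝ) (fderiv ℝ (be : P3 → ℝ) (ε⁻¹ • (y - y0)))
      (ε⁻¹ • (y - y0)) := ((hbs.differentiable (by norm_num)) _).hasFDerivAt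
  have h2 : HasFDerivAt (fun y : P3 => ε⁻¹ • (y - y0)) (ε⁻¹ • ContinuousLinearMap.id ℝ P3) y :=
    ((hasFDerivAt_id y).sub_const y0).const_smul ε⁻¹
  have h3 := h1.comp y h2
  have h4 : fderiv ℝ (ph y0 ε) y = (fderiv ℝ (be : P3 → ℝ) (ε⁻¹ • (y - y0))).comp
      (ε⁻¹ • ContinuousLinearMap.id ℝ P3) := h3.fderiv
  rw [h4]
  have e : ((fderiv ℝ (be : P3 → ℝ) (ε⁻¹ • (y - y0))).comp
      (ε⁻¹ • ContinuousLinearMap.id ℝ P3)) (1, 0, 0) =
      ε⁻¹ * fderiv ℝ (be : P3 → ℝ) (ε⁻¹ • (y - y0)) (1, 0, 0) := by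
    rw [ContinuousLinearMap.comp_apply, ContinuousLinearMap.smul_apply, map_smul]
    rfl
  rw [e, norm_mul, norm_inv, Real.norm_eq_abs, abs_of_pos hε, div_eq_inv_mul]
  have h5 := (fderiv ℝ (be : P3 → ℝ) (ε⁻¹ • (y - y0))).le_opNorm (1, 0, 0)
  have h6 : ‖((1, 0, 0) : P3)‖ = 1 := by simp only [Prod.norm_def, norm_one, norm_zero, max_self, zero_le_one, sup_of_le_left]
  rw [h6, mul_one] at h5
  have := h5.trans (hN _)
  have hε' : 0 ≤ ε⁻¹ := by positivity
  exact mul_le_mul_of_nonneg_left this hε'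

variable {K : Coef} {G : P4 → P4 →L[ℝ] P4 →L[ℝ] ℝ} {Psi : P4 → P4} {V U : Set P4}
    {C R : ℝ} {cv cw cu : ℝ → ℝ} {t0 r : ℝ} {f : P3 → ℝ}

/-- the cutoff in the exotic space -/
noncomputable def hhf {r : ℝ} (hr : 0 < r) : ContDiffBump (0 : P3) :=
  ⟨r/4, r/2, by linarith, by linarith only [hr]⟩

/-- **Local estimate** on a ball of a slice, direction `theta1`. -/
theorem local_est (h : CoreHyp K G Psi V U C R cv cw cu t0 r f) (hcu : ∀ u, cu u ≤ C)
    {κ : ℝ} (hκ : 1 ≤ κ) : ∃ D : ℝ, 0 < D ∧ ∀ (v y0 ε σ γ c) (Y : Set P3), v < 0 →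
      (∀ x : P3, ‖x‖ ≤ r / 2 → (Psi (t0, x)).2.1 < v) → 0 < ε → ε ≤ 1 → |σ| = 1 → 0 ≤ γ → 0 ≤ c →
      MeasurableSet Y →
      (∀ y ∈ Y, ∃ z ∈ DD t0 r f, Psi z = ins v y ∧ ‖z.2‖ ≤ r / 4 ∧ QQ Psi z ≤ κ) →
      (∀ y ∈ Metric.ball y0 ε, ins v y ∈ Psi '' DD t0 r f →
        |fderiv ℝ K.g11 (ins v y) (e4 K (ins v y))| ≤ c ∧
        |fderiv ℝ K.g12 (ins v y) (e4 K (ins v y))| ≤ c ∧
        |fderiv ℝ K.g22 (ins v y) (e4 K (ins v y))| ≤ c ∧ γ ≤ σ * dg K (ins v y)) →
      ENNReal.ofReal γ * volume (Metric.ball y0 (ε / 4) ∩ Y) ≤ ENNReal.ofReal D *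
        (ENNReal.ofReal c * volume (Metric.ball y0 ε \ Y) +
          ENNReal.ofReal (1 / ε) * volume (Metric.ball y0 ε) +
          ∫⁻ y in Metric.ball y0 ε, Lh G Psi V t0 r f (ins v y)) := by
  have hr := h.r_pos
  have hpre := h.toPreHyp
  have hC : 1 ≤ C := by
    have : ((t0, 0) : P4) ∈ V := h.memV 0 (by simpa only [Metric.mem_ball, dist_self] using hr) t0
      ⟨le_refl _, h.t0f 0 (by simpa only [Metric.mem_ball, dist_self] using hr)⟩
    exact (h.pt this).bd.one_le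
  have hC0 : 0 < C := by linarith only [hC]
  have hκ0 : 0 < κ := by linarith
  obtain ⟨B, hB, hBeta⟩ := exists_eta_bound
  obtain ⟨N, hN0, hN⟩ := exists_be_bound
  set hh := hhf hr with hhd
  have hhs : ContDiff ℝ 1 (hh : P3 → ℝ) := hh.contDiff
  obtain ⟨hb, hhb⟩ : ∃ hb : ℝ, ∀ x, ‖fderiv ℝ (hh : P3 → ℝ) x‖ ≤ hb :=
    (hh.hasCompactSupport.fderiv (𝕜 := ℝ)).exists_bound_of_continuous
      (hhs.continuous_fderiv (by norm_num))
  have hh_in : ∀ x : P3, ‖x‖ ≤ r / 4 → hh x = 1 := by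
    intro x hx
    exact hh.one_of_mem_closedBall (by rwa [mem_closedBall_zero_iff])
  have hh_out : ∀ x : P3, r / 2 < ‖x‖ → hh x = 0 := by
    intro x hx
    apply hh.zero_of_le_dist
    rw [dist_zero_right]
    exact hx.le
  have hhb0 : 0 ≤ hb := (norm_nonneg _).trans (hhb 0)
  have hB0 : 0 < B := by linarith only [hB]
  have hCk : 0 ≤ Ck C B hb κ := by unfold Ck; (clear * - hhb0 hC hκ hB; positivity)
  set D1 : ℝ := 16 * C ^ 4 * B * κ with hD1
  set D2 : ℝ := Ck C B hb κ * (1 + C) + 9 * C ^ 3 * κ * N with hD2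
  set D3 : ℝ := Ck C B hb κ with hD3
  set D0 : ℝ := D1 + D2 + D3 with hD0
  have hD10 : 0 < D1 := by positivity
  have hD20 : 0 ≤ D2 := by (clear * - hCk hC hκ hN0; positivity)
  have hD00 : 0 < D0 := by (clear * - hC hB hκ hCk hN0; positivity)
  refine ⟨4 * C ^ 2 * κ * D0, by (clear * - hC hκ hB hCk hN0; positivity), ?_⟩
  intro v y0 ε σ γ c Y hv hvlo0 hε hε1 hσ hγ hc0 hYm hY hball
  -- a uniform vlo
  obtain ⟨vlo, hvlov, hvlo⟩ : ∃ vlo < v, ∀ x : P3, ‖x‖ ≤ r / 2 → (Psi (t0, x)).2.1 ≤ vlo := by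
    have hmem0 : ∀ x : P3, ‖x‖ ≤ r / 2 → ((t0, x) : P4) ∈ V := by
      intro x hx
      have hxb : x ∈ Metric.ball (0 : P3) r := by
        rw [mem_ball_zero_iff]; linarith only [hr, hx]
      exact h.memV x hxb t0 ⟨le_refl _, h.t0f x hxb⟩
    have hcomp : IsCompact (Metric.closedBall (0 : P3) (r/2)) := isCompact_closedBall _ _
    have hne : (Metric.closedBall (0 : P3) (r/2)).Nonempty := ⟨0, by simp only [Metric.mem_closedBall, dist_self]; linarith only [hr]⟩
    have hcont : ContinuousOn (fun x : P3 => (Psi (t0, x)).2.1)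
        (Metric.closedBall (0 : P3) (r/2)) := by
      intro x hx
      rw [mem_closedBall_zero_iff] at hx
      have h1 : ContinuousAt Psi (t0, x) := (h.iso.contDiffAt (hmem0 x hx)).continuousAt
      have h2 : ContinuousAt (fun x : P3 => ((t0, x) : P4)) x := by fun_prop
      have h3 : ContinuousAt (fun x : P3 => Psi (t0, x)) x :=
        ContinuousAt.comp (g := Psi) (f := fun x : P3 => ((t0, x) : P4)) h1 h2
      exact (h3.snd.fst).continuousWithinAt
    obtain ⟨x0, hx0, hmax⟩ := hcomp.exists_isMaxOn hne hcont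
    refine ⟨(Psi (t0, x0)).2.1, ?_, ?_⟩
    · rw [mem_closedBall_zero_iff] at hx0
      exact hvlo0 x0 hx0
    · intro x hx
      exact hmax (by rwa [mem_closedBall_zero_iff])
  have hsupp : ∀ y, ph y0 ε y ≠ 0 → y ∈ Metric.ball y0 ε := by
    intro y hy
    by_contra hc
    apply hy
    apply ph_zero hε
    intro hm
    apply hc
    rw [Metric.mem_closedBall] at hm
    rw [Metric.mem_ball]; linarith only [hε, hm]
  have hSI := slice_ineq h hhs (fun x => hh.nonneg) (fun x => hh.le_one) hhb hB hBeta hκ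
    (r' := r/2) (by linarith only [hr]) hv hh_out hvlo hvlov (ph_contDiff y0 ε) (ph_compact hε)
    (ph_nonneg y0 ε) (c := c) hσ hc0
    (fun y hy hm => by
      obtain ⟨k1, k2, k3, k4⟩ := hball y (hsupp y hy) hm
      exact ⟨k1, k2, k3, hγ.trans k4⟩)
  have hballm : MeasurableSet (Metric.ball y0 ε) := Metric.isOpen_ball.measurableSet
  have hSm : MeasurableSet (Sv Psi t0 r f v) := (isOpen_Sv hpre v).measurableSet
  -- lower bound of the left side
  have low : ENNReal.ofReal (γ / (4 * C ^ 2 * κ)) * volume (Metric.ball y0 (ε / 4) ∩ Y) ≤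
      ∫⁻ y in Sv Psi t0 r f v, ENNReal.ofReal (ph y0 ε y * (mm Psi hh κ (Phi Psi V (ins v y)) *
        (σ * dg K (ins v y)))) := by
    have hsub : Metric.ball y0 (ε / 4) ∩ Y ⊆ Sv Psi t0 r f v := by
      rintro y ⟨_, hyY⟩
      obtain ⟨z, hz, hzy, _⟩ := hY y hyY
      exact ⟨z, hz, hzy⟩
    have hm : MeasurableSet (Metric.ball y0 (ε / 4) ∩ Y) :=
      Metric.isOpen_ball.measurableSet.inter hYm
    calc ENNReal.ofReal (γ / (4 * C ^ 2 * κ)) * volume (Metric.ball y0 (ε / 4) ∩ Y)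
        = ∫⁻ y in Metric.ball y0 (ε / 4) ∩ Y, ENNReal.ofReal (γ / (4 * C ^ 2 * κ)) := by
          rw [lintegral_const]; simp only [MeasurableSet.univ, Measure.restrict_apply, univ_inter]
      _ ≤ ∫⁻ y in Metric.ball y0 (ε / 4) ∩ Y, ENNReal.ofReal (ph y0 ε y *
            (mm Psi hh κ (Phi Psi V (ins v y)) * (σ * dg K (ins v y)))) := by
          apply setLIntegral_mono' hm
          rintro y ⟨hyb, hyY⟩
          apply ENNReal.ofReal_le_ofReal
          obtain ⟨z, hz, hzy, hzn, hzq⟩ := hY y hyY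
          have hzV := h.DD_sub hz
          have hP : Phi Psi V (ins v y) = z := by rw [← hzy]; exact h.Phi_left hzV
          rw [ph_one hε hyb, one_mul, hP]
          have hyb' : y ∈ Metric.ball y0 ε := by
            rw [Metric.mem_ball] at hyb ⊢; linarith only [hε, hyb]
          obtain ⟨_, _, _, k4⟩ := hball y hyb' ⟨z, hz, hzy⟩
          have ha := (h.pt hzV).sq_le.2.1
          have hbp := h.pos z hzV
          have hab := (h.pt hzV).sq_le.2.2
          unfold QQ at hzq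
          simp only [PtHyp.PP] at ha hab
          have e1' : eta ((fderiv ℝ Psi z e1).2.1 / κ) = 1 := by
            apply eta_one
            rw [div_le_one hκ0]; linarith only [hzq, ha]
          have e2' : eta ((fderiv ℝ Psi z e1).2.2.1 / κ) = 1 := by
            apply eta_one
            rw [div_le_one hκ0]; linarith only [hzq, hbp]
          have hmm : 1 / (4 * C ^ 2 * κ) ≤ mm Psi hh κ z := by
            rw [mm, e1', e2', hh_in _ hzn]
            rw [div_le_iff₀ (by positivity)]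
            have h3 : (fderiv ℝ Psi z e1).2.2.1 * (fderiv ℝ Psi z e1).2.1 ≤
                κ * (fderiv ℝ Psi z e1).2.1 := by
              apply mul_le_mul_of_nonneg_right _ hbp.le
              linarith only [hzq, hbp]
            calc 1 ≤ 2 * C ^ 2 * ((fderiv ℝ Psi z e1).2.2.1 * (fderiv ℝ Psi z e1).2.1) := hab
              _ ≤ 2 * C ^ 2 * (κ * (fderiv ℝ Psi z e1).2.1) := by (clear * - h3 hC; gcongr)
              _ = _ := by ring
          calc γ / (4 * C ^ 2 * κ) = 1 / (4 * C ^ 2 * κ) * γ := by ring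
            _ ≤ mm Psi hh κ z * (σ * dg K (ins v y)) :=
              mul_le_mul hmm k4 hγ (mm_nonneg hpre (fun x => hh.nonneg) hzV)
      _ ≤ _ := lintegral_mono_set hsub
  -- upper bound of the right side
  have up1 : ∫⁻ y in Sv Psi t0 r f v, ENNReal.ofReal (ph y0 ε y) *
        (ENNReal.ofReal (16 * C ^ 4 * B * κ * c) *
          (if κ ≤ (fderiv ℝ Psi (Phi Psi V (ins v y)) e1).2.2.1 then 1 else 0)
        + ENNReal.ofReal (Ck C B hb κ) * (ENNReal.ofReal (1 + cu y.2.1)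
          + Lh G Psi V t0 r f (ins v y))) ≤
      ENNReal.ofReal (D1 * c) * volume (Metric.ball y0 ε \ Y) +
      ENNReal.ofReal D3 * (ENNReal.ofReal (1 + C) * volume (Metric.ball y0 ε) +
        ∫⁻ y in Metric.ball y0 ε, Lh G Psi V t0 r f (ins v y)) := by
    have hLm : Measurable (fun y : P3 => Lh G Psi V t0 r f (ins v y)) :=
      (measurable_Lh hpre).comp (by unfold ins; fun_prop)
    calc _ ≤ ∫⁻ y, ((Metric.ball y0 ε \ Y).indicator (fun _ => ENNReal.ofReal (D1 * c)) y +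
          (Metric.ball y0 ε).indicator (fun y => ENNReal.ofReal D3 * (ENNReal.ofReal (1 + C) +
            Lh G Psi V t0 r f (ins v y))) y) := by
          rw [← lintegral_indicator hSm]
          apply lintegral_mono
          intro y
          simp only
          by_cases hyS : y ∈ Sv Psi t0 r f v
          · rw [indicator_of_mem hyS]
            by_cases hyb : y ∈ Metric.ball y0 ε
            · rw [indicator_of_mem hyb]
              have hφ1 : ENNReal.ofReal (ph y0 ε y) ≤ 1 := by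
                rw [← ENNReal.ofReal_one]
                exact ENNReal.ofReal_le_ofReal (ph_le_one _ _ _)
              calc _ ≤ 1 * (ENNReal.ofReal (16 * C ^ 4 * B * κ * c) *
                    (if κ ≤ (fderiv ℝ Psi (Phi Psi V (ins v y)) e1).2.2.1 then 1 else 0)
                  + ENNReal.ofReal (Ck C B hb κ) * (ENNReal.ofReal (1 + cu y.2.1)
                    + Lh G Psi V t0 r f (ins v y))) := mul_le_mul_left hφ1 _
                _ ≤ _ := by
                  rw [one_mul]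
                  apply add_le_add
                  · by_cases hyY : y ∈ Y
                    · obtain ⟨z, hz, hzy, _, hzq⟩ := hY y hyY
                      have hzV := h.DD_sub hz
                      have hP : Phi Psi V (ins v y) = z := by rw [← hzy]; exact h.Phi_left hzV
                      have hbp := h.pos z hzV
                      unfold QQ at hzq
                      have hlt : ¬ κ ≤ (fderiv ℝ Psi z e1).2.2.1 := by
                        intro hle; linarith only [hzq, hbp, hle]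
                      rw [hP, if_neg hlt, mul_zero]
                      exact bot_le
                    · rw [indicator_of_mem (show y ∈ Metric.ball y0 ε \ Y from ⟨hyb, hyY⟩)]
                      calc _ ≤ ENNReal.ofReal (16 * C ^ 4 * B * κ * c) * 1 := by
                            gcongr
                            split_ifs <;> simp
                        _ = _ := by rw [mul_one]
                  · gcongr
                    exact hcu _
            · have hn2 : y ∉ Metric.ball y0 ε \ Y := fun hh => hyb hh.1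
              have : ph y0 ε y = 0 := by
                by_contra hne
                exact hyb (hsupp y hne)
              rw [indicator_of_notMem hyb, indicator_of_notMem hn2, this, ENNReal.ofReal_zero,
                zero_mul, add_zero]
          · rw [indicator_of_notMem hyS]
            exact bot_le
      _ = _ := by
          rw [lintegral_add_left (measurable_const.indicator (hballm.diff hYm)),
            lintegral_indicator (hballm.diff hYm), lintegral_indicator hballm,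
            lintegral_const_mul' _ _ ENNReal.ofReal_ne_top,
            lintegral_add_left measurable_const]
          simp only [lintegral_const, Measure.restrict_apply MeasurableSet.univ, univ_inter]
  have up2 : ENNReal.ofReal (9 * C ^ 3 * κ) * ∫⁻ y, ‖fderiv ℝ (ph y0 ε) y (1, 0, 0)‖ₑ ≤
      ENNReal.ofReal (9 * C ^ 3 * κ * N) * (ENNReal.ofReal (1 / ε) *
        volume (Metric.ball y0 ε)) := by
    have h1 : ∫⁻ y, ‖fderiv ℝ (ph y0 ε) y (1, 0, 0)‖ₑ ≤
        ∫⁻ y, (Metric.ball y0 ε).indicator (fun _ => ENNReal.ofReal (N / ε)) y := by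
      apply lintegral_mono
      intro y
      simp only
      by_cases hyb : y ∈ Metric.ball y0 ε
      · rw [indicator_of_mem hyb, ← ofReal_norm]
        exact ENNReal.ofReal_le_ofReal (ph_fderiv_le hN hε y)
      · rw [indicator_of_notMem hyb, ph_fderiv_zero hε]
        · simp
        · intro hm
          apply hyb
          rw [Metric.mem_closedBall] at hm
          rw [Metric.mem_ball]; linarith only [hε, hm]
    rw [lintegral_indicator hballm] at h1
    simp only [lintegral_const, Measure.restrict_apply MeasurableSet.univ, univ_inter] at h1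
    calc ENNReal.ofReal (9 * C ^ 3 * κ) * ∫⁻ y, ‖fderiv ℝ (ph y0 ε) y (1, 0, 0)‖ₑ
        ≤ ENNReal.ofReal (9 * C ^ 3 * κ) * (ENNReal.ofReal (N / ε) *
          volume (Metric.ball y0 ε)) := by (clear * - h1; gcongr)
      _ = _ := by
          rw [← mul_assoc, ← mul_assoc, ← ENNReal.ofReal_mul (by positivity),
            ← ENNReal.ofReal_mul (by (clear * - hC hκ hN0; positivity))]
          congr 2
          ring
  have hone : ENNReal.ofReal (1 + C) ≤ ENNReal.ofReal (1 + C) * ENNReal.ofReal (1 / ε) := by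
    rw [← ENNReal.ofReal_mul (by positivity)]
    apply ENNReal.ofReal_le_ofReal
    have : 1 ≤ 1 / ε := by rw [le_div_iff₀ hε]; linarith only [hε1]
    linarith only [mul_le_mul_of_nonneg_left this (by positivity : (0 : ℝ) ≤ 1 + C)]
  have tot : ENNReal.ofReal (γ / (4 * C ^ 2 * κ)) * volume (Metric.ball y0 (ε / 4) ∩ Y) ≤
      ENNReal.ofReal D0 * (ENNReal.ofReal c * volume (Metric.ball y0 ε \ Y) +
          ENNReal.ofReal (1 / ε) * volume (Metric.ball y0 ε) +
          ∫⁻ y in Metric.ball y0 ε, Lh G Psi V t0 r f (ins v y)) := by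
    set b1 := volume (Metric.ball y0 ε \ Y)
    set b2 := volume (Metric.ball y0 ε)
    set b3 := ∫⁻ y in Metric.ball y0 ε, Lh G Psi V t0 r f (ins v y)
    have hDD1 : ENNReal.ofReal D1 ≤ ENNReal.ofReal D0 := ENNReal.ofReal_le_ofReal (by linarith only [hCk, hD20])
    have hDD2 : ENNReal.ofReal D2 ≤ ENNReal.ofReal D0 := ENNReal.ofReal_le_ofReal (by linarith only [hCk, hD10])
    have hDD3 : ENNReal.ofReal D3 ≤ ENNReal.ofReal D0 := ENNReal.ofReal_le_ofReal (by linarith only [hD10, hD20])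
    have hD2' : ENNReal.ofReal D2 = ENNReal.ofReal D3 * ENNReal.ofReal (1 + C) +
        ENNReal.ofReal (9 * C ^ 3 * κ * N) := by
      rw [hD2, ENNReal.ofReal_add (by (clear * - hCk hC; positivity)) (by (clear * - hC hκ hN0; positivity)), ENNReal.ofReal_mul hCk]
    calc _ ≤ _ := low
      _ ≤ _ := hSI
      _ ≤ (ENNReal.ofReal (D1 * c) * b1 + ENNReal.ofReal D3 * (ENNReal.ofReal (1 + C) * b2 + b3))
          + ENNReal.ofReal (9 * C ^ 3 * κ * N) * (ENNReal.ofReal (1 / ε) * b2) :=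
        add_le_add up1 up2
      _ ≤ (ENNReal.ofReal (D1 * c) * b1 + ENNReal.ofReal D3 *
          ((ENNReal.ofReal (1 + C) * ENNReal.ofReal (1 / ε)) * b2 + b3))
          + ENNReal.ofReal (9 * C ^ 3 * κ * N) * (ENNReal.ofReal (1 / ε) * b2) := by
        (clear * - hone; gcongr)
      _ = ENNReal.ofReal D1 * (ENNReal.ofReal c * b1) +
          ENNReal.ofReal D2 * (ENNReal.ofReal (1 / ε) * b2) + ENNReal.ofReal D3 * b3 := by
        rw [hD2', ENNReal.ofReal_mul hD10.le]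
        ring
      _ ≤ ENNReal.ofReal D0 * (ENNReal.ofReal c * b1) +
          ENNReal.ofReal D0 * (ENNReal.ofReal (1 / ε) * b2) + ENNReal.ofReal D0 * b3 := by
        (clear * - hDD1 hDD2 hDD3; gcongr)
      _ = _ := by ring
  have hq : (0:ℝ) < 4 * C ^ 2 * κ := by positivity
  calc ENNReal.ofReal γ * volume (Metric.ball y0 (ε / 4) ∩ Y)
      = ENNReal.ofReal (4 * C ^ 2 * κ) * (ENNReal.ofReal (γ / (4 * C ^ 2 * κ)) *
        volume (Metric.ball y0 (ε / 4) ∩ Y)) := by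
        rw [← mul_assoc, ← ENNReal.ofReal_mul hq.le]
        congr 2
        (clear * - hC hκ; field_simp)
    _ ≤ _ := mul_le_mul_right tot _
    _ = _ := by rw [← mul_assoc, ← ENNReal.ofReal_mul hq.le]

end Vale.Agent.P354x
end
end

section

section

set_option maxSynthPendingDepth 3
set_option linter.unusedSectionVars false

open Set MeasureTheory Filter

namespace Vale.Agent.P354w

/-- A change of the angular coordinates. -/
structure Tr (K K' : Coef) (T : P4 ≃L[ℝ] P4) : Prop where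
  v : ∀ y, (T y).2.1 = y.2.1
  u : ∀ y, (T y).2.2.1 = y.2.2.1
  n1 : ∀ y, |(T y).1| ≤ |y.1| + |y.2.2.2|
  n2 : ∀ y, |(T y).2.2.2| ≤ |y.1| + |y.2.2.2|
  det : |((T : P4 →L[ℝ] P4)).det| = 1
  gF : ∀ x a b, K'.gF (T x) (T a) (T b) = K.gF x a b
  diff : ∀ x, K.DiffAt x → K'.DiffAt (T x)
  bd : ∀ x C cv cw cu, K.DiffAt x → K.Bd x C cv cw cu →
    K'.Bd (T x) (8 * C) (8 * cv) (8 * cw) (8 * cu)
  smooth : ∀ U, K.SmoothOn U → K'.SmoothOn (T '' U)

lemma SmoothOn.diffAt {K : Coef} {U : Set P4} (h : K.SmoothOn U) (hU : IsOpen U) {x : P4}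
    (hx : x ∈ U) : K.DiffAt x := by
  have key : ∀ g : P4 → ℝ, ContDiffOn ℝ 1 g U → DifferentiableAt ℝ g x := fun g hg =>
    (hg.differentiableOn (by norm_num)).differentiableAt (hU.mem_nhds hx)
  exact ⟨key _ h.om, key _ h.s1, key _ h.s2, key _ h.w1, key _ h.w2, key _ h.g11, key _ h.g12,
    key _ h.g22⟩

variable {K K' : Coef} {G : P4 → P4 →L[ℝ] P4 →L[ℝ] ℝ} {Psi : P4 → P4} {V U : Set P4}
    {C R : ℝ} {cv cw cu : ℝ → ℝ} {t0 r : ℝ} {f : P3 → ℝ} {T : P4 ≃L[ℝ] P4}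

lemma CoreHyp.tr (h : CoreHyp K G Psi V U C R cv cw cu t0 r f) (hT : Tr K K' T)
    (hcv : ∫⁻ v in Ico (-(2 * R)) 0, ENNReal.ofReal (cv v) ≠ ⊤)
    (hcw : ∫⁻ v in Ico (-(2 * R)) 0, ENNReal.ofReal (cw v) ≠ ⊤)
    (hcu : ∫⁻ u in Icc (-(2 * R)) (2 * R), ENNReal.ofReal (cu u) ≠ ⊤) :
    CoreHyp K' G (fun z => T (Psi z)) V (T '' U) (8 * C) (2 * R) (fun v => 8 * cv v)
      (fun v => 8 * cw v) (fun u => 8 * cu u) t0 r f := by
  have hz0 : ((t0, (0 : P3)) : P4) ∈ V := by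
    have hb : (0 : P3) ∈ Metric.ball (0 : P3) r := Metric.mem_ball_self h.r_pos
    exact h.memV 0 hb t0 ⟨le_refl _, h.t0f 0 hb⟩
  have hC : 1 ≤ C := (h.pt hz0).bd.one_le
  have hR0 : 0 ≤ R := (abs_nonneg _).trans (h.U_sub _ (h.maps hz0)).1
  have hfd : ∀ z ∈ V, fderiv ℝ (fun z => T (Psi z)) z = (T : P4 →L[ℝ] P4).comp (fderiv ℝ Psi z) := by
    intro z hz
    have h1 : HasFDerivAt Psi (fderiv ℝ Psi z) z :=
      ((h.iso.contDiffAt hz).differentiableAt (by norm_num)).hasFDerivAt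
    exact (T.hasFDerivAt.comp z h1).fderiv
  have hmul : ∀ (g : ℝ → ℝ) (s : Set ℝ), ∫⁻ v in s, ENNReal.ofReal (g v) ≠ ⊤ →
      ∫⁻ v in s, ENNReal.ofReal (8 * g v) ≠ ⊤ := by
    intro g s hg
    have : ∀ v, ENNReal.ofReal (8 * g v) = ENNReal.ofReal 8 * ENNReal.ofReal (g v) := fun v =>
      ENNReal.ofReal_mul (by norm_num)
    simp_rw [this]
    rw [lintegral_const_mul' _ _ ENNReal.ofReal_ne_top]
    exact ENNReal.mul_ne_top ENNReal.ofReal_ne_top hg
  refine
    { openU := T.toHomeomorph.isOpenMap _ h.openU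
      smoothK := hT.smooth _ h.smoothK
      bd := ?_
      U_sub := ?_
      cv_meas := h.cv_meas.const_mul 8
      cw_meas := h.cw_meas.const_mul 8
      cu_meas := h.cu_meas.const_mul 8
      cv_int := hmul _ _ hcv
      cw_int := hmul _ _ hcw
      cu_int := hmul _ _ hcu
      iso := ?_
      inj := fun z hz w hw hzw => h.inj hz hw (T.injective hzw)
      maps := fun z hz => ⟨_, h.maps hz, rfl⟩
      cone := ?_
      tt := ?_
      pos := ?_
      det_lo := ?_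
      det_hi := ?_
      r_pos := h.r_pos
      t0f := h.t0f
      memV := h.memV
      openD := h.openD
      cpt := ?_
      exit := ?_
      finD := h.finD
      L2 := h.L2 }
  · rintro _ ⟨x, hx, rfl⟩
    rw [hT.v, hT.u]
    exact hT.bd x _ _ _ _ (SmoothOn.diffAt h.smoothK h.openU hx) (h.bd x hx)
  · rintro _ ⟨x, hx, rfl⟩
    obtain ⟨a1, a2, a3, a4, a5⟩ := h.U_sub x hx
    rw [hT.v, hT.u]
    exact ⟨(hT.n1 x).trans (by linarith only [a1, a5]), by linarith only [a2, a3], a3, by linarith,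
      (hT.n2 x).trans (by linarith)⟩
  · exact
      { isOpen := h.iso.isOpen
        smooth := T.contDiff.comp_contDiffOn h.iso.smooth
        diffG := h.iso.diffG
        diffK := fun z hz => hT.diff _ (h.iso.diffK z hz)
        iso := fun z hz a b => by
          rw [hfd z hz]
          show _ = K'.gF (T (Psi z)) (T (fderiv ℝ Psi z a)) (T (fderiv ℝ Psi z b))
          rw [hT.gF, h.iso.iso z hz] }
  · intro z hz a
    have h1 := h.cone z hz a
    have h2 := sq_nonneg ‖a‖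
    linarith only [h1, h2]
  · intro z hz
    have h1 := h.tt z hz
    linarith
  · intro z hz
    rw [hfd z hz]
    show 0 < (T (fderiv ℝ Psi z e1)).2.1
    rw [hT.v]; exact h.pos z hz
  · intro z hz
    rw [hfd z hz]
    have h1 := h.det_lo z hz
    have h2 : ((T : P4 →L[ℝ] P4).comp (fderiv ℝ Psi z)).det =
        (T : P4 →L[ℝ] P4).det * (fderiv ℝ Psi z).det := by
      show LinearMap.det (((T : P4 →L[ℝ] P4) : P4 →ₗ[ℝ] P4).comp (fderiv ℝ Psi z : P4 →ₗ[ℝ] P4)) = _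
      rw [LinearMap.det_comp]
    rw [h2, abs_mul, hT.det, one_mul]
    linarith only [h1]
  · intro z hz
    rw [hfd z hz]
    have h1 := h.det_hi z hz
    have h2 : ((T : P4 →L[ℝ] P4).comp (fderiv ℝ Psi z)).det =
        (T : P4 →L[ℝ] P4).det * (fderiv ℝ Psi z).det := by
      show LinearMap.det (((T : P4 →L[ℝ] P4) : P4 →ₗ[ℝ] P4).comp (fderiv ℝ Psi z : P4 →ₗ[ℝ] P4)) = _
      rw [LinearMap.det_comp]
    rw [h2, abs_mul, hT.det, one_mul]
    linarith only [hC, h1]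
  · intro r' hr' v2 hv2
    have h1 := h.cpt r' hr' v2 hv2
    simpa only [hT.v] using h1
  · intro x hx v2 hv2
    simpa only [hT.v] using h.exit x hx v2 hv2

lemma fderiv_T {f : P4 → ℝ} {x : P4} (hf : DifferentiableAt ℝ f x) (a : P4) :
    fderiv ℝ (fun y => f (T.symm y)) (T x) a = fderiv ℝ f x (T.symm a) := by
  have hf' : DifferentiableAt ℝ f (T.symm (T x)) := by simpa using hf
  have h1 : HasFDerivAt (fun z => f (T.symm z))
      ((fderiv ℝ f (T.symm (T x))).comp (T.symm : P4 →L[ℝ] P4)) (T x) :=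
    hf'.hasFDerivAt.comp (T x) T.symm.hasFDerivAt
  rw [h1.fderiv]
  simp

lemma diff_T {f : P4 → ℝ} {x : P4} (hf : DifferentiableAt ℝ f x) :
    DifferentiableAt ℝ (fun y => f (T.symm y)) (T x) := by
  have hf' : DifferentiableAt ℝ f (T.symm (T x)) := by simpa using hf
  exact hf'.comp (T x) T.symm.differentiableAt

lemma smooth_T {f : P4 → ℝ} {U : Set P4} (hf : ContDiffOn ℝ 1 f U) :
    ContDiffOn ℝ 1 (fun y => f (T.symm y)) (T '' U) := by
  refine hf.comp T.symm.contDiff.contDiffOn ?_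
  rintro _ ⟨x, hx, rfl⟩
  show T.symm (T x) ∈ U
  rw [ContinuousLinearEquiv.symm_apply_apply]; exact hx

/-! ### swap -/

/-- exchange of the angular coordinates -/
noncomputable def Tw : P4 ≃L[ℝ] P4 :=
  LinearEquiv.toContinuousLinearEquiv
    { toFun := fun a => (a.2.2.2, a.2.1, a.2.2.1, a.1)
      invFun := fun a => (a.2.2.2, a.2.1, a.2.2.1, a.1)
      map_add' := fun a b => rfl
      map_smul' := fun t a => rfl
      left_inv := fun a => rfl
      right_inv := fun a => rfl }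

lemma Tw_apply (a : P4) : Tw a = (a.2.2.2, a.2.1, a.2.2.1, a.1) := rfl
lemma Tw_symm_apply (a : P4) : Tw.symm a = (a.2.2.2, a.2.1, a.2.2.1, a.1) := rfl

/-- the coefficients after the exchange -/
noncomputable def Coef.sw (K : Coef) : Coef where
  om := fun y => K.om (Tw.symm y)
  s1 := fun y => K.s2 (Tw.symm y)
  s2 := fun y => K.s1 (Tw.symm y)
  w1 := fun y => K.w2 (Tw.symm y)
  w2 := fun y => K.w1 (Tw.symm y)
  g11 := fun y => K.g22 (Tw.symm y)
  g12 := fun y => K.g12 (Tw.symm y)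
  g22 := fun y => K.g11 (Tw.symm y)

/-! ### shear -/

/-- shear of the angular coordinates -/
noncomputable def Ts : P4 ≃L[ℝ] P4 :=
  LinearEquiv.toContinuousLinearEquiv
    { toFun := fun a => (a.1, a.2.1, a.2.2.1, a.2.2.2 - a.1)
      invFun := fun a => (a.1, a.2.1, a.2.2.1, a.2.2.2 + a.1)
      map_add' := fun a b => by
        ext <;> simp only [Prod.fst_add, Prod.mk_add_mk, Prod.snd_add]
        ring
      map_smul' := fun t a => by
        ext <;> simp only [Prod.smul_fst, smul_eq_mul, Real.ringHom_apply, Prod.smul_mk, Prod.smul_snd]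
        ring
      left_inv := fun a => by simp
      right_inv := fun a => by simp }

lemma Ts_apply (a : P4) : Ts a = (a.1, a.2.1, a.2.2.1, a.2.2.2 - a.1) := rfl
lemma Ts_symm_apply (a : P4) : Ts.symm a = (a.1, a.2.1, a.2.2.1, a.2.2.2 + a.1) := rfl

/-- the coefficients after the shear -/
noncomputable def Coef.sh (K : Coef) : Coef where
  om := fun y => K.om (Ts.symm y)
  s1 := fun y => K.s1 (Ts.symm y)
  s2 := fun y => K.s2 (Ts.symm y) - K.s1 (Ts.symm y)
  w1 := fun y => K.w1 (Ts.symm y)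
  w2 := fun y => K.w2 (Ts.symm y) - K.w1 (Ts.symm y)
  g11 := fun y => K.g11 (Ts.symm y) + 2 * K.g12 (Ts.symm y) + K.g22 (Ts.symm y)
  g12 := fun y => K.g12 (Ts.symm y) + K.g22 (Ts.symm y)
  g22 := fun y => K.g22 (Ts.symm y)


lemma det_eqP (L : P4 →L[ℝ] P4) :
    L.det = (Matrix.of fun i j => P354.eqP (L (P354.bP j)) i).det := by
  have h1 : L.det = (LinearMap.toMatrix P354.BP P354.BP (L : P4 →ₗ[ℝ] P4)).det := by
    rw [LinearMap.det_toMatrix]
  rw [h1]
  congr 1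
  ext i j
  rw [LinearMap.toMatrix_apply, P354.BP_apply, Matrix.of_apply]
  simp [P354.BP]

lemma det_Tw : |((Tw : P4 →L[ℝ] P4)).det| = 1 := by
  rw [det_eqP, Matrix.det_succ_row_zero]
  simp only [Nat.succ_eq_add_one, Nat.reduceAdd, P354.eqP, Fin.isValue, P354.bP, ContinuousLinearEquiv.coe_coe, Tw_apply, LinearEquiv.coe_mk, LinearMap.coe_mk, AddHom.coe_mk, Matrix.of_apply, Matrix.cons_val_zero, Matrix.submatrix, Fin.succAbove, Matrix.cons_val_succ, Matrix.det_fin_three, Fin.castSucc_zero, Fin.succ_zero_eq_one, Fin.castSucc_one, Fin.succ_one_eq_two, Matrix.cons_val_one, Fin.reduceCastSucc, Fin.reduceSucc, Matrix.cons_val, Fin.sum_univ_succ, Fin.coe_ofNat_eq_mod, Nat.zero_mod, pow_zero, mul_zero, lt_self_iff_false, ↓reduceIte, not_lt_zero, mul_one, sub_self, add_zero, Fin.val_succ, Fin.succ_pos, zero_mul, zero_add, pow_one, Fin.lt_one_iff, Fin.reduceEq, even_two, Even.neg_pow, one_pow, Fin.reduceLT, Finset.univ_unique, Fin.default_eq_zero,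 Fin.val_eq_zero, Matrix.cons_val_fin_one, Finset.sum_singleton, sub_zero, abs_pow, abs_neg, abs_one]

lemma det_Ts : |((Ts : P4 →L[ℝ] P4)).det| = 1 := by
  rw [det_eqP, Matrix.det_succ_row_zero]
  simp only [Nat.succ_eq_add_one, Nat.reduceAdd, P354.eqP, Fin.isValue, P354.bP, ContinuousLinearEquiv.coe_coe, Ts_apply, LinearEquiv.coe_mk, LinearMap.coe_mk, AddHom.coe_mk, Matrix.of_apply, Matrix.cons_val_zero, Matrix.submatrix, Fin.succAbove, Matrix.cons_val_succ, Matrix.det_fin_three, Fin.castSucc_zero, Fin.succ_zero_eq_one, Fin.castSucc_one, Fin.succ_one_eq_two, Matrix.cons_val_one, Fin.reduceCastSucc, Fin.reduceSucc, Matrix.cons_val, Fin.sum_univ_succ, Fin.coe_ofNat_eq_mod, Nat.zero_mod, pow_zero, mul_one, lt_self_iff_false, ↓reduceIte, not_lt_zero, sub_zero, mul_zero, sub_self, add_zero, Fin.val_succ, Fin.succ_pos, zero_mul, zero_sub, mul_neg, zero_add, sub_neg_eq_add, pow_one, Fin.lt_one_iff, Fin.reduceEq, neg_zero, even_two,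 Even.neg_pow, one_pow, Fin.reduceLT, Finset.univ_unique, Fin.default_eq_zero, Fin.val_eq_zero, Matrix.cons_val_fin_one, Finset.sum_const_zero, abs_one]

lemma Tw_s {x : P4} : Tw.symm (Tw x) = x := ContinuousLinearEquiv.symm_apply_apply _ _
lemma Ts_s {x : P4} : Ts.symm (Ts x) = x := ContinuousLinearEquiv.symm_apply_apply _ _

lemma sw_e4 (K : Coef) (x : P4) : Tw.symm (e4 K.sw (Tw x)) = e4 K x := by
  simp only [e4, Coef.sw, Tw_s]
  rw [Tw_symm_apply]

lemma sw_e3 (K : Coef) (x : P4) : Tw.symm (e3 K.sw (Tw x)) = e3 K x := by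
  simp only [e3, Coef.sw, Tw_s]
  rw [Tw_symm_apply]

lemma sh_e4 (K : Coef) (x : P4) : Ts.symm (e4 K.sh (Ts x)) = e4 K x := by
  simp only [e4, Coef.sh, Ts_s]
  rw [Ts_symm_apply]
  simp

lemma sh_e3 (K : Coef) (x : P4) : Ts.symm (e3 K.sh (Ts x)) = e3 K x := by
  simp only [e3, Coef.sh, Ts_s]
  rw [Ts_symm_apply]
  simp

lemma tr_sw (K : Coef) : Tr K K.sw Tw where
  v := fun y => rfl
  u := fun y => rfl
  n1 := fun y => by
    rw [Tw_apply]
    have := abs_nonneg y.1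
    show |y.2.2.2| ≤ _
    linarith
  n2 := fun y => by
    rw [Tw_apply]
    have := abs_nonneg y.2.2.2
    show |y.1| ≤ _
    linarith
  det := det_Tw
  gF := fun x a b => by
    simp only [Coef.gF, Coef.h1, Coef.h2, Coef.sw, Tw_s]
    simp only [Tw_apply]
    ring
  diff := fun x hK => ⟨diff_T hK.om, diff_T hK.s2, diff_T hK.s1, diff_T hK.w2, diff_T hK.w1,
    diff_T hK.g22, diff_T hK.g12, diff_T hK.g11⟩
  smooth := fun U hK => ⟨smooth_T hK.om, smooth_T hK.s2, smooth_T hK.s1, smooth_T hK.w2,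
    smooth_T hK.w1, smooth_T hK.g22, smooth_T hK.g12, smooth_T hK.g11⟩
  bd := fun x C cv cw cu hK hB => by
    have hC : 1 ≤ C := hB.one_le
    have h1 : Tw.symm e1 = e2 := rfl
    have h2 : Tw.symm e2 = e1 := rfl
    have hv := hB.cv0
    have hw := hB.cw0
    have hu := hB.cu0
    have key : ∀ a b : ℝ, 0 ≤ b → a ≤ b → a ≤ 8 * b := fun a b h0 h => by linarith only [h0, h]
    have hC0 : 0 ≤ C := by linarith
    have om' : fderiv ℝ K.sw.om (Tw x) = _ := rfl
    exact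
      { one_le := by linarith only [hC]
        cv0 := by linarith only [hv]
        cw0 := by linarith only [hw]
        cu0 := by linarith
        om_lo := by
          show 1 ≤ 8 * C * K.om (Tw.symm (Tw x))
          rw [Tw_s]
          have := hB.om_lo
          linarith only [this]
        om_hi := by
          show K.om (Tw.symm (Tw x)) ≤ _
          rw [Tw_s]
          exact key _ _ hC0 hB.om_hi
        g_lo := by
          intro p q
          show _ ≤ 8 * C * (K.g22 (Tw.symm (Tw x)) * p ^ 2 + 2 * K.g12 (Tw.symm (Tw x)) * p * q +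
            K.g11 (Tw.symm (Tw x)) * q ^ 2)
          rw [Tw_s]
          have h3 := hB.g_lo q p
          have h4 : 0 ≤ q ^ 2 + p ^ 2 := by (clear * -; positivity)
          linarith only [h3, h4]
        g11 := by
          show |K.g22 (Tw.symm (Tw x))| ≤ _
          rw [Tw_s]; exact key _ _ hC0 hB.g22
        g12 := by
          show |K.g12 (Tw.symm (Tw x))| ≤ _
          rw [Tw_s]; exact key _ _ hC0 hB.g12
        g22 := by
          show |K.g11 (Tw.symm (Tw x))| ≤ _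
          rw [Tw_s]; exact key _ _ hC0 hB.g11
        om_1 := by
          show |fderiv ℝ (fun y => K.om (Tw.symm y)) (Tw x) _| ≤ _
          rw [fderiv_T hK.om, h1]; exact key _ _ hC0 hB.om_2
        om_2 := by
          show |fderiv ℝ (fun y => K.om (Tw.symm y)) (Tw x) _| ≤ _
          rw [fderiv_T hK.om, h2]; exact key _ _ hC0 hB.om_1
        g11_1 := by
          show |fderiv ℝ (fun y => K.g22 (Tw.symm y)) (Tw x) _| ≤ _
          rw [fderiv_T hK.g22, h1]; exact key _ _ hC0 hB.g22_2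
        g11_2 := by
          show |fderiv ℝ (fun y => K.g22 (Tw.symm y)) (Tw x) _| ≤ _
          rw [fderiv_T hK.g22, h2]; exact key _ _ hC0 hB.g22_1
        g12_1 := by
          show |fderiv ℝ (fun y => K.g12 (Tw.symm y)) (Tw x) _| ≤ _
          rw [fderiv_T hK.g12, h1]; exact key _ _ hC0 hB.g12_2
        g12_2 := by
          show |fderiv ℝ (fun y => K.g12 (Tw.symm y)) (Tw x) _| ≤ _
          rw [fderiv_T hK.g12, h2]; exact key _ _ hC0 hB.g12_1
        g22_1 := by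
          show |fderiv ℝ (fun y => K.g11 (Tw.symm y)) (Tw x) _| ≤ _
          rw [fderiv_T hK.g11, h1]; exact key _ _ hC0 hB.g11_2
        g22_2 := by
          show |fderiv ℝ (fun y => K.g11 (Tw.symm y)) (Tw x) _| ≤ _
          rw [fderiv_T hK.g11, h2]; exact key _ _ hC0 hB.g11_1
        s1_1 := by
          show |fderiv ℝ (fun y => K.s2 (Tw.symm y)) (Tw x) _| ≤ _
          rw [fderiv_T hK.s2, h1]; exact key _ _ hC0 hB.s2_2
        s1_2 := by
          show |fderiv ℝ (fun y => K.s2 (Tw.symm y)) (Tw x) _| ≤ _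
          rw [fderiv_T hK.s2, h2]; exact key _ _ hC0 hB.s2_1
        s2_1 := by
          show |fderiv ℝ (fun y => K.s1 (Tw.symm y)) (Tw x) _| ≤ _
          rw [fderiv_T hK.s1, h1]; exact key _ _ hC0 hB.s1_2
        s2_2 := by
          show |fderiv ℝ (fun y => K.s1 (Tw.symm y)) (Tw x) _| ≤ _
          rw [fderiv_T hK.s1, h2]; exact key _ _ hC0 hB.s1_1
        w1_1 := by
          show |fderiv ℝ (fun y => K.w2 (Tw.symm y)) (Tw x) _| ≤ _
          rw [fderiv_T hK.w2, h1]; exact key _ _ hC0 hB.w2_2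
        w1_2 := by
          show |fderiv ℝ (fun y => K.w2 (Tw.symm y)) (Tw x) _| ≤ _
          rw [fderiv_T hK.w2, h2]; exact key _ _ hC0 hB.w2_1
        w2_1 := by
          show |fderiv ℝ (fun y => K.w1 (Tw.symm y)) (Tw x) _| ≤ _
          rw [fderiv_T hK.w1, h1]; exact key _ _ hC0 hB.w1_2
        w2_2 := by
          show |fderiv ℝ (fun y => K.w1 (Tw.symm y)) (Tw x) _| ≤ _
          rw [fderiv_T hK.w1, h2]; exact key _ _ hC0 hB.w1_1
        t1 := by
          show |fderiv ℝ (fun y => K.s2 (Tw.symm y)) (Tw x) _ -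
            fderiv ℝ (fun y => K.w2 (Tw.symm y)) (Tw x) _| ≤ _
          rw [fderiv_T hK.s2, fderiv_T hK.w2, sw_e3, sw_e4]; exact key _ _ hC0 hB.t2
        t2 := by
          show |fderiv ℝ (fun y => K.s1 (Tw.symm y)) (Tw x) _ -
            fderiv ℝ (fun y => K.w1 (Tw.symm y)) (Tw x) _| ≤ _
          rw [fderiv_T hK.s1, fderiv_T hK.w1, sw_e3, sw_e4]; exact key _ _ hC0 hB.t1
        om_4 := by
          show |fderiv ℝ (fun y => K.om (Tw.symm y)) (Tw x) _| ≤ _
          rw [fderiv_T hK.om, sw_e4]; exact key _ _ hw hB.om_4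
        g11_4 := by
          show |fderiv ℝ (fun y => K.g22 (Tw.symm y)) (Tw x) _| ≤ _
          rw [fderiv_T hK.g22, sw_e4]; exact key _ _ hv hB.g22_4
        g12_4 := by
          show |fderiv ℝ (fun y => K.g12 (Tw.symm y)) (Tw x) _| ≤ _
          rw [fderiv_T hK.g12, sw_e4]; exact key _ _ hv hB.g12_4
        g22_4 := by
          show |fderiv ℝ (fun y => K.g11 (Tw.symm y)) (Tw x) _| ≤ _
          rw [fderiv_T hK.g11, sw_e4]; exact key _ _ hv hB.g11_4
        om_3 := by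
          show |fderiv ℝ (fun y => K.om (Tw.symm y)) (Tw x) _| ≤ _
          rw [fderiv_T hK.om, sw_e3]; exact key _ _ hu hB.om_3
        g11_3 := by
          show |fderiv ℝ (fun y => K.g22 (Tw.symm y)) (Tw x) _| ≤ _
          rw [fderiv_T hK.g22, sw_e3]; exact key _ _ hu hB.g22_3
        g12_3 := by
          show |fderiv ℝ (fun y => K.g12 (Tw.symm y)) (Tw x) _| ≤ _
          rw [fderiv_T hK.g12, sw_e3]; exact key _ _ hu hB.g12_3
        g22_3 := by
          show |fderiv ℝ (fun y => K.g11 (Tw.symm y)) (Tw x) _| ≤ _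
          rw [fderiv_T hK.g11, sw_e3]; exact key _ _ hu hB.g11_3 }

lemma fT_sub {f g : P4 → ℝ} {x : P4} (hf : DifferentiableAt ℝ f x)
    (hg : DifferentiableAt ℝ g x) (a : P4) :
    fderiv ℝ (fun y => f (T.symm y) - g (T.symm y)) (T x) a =
      fderiv ℝ f x (T.symm a) - fderiv ℝ g x (T.symm a) := by
  have h1 := (diff_T (T := T) hf).hasFDerivAt.sub (diff_T (T := T) hg).hasFDerivAt
  have h2 : fderiv ℝ (fun y => f (T.symm y) - g (T.symm y)) (T x) =
    fderiv ℝ (fun y => f (T.symm y)) (T x) - fderiv ℝ (fun y => g (T.symm y)) (T x) := h1.fderiv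
  rw [h2, ContinuousLinearMap.sub_apply, fderiv_T hf, fderiv_T hg]

lemma fT_add {f g : P4 → ℝ} {x : P4} (hf : DifferentiableAt ℝ f x)
    (hg : DifferentiableAt ℝ g x) (a : P4) :
    fderiv ℝ (fun y => f (T.symm y) + g (T.symm y)) (T x) a =
      fderiv ℝ f x (T.symm a) + fderiv ℝ g x (T.symm a) := by
  have h1 := (diff_T (T := T) hf).hasFDerivAt.add (diff_T (T := T) hg).hasFDerivAt
  have h2 : fderiv ℝ (fun y => f (T.symm y) + g (T.symm y)) (T x) =
    fderiv ℝ (fun y => f (T.symm y)) (T x) + fderiv ℝ (fun y => g (T.symm y)) (T x) := h1.fderiv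
  rw [h2, ContinuousLinearMap.add_apply, fderiv_T hf, fderiv_T hg]

lemma fT_add3 {f g k : P4 → ℝ} {x : P4} (hf : DifferentiableAt ℝ f x)
    (hg : DifferentiableAt ℝ g x) (hk : DifferentiableAt ℝ k x) (a : P4) :
    fderiv ℝ (fun y => f (T.symm y) + 2 * g (T.symm y) + k (T.symm y)) (T x) a =
      fderiv ℝ f x (T.symm a) + 2 * fderiv ℝ g x (T.symm a) + fderiv ℝ k x (T.symm a) := by
  have h1 := ((diff_T (T := T) hf).hasFDerivAt.add
    ((diff_T (T := T) hg).hasFDerivAt.const_mul 2)).add (diff_T (T := T) hk).hasFDerivAt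
  have h2 : fderiv ℝ (fun y => f (T.symm y) + 2 * g (T.symm y) + k (T.symm y)) (T x) =
    fderiv ℝ (fun y => f (T.symm y)) (T x) + (2:ℝ) • fderiv ℝ (fun y => g (T.symm y)) (T x) +
      fderiv ℝ (fun y => k (T.symm y)) (T x) := h1.fderiv
  rw [h2]
  show fderiv ℝ (fun y => f (T.symm y)) (T x) a + 2 * fderiv ℝ (fun y => g (T.symm y)) (T x) a +
      fderiv ℝ (fun y => k (T.symm y)) (T x) a = _
  rw [fderiv_T hf, fderiv_T hg, fderiv_T hk]

lemma ax2 {a b C : ℝ} (ha : |a| ≤ C) (hb : |b| ≤ C) : |a + b| ≤ 8 * C := by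
  have h0 : 0 ≤ C := (abs_nonneg a).trans ha
  rw [abs_le] at *
  constructor <;> linarith only [ha, hb]

lemma ax2' {a b C : ℝ} (ha : |a| ≤ C) (hb : |b| ≤ C) : |a - b| ≤ 8 * C := by
  have h0 : 0 ≤ C := (abs_nonneg a).trans ha
  rw [abs_le] at *
  constructor <;> linarith only [ha, hb]

lemma ax22 {a b c d C : ℝ} (ha : |a| ≤ C) (hb : |b| ≤ C) (hc : |c| ≤ C) (hd : |d| ≤ C) :
    |(a + b) + (c + d)| ≤ 8 * C := by
  have h0 : 0 ≤ C := (abs_nonneg a).trans ha
  rw [abs_le] at *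
  constructor <;> linarith only [ha, hb, hc, hd]

lemma ax22' {a b c d C : ℝ} (ha : |a| ≤ C) (hb : |b| ≤ C) (hc : |c| ≤ C) (hd : |d| ≤ C) :
    |(a + b) - (c + d)| ≤ 8 * C := by
  have h0 : 0 ≤ C := (abs_nonneg a).trans ha
  rw [abs_le] at *
  constructor <;> linarith only [ha, hb, hc, hd]

lemma ax3 {a b c C : ℝ} (ha : |a| ≤ C) (hb : |b| ≤ C) (hc : |c| ≤ C) :
    |a + 2 * b + c| ≤ 8 * C := by
  have h0 : 0 ≤ C := (abs_nonneg a).trans ha
  rw [abs_le] at *
  constructor <;> linarith only [ha, hb, hc]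

lemma ax33 {a b c d e f C : ℝ} (ha : |a| ≤ C) (hb : |b| ≤ C) (hc : |c| ≤ C) (hd : |d| ≤ C)
    (he : |e| ≤ C) (hf : |f| ≤ C) :
    |(a + b) + 2 * (c + d) + (e + f)| ≤ 8 * C := by
  have h0 : 0 ≤ C := (abs_nonneg a).trans ha
  rw [abs_le] at *
  constructor <;> linarith only [ha, hb, hc, hd, he, hf]

lemma axt {a b c d C : ℝ} (h : |a - b| ≤ C) (h' : |c - d| ≤ C) :
    |(c - a) - (d - b)| ≤ 8 * C := by
  have h0 : 0 ≤ C := (abs_nonneg _).trans h
  rw [abs_le] at *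
  constructor <;> linarith only [h, h']

lemma tr_sh (K : Coef) : Tr K K.sh Ts where
  v := fun y => rfl
  u := fun y => rfl
  n1 := fun y => by
    rw [Ts_apply]
    have := abs_nonneg y.2.2.2
    show |y.1| ≤ _
    linarith
  n2 := fun y => by
    rw [Ts_apply]
    show |y.2.2.2 - y.1| ≤ _
    have := abs_sub y.2.2.2 y.1
    linarith
  det := det_Ts
  gF := fun x a b => by
    simp only [Coef.gF, Coef.h1, Coef.h2, Coef.sh, Ts_s]
    simp only [Ts_apply]
    ring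
  diff := fun x hK => ⟨diff_T hK.om, diff_T hK.s1, (diff_T hK.s2).sub (diff_T hK.s1),
    diff_T hK.w1, (diff_T hK.w2).sub (diff_T hK.w1),
    ((diff_T hK.g11).add ((diff_T hK.g12).const_mul 2)).add (diff_T hK.g22),
    (diff_T hK.g12).add (diff_T hK.g22), diff_T hK.g22⟩
  smooth := fun U hK => ⟨smooth_T hK.om, smooth_T hK.s1, (smooth_T hK.s2).sub (smooth_T hK.s1),
    smooth_T hK.w1, (smooth_T hK.w2).sub (smooth_T hK.w1),
    ((smooth_T hK.g11).add (contDiffOn_const.mul (smooth_T hK.g12))).add (smooth_T hK.g22),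
    (smooth_T hK.g12).add (smooth_T hK.g22), smooth_T hK.g22⟩
  bd := fun x C cv cw cu hK hB => by
    have hC : 1 ≤ C := hB.one_le
    have h1 : Ts.symm e1 = e1 + e2 := by simp [Ts_symm_apply, e1, e2]
    have h2 : Ts.symm e2 = e2 := by simp [Ts_symm_apply, e2]
    have hv := hB.cv0
    have hw := hB.cw0
    have hu := hB.cu0
    have key : ∀ a b : ℝ, 0 ≤ b → a ≤ b → a ≤ 8 * b := fun a b h0 h => by linarith only [h0, h]
    have hC0 : 0 ≤ C := by linarith
    have e1' := fun (L : P4 →L[ℝ] ℝ) => map_add L e1 e2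
    exact
      { one_le := by linarith only [hC]
        cv0 := by linarith
        cw0 := by linarith
        cu0 := by linarith
        om_lo := by
          show 1 ≤ 8 * C * K.om (Ts.symm (Ts x))
          rw [Ts_s]
          have := hB.om_lo
          linarith
        om_hi := by
          show K.om (Ts.symm (Ts x)) ≤ _
          rw [Ts_s]
          exact key _ _ hC0 hB.om_hi
        g_lo := by
          intro p q
          show _ ≤ 8 * C * ((K.g11 (Ts.symm (Ts x)) + 2 * K.g12 (Ts.symm (Ts x)) +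
            K.g22 (Ts.symm (Ts x))) * p ^ 2 + 2 * (K.g12 (Ts.symm (Ts x)) +
            K.g22 (Ts.symm (Ts x))) * p * q + K.g22 (Ts.symm (Ts x)) * q ^ 2)
          rw [Ts_s]
          have h3 := hB.g_lo p (p + q)
          have h4 : p ^ 2 + q ^ 2 ≤ 8 * (p ^ 2 + (p + q) ^ 2) := by
            linarith only [sq_nonneg (3 * p + 2 * q), sq_nonneg (p + q), sq_nonneg p]
          linarith
        g11 := by
          show |K.g11 (Ts.symm (Ts x)) + 2 * K.g12 (Ts.symm (Ts x)) + K.g22 (Ts.symm (Ts x))| ≤ _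
          rw [Ts_s]; exact ax3 hB.g11 hB.g12 hB.g22
        g12 := by
          show |K.g12 (Ts.symm (Ts x)) + K.g22 (Ts.symm (Ts x))| ≤ _
          rw [Ts_s]; exact ax2 hB.g12 hB.g22
        g22 := by
          show |K.g22 (Ts.symm (Ts x))| ≤ _
          rw [Ts_s]; exact key _ _ hC0 hB.g22
        om_1 := by
          show |fderiv ℝ (fun y => K.om (Ts.symm y)) (Ts x) _| ≤ _
          rw [fderiv_T hK.om, h1, e1']; exact ax2 hB.om_1 hB.om_2
        om_2 := by
          show |fderiv ℝ (fun y => K.om (Ts.symm y)) (Ts x) _| ≤ _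
          rw [fderiv_T hK.om, h2]; exact key _ _ hC0 hB.om_2
        g11_1 := by
          show |fderiv ℝ (fun y => K.g11 (Ts.symm y) + 2 * K.g12 (Ts.symm y) +
            K.g22 (Ts.symm y)) (Ts x) _| ≤ _
          rw [fT_add3 hK.g11 hK.g12 hK.g22, h1, e1', e1', e1']
          exact ax33 hB.g11_1 hB.g11_2 hB.g12_1 hB.g12_2 hB.g22_1 hB.g22_2
        g11_2 := by
          show |fderiv ℝ (fun y => K.g11 (Ts.symm y) + 2 * K.g12 (Ts.symm y) +
            K.g22 (Ts.symm y)) (Ts x) _| ≤ _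
          rw [fT_add3 hK.g11 hK.g12 hK.g22, h2]
          exact ax3 hB.g11_2 hB.g12_2 hB.g22_2
        g12_1 := by
          show |fderiv ℝ (fun y => K.g12 (Ts.symm y) + K.g22 (Ts.symm y)) (Ts x) _| ≤ _
          rw [fT_add hK.g12 hK.g22, h1, e1', e1']
          exact ax22 hB.g12_1 hB.g12_2 hB.g22_1 hB.g22_2
        g12_2 := by
          show |fderiv ℝ (fun y => K.g12 (Ts.symm y) + K.g22 (Ts.symm y)) (Ts x) _| ≤ _
          rw [fT_add hK.g12 hK.g22, h2]; exact ax2 hB.g12_2 hB.g22_2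
        g22_1 := by
          show |fderiv ℝ (fun y => K.g22 (Ts.symm y)) (Ts x) _| ≤ _
          rw [fderiv_T hK.g22, h1, e1']; exact ax2 hB.g22_1 hB.g22_2
        g22_2 := by
          show |fderiv ℝ (fun y => K.g22 (Ts.symm y)) (Ts x) _| ≤ _
          rw [fderiv_T hK.g22, h2]; exact key _ _ hC0 hB.g22_2
        s1_1 := by
          show |fderiv ℝ (fun y => K.s1 (Ts.symm y)) (Ts x) _| ≤ _
          rw [fderiv_T hK.s1, h1, e1']; exact ax2 hB.s1_1 hB.s1_2
        s1_2 := by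
          show |fderiv ℝ (fun y => K.s1 (Ts.symm y)) (Ts x) _| ≤ _
          rw [fderiv_T hK.s1, h2]; exact key _ _ hC0 hB.s1_2
        s2_1 := by
          show |fderiv ℝ (fun y => K.s2 (Ts.symm y) - K.s1 (Ts.symm y)) (Ts x) _| ≤ _
          rw [fT_sub hK.s2 hK.s1, h1, e1', e1']
          exact ax22' hB.s2_1 hB.s2_2 hB.s1_1 hB.s1_2
        s2_2 := by
          show |fderiv ℝ (fun y => K.s2 (Ts.symm y) - K.s1 (Ts.symm y)) (Ts x) _| ≤ _
          rw [fT_sub hK.s2 hK.s1, h2]; exact ax2' hB.s2_2 hB.s1_2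
        w1_1 := by
          show |fderiv ℝ (fun y => K.w1 (Ts.symm y)) (Ts x) _| ≤ _
          rw [fderiv_T hK.w1, h1, e1']; exact ax2 hB.w1_1 hB.w1_2
        w1_2 := by
          show |fderiv ℝ (fun y => K.w1 (Ts.symm y)) (Ts x) _| ≤ _
          rw [fderiv_T hK.w1, h2]; exact key _ _ hC0 hB.w1_2
        w2_1 := by
          show |fderiv ℝ (fun y => K.w2 (Ts.symm y) - K.w1 (Ts.symm y)) (Ts x) _| ≤ _
          rw [fT_sub hK.w2 hK.w1, h1, e1', e1']
          exact ax22' hB.w2_1 hB.w2_2 hB.w1_1 hB.w1_2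
        w2_2 := by
          show |fderiv ℝ (fun y => K.w2 (Ts.symm y) - K.w1 (Ts.symm y)) (Ts x) _| ≤ _
          rw [fT_sub hK.w2 hK.w1, h2]; exact ax2' hB.w2_2 hB.w1_2
        t1 := by
          show |fderiv ℝ (fun y => K.s1 (Ts.symm y)) (Ts x) _ -
            fderiv ℝ (fun y => K.w1 (Ts.symm y)) (Ts x) _| ≤ _
          rw [fderiv_T hK.s1, fderiv_T hK.w1, sh_e3, sh_e4]; exact key _ _ hC0 hB.t1
        t2 := by
          show |fderiv ℝ (fun y => K.s2 (Ts.symm y) - K.s1 (Ts.symm y)) (Ts x) _ -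
            fderiv ℝ (fun y => K.w2 (Ts.symm y) - K.w1 (Ts.symm y)) (Ts x) _| ≤ _
          rw [fT_sub hK.s2 hK.s1, fT_sub hK.w2 hK.w1, sh_e3, sh_e4]
          exact axt hB.t1 hB.t2
        om_4 := by
          show |fderiv ℝ (fun y => K.om (Ts.symm y)) (Ts x) _| ≤ _
          rw [fderiv_T hK.om, sh_e4]; exact key _ _ hw hB.om_4
        g11_4 := by
          show |fderiv ℝ (fun y => K.g11 (Ts.symm y) + 2 * K.g12 (Ts.symm y) +
            K.g22 (Ts.symm y)) (Ts x) _| ≤ _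
          rw [fT_add3 hK.g11 hK.g12 hK.g22, sh_e4]
          exact ax3 hB.g11_4 hB.g12_4 hB.g22_4
        g12_4 := by
          show |fderiv ℝ (fun y => K.g12 (Ts.symm y) + K.g22 (Ts.symm y)) (Ts x) _| ≤ _
          rw [fT_add hK.g12 hK.g22, sh_e4]; exact ax2 hB.g12_4 hB.g22_4
        g22_4 := by
          show |fderiv ℝ (fun y => K.g22 (Ts.symm y)) (Ts x) _| ≤ _
          rw [fderiv_T hK.g22, sh_e4]; exact key _ _ hv hB.g22_4
        om_3 := by
          show |fderiv ℝ (fun y => K.om (Ts.symm y)) (Ts x) _| ≤ _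
          rw [fderiv_T hK.om, sh_e3]; exact key _ _ hu hB.om_3
        g11_3 := by
          show |fderiv ℝ (fun y => K.g11 (Ts.symm y) + 2 * K.g12 (Ts.symm y) +
            K.g22 (Ts.symm y)) (Ts x) _| ≤ _
          rw [fT_add3 hK.g11 hK.g12 hK.g22, sh_e3]
          exact ax3 hB.g11_3 hB.g12_3 hB.g22_3
        g12_3 := by
          show |fderiv ℝ (fun y => K.g12 (Ts.symm y) + K.g22 (Ts.symm y)) (Ts x) _| ≤ _
          rw [fT_add hK.g12 hK.g22, sh_e3]; exact ax2 hB.g12_3 hB.g22_3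
        g22_3 := by
          show |fderiv ℝ (fun y => K.g22 (Ts.symm y)) (Ts x) _| ≤ _
          rw [fderiv_T hK.g22, sh_e3]; exact key _ _ hu hB.g22_3 }

/-- the derivatives of the three functions g11, g22, g11 + 2 g12 + g22 in the direction e4 -/
noncomputable def D3 (K : Coef) (j : Fin 3) (y : P4) : ℝ :=
  ![fderiv ℝ K.g11 y (e4 K y), fderiv ℝ K.g22 y (e4 K y),
    fderiv ℝ K.g11 y (e4 K y) + 2 * fderiv ℝ K.g12 y (e4 K y) + fderiv ℝ K.g22 y (e4 K y)] j

end Vale.Agent.P354w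
end
end

section

section

set_option maxSynthPendingDepth 3

open Set MeasureTheory Filter Topology

namespace Vale.Agent.P354x

open Vale.Agent.P354w PreHyp CoreHyp

/-- exchange of the angular coordinates on the slice -/
noncomputable def tw : P3 ≃L[ℝ] P3 :=
  LinearEquiv.toContinuousLinearEquiv
    { toFun := fun a => (a.2.2, a.2.1, a.1)
      invFun := fun a => (a.2.2, a.2.1, a.1)
      map_add' := fun a b => rfl
      map_smul' := fun t a => rfl
      left_inv := fun a => rfl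
      right_inv := fun a => rfl }

/-- shear of the angular coordinates on the slice -/
noncomputable def ts : P3 ≃L[ℝ] P3 :=
  LinearEquiv.toContinuousLinearEquiv
    { toFun := fun a => (a.1, a.2.1, a.2.2 - a.1)
      invFun := fun a => (a.1, a.2.1, a.2.2 + a.1)
      map_add' := fun a b => by
        ext <;> simp
        ring
      map_smul' := fun t a => by
        ext <;> simp
        ring
      left_inv := fun a => by simp
      right_inv := fun a => by simp }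

lemma tw_apply (a : P3) : tw a = (a.2.2, a.2.1, a.1) := rfl
lemma mp_tw : MeasurePreserving (tw : P3 → P3) volume volume := by
  have h1 : MeasurePreserving (Prod.swap : ℝ × (ℝ × ℝ) → (ℝ × ℝ) × ℝ)
      (volume.prod (volume : Measure (ℝ × ℝ))) (Measure.prod (volume : Measure (ℝ × ℝ)) volume) :=
    Measure.measurePreserving_swap
  have h2 : MeasurePreserving (Prod.map (Prod.swap : ℝ × ℝ → ℝ × ℝ) (id : ℝ → ℝ))
      (Measure.prod (volume : Measure (ℝ × ℝ)) volume)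
      (Measure.prod (volume : Measure (ℝ × ℝ)) volume) := by
    have h3 : MeasurePreserving (Prod.swap : ℝ × ℝ → ℝ × ℝ) volume volume :=
      Measure.measurePreserving_swap
    exact h3.prod (MeasurePreserving.id _)
  have h4 : MeasurePreserving (MeasurableEquiv.prodAssoc : (ℝ × ℝ) × ℝ ≃ᵐ ℝ × ℝ × ℝ)
      (Measure.prod (volume : Measure (ℝ × ℝ)) volume) (volume : Measure P3) :=
    measurePreserving_prodAssoc volume volume volume
  have h5 := h4.comp (h2.comp h1)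
  exact h5

lemma mp_ts : MeasurePreserving (ts : P3 → P3) volume volume := by
  have h1 := MeasurePreserving.skew_product (μa := (volume : Measure ℝ))
    (μb := (volume : Measure ℝ)) (μc := (volume : Measure (ℝ × ℝ)))
    (μd := (volume : Measure (ℝ × ℝ))) (f := id) (MeasurePreserving.id _)
    (g := fun (a : ℝ) (p : ℝ × ℝ) => (p.1, p.2 - a)) (by fun_prop)
    (by
      apply ae_of_all
      intro a
      have h2 : MeasurePreserving (fun p : ℝ × ℝ => (p.1, p.2 - a)) volume volume :=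
        (MeasurePreserving.id (volume : Measure ℝ)).prod
          (measurePreserving_sub_right (volume : Measure ℝ) a)
      exact h2.map_eq)
  exact h1

lemma n3_le {y : P3} {m : ℝ} (h1 : |y.1| ≤ m) (h2 : |y.2.1| ≤ m) (h3 : |y.2.2| ≤ m) :
    ‖y‖ ≤ m := by
  simp only [Prod.norm_def, Real.norm_eq_abs]
  exact max_le h1 (max_le h2 h3)

lemma n3_1 (y : P3) : |y.1| ≤ ‖y‖ := by
  have := norm_fst_le y
  rwa [Real.norm_eq_abs] at this
lemma n3_2 (y : P3) : |y.2.1| ≤ ‖y‖ := by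
  have h1 := norm_snd_le y
  have h2 := norm_fst_le y.2
  rw [Real.norm_eq_abs] at h2
  exact h2.trans h1
lemma n3_3 (y : P3) : |y.2.2| ≤ ‖y‖ := by
  have h1 := norm_snd_le y
  have h2 := norm_snd_le y.2
  rw [Real.norm_eq_abs] at h2
  exact h2.trans h1

lemma tw_n1 (y : P3) : ‖tw y‖ ≤ 2 * ‖y‖ := by
  have h0 := norm_nonneg y
  have h1 := n3_1 y
  have h2 := n3_2 y
  have h3 := n3_3 y
  apply n3_le
  · show |y.2.2| ≤ _
    linarith only [h0, h3]
  · show |y.2.1| ≤ _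
    linarith
  · show |y.1| ≤ _
    linarith

lemma tw_n2 (y : P3) : ‖y‖ ≤ 2 * ‖tw y‖ := by
  have := tw_n1 (tw y)
  simpa only [tw_apply, Prod.norm_mk, Real.norm_eq_abs, ge_iff_le, Prod.mk.eta] using this

lemma ts_n1 (y : P3) : ‖ts y‖ ≤ 2 * ‖y‖ := by
  have h0 := norm_nonneg y
  have h1 := n3_1 y
  have h2 := n3_2 y
  have h3 := n3_3 y
  apply n3_le
  · show |y.1| ≤ _
    linarith only [h0, h1]
  · show |y.2.1| ≤ _
    linarith
  · show |y.2.2 - y.1| ≤ _
    have := abs_sub y.2.2 y.1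
    linarith

lemma ts_n2 (y : P3) : ‖y‖ ≤ 2 * ‖ts y‖ := by
  have h0 := norm_nonneg (ts y)
  have h1 : |y.1| ≤ ‖ts y‖ := n3_1 (ts y)
  have h2 : |y.2.1| ≤ ‖ts y‖ := n3_2 (ts y)
  have h3 : |y.2.2 - y.1| ≤ ‖ts y‖ := n3_3 (ts y)
  apply n3_le
  · linarith only [h0, h1]
  · linarith
  · have := abs_add_le (y.2.2 - y.1) y.1
    rw [sub_add_cancel] at this
    linarith

variable {K K' : Coef} {G : P4 → P4 →L[ℝ] P4 →L[ℝ] ℝ} {Psi : P4 → P4} {V U : Set P4}
    {C R : ℝ} {cv cw cu : ℝ → ℝ} {t0 r : ℝ} {f : P3 → ℝ} {T : P4 ≃L[ℝ] P4}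

/-- the local estimate, pulled back by a linear map of the slices -/
lemma local_est_tr (h : CoreHyp K G Psi V U C R cv cw cu t0 r f) (hT : Tr K K' T)
    (hcv : ∫⁻ v in Ico (-(2 * R)) 0, ENNReal.ofReal (cv v) ≠ ⊤)
    (hcw : ∫⁻ v in Ico (-(2 * R)) 0, ENNReal.ofReal (cw v) ≠ ⊤)
    (hcu' : ∫⁻ u in Icc (-(2 * R)) (2 * R), ENNReal.ofReal (cu u) ≠ ⊤)
    (hcu : ∀ u, cu u ≤ C) {κ : ℝ} (hκ : 1 ≤ κ) {τ : P3 ≃L[ℝ] P3}
    (hτ : ∀ v y, ins v (τ y) = T (ins v y)) (hτm : MeasurePreserving (τ : P3 → P3) volume volume)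
    (hτ1 : ∀ y, ‖τ y‖ ≤ 2 * ‖y‖) (hτ2 : ∀ y, ‖y‖ ≤ 2 * ‖τ y‖) {dK : P4 → ℝ}
    (hd : ∀ x ∈ U, dg K' (T x) = dK x)
    (hb : ∀ x ∈ U, ∀ c, |fderiv ℝ K.g11 x (e4 K x)| ≤ c → |fderiv ℝ K.g12 x (e4 K x)| ≤ c →
      |fderiv ℝ K.g22 x (e4 K x)| ≤ c → |fderiv ℝ K'.g11 (T x) (e4 K' (T x))| ≤ 4 * c ∧
      |fderiv ℝ K'.g12 (T x) (e4 K' (T x))| ≤ 4 * c ∧
      |fderiv ℝ K'.g22 (T x) (e4 K' (T x))| ≤ 4 * c) :
    ∃ D : ℝ, 0 < D ∧ ∀ (v y0 ε σ γ c) (Y : Set P3), v < 0 →
      (∀ x : P3, ‖x‖ ≤ r / 2 → (Psi (t0, x)).2.1 < v) → 0 < ε → ε ≤ 1 → |σ| = 1 → 0 ≤ γ → 0 ≤ c →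
      MeasurableSet Y →
      (∀ y ∈ Y, ∃ z ∈ DD t0 r f, Psi z = ins v y ∧ ‖z.2‖ ≤ r / 4 ∧ QQ Psi z ≤ κ) →
      (∀ y ∈ Metric.ball y0 (2 * ε), ins v y ∈ Psi '' DD t0 r f →
        |fderiv ℝ K.g11 (ins v y) (e4 K (ins v y))| ≤ c ∧
        |fderiv ℝ K.g12 (ins v y) (e4 K (ins v y))| ≤ c ∧
        |fderiv ℝ K.g22 (ins v y) (e4 K (ins v y))| ≤ c ∧ γ ≤ σ * dK (ins v y)) →
      ENNReal.ofReal γ * volume (Metric.ball y0 (ε / 8) ∩ Y) ≤ ENNReal.ofReal D *
        (ENNReal.ofReal c * volume (Metric.ball y0 (2 * ε) \ Y) +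
          ENNReal.ofReal (1 / ε) * volume (Metric.ball y0 (2 * ε)) +
          ∫⁻ y in Metric.ball y0 (2 * ε), Lh G Psi V t0 r f (ins v y)) := by
  have hpre := h.toPreHyp
  have h' := h.tr hT hcv hcw hcu'
  have hpre' := h'.toPreHyp
  obtain ⟨D, hD, hest⟩ := local_est h' (fun u => by have := hcu u; linarith only [this]) hκ
  refine ⟨4 * D, by positivity, ?_⟩
  intro v y0 ε σ γ c Y hv hvlo hε hε1 hσ hγ hc0 hYm hY hball
  have hcτ : Continuous (τ : P3 → P3) := τ.continuous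
  have hτemb : MeasurableEmbedding (τ : P3 → P3) := τ.toHomeomorph.measurableEmbedding
  have hfd : ∀ z ∈ V, fderiv ℝ (fun z => T (Psi z)) z = (T : P4 →L[ℝ] P4).comp (fderiv ℝ Psi z) := by
    intro z hz
    have h1 : HasFDerivAt Psi (fderiv ℝ Psi z) z :=
      ((h.iso.contDiffAt hz).differentiableAt (by norm_num)).hasFDerivAt
    exact (T.hasFDerivAt.comp z h1).fderiv
  have hQ : ∀ z ∈ V, QQ (fun z => T (Psi z)) z = QQ Psi z := by
    intro z hz
    unfold QQ
    rw [hfd z hz]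
    show (T (fderiv ℝ Psi z e1)).2.2.1 + (T (fderiv ℝ Psi z e1)).2.1 = _
    rw [hT.u, hT.v]
  -- the transported set
  set Y' : Set P3 := τ.symm ⁻¹' Y with hY'
  have hY'm : MeasurableSet Y' := hYm.preimage τ.symm.continuous.measurable
  have hpreY : (τ : P3 → P3) ⁻¹' Y' = Y := by
    ext y
    simp [hY']
  have hvlo' : ∀ x : P3, ‖x‖ ≤ r / 2 → (T (Psi (t0, x))).2.1 < v := by
    intro x hx; rw [hT.v]; exact hvlo x hx
  have hY'g : ∀ y ∈ Y', ∃ z ∈ DD t0 r f, T (Psi z) = ins v y ∧ ‖z.2‖ ≤ r / 4 ∧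
      QQ (fun z => T (Psi z)) z ≤ κ := by
    intro y hy
    obtain ⟨z, hz, hzy, hzn, hzq⟩ := hY _ hy
    refine ⟨z, hz, ?_, hzn, ?_⟩
    · rw [hzy, ← hτ]; simp
    · rw [hQ z (h.DD_sub hz)]; exact hzq
  have hsub2 : (τ : P3 → P3) ⁻¹' Metric.ball (τ y0) ε ⊆ Metric.ball y0 (2 * ε) := by
    intro y hy
    rw [mem_preimage, Metric.mem_ball, dist_eq_norm, ← map_sub] at hy
    rw [Metric.mem_ball, dist_eq_norm]
    have := hτ2 (y - y0)
    linarith only [hy, this]
  have hsub1 : Metric.ball y0 (ε / 8) ⊆ (τ : P3 → P3) ⁻¹' Metric.ball (τ y0) (ε / 4) := by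
    intro y hy
    rw [Metric.mem_ball, dist_eq_norm] at hy
    rw [mem_preimage, Metric.mem_ball, dist_eq_norm, ← map_sub]
    have := hτ1 (y - y0)
    linarith only [hy, this]
  have hE := hest v (τ y0) ε σ γ (4 * c) Y' hv hvlo' hε hε1 hσ hγ (by (clear * - hc0; positivity)) hY'm hY'g
    (by
      intro y' hy' hm
      obtain ⟨z, hz, hzy⟩ := hm
      have hzy' : T (Psi z) = ins v y' := hzy
      set y := τ.symm y' with hy
      have hyy : τ y = y' := by rw [hy]; simp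
      have hPz : Psi z = ins v y := by
        apply T.injective
        rw [hzy', ← hyy, hτ]
      have hyb : y ∈ Metric.ball y0 (2 * ε) := hsub2 (by rw [mem_preimage, hyy]; exact hy')
      obtain ⟨k1, k2, k3, k4⟩ := hball y hyb ⟨z, hz, hPz⟩
      have hyU : ins v y ∈ U := by rw [← hPz]; exact h.maps (h.DD_sub hz)
      obtain ⟨l1, l2, l3⟩ := hb _ hyU c k1 k2 k3
      rw [← hyy, hτ]
      exact ⟨l1, l2, l3, by rw [hd _ hyU]; exact k4⟩)
  have m1 : volume (Metric.ball y0 (ε / 8) ∩ Y) ≤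
      volume (Metric.ball (τ y0) (ε / 4) ∩ Y') := by
    rw [← hτm.measure_preimage_emb hτemb (Metric.ball (τ y0) (ε / 4) ∩ Y'), preimage_inter, hpreY]
    exact measure_mono (inter_subset_inter_left _ hsub1)
  have m2 : volume (Metric.ball (τ y0) ε \ Y') ≤ volume (Metric.ball y0 (2 * ε) \ Y) := by
    rw [← hτm.measure_preimage_emb hτemb (Metric.ball (τ y0) ε \ Y'), preimage_sdiff, hpreY]
    exact measure_mono (sdiff_subset_sdiff_left hsub2)
  have m3 : volume (Metric.ball (τ y0) ε) ≤ volume (Metric.ball y0 (2 * ε)) := by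
    rw [← hτm.measure_preimage_emb hτemb (Metric.ball (τ y0) ε)]
    exact measure_mono hsub2
  have m4 : ∫⁻ y in Metric.ball (τ y0) ε, Lh G (fun z => T (Psi z)) V t0 r f (ins v y) ≤
      ∫⁻ y in Metric.ball y0 (2 * ε), Lh G Psi V t0 r f (ins v y) := by
    rw [← hτm.setLIntegral_comp_preimage_emb hτemb]
    have e : ∀ y : P3, Lh G (fun z => T (Psi z)) V t0 r f (ins v (τ y)) =
        Lh G Psi V t0 r f (ins v y) := by
      intro y
      rw [hτ]
      by_cases hy : ins v y ∈ Psi '' DD t0 r f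
      · have hy0 := hy
        obtain ⟨z, hz, hzy⟩ := hy
        have hy' : T (ins v y) ∈ (fun z => T (Psi z)) '' DD t0 r f := ⟨z, hz, by simp [hzy]⟩
        rw [Lh, Lh, indicator_of_mem hy', indicator_of_mem hy0]
        have e1' : Phi Psi V (ins v y) = z := by rw [← hzy]; exact h.Phi_left (h.DD_sub hz)
        have e2' : Phi (fun z => T (Psi z)) V (T (ins v y)) = z := by
          rw [← hzy]; exact hpre'.Phi_left (h.DD_sub hz)
        rw [e1', e2']
      · have hy' : T (ins v y) ∉ (fun z => T (Psi z)) '' DD t0 r f := by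
          rintro ⟨z, hz, hzy⟩
          exact hy ⟨z, hz, T.injective hzy⟩
        rw [Lh, Lh, indicator_of_notMem hy', indicator_of_notMem hy]
    simp only [e]
    exact lintegral_mono_set hsub2
  have h4 : ENNReal.ofReal (4 * c) = 4 * ENNReal.ofReal c := by
    rw [ENNReal.ofReal_mul (by norm_num)]; norm_num
  have hone : (1:ENNReal) ≤ 4 := by norm_num
  refine ((mul_le_mul_right m1 _).trans hE).trans ?_
  rw [h4]
  generalize volume (Metric.ball (τ y0) ε \ Y') = a1 at *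
  generalize volume (Metric.ball (τ y0) ε) = a2 at *
  generalize ∫⁻ y in Metric.ball (τ y0) ε, Lh G (fun z => T (Psi z)) V t0 r f (ins v y) = a3 at *
  generalize volume (Metric.ball y0 (2 * ε) \ Y) = b1 at *
  generalize volume (Metric.ball y0 (2 * ε)) = b2 at *
  generalize ∫⁻ y in Metric.ball y0 (2 * ε), Lh G Psi V t0 r f (ins v y) = b3 at *
  have q2 : ENNReal.ofReal (1 / ε) * b2 ≤ 4 * (ENNReal.ofReal (1 / ε) * b2) :=
    le_mul_of_one_le_left bot_le hone
  have q3 : b3 ≤ 4 * b3 := le_mul_of_one_le_left bot_le hone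
  calc ENNReal.ofReal D * (4 * ENNReal.ofReal c * a1 + ENNReal.ofReal (1 / ε) * a2 + a3)
      ≤ ENNReal.ofReal D * (4 * ENNReal.ofReal c * b1 + ENNReal.ofReal (1 / ε) * b2 + b3) := by
        (clear * - m2 m3 m4; gcongr)
    _ ≤ ENNReal.ofReal D * (4 * ENNReal.ofReal c * b1 + 4 * (ENNReal.ofReal (1 / ε) * b2) +
          4 * b3) := by (clear * - q2 q3; gcongr)
    _ = _ := by
        rw [ENNReal.ofReal_mul (by norm_num : (0:ℝ) ≤ 4)]
        have : ENNReal.ofReal 4 = 4 := by norm_num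
        rw [this]; ring

end Vale.Agent.P354x
end
end

section

section

set_option maxSynthPendingDepth 3

open Set MeasureTheory Filter Topology

namespace Vale.Agent.P354x

open Vale.Agent.P354w PreHyp CoreHyp

variable {K : Coef} {G : P4 → P4 →L[ℝ] P4 →L[ℝ] ℝ} {Psi : P4 → P4} {V U : Set P4}
    {C R : ℝ} {cv cw cu : ℝ → ℝ} {t0 r : ℝ} {f : P3 → ℝ}

/-- The local estimate in the three directions. -/
theorem local_est3 (h : CoreHyp K G Psi V U C R cv cw cu t0 r f)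
    (hcv : ∫⁻ v in Ico (-(2 * R)) 0, ENNReal.ofReal (cv v) ≠ ⊤)
    (hcw : ∫⁻ v in Ico (-(2 * R)) 0, ENNReal.ofReal (cw v) ≠ ⊤)
    (hcu' : ∫⁻ u in Icc (-(2 * R)) (2 * R), ENNReal.ofReal (cu u) ≠ ⊤)
    (hcu : ∀ u, cu u ≤ C) {κ : ℝ} (hκ : 1 ≤ κ) :
    ∃ D : ℝ, 0 < D ∧ ∀ (j : Fin 3) (v y0 ε σ γ c) (Y : Set P3), v < 0 →
      (∀ x : P3, ‖x‖ ≤ r / 2 → (Psi (t0, x)).2.1 < v) → 0 < ε → ε ≤ 1 → |σ| = 1 → 0 ≤ γ → 0 ≤ c →
      MeasurableSet Y →
      (∀ y ∈ Y, ∃ z ∈ DD t0 r f, Psi z = ins v y ∧ ‖z.2‖ ≤ r / 4 ∧ QQ Psi z ≤ κ) →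
      (∀ y ∈ Metric.ball y0 (2 * ε), ins v y ∈ Psi '' DD t0 r f →
        |fderiv ℝ K.g11 (ins v y) (e4 K (ins v y))| ≤ c ∧
        |fderiv ℝ K.g12 (ins v y) (e4 K (ins v y))| ≤ c ∧
        |fderiv ℝ K.g22 (ins v y) (e4 K (ins v y))| ≤ c ∧ γ ≤ σ * D3 K j (ins v y)) →
      ENNReal.ofReal γ * volume (Metric.ball y0 (ε / 8) ∩ Y) ≤ ENNReal.ofReal D *
        (ENNReal.ofReal c * volume (Metric.ball y0 (2 * ε) \ Y) +
          ENNReal.ofReal (1 / ε) * volume (Metric.ball y0 (2 * ε)) +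
          ∫⁻ y in Metric.ball y0 (2 * ε), Lh G Psi V t0 r f (ins v y)) := by
  obtain ⟨Da, hDa, ha⟩ := local_est h hcu hκ
  have hKd : ∀ x ∈ U, K.DiffAt x := fun x hx => SmoothOn.diffAt h.smoothK h.openU hx
  obtain ⟨Db, hDb, hbb⟩ := local_est_tr h (tr_sw K) hcv hcw hcu' hcu hκ (τ := tw)
    (fun v y => rfl) mp_tw tw_n1 tw_n2 (dK := fun x => fderiv ℝ K.g22 x (e4 K x))
    (fun x hx => by
      show fderiv ℝ (fun y => K.g22 (Tw.symm y)) (Tw x) (e4 K.sw (Tw x)) = _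
      rw [fderiv_T (hKd x hx).g22, sw_e4])
    (fun x hx c h1 h2 h3 => by
      have hc : 0 ≤ c := (abs_nonneg _).trans h1
      refine ⟨?_, ?_, ?_⟩
      · show |fderiv ℝ (fun y => K.g22 (Tw.symm y)) (Tw x) (e4 K.sw (Tw x))| ≤ _
        rw [fderiv_T (hKd x hx).g22, sw_e4]; linarith only [h3, hc]
      · show |fderiv ℝ (fun y => K.g12 (Tw.symm y)) (Tw x) (e4 K.sw (Tw x))| ≤ _
        rw [fderiv_T (hKd x hx).g12, sw_e4]; linarith only [h2, hc]
      · show |fderiv ℝ (fun y => K.g11 (Tw.symm y)) (Tw x) (e4 K.sw (Tw x))| ≤ _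
        rw [fderiv_T (hKd x hx).g11, sw_e4]; linarith)
  obtain ⟨Dc, hDc, hcc⟩ := local_est_tr h (tr_sh K) hcv hcw hcu' hcu hκ (τ := ts)
    (fun v y => rfl) mp_ts ts_n1 ts_n2 (dK := fun x => fderiv ℝ K.g11 x (e4 K x) +
      2 * fderiv ℝ K.g12 x (e4 K x) + fderiv ℝ K.g22 x (e4 K x))
    (fun x hx => by
      show fderiv ℝ (fun y => K.g11 (Ts.symm y) +
          2 * K.g12 (Ts.symm y) + K.g22 (Ts.symm y)) (Ts x) (e4 K.sh (Ts x)) = _
      rw [fT_add3 (hKd x hx).g11 (hKd x hx).g12 (hKd x hx).g22, sh_e4])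
    (fun x hx c h1 h2 h3 => by
      have hc : 0 ≤ c := (abs_nonneg _).trans h1
      refine ⟨?_, ?_, ?_⟩
      · show |fderiv ℝ (fun y => K.g11 (Ts.symm y) +
          2 * K.g12 (Ts.symm y) + K.g22 (Ts.symm y)) (Ts x) (e4 K.sh (Ts x))| ≤ _
        rw [fT_add3 (hKd x hx).g11 (hKd x hx).g12 (hKd x hx).g22, sh_e4]
        rw [abs_le] at *
        constructor <;> linarith only [h1, h2, h3]
      · show |fderiv ℝ (fun y => K.g12 (Ts.symm y) + K.g22 (Ts.symm y)) (Ts x)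
          (e4 K.sh (Ts x))| ≤ _
        rw [fT_add (hKd x hx).g12 (hKd x hx).g22, sh_e4]
        rw [abs_le] at *
        constructor <;> linarith only [h1, h2, h3]
      · show |fderiv ℝ (fun y => K.g22 (Ts.symm y)) (Ts x) (e4 K.sh (Ts x))| ≤ _
        rw [fderiv_T (hKd x hx).g22, sh_e4]; linarith)
  set D := Da + Db + Dc with hD
  refine ⟨D, by (clear * - hDa hDb hDc; positivity), ?_⟩
  intro j v y0 ε σ γ c Y hv hvlo hε hε1 hσ hγ hc0 hYm hY hball
  have key : ∀ D' : ℝ, D' ≤ D → ∀ X : ENNReal, ENNReal.ofReal D' * X ≤ ENNReal.ofReal D * X :=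
    fun D' hD' X => mul_le_mul_left (ENNReal.ofReal_le_ofReal hD') _
  fin_cases j
  · have hs1 : Metric.ball y0 (ε / 8) ∩ Y ⊆ Metric.ball y0 (ε / 4) ∩ Y :=
      inter_subset_inter_left _ (Metric.ball_subset_ball (by linarith only [hε]))
    have hs2 : Metric.ball y0 ε ⊆ Metric.ball y0 (2 * ε) := Metric.ball_subset_ball (by linarith)
    have h1 := ha v y0 ε σ γ c Y hv hvlo hε hε1 hσ hγ hc0 hYm hY
      (fun y hy hm => hball y (hs2 hy) hm)
    calc ENNReal.ofReal γ * volume (Metric.ball y0 (ε / 8) ∩ Y)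
        ≤ ENNReal.ofReal γ * volume (Metric.ball y0 (ε / 4) ∩ Y) := by (clear * - hs1; gcongr)
      _ ≤ _ := h1
      _ ≤ ENNReal.ofReal Da * (ENNReal.ofReal c * volume (Metric.ball y0 (2 * ε) \ Y) +
          ENNReal.ofReal (1 / ε) * volume (Metric.ball y0 (2 * ε)) +
          ∫⁻ y in Metric.ball y0 (2 * ε), Lh G Psi V t0 r f (ins v y)) := by
        (clear * - hs2; gcongr)
      _ ≤ _ := key _ (by linarith only [hDb, hDc]) _
  · exact (hbb v y0 ε σ γ c Y hv hvlo hε hε1 hσ hγ hc0 hYm hY hball).trans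
      (key _ (by linarith only [hDa, hDc]) _)
  · exact (hcc v y0 ε σ γ c Y hv hvlo hε hε1 hσ hγ hc0 hYm hY hball).trans
      (key _ (by linarith) _)

end Vale.Agent.P354x
end
end

section

section

set_option maxSynthPendingDepth 3

open Set MeasureTheory Filter Topology

namespace Vale.Agent.P354x

open Vale.Agent.P354w PreHyp CoreHyp

lemma vol_cball (y : P3) {ρ : ℝ} (hρ : 0 ≤ ρ) :
    volume (Metric.closedBall y ρ) = ENNReal.ofReal (8 * ρ ^ 3) := by
  obtain ⟨a, b, c⟩ := y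
  have e1 : Metric.closedBall ((a, b, c) : P3) ρ =
      Metric.closedBall a ρ ×ˢ Metric.closedBall ((b, c) : ℝ × ℝ) ρ :=
    (closedBall_prod_same a (b, c) ρ).symm
  have e2 : Metric.closedBall ((b, c) : ℝ × ℝ) ρ = Metric.closedBall b ρ ×ˢ Metric.closedBall c ρ :=
    (closedBall_prod_same b c ρ).symm
  rw [e1, Measure.volume_eq_prod, Measure.prod_prod, e2, Measure.volume_eq_prod,
    Measure.prod_prod, Real.volume_closedBall, Real.volume_closedBall, Real.volume_closedBall,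
    ← ENNReal.ofReal_mul (by positivity), ← ENNReal.ofReal_mul (by positivity)]
  congr 1
  ring

/-- density points -/
lemma density {Y : Set P3} (hY : MeasurableSet Y) :
    ∀ᵐ y0 : P3, y0 ∈ Y → ∀ δ > 0, ∃ ρ0 > 0, ∀ ρ, 0 < ρ → ρ < ρ0 →
      volume (Metric.ball y0 ρ \ Y) ≤ ENNReal.ofReal (δ * ρ ^ 3) := by
  have h1 := Besicovitch.ae_tendsto_measure_inter_div (volume : Measure P3) Y
  rw [ae_restrict_iff' hY] at h1
  filter_upwards [h1] with y0 hy0 hy δ hδ
  have ht := hy0 hy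
  have hlt : (1 : ENNReal) - ENNReal.ofReal (min (δ / 8) 1) < 1 := by
    apply ENNReal.sub_lt_self (by norm_num) (by norm_num)
    rw [ne_eq, ENNReal.ofReal_eq_zero, not_le]
    exact lt_min (by positivity) (by norm_num)
  have hev : ∀ᶠ ρ in 𝓝[>] (0:ℝ), 1 - ENNReal.ofReal (min (δ / 8) 1) <
      volume (Y ∩ Metric.closedBall y0 ρ) / volume (Metric.closedBall y0 ρ) :=
    ht.eventually (lt_mem_nhds hlt)
  rw [eventually_nhdsWithin_iff, Metric.eventually_nhds_iff] at hev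
  obtain ⟨ρ0, hρ0, hb⟩ := hev
  refine ⟨ρ0, hρ0, ?_⟩
  intro ρ hρ hρρ
  have hb1 := hb (y := ρ) (by rw [Real.dist_eq, sub_zero, abs_of_pos hρ]; exact hρρ) hρ
  have hvol : volume (Metric.closedBall y0 ρ) = ENNReal.ofReal (8 * ρ ^ 3) := vol_cball y0 hρ.le
  rw [hvol] at hb1
  set q := min (δ / 8) 1 with hq
  have hq0 : 0 < q := lt_min (by positivity) (by norm_num)
  have hq1 : q ≤ 1 := min_le_right _ _
  have hqd : q ≤ δ / 8 := min_le_left _ _
  have hbpos : (0:ℝ) < 8 * ρ ^ 3 := by positivity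
  have e1 : (1 : ENNReal) - ENNReal.ofReal q = ENNReal.ofReal (1 - q) := by
    rw [ENNReal.ofReal_sub _ hq0.le, ENNReal.ofReal_one]
  rw [e1] at hb1
  have h2 : ENNReal.ofReal (1 - q) * ENNReal.ofReal (8 * ρ ^ 3) ≤
      volume (Y ∩ Metric.closedBall y0 ρ) := by
    have := hb1.le
    rwa [ENNReal.le_div_iff_mul_le (Or.inl (by
      rw [ne_eq, ENNReal.ofReal_eq_zero, not_le]; exact hbpos)) (Or.inl ENNReal.ofReal_ne_top)]
      at this
  have h3 : volume (Y ∩ Metric.closedBall y0 ρ) + volume (Metric.closedBall y0 ρ \ Y) =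
      ENNReal.ofReal (8 * ρ ^ 3) := by
    rw [← hvol, inter_comm]
    exact measure_inter_add_diff _ hY
  have h4 : ENNReal.ofReal ((1 - q) * (8 * ρ ^ 3)) + volume (Metric.closedBall y0 ρ \ Y) ≤
      ENNReal.ofReal ((1 - q) * (8 * ρ ^ 3)) + ENNReal.ofReal (q * (8 * ρ ^ 3)) := by
    rw [← ENNReal.ofReal_add (mul_nonneg (by linarith only [hq1]) hbpos.le) (by positivity)]
    have e : (1 - q) * (8 * ρ ^ 3) + q * (8 * ρ ^ 3) = 8 * ρ ^ 3 := by ring
    rw [e, ← h3, ENNReal.ofReal_mul (by linarith only [hq1])]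
    (clear * - h2; gcongr)
  have h5 : volume (Metric.closedBall y0 ρ \ Y) ≤ ENNReal.ofReal (q * (8 * ρ ^ 3)) :=
    (ENNReal.add_le_add_iff_left ENNReal.ofReal_ne_top).mp h4
  calc volume (Metric.ball y0 ρ \ Y) ≤ volume (Metric.closedBall y0 ρ \ Y) :=
        measure_mono (diff_subset_diff_left Metric.ball_subset_closedBall)
    _ ≤ ENNReal.ofReal (q * (8 * ρ ^ 3)) := h5
    _ ≤ ENNReal.ofReal (δ * ρ ^ 3) := by
      apply ENNReal.ofReal_le_ofReal
      have : 0 < ρ ^ 3 := by positivity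
      linarith [mul_nonneg (sub_nonneg.2 hqd) (le_of_lt (sub_pos.2 hbpos))]

end Vale.Agent.P354x
end
end

section

section

set_option maxSynthPendingDepth 3

open Set MeasureTheory Filter Topology

namespace Vale.Agent.P354x

open Vale.Agent.P354w PreHyp CoreHyp

variable {K : Coef} {G : P4 → P4 →L[ℝ] P4 →L[ℝ] ℝ} {Psi : P4 → P4} {V U : Set P4}
    {C R : ℝ} {cv cw cu : ℝ → ℝ} {t0 r : ℝ} {f : P3 → ℝ}

/-- real number bookkeeping: from the local estimate to a bound of `γ` -/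
lemma absorb {γ D m ρ δ : ℝ} {A X1 X2 X3 : ENNReal} (hγ : 0 ≤ γ) (hD : 0 < D) (hm : 0 < m)
    (hρ : 0 < ρ) (hδ : δ = (8192 * (1 + D * m))⁻¹)
    (h : ENNReal.ofReal γ * X1 ≤ ENNReal.ofReal D * (ENNReal.ofReal (m * γ) * X2 +
      ENNReal.ofReal (1 / (ρ / 2)) * ENNReal.ofReal (8 * ρ ^ 3) + X3))
    (h1 : ENNReal.ofReal (ρ ^ 3 / 512) ≤ X1 + ENNReal.ofReal (δ * ρ ^ 3))
    (h2 : X2 ≤ ENNReal.ofReal (δ * ρ ^ 3))
    (h3 : ENNReal.ofReal (ρ⁻¹ ^ 3) * X3 ≤ A) :
    ENNReal.ofReal γ ≤ ENNReal.ofReal (1024 * D) * (ENNReal.ofReal (16 * ρ⁻¹) + A) := by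
  by_cases hA : A = ⊤
  · have : ENNReal.ofReal (1024 * D) ≠ 0 := by
      rw [ne_eq, ENNReal.ofReal_eq_zero, not_le]; positivity
    rw [hA, add_top, ENNReal.mul_top this]
    exact le_top
  have hρ3 : 0 < ρ ^ 3 := by positivity
  have hi3 : 0 < ρ⁻¹ ^ 3 := by positivity
  have hX3 : X3 ≠ ⊤ := by
    intro ht
    rw [ht, ENNReal.mul_top (by rw [ne_eq, ENNReal.ofReal_eq_zero, not_le]; exact hi3)] at h3
    exact hA (top_le_iff.mp h3)
  have hX2 : X2 ≠ ⊤ := ne_top_of_le_ne_top ENNReal.ofReal_ne_top h2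
  have hδ0 : 0 < δ := by rw [hδ]; positivity
  obtain ⟨a, ha0, rfl⟩ : ∃ a : ℝ, 0 ≤ a ∧ A = ENNReal.ofReal a :=
    ⟨A.toReal, ENNReal.toReal_nonneg, (ENNReal.ofReal_toReal hA).symm⟩
  obtain ⟨x3, hx30, rfl⟩ : ∃ a : ℝ, 0 ≤ a ∧ X3 = ENNReal.ofReal a :=
    ⟨X3.toReal, ENNReal.toReal_nonneg, (ENNReal.ofReal_toReal hX3).symm⟩
  obtain ⟨x2, hx20, rfl⟩ : ∃ a : ℝ, 0 ≤ a ∧ X2 = ENNReal.ofReal a :=
    ⟨X2.toReal, ENNReal.toReal_nonneg, (ENNReal.ofReal_toReal hX2).symm⟩
  rw [← ENNReal.ofReal_add (by positivity) ha0, ← ENNReal.ofReal_mul (by positivity)]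
  apply ENNReal.ofReal_le_ofReal
  have h2' : x2 ≤ δ * ρ ^ 3 := by
    rwa [ENNReal.ofReal_le_ofReal_iff (by positivity)] at h2
  have h3' : x3 ≤ ρ ^ 3 * a := by
    rw [← ENNReal.ofReal_mul hi3.le, ENNReal.ofReal_le_ofReal_iff ha0] at h3
    have e : ρ ^ 3 * (ρ⁻¹ ^ 3 * x3) = x3 := by (clear * - hρ; field_simp)
    calc x3 = ρ ^ 3 * (ρ⁻¹ ^ 3 * x3) := e.symm
      _ ≤ ρ ^ 3 * a := by (clear * - h3 hρ; gcongr)
  have hR : ENNReal.ofReal D * (ENNReal.ofReal (m * γ) * ENNReal.ofReal x2 +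
      ENNReal.ofReal (1 / (ρ / 2)) * ENNReal.ofReal (8 * ρ ^ 3) + ENNReal.ofReal x3) =
      ENNReal.ofReal (D * (m * γ * x2 + 16 * ρ ^ 2 + x3)) := by
    rw [← ENNReal.ofReal_mul (by (clear * - hm hγ; positivity)), ← ENNReal.ofReal_mul (by positivity),
      ← ENNReal.ofReal_add (by (clear * - hm hγ hx20; positivity)) (by positivity),
      ← ENNReal.ofReal_add (by (clear * - hm hγ hx20 hρ; positivity)) (by positivity), ← ENNReal.ofReal_mul hD.le]
    congr 1
    field_simp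
    ring
  rw [hR] at h
  have hm1 : ENNReal.ofReal (γ * (ρ ^ 3 / 512)) ≤
      ENNReal.ofReal (D * (m * γ * x2 + 16 * ρ ^ 2 + x3) + γ * (δ * ρ ^ 3)) := by
    rw [ENNReal.ofReal_mul hγ, ENNReal.ofReal_add (by (clear * - hD hm hγ hx20 hρ hx30; positivity)) (by (clear * - hγ hδ0 hρ; positivity)),
      ENNReal.ofReal_mul (p := γ) hγ]
    calc ENNReal.ofReal γ * ENNReal.ofReal (ρ ^ 3 / 512)
        ≤ ENNReal.ofReal γ * (X1 + ENNReal.ofReal (δ * ρ ^ 3)) := by (clear * - h1; gcongr)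
      _ = ENNReal.ofReal γ * X1 + ENNReal.ofReal γ * ENNReal.ofReal (δ * ρ ^ 3) := by ring
      _ ≤ _ := by (clear * - h; gcongr)
  rw [ENNReal.ofReal_le_ofReal_iff (by (clear * - hD hm hγ hx20 hρ hx30 hδ0; positivity))] at hm1
  have hδ1 : δ * (1 + D * m) = 1 / 8192 := by
    rw [hδ]
    (clear * - hD hm; field_simp)
  have key : γ * (ρ ^ 3 / 512) ≤ γ * ρ ^ 3 * (1 / 8192) + D * (16 * ρ ^ 2 + ρ ^ 3 * a) := by
    calc γ * (ρ ^ 3 / 512) ≤ D * (m * γ * x2 + 16 * ρ ^ 2 + x3) + γ * (δ * ρ ^ 3) := hm1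
      _ ≤ D * (m * γ * (δ * ρ ^ 3) + 16 * ρ ^ 2 + ρ ^ 3 * a) + γ * (δ * ρ ^ 3) := by (clear * - h2' hm hγ h3' hD; gcongr)
      _ = γ * ρ ^ 3 * (δ * (1 + D * m)) + D * (16 * ρ ^ 2 + ρ ^ 3 * a) := by ring
      _ = _ := by rw [hδ1]
  have key2 : γ * ρ ^ 3 ≤ 1024 * (D * (16 * ρ ^ 2 + ρ ^ 3 * a)) := by
    have : 0 ≤ γ * ρ ^ 3 := by (clear * - hγ hρ; positivity)
    linarith only [key, this]
  have key3 : γ * ρ ^ 3 ≤ (1024 * D * (16 * ρ⁻¹ + a)) * ρ ^ 3 := by
    refine key2.trans (le_of_eq ?_)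
    (clear * - hρ ha0 hD; field_simp)
  exact le_of_mul_le_mul_right key3 hρ3

end Vale.Agent.P354x
end
end

section

section

set_option maxSynthPendingDepth 3

open Set MeasureTheory Filter Topology

namespace Vale.Agent.P354x

open Vale.Agent.P354w PreHyp CoreHyp

variable {K : Coef} {G : P4 → P4 →L[ℝ] P4 →L[ℝ] ℝ} {Psi : P4 → P4} {V U : Set P4}
    {C R : ℝ} {cv cw cu : ℝ → ℝ} {t0 r : ℝ} {f : P3 → ℝ}

/-- the sum of the derivatives of the angular metric in the direction `e4` -/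
noncomputable def chi4 (K : Coef) (x : P4) : ℝ :=
  |fderiv ℝ K.g11 x (e4 K x)| + |fderiv ℝ K.g12 x (e4 K x)| + |fderiv ℝ K.g22 x (e4 K x)|

/-- real number bookkeeping: choice of the direction -/
lemma choose_dir {d11 d12 d22 w : ℝ} (hw : 0 ≤ w)
    (hM : 8 * w ≤ max |d11| (max |d22| |d11 + 2 * d12 + d22|)) :
    ∃ (j : Fin 3) (σ γ : ℝ), |σ| = 1 ∧ 0 ≤ γ ∧ |d11| + |d12| + |d22| ≤ 7 * γ ∧
      ∀ x11 x12 x22 : ℝ, |x11 - d11| ≤ w → |x12 - d12| ≤ w → |x22 - d22| ≤ w →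
        |x11| ≤ 4 * γ ∧ |x12| ≤ 4 * γ ∧ |x22| ≤ 4 * γ ∧
        γ ≤ σ * (![x11, x22, x11 + 2 * x12 + x22] j) := by
  set M := max |d11| (max |d22| |d11 + 2 * d12 + d22|) with hMd
  have h1 : |d11| ≤ M := le_max_left _ _
  have h2 : |d22| ≤ M := (le_max_left _ _).trans (le_max_right _ _)
  have h3 : |d11 + 2 * d12 + d22| ≤ M := (le_max_right _ _).trans (le_max_right _ _)
  have h4 : |d12| ≤ 3 / 2 * M := by
    rw [abs_le] at *
    constructor <;> linarith only [h1, h2, h3]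
  have key : ∀ x11 x12 x22 : ℝ, |x11 - d11| ≤ w → |x12 - d12| ≤ w → |x22 - d22| ≤ w →
      |x11| ≤ 4 * (M - 4 * w) ∧ |x12| ≤ 4 * (M - 4 * w) ∧ |x22| ≤ 4 * (M - 4 * w) := by
    intro x11 x12 x22 k1 k2 k3
    rw [abs_le] at *
    refine ⟨?_, ?_, ?_⟩
    all_goals first | rw [abs_le] | skip
    all_goals constructor <;> linarith only [hw, hM, h1, k1, h2, h3, k2, k3]
  have hsum : |d11| + |d12| + |d22| ≤ 7 * (M - 4 * w) := by linarith
  have hcases : M = |d11| ∨ M = |d22| ∨ M = |d11 + 2 * d12 + d22| := by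
    rcases max_choice |d11| (max |d22| |d11 + 2 * d12 + d22|) with h | h
    · left; rw [hMd, h]
    · rcases max_choice |d22| |d11 + 2 * d12 + d22| with h' | h'
      · right; left; rw [hMd, h, h']
      · right; right; rw [hMd, h, h']
  rcases hcases with hc | hc | hc
  · rcases le_total 0 d11 with hs | hs
    · refine ⟨0, 1, M - 4 * w, by norm_num, by linarith only [hw, hM], hsum, ?_⟩
      intro x11 x12 x22 k1 k2 k3
      obtain ⟨u1, u2, u3⟩ := key _ _ _ k1 k2 k3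
      refine ⟨u1, u2, u3, ?_⟩
      rw [abs_of_nonneg hs] at hc
      simp only [Matrix.cons_val_zero]
      rw [abs_le] at k1
      linarith only [hw, hc, k1]
    · refine ⟨0, -1, M - 4 * w, by norm_num, by linarith only [hw, hM], hsum, ?_⟩
      intro x11 x12 x22 k1 k2 k3
      obtain ⟨u1, u2, u3⟩ := key _ _ _ k1 k2 k3
      refine ⟨u1, u2, u3, ?_⟩
      rw [abs_of_nonpos hs] at hc
      simp only [Matrix.cons_val_zero]
      rw [abs_le] at k1
      linarith only [hw, hc, k1]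
  · rcases le_total 0 d22 with hs | hs
    · refine ⟨1, 1, M - 4 * w, by norm_num, by linarith only [hw, hM], hsum, ?_⟩
      intro x11 x12 x22 k1 k2 k3
      obtain ⟨u1, u2, u3⟩ := key _ _ _ k1 k2 k3
      refine ⟨u1, u2, u3, ?_⟩
      rw [abs_of_nonneg hs] at hc
      simp only [Matrix.cons_val_one, Matrix.cons_val_zero]
      rw [abs_le] at k3
      linarith only [hw, hc, k3]
    · refine ⟨1, -1, M - 4 * w, by norm_num, by linarith only [hw, hM], hsum, ?_⟩
      intro x11 x12 x22 k1 k2 k3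
      obtain ⟨u1, u2, u3⟩ := key _ _ _ k1 k2 k3
      refine ⟨u1, u2, u3, ?_⟩
      rw [abs_of_nonpos hs] at hc
      simp only [Matrix.cons_val_one, Matrix.cons_val_zero]
      rw [abs_le] at k3
      linarith only [hw, hc, k3]
  · rcases le_total 0 (d11 + 2 * d12 + d22) with hs | hs
    · refine ⟨2, 1, M - 4 * w, by norm_num, by linarith only [hw, hM], hsum, ?_⟩
      intro x11 x12 x22 k1 k2 k3
      obtain ⟨u1, u2, u3⟩ := key _ _ _ k1 k2 k3
      refine ⟨u1, u2, u3, ?_⟩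
      rw [abs_of_nonneg hs] at hc
      simp only [Matrix.cons_val]
      rw [abs_le] at k1 k2 k3
      linarith only [hc, k1, k2, k3]
    · refine ⟨2, -1, M - 4 * w, by norm_num, by linarith only [hw, hM], hsum, ?_⟩
      intro x11 x12 x22 k1 k2 k3
      obtain ⟨u1, u2, u3⟩ := key _ _ _ k1 k2 k3
      refine ⟨u1, u2, u3, ?_⟩
      rw [abs_of_nonpos hs] at hc
      simp only [Matrix.cons_val]
      rw [abs_le] at k1 k2 k3
      linarith only [hc, k1, k2, k3]

lemma D3_eq (K : Coef) (j : Fin 3) (x : P4) : D3 K j x =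
    ![fderiv ℝ K.g11 x (e4 K x), fderiv ℝ K.g22 x (e4 K x), fderiv ℝ K.g11 x (e4 K x) +
      2 * fderiv ℝ K.g12 x (e4 K x) + fderiv ℝ K.g22 x (e4 K x)] j := by
  fin_cases j <;> rfl

end Vale.Agent.P354x
end
end

section

section

set_option maxSynthPendingDepth 3

open Set MeasureTheory Filter Topology

namespace Vale.Agent.P354z

open Vale.Agent.P354w Vale.Agent.P354x PreHyp CoreHyp

variable {K : Coef} {G : P4 → P4 →L[ℝ] P4 →L[ℝ] ℝ} {Psi : P4 → P4} {V U : Set P4}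
    {C R : ℝ} {cv cw cu : ℝ → ℝ} {t0 r : ℝ} {f : P3 → ℝ}

/-- the part of the growth of the frame components which does not depend on the line -/
noncomputable def W0 (R : ℝ) (cv cw cu : ℝ → ℝ) : ENNReal :=
  (∫⁻ v in Ico (-R) 0, ENNReal.ofReal (cv v)) + (∫⁻ v in Ico (-R) 0, ENNReal.ofReal (cw v)) +
    (∫⁻ u in Icc (-R) R, ENNReal.ofReal (cu u)) + volume (Icc (-R) R) + volume (Ico (-R) (0:ℝ))

lemma W0_ne_top (h : PreHyp K G Psi V U C R cv cw cu t0 r f) : W0 R cv cw cu ≠ ⊤ := by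
  have hvol1 : volume (Icc (-R) R) ≠ ⊤ := by simp only [Real.volume_Icc, sub_neg_eq_add, ne_eq, ENNReal.ofReal_ne_top, not_false_eq_true]
  have hvol2 : volume (Ico (-R) (0:ℝ)) ≠ ⊤ := by simp only [Real.volume_Ico, sub_neg_eq_add, zero_add, ne_eq, ENNReal.ofReal_ne_top, not_false_eq_true]
  exact ENNReal.add_ne_top.mpr ⟨ENNReal.add_ne_top.mpr
      ⟨ENNReal.add_ne_top.mpr ⟨ENNReal.add_ne_top.mpr ⟨h.cv_int, h.cw_int⟩, h.cu_int⟩,
      hvol1⟩, hvol2⟩

/-- growth of the frame components along a segment of an exotic vertical line -/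
lemma seg_bound (h : PreHyp K G Psi V U C R cv cw cu t0 r f) {x : P3}
    (hx : x ∈ Metric.ball (0 : P3) r) {s0 t : ℝ} (hs0 : t0 ≤ s0) (hst : s0 ≤ t) (htf : t < f x) :
    ENNReal.ofReal |Real.log (fderiv ℝ Psi (t, x) e1).2.1 -
        Real.log (fderiv ℝ Psi (s0, x) e1).2.1| ≤ ENNReal.ofReal (100 * C ^ 5) *
          ((∫⁻ s in Icc s0 t, ‖fderiv ℝ G (s, x)‖ₑ) + W0 R cv cw cu) ∧
    ENNReal.ofReal |Real.log (fderiv ℝ Psi (t, x) e1).2.2.1 -
        Real.log (fderiv ℝ Psi (s0, x) e1).2.2.1| ≤ ENNReal.ofReal (100 * C ^ 5) *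
          ((∫⁻ s in Icc s0 t, ‖fderiv ℝ G (s, x)‖ₑ) + W0 R cv cw cu) := by
  classical
  have hC : 1 ≤ C := by
    have : (t0, x) ∈ V := h.memV x hx t0 ⟨le_refl _, h.t0f x hx⟩
    exact (h.pt this).bd.one_le
  set n := ∫⁻ s in Icc s0 t, ‖fderiv ℝ G (s, x)‖ₑ with hndef
  set Iv := ∫⁻ v in Ico (-R) 0, ENNReal.ofReal (cv v) with hIv
  set Iu := ∫⁻ u in Icc (-R) R, ENNReal.ofReal (cu u) with hIu
  set Iw := ∫⁻ v in Ico (-R) 0, ENNReal.ofReal (cw v) with hIw
  set T : ENNReal := ENNReal.ofReal (100 * C ^ 5) * (n + Iv + Iw + Iu + volume (Icc (-R) R)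
    + volume (Ico (-R) (0:ℝ))) with hT
  have hTe : ENNReal.ofReal (100 * C ^ 5) * (n + W0 R cv cw cu) = T := by
    rw [hT, W0, ← hIv, ← hIu, ← hIw]
    congr 1
    ring
  rw [hTe]
  have hsub : ∀ s ∈ Icc s0 t, (s, x) ∈ V := fun s hs =>
    h.memV x hx s ⟨hs0.trans hs.1, lt_of_le_of_lt hs.2 htf⟩
  have hline : ContinuousOn (fun s : ℝ => ((s, x) : P4)) (Icc s0 t) := by fun_prop
  have hmapsV : MapsTo (fun s : ℝ => ((s, x) : P4)) (Icc s0 t) V := hsub
  -- the common majorant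
  set W : ℝ → ENNReal := fun s => ENNReal.ofReal (100 * C ^ 5) * (‖fderiv ℝ G (s, x)‖ₑ
    + ENNReal.ofReal (fderiv ℝ Psi (s, x) e1).2.1 * ENNReal.ofReal (cv (Psi (s, x)).2.1)
    + ENNReal.ofReal (fderiv ℝ Psi (s, x) e1).2.1 * ENNReal.ofReal (cw (Psi (s, x)).2.1)
    + ENNReal.ofReal (fderiv ℝ Psi (s, x) e1).2.2.1 * ENNReal.ofReal (cu (Psi (s, x)).2.2.1)
    + ENNReal.ofReal (fderiv ℝ Psi (s, x) e1).2.2.1 * 1
    + ENNReal.ofReal (fderiv ℝ Psi (s, x) e1).2.1 * 1) with hWdef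
  have hv : ∀ s ∈ Icc s0 t, HasDerivAt (fun s => (Psi (s, x)).2.1) (fderiv ℝ Psi (s, x) e1).2.1 s :=
    fun s hs => (h.hasDerivAt_line (hsub s hs)).snd.fst
  have hu : ∀ s ∈ Icc s0 t, HasDerivAt (fun s => (Psi (s, x)).2.2.1)
      (fderiv ℝ Psi (s, x) e1).2.2.1 s :=
    fun s hs => (h.hasDerivAt_line (hsub s hs)).snd.snd.fst
  have hposv : ∀ s ∈ Icc s0 t, 0 < (fderiv ℝ Psi (s, x) e1).2.1 := fun s hs => h.pos _ (hsub s hs)
  have hposu : ∀ s ∈ Icc s0 t, 0 < (fderiv ℝ Psi (s, x) e1).2.2.1 :=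
    fun s hs => (h.pt (hsub s hs)).sq_le.2.1
  have hmv : MapsTo (fun s => (Psi (s, x)).2.1) (Icc s0 t) (Ico (-R) 0) := by
    intro s hs
    obtain ⟨_, h1, h2, _, _⟩ := h.U_sub _ (h.maps (hsub s hs))
    exact ⟨h1, h2⟩
  have hmu : MapsTo (fun s => (Psi (s, x)).2.2.1) (Icc s0 t) (Icc (-R) R) := by
    intro s hs
    obtain ⟨_, _, _, h3, _⟩ := h.U_sub _ (h.maps (hsub s hs))
    exact abs_le.mp h3
  have i2 := subst_le (φ := fun s => (Psi (s, x)).2.1) measurableSet_Icc ordConnected_Icc hv hposv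
    hmv (fun v => ENNReal.ofReal (cv v))
  have i2w := subst_le (φ := fun s => (Psi (s, x)).2.1) measurableSet_Icc ordConnected_Icc hv hposv
    hmv (fun v => ENNReal.ofReal (cw v))
  have i3 := subst_le (φ := fun s => (Psi (s, x)).2.2.1) measurableSet_Icc ordConnected_Icc hu
    hposu hmu (fun v => ENNReal.ofReal (cu v))
  have i4 := subst_le (φ := fun s => (Psi (s, x)).2.2.1) measurableSet_Icc ordConnected_Icc hu
    hposu hmu (fun v => (1 : ENNReal))
  have i5 := subst_le (φ := fun s => (Psi (s, x)).2.1) measurableSet_Icc ordConnected_Icc hv hposv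
    hmv (fun v => (1 : ENNReal))
  simp only [lintegral_const, one_mul, Measure.restrict_apply MeasurableSet.univ, univ_inter]
    at i4 i5
  have hcontb : ContinuousOn (fun s : ℝ => (fderiv ℝ Psi (s, x) e1).2.1) (Icc s0 t) := by
    intro s hs
    exact ((h.hasDerivAt_line2 (hsub s hs)).continuousAt.snd.fst).continuousWithinAt
  have hconta : ContinuousOn (fun s : ℝ => (fderiv ℝ Psi (s, x) e1).2.2.1) (Icc s0 t) := by
    intro s hs
    exact ((h.hasDerivAt_line2 (hsub s hs)).continuousAt.snd.snd.fst).continuousWithinAt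
  have hPsi : ContinuousOn (fun s : ℝ => Psi (s, x)) (Icc s0 t) := by
    intro s hs
    exact (h.hasDerivAt_line (hsub s hs)).continuousAt.continuousWithinAt
  have hmeasline : Measurable (fun s : ℝ => ((s, x) : P4)) := by fun_prop
  have m1 : AEMeasurable (fun s : ℝ => ‖fderiv ℝ G (s, x)‖ₑ) (volume.restrict (Icc s0 t)) :=
    ((measurable_fderiv ℝ G).comp hmeasline).enorm.aemeasurable
  have m2 : AEMeasurable (fun s : ℝ => ENNReal.ofReal (fderiv ℝ Psi (s, x) e1).2.1)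
      (volume.restrict (Icc s0 t)) :=
    (hcontb.aemeasurable measurableSet_Icc).ennreal_ofReal
  have m3 : AEMeasurable (fun s : ℝ => ENNReal.ofReal (fderiv ℝ Psi (s, x) e1).2.2.1)
      (volume.restrict (Icc s0 t)) :=
    (hconta.aemeasurable measurableSet_Icc).ennreal_ofReal
  have mP : AEMeasurable (fun s : ℝ => Psi (s, x)) (volume.restrict (Icc s0 t)) :=
    hPsi.aemeasurable measurableSet_Icc
  have m4 : AEMeasurable (fun s : ℝ => ENNReal.ofReal (cv (Psi (s, x)).2.1))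
      (volume.restrict (Icc s0 t)) :=
    (h.cv_meas.comp_aemeasurable mP.snd.fst).ennreal_ofReal
  have m4w : AEMeasurable (fun s : ℝ => ENNReal.ofReal (cw (Psi (s, x)).2.1))
      (volume.restrict (Icc s0 t)) :=
    (h.cw_meas.comp_aemeasurable mP.snd.fst).ennreal_ofReal
  have m5 : AEMeasurable (fun s : ℝ => ENNReal.ofReal (cu (Psi (s, x)).2.2.1))
      (volume.restrict (Icc s0 t)) :=
    (h.cu_meas.comp_aemeasurable mP.snd.snd.fst).ennreal_ofReal
  have hWle : ∫⁻ s in Icc s0 t, W s ≤ T := by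
    rw [hWdef, hT]
    rw [lintegral_const_mul'' _ (by
      exact (((((m1.add (m2.mul m4)).add (m2.mul m4w)).add (m3.mul m5)).add
        (m3.mul aemeasurable_const)).add (m2.mul aemeasurable_const)))]
    gcongr
    rw [lintegral_add_left' (by
      exact ((((m1.add (m2.mul m4)).add (m2.mul m4w)).add (m3.mul m5)).add
        (m3.mul aemeasurable_const)))]
    rw [lintegral_add_left' (by exact (((m1.add (m2.mul m4)).add (m2.mul m4w)).add (m3.mul m5)))]
    rw [lintegral_add_left' (by exact ((m1.add (m2.mul m4)).add (m2.mul m4w)))]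
    rw [lintegral_add_left' (by exact (m1.add (m2.mul m4)))]
    rw [lintegral_add_left' m1]
    (clear * - i2 i2w i3 i4 i5; gcongr)
  have hC5 : 0 ≤ C ^ 5 := by positivity
  have key : ∀ s ∈ Icc s0 t, ∀ q' q : ℝ, 0 < q → |q'| ≤ 100 * C ^ 5 * (q * (‖fderiv ℝ G (s, x)‖
      + cv (Psi (s, x)).2.1 * (fderiv ℝ Psi (s, x) e1).2.1
      + cw (Psi (s, x)).2.1 * (fderiv ℝ Psi (s, x) e1).2.1
      + cu (Psi (s, x)).2.2.1 * (fderiv ℝ Psi (s, x) e1).2.2.1
      + (fderiv ℝ Psi (s, x) e1).2.2.1 + (fderiv ℝ Psi (s, x) e1).2.1)) →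
      ENNReal.ofReal (|q'| / q) ≤ W s := by
    intro s hs q' q hq hle
    have hb := hposv s hs
    have ha := hposu s hs
    have hcv := (h.pt (hsub s hs)).bd.cv0
    have hcw := (h.pt (hsub s hs)).bd.cw0
    have hcu := (h.pt (hsub s hs)).bd.cu0
    have h1 : |q'| / q ≤ 100 * C ^ 5 * (‖fderiv ℝ G (s, x)‖
      + cv (Psi (s, x)).2.1 * (fderiv ℝ Psi (s, x) e1).2.1
      + cw (Psi (s, x)).2.1 * (fderiv ℝ Psi (s, x) e1).2.1
      + cu (Psi (s, x)).2.2.1 * (fderiv ℝ Psi (s, x) e1).2.2.1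
      + (fderiv ℝ Psi (s, x) e1).2.2.1 + (fderiv ℝ Psi (s, x) e1).2.1) := by
      rw [div_le_iff₀ hq]
      linarith only [hle]
    refine (ENNReal.ofReal_le_ofReal h1).trans ?_
    rw [hWdef]
    simp only [mul_one]
    rw [ENNReal.ofReal_mul (by positivity), ENNReal.ofReal_add (by (clear * - hcv hb hcw hcu ha; (clear * - hcv hb hcw hcu ha; positivity))) hb.le,
      ENNReal.ofReal_add (by (clear * - hcv hb hcw hcu ha; positivity)) ha.le, ENNReal.ofReal_add (by (clear * - hcv hb hcw; positivity)) (by (clear * - hcu ha; positivity)),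
      ENNReal.ofReal_add (by (clear * - hcv hb; positivity)) (by (clear * - hcw hb; positivity)),
      ENNReal.ofReal_add (by (clear * -; positivity)) (by (clear * - hcv hb; positivity)), ENNReal.ofReal_mul hcv,
      ENNReal.ofReal_mul hcw, ENNReal.ofReal_mul hcu, ofReal_norm,
      mul_comm (ENNReal.ofReal (cv _)), mul_comm (ENNReal.ofReal (cw _)),
      mul_comm (ENNReal.ofReal (cu _))]
  have hsdc : ContinuousOn (fun s : ℝ => Sd Psi (s, x) e1 e1) (Icc s0 t) :=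
    (h.continuousOn_Sd e1 e1).comp hline hmapsV
  constructor
  · have h1 := log_bound (q := fun s => (fderiv ℝ Psi (s, x) e1).2.1)
      (q' := fun s => (Sd Psi (s, x) e1 e1).2.1) (W := W) hst
      (fun s hs => (h.hasDerivAt_line2 (hsub s hs)).snd.fst)
      (hsdc.snd.fst) hposv (by
        intro s hs
        obtain ⟨N, hN⟩ := h.exists_pre (hsub s hs) (e3 K (Psi (s, x)))
        have h2 := (h.pt (hsub s hs)).Sv_TT hN
        refine key s hs _ _ (hposv s hs) (h2.trans ?_)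
        have hb := hposv s hs
        have ha := hposu s hs
        have hcv := (h.pt (hsub s hs)).bd.cv0
        have : (0:ℝ) ≤ C ^ 5 * ((fderiv ℝ Psi (s, x) e1).2.1 *
          (cv (Psi (s, x)).2.1 * (fderiv ℝ Psi (s, x) e1).2.1)) := by (clear * - hC hb hcv; positivity)
        linarith only [this])
    exact h1.trans hWle
  · have h1 := log_bound (q := fun s => (fderiv ℝ Psi (s, x) e1).2.2.1)
      (q' := fun s => (Sd Psi (s, x) e1 e1).2.2.1) (W := W) hst
      (fun s hs => (h.hasDerivAt_line2 (hsub s hs)).snd.snd.fst)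
      (hsdc.snd.snd.fst) hposu (by
        intro s hs
        obtain ⟨N, hN⟩ := h.exists_pre (hsub s hs) (e4 K (Psi (s, x)))
        have h2 := (h.pt (hsub s hs)).Su_TT hN
        refine key s hs _ _ (hposu s hs) (h2.trans ?_)
        have hb := hposv s hs
        have ha := hposu s hs
        have hcw := (h.pt (hsub s hs)).bd.cw0
        have : (0:ℝ) ≤ C ^ 5 * ((fderiv ℝ Psi (s, x) e1).2.2.1 *
          (cw (Psi (s, x)).2.1 * (fderiv ℝ Psi (s, x) e1).2.1)) := by (clear * - hC ha hcw hb; positivity)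
        linarith only [this])
    exact h1.trans hWle

/-- growth of `QQ` along a segment of an exotic vertical line -/
lemma seg_QQ (h : PreHyp K G Psi V U C R cv cw cu t0 r f) {x : P3}
    (hx : x ∈ Metric.ball (0 : P3) r) {s0 t M : ℝ} (hs0 : t0 ≤ s0) (hst : s0 ≤ t) (htf : t < f x)
    (hM : 0 ≤ M) (hle : ENNReal.ofReal (100 * C ^ 5) *
          ((∫⁻ s in Icc s0 t, ‖fderiv ℝ G (s, x)‖ₑ) + W0 R cv cw cu) ≤ ENNReal.ofReal M) :
    QQ Psi (t, x) ≤ QQ Psi (s0, x) * Real.exp M := by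
  obtain ⟨h1, h2⟩ := seg_bound h hx hs0 hst htf
  have h1' := h1.trans hle
  have h2' := h2.trans hle
  rw [ENNReal.ofReal_le_ofReal_iff hM] at h1' h2'
  have hz : (t, x) ∈ V := h.memV x hx t ⟨hs0.trans hst, htf⟩
  have hz0 : (s0, x) ∈ V := h.memV x hx s0 ⟨hs0, lt_of_le_of_lt hst htf⟩
  have k1 := exp_aux (h.pos _ hz) (h.pos _ hz0) h1'
  have k2 := exp_aux (h.pt hz).sq_le.2.1 (h.pt hz0).sq_le.2.1 h2'
  unfold QQ
  rw [add_mul]
  exact add_le_add k2 k1

/-- **The supremum bound**: along an exotic vertical line the frame components are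
controlled by the energy of the line. -/
theorem sup_line (h : PreHyp K G Psi V U C R cv cw cu t0 r f) {x : P3}
    (hx : x ∈ Metric.ball (0 : P3) r) {κ0 : ℝ} (hκ0 : QQ Psi (t0, x) ≤ κ0) {t : ℝ}
    (ht : t ∈ Ico t0 (f x)) :
    ENNReal.ofReal (QQ Psi (t, x)) ≤
      ENNReal.ofReal (κ0 * Real.exp (100 * C ^ 5 * (1 + (W0 R cv cw cu).toReal) + 1)) +
      ENNReal.ofReal (3 * R * Real.exp (100 * C ^ 5 * (1 + (W0 R cv cw cu).toReal) + 1)) *
        ∫⁻ s in Ico t0 (f x), ‖fderiv ℝ G (s, x)‖ₑ ^ 2 := by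
  have hC : 1 ≤ C := by
    have : (t0, x) ∈ V := h.memV x hx t0 ⟨le_refl _, h.t0f x hx⟩
    exact (h.pt this).bd.one_le
  set w := (W0 R cv cw cu).toReal with hw
  have hw0 : 0 ≤ w := ENNReal.toReal_nonneg
  have hW0 : W0 R cv cw cu = ENNReal.ofReal w := (ENNReal.ofReal_toReal (W0_ne_top h)).symm
  set M : ℝ := 100 * C ^ 5 * (1 + w) with hM
  have hM0 : 0 ≤ M := by (clear * - hC; positivity)
  set A := Real.exp (M + 1) with hA
  have hA0 : 0 < A := Real.exp_pos _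
  set E := ∫⁻ s in Ico t0 (f x), ‖fderiv ℝ G (s, x)‖ₑ ^ 2 with hE
  have hzV : ∀ s ∈ Ico t0 (f x), ((s, x) : P4) ∈ V := fun s hs => h.memV x hx s hs
  have hq : 0 < QQ Psi (t, x) := QQ_pos h (hzV t ht)
  rcases le_or_gt (QQ Psi (t, x)) (κ0 * A) with hcase | hcase
  · exact (ENNReal.ofReal_le_ofReal hcase).trans le_self_add
  -- the last time at which `QQ` is small
  have hsub : Icc t0 t ⊆ Ico t0 (f x) := fun s hs => ⟨hs.1, lt_of_le_of_lt hs.2 ht.2⟩
  have hcl : ContinuousOn (fun s : ℝ => QQ Psi (s, x)) (Icc t0 t) := by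
    intro s hs
    have h1 : ContinuousAt (QQ Psi) (s, x) := contAt_QQ h (hzV s (hsub hs))
    have h2 : ContinuousAt (fun s : ℝ => ((s, x) : P4)) s := by fun_prop
    exact (ContinuousAt.comp (g := QQ Psi) (f := fun s : ℝ => ((s, x) : P4)) h1
      h2).continuousWithinAt
  have hcomp : IsCompact (Icc t0 t ∩ {s : ℝ | QQ Psi (s, x) ≤ QQ Psi (t, x) / A}) := by
    have := hcl.preimage_isClosed_of_isClosed isClosed_Icc (isClosed_Iic (a := QQ Psi (t, x) / A))
    exact isCompact_Icc.of_isClosed_subset this inter_subset_left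
  have ht0mem : t0 ∈ Icc t0 t ∩ {s : ℝ | QQ Psi (s, x) ≤ QQ Psi (t, x) / A} := by
    refine ⟨⟨le_refl _, ht.1⟩, ?_⟩
    show QQ Psi (t0, x) ≤ QQ Psi (t, x) / A
    rw [le_div_iff₀ hA0]
    calc QQ Psi (t0, x) * A ≤ κ0 * A := by (clear * - hκ0; gcongr)
      _ ≤ _ := hcase.le
  obtain ⟨s, ⟨hs, hsq⟩, hgr⟩ := hcomp.exists_isGreatest ⟨t0, ht0mem⟩
  have hsq' : QQ Psi (s, x) ≤ QQ Psi (t, x) / A := hsq
  have hlarge : ∀ τ ∈ Ioc s t, QQ Psi (t, x) / A ≤ QQ Psi (τ, x) := by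
    intro τ hτ
    by_contra hc
    push Not at hc
    have := hgr ⟨⟨hs.1.trans hτ.1.le, hτ.2⟩, hc.le⟩
    exact absurd hτ.1 (not_lt.mpr this)
  -- the duration
  have hdur : QQ Psi (t, x) / A * (t - s) ≤ 3 * R := by
    have hder : ∀ τ ∈ Icc s t, HasDerivAt (fun τ => (Psi (τ, x)).2.2.1 + (Psi (τ, x)).2.1)
        (QQ Psi (τ, x)) τ := by
      intro τ hτ
      have h1 := h.hasDerivAt_line (hzV τ (hsub ⟨hs.1.trans hτ.1, hτ.2⟩))
      have k1 : HasDerivAt (fun τ => (Psi (τ, x)).2.2.1) (fderiv ℝ Psi (τ, x) e1).2.2.1 τ :=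
        h1.snd.snd.fst
      have k2 : HasDerivAt (fun τ => (Psi (τ, x)).2.1) (fderiv ℝ Psi (τ, x) e1).2.1 τ :=
        h1.snd.fst
      exact k1.add k2
    have h2 := Convex.mul_sub_le_image_sub_of_le_deriv (convex_Icc s t)
      (f := fun τ => (Psi (τ, x)).2.2.1 + (Psi (τ, x)).2.1)
      (fun τ hτ => (hder τ hτ).continuousAt.continuousWithinAt)
      (fun τ hτ => (hder τ (interior_subset hτ)).differentiableAt.differentiableWithinAt)
      (C := QQ Psi (t, x) / A)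
      (by
        intro τ hτ
        rw [interior_Icc] at hτ
        rw [(hder τ ⟨hτ.1.le, hτ.2.le⟩).deriv]
        exact hlarge τ ⟨hτ.1, hτ.2.le⟩)
      s (left_mem_Icc.mpr hs.2) t (right_mem_Icc.mpr hs.2) hs.2
    obtain ⟨_, a2, a3, a4, _⟩ := h.U_sub _ (h.maps (hzV t ht))
    obtain ⟨_, b2, b3, b4, _⟩ := h.U_sub _ (h.maps (hzV s (hsub hs)))
    rw [abs_le] at a4 b4
    refine h2.trans ?_
    show (Psi (t, x)).2.2.1 + (Psi (t, x)).2.1 - ((Psi (s, x)).2.2.1 + (Psi (s, x)).2.1) ≤ _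
    linarith only [a3, a4, b2, b4]
  -- the energy
  have hbig : 1 < ∫⁻ τ in Icc s t, ‖fderiv ℝ G (τ, x)‖ₑ := by
    by_contra hc
    push Not at hc
    have h3 := seg_QQ h hx hs.1 hs.2 ht.2 hM0 (by
      rw [hM, ENNReal.ofReal_mul (p := 100 * C ^ 5) (by positivity),
        ENNReal.ofReal_add (p := 1) (by norm_num) hw0, ENNReal.ofReal_one, hW0]
      (clear * - hc; gcongr))
    have h4 : QQ Psi (t, x) ≤ QQ Psi (t, x) / A * Real.exp M :=
      h3.trans (mul_le_mul_of_nonneg_right hsq' (Real.exp_pos _).le)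
    have h5 : QQ Psi (t, x) / A * Real.exp M = QQ Psi (t, x) * Real.exp (-1) := by
      rw [hA, div_mul_eq_mul_div, mul_div_assoc, ← Real.exp_sub]
      congr 2
      ring
    rw [h5] at h4
    have h6 : Real.exp (-1) < 1 := by
      rw [Real.exp_lt_one_iff]; norm_num
    have : QQ Psi (t, x) * Real.exp (-1) < QQ Psi (t, x) * 1 := by (clear * - h6 hq; gcongr)
    linarith only [h4, this]
  have hmeasline : Measurable (fun s : ℝ => ((s, x) : P4)) := by fun_prop
  have hcs := cs (μ := volume.restrict (Icc s t)) (f := fun τ => ‖fderiv ℝ G (τ, x)‖ₑ)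
    (g := fun _ => (1 : ENNReal)) (((measurable_fderiv ℝ G).comp hmeasline).enorm.aemeasurable)
    aemeasurable_const
  simp only [mul_one, one_pow, lintegral_const, Measure.restrict_apply MeasurableSet.univ,
    univ_inter, one_mul, Real.volume_Icc] at hcs
  have hE1 : ∫⁻ τ in Icc s t, ‖fderiv ℝ G (τ, x)‖ₑ ^ 2 ≤ E := by
    apply lintegral_mono_set
    intro τ hτ
    exact hsub ⟨hs.1.trans hτ.1, hτ.2⟩
  have hone : 1 ≤ E * ENNReal.ofReal (t - s) := by
    have h7 : (1 : ENNReal) ≤ E ^ (1/2:ℝ) * ENNReal.ofReal (t - s) ^ (1/2:ℝ) :=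
      hbig.le.trans (hcs.trans (by (clear * - hE1; gcongr)))
    rw [← ENNReal.mul_rpow_of_nonneg _ _ (by norm_num)] at h7
    by_contra hc
    push Not at hc
    have h8 : (E * ENNReal.ofReal (t - s)) ^ (1/2:ℝ) < 1 :=
      ENNReal.rpow_lt_one hc (by norm_num)
    exact absurd h7 (not_le.mpr h8)
  calc ENNReal.ofReal (QQ Psi (t, x)) = ENNReal.ofReal (QQ Psi (t, x)) * 1 := (mul_one _).symm
    _ ≤ ENNReal.ofReal (QQ Psi (t, x)) * (E * ENNReal.ofReal (t - s)) := by (clear * - hone; gcongr)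
    _ = ENNReal.ofReal (QQ Psi (t, x) * (t - s)) * E := by
        rw [ENNReal.ofReal_mul hq.le]; ring
    _ ≤ ENNReal.ofReal (3 * R * A) * E := by
        apply mul_le_mul_left
        apply ENNReal.ofReal_le_ofReal
        have : QQ Psi (t, x) * (t - s) = (QQ Psi (t, x) / A * (t - s)) * A := by
          (clear * - hA0 hq; field_simp)
        rw [this]
        (clear * - hdur; gcongr)
    _ ≤ _ := le_add_self

end Vale.Agent.P354z
end
end

section

section

set_option maxSynthPendingDepth 3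

open Set MeasureTheory Filter Topology

namespace Vale.Agent.P354z

open Vale.Agent.P354w Vale.Agent.P354x PreHyp CoreHyp

variable {K : Coef} {G : P4 → P4 →L[ℝ] P4 →L[ℝ] ℝ} {Psi : P4 → P4} {V U : Set P4}
    {C R : ℝ} {cv cw cu : ℝ → ℝ} {t0 r : ℝ} {f : P3 → ℝ}

lemma one_le_C (h : PreHyp K G Psi V U C R cv cw cu t0 r f) : 1 ≤ C := by
  have : ((t0, 0) : P4) ∈ V := h.memV 0 (by simpa only [Metric.mem_ball, dist_self] using h.r_pos) t0
    ⟨le_refl _, h.t0f 0 (by simpa only [Metric.mem_ball, dist_self] using h.r_pos)⟩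
  exact (h.pt this).bd.one_le

lemma exists_small_k (h : PreHyp K G Psi V U C R cv cw cu t0 r f) (hR : 0 < R) {ε : ENNReal}
    (hε : 0 < ε) : ∃ v1 < 0, -R ≤ v1 ∧
      ∫⁻ v in Ico v1 0, ENNReal.ofReal (1 + cv v + cw v + C) ≤ ε := by
  apply exists_small hR _ hε
  have hC := one_le_C h
  have h1 : ∀ v, ENNReal.ofReal (1 + cv v + cw v + C) ≤
      ENNReal.ofReal (1 + C) + ENNReal.ofReal (cv v) + ENNReal.ofReal (cw v) := by
    intro v
    calc ENNReal.ofReal (1 + cv v + cw v + C)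
        = ENNReal.ofReal ((1 + C) + cv v + cw v) := by congr 1; ring
      _ ≤ _ := (ENNReal.ofReal_add_le).trans (add_le_add_left (ENNReal.ofReal_add_le) _)
  refine ne_top_of_le_ne_top ?_ (lintegral_mono h1)
  rw [lintegral_add_right _ h.cw_meas.ennreal_ofReal, lintegral_add_right _
    h.cv_meas.ennreal_ofReal, lintegral_const]
  refine ENNReal.add_ne_top.mpr ⟨ENNReal.add_ne_top.mpr ⟨?_, h.cv_int⟩, h.cw_int⟩
  apply ENNReal.mul_ne_top ENNReal.ofReal_ne_top
  simp only [MeasurableSet.univ, Measure.restrict_apply, univ_inter, Real.volume_Ico, sub_neg_eq_add, zero_add, ne_eq, ENNReal.ofReal_ne_top, not_false_eq_true]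

/-- On a generator of finite energy either `QQ` is eventually larger than `κ`, or it is
bounded. -/
theorem dich (h : CoreHyp K G Psi V U C R cv cw cu t0 r f) (hw : ∀ y ∈ U, PtW K y C)
    (hcu : ∀ u, cu u ≤ C) {y : P3} {v0 κ : ℝ} (hv0 : v0 < 0) (hκ : 0 < κ)
    (hvlo : ∀ x : P3, ‖x‖ ≤ r / 2 → (Psi (t0, x)).2.1 < v0)
    (hin : ∀ v ∈ Ico v0 0, ∃ z ∈ DD t0 r f, Psi z = ins v y ∧ ‖z.2‖ ≤ r / 4)
    (hL : Lam G Psi V t0 r f y ≠ ⊤) :
    (∃ v1 ∈ Ico v0 0, ∀ v ∈ Ico v1 0, κ ≤ QQ Psi (Phi Psi V (ins v y))) ∨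
    ∃ n : ℕ, ∀ v ∈ Ico v0 0, QQ Psi (Phi Psi V (ins v y)) ≤ n := by
  have hr := h.r_pos
  have hpre := h.toPreHyp
  have hC := one_le_C hpre
  have hC0 : 0 < C := by linarith only [hC]
  have hR : 0 < R := by
    obtain ⟨z, hz, hzy, _⟩ := hin v0 ⟨le_refl _, hv0⟩
    obtain ⟨_, h1, h2, _⟩ := h.U_sub _ (h.maps (h.DD_sub hz))
    linarith only [h1, h2]
  set M : ℝ := (Lam G Psi V t0 r f y).toReal + 1 with hM
  have hM0 : 0 < M := by
    have : 0 ≤ (Lam G Psi V t0 r f y).toReal := ENNReal.toReal_nonneg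
    linarith
  have hyM : Lam G Psi V t0 r f y ≤ ENNReal.ofReal M := by
    rw [← ENNReal.ofReal_toReal hL]
    apply ENNReal.ofReal_le_ofReal
    linarith
  set lg := Real.log 2 with hlg
  have hlg0 : 0 < lg := Real.log_pos (by norm_num)
  set D : ℝ := 800 * C ^ 12 with hD
  have hD0 : 0 < D := by positivity
  obtain ⟨va, hva0, _, hva⟩ := exists_small_k hpre hR (ε := ENNReal.ofReal (lg / (4 * D)))
    (by simpa only [ENNReal.ofReal_pos] using by (clear * - hC; positivity))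
  set E : ℝ := (lg / (4 * D * (2 * κ))) ^ 2 / M with hE
  have hE0 : 0 < E := by (clear * - hC hκ; positivity)
  set F : ℝ := r / 8 / (40 * C ^ 7 * κ) with hF
  have hF0 : 0 < F := by (clear * - hr hC hκ; positivity)
  set v1 : ℝ := max (max v0 va) (max (-E) (-F)) with hv1
  have hv10 : v1 < 0 := max_lt (max_lt (by linarith only [hv0]) hva0) (max_lt (by linarith only [hE0]) (by linarith only [hF0]))
  have g1 : v0 ≤ v1 := (le_max_left _ _).trans (le_max_left _ _)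
  have g2 : va ≤ v1 := (le_max_right _ _).trans (le_max_left _ _)
  have g3 : -E ≤ v1 := (le_max_left _ _).trans (le_max_right _ _)
  have g4 : -F ≤ v1 := (le_max_right _ _).trans (le_max_right _ _)
  by_cases hcase : ∃ v' ∈ Ico v1 0, QQ Psi (Phi Psi V (ins v' y)) ≤ κ
  swap
  · push Not at hcase
    exact Or.inl ⟨v1, ⟨g1, hv10⟩, fun v hv => (hcase v hv).le⟩
  right
  obtain ⟨v', hv', hv'q⟩ := hcase
  obtain ⟨z, hz, hzy, hzn⟩ := hin v' ⟨g1.trans hv'.1, hv'.2⟩
  have hzP : Phi Psi V (ins v' y) = z := by rw [← hzy]; exact h.Phi_left (h.DD_sub hz)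
  rw [hzP] at hv'q
  have hLh := lintegral_Lh_le hpre hv'.2 hyM hM0.le
  have e1 : -v' ≤ E := by have := hv'.1; linarith only [g3, this]
  have e2 : -v' ≤ F := by have := hv'.1; linarith only [g4, this]
  have hsq : Real.sqrt (M * -v') ≤ lg / (4 * D * (2 * κ)) := by
    rw [Real.sqrt_le_left (by (clear * - hC hκ; positivity))]
    calc M * -v' ≤ M * E := by (clear * - e1; gcongr)
      _ = (lg / (4 * D * (2 * κ))) ^ 2 := by rw [hE]; (clear * - hM0 hκ hD0 hlg0; field_simp)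
  have hres := gen_cont h hw (y := y) (v0 := v') (κ := κ) (r1 := r/4) (r2 := r/2)
    (by linarith only [hr]) hv'.2 hκ
    (fun x hx => by
      have := hvlo x hx
      have := hv'.1
      linarith)
    ⟨z, hz, hzy, hzn, hv'q⟩
    (by
      have : 40 * C ^ 7 * κ * -v' ≤ 40 * C ^ 7 * κ * F := by (clear * - e2 hC hκ; gcongr)
      have e3 : 40 * C ^ 7 * κ * F = r / 8 := by rw [hF]; (clear * - hC hκ hr; field_simp)
      linarith only [hr, this, e3])
    (by
      have i1 : ∫⁻ v in Ico v' 0, ENNReal.ofReal (1 + cv v + cw v + cu y.2.1) ≤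
          ENNReal.ofReal (lg / (4 * D)) := by
        refine le_trans ?_ hva
        calc ∫⁻ v in Ico v' 0, ENNReal.ofReal (1 + cv v + cw v + cu y.2.1)
            ≤ ∫⁻ v in Ico v' 0, ENNReal.ofReal (1 + cv v + cw v + C) := by
              apply lintegral_mono
              intro v
              apply ENNReal.ofReal_le_ofReal
              have := hcu y.2.1
              linarith only [this]
          _ ≤ _ := by
              apply lintegral_mono_set
              apply Ico_subset_Ico_left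
              have := hv'.1
              linarith only [g2, this]
      have i2 : ENNReal.ofReal (2 * κ) * ∫⁻ v in Ico v' 0, Lh G Psi V t0 r f (ins v y) ≤
          ENNReal.ofReal (lg / (4 * D)) := by
        calc ENNReal.ofReal (2 * κ) * ∫⁻ v in Ico v' 0, Lh G Psi V t0 r f (ins v y)
            ≤ ENNReal.ofReal (2 * κ) * ENNReal.ofReal (lg / (4 * D * (2 * κ))) := by
              gcongr
              exact hLh.trans (ENNReal.ofReal_le_ofReal hsq)
          _ = ENNReal.ofReal (lg / (4 * D)) := by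
              rw [← ENNReal.ofReal_mul (by positivity)]
              congr 1
              (clear * - hκ hD0 hlg0; field_simp)
      calc ENNReal.ofReal D * ((∫⁻ v in Ico v' 0, ENNReal.ofReal
            (1 + cv v + cw v + cu y.2.1)) + ENNReal.ofReal (2 * κ) *
              ∫⁻ v in Ico v' 0, Lh G Psi V t0 r f (ins v y))
          ≤ ENNReal.ofReal D * (ENNReal.ofReal (lg / (4 * D)) +
              ENNReal.ofReal (lg / (4 * D))) := by (clear * - i1 i2; gcongr)
        _ = ENNReal.ofReal (lg / 2) := by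
            rw [← ENNReal.ofReal_add (by positivity) (by positivity),
              ← ENNReal.ofReal_mul hD0.le]
            congr 1
            field_simp
            ring
        _ < ENNReal.ofReal lg := (ENNReal.ofReal_lt_ofReal_iff hlg0).mpr (by linarith only [hlg0]))
  -- the compact part
  have hcont : ContinuousOn (fun v => QQ Psi (Phi Psi V (ins v y))) (Icc v0 v') := by
    intro v hv
    obtain ⟨z, hz, hzy, _⟩ := hin v ⟨hv.1, lt_of_le_of_lt hv.2 hv'.2⟩
    exact (hasDerivAt_QQ hpre (h.DD_sub hz) hzy).continuousAt.continuousWithinAt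
  obtain ⟨M1, hM1⟩ := isCompact_Icc.exists_bound_of_continuousOn hcont
  obtain ⟨n, hn⟩ := exists_nat_ge (max M1 (2 * κ))
  refine ⟨n, ?_⟩
  intro v hv
  rcases le_total v v' with hvv | hvv
  · have h1 := hM1 v ⟨hv.1, hvv⟩
    rw [Real.norm_eq_abs] at h1
    exact ((le_abs_self _).trans h1).trans ((le_max_left _ _).trans hn)
  · obtain ⟨z', hz', hz'y, _, hz'q⟩ := hres v ⟨hvv, hv.2⟩
    have : Phi Psi V (ins v y) = z' := by rw [← hz'y]; exact h.Phi_left (h.DD_sub hz')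
    rw [this]
    exact hz'q.trans ((le_max_right _ _).trans hn)

/-! ### Measurability -/

lemma contOn_QP (h : PreHyp K G Psi V U C R cv cw cu t0 r f) {O : Set P3} {v : ℝ}
    (hin : ∀ y ∈ O, ins v y ∈ Psi '' DD t0 r f) :
    ContinuousOn (fun y => QQ Psi (Phi Psi V (ins v y))) O := by
  intro y hy
  obtain ⟨z, hz, hzy⟩ := hin y hy
  have hzV := h.DD_sub hz
  have h1 : ContinuousAt (Phi Psi V) (ins v y) := by
    rw [← hzy]; exact (h.contDiffAt_Phi hzV).continuousAt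
  have h2 : ContinuousAt (QQ Psi) (Phi Psi V (ins v y)) := by
    rw [← hzy, h.Phi_left hzV]; exact contAt_QQ h hzV
  have h3 : ContinuousAt (fun y : P3 => ins v y) y := by
    have : Continuous (fun y : P3 => ins v y) := by unfold ins; fun_prop
    exact this.continuousAt
  have h4 : ContinuousAt (fun y : P3 => Phi Psi V (ins v y)) y :=
    ContinuousAt.comp (g := Phi Psi V) (f := fun y : P3 => ins v y) h1 h3
  exact (ContinuousAt.comp (g := QQ Psi) (f := fun y : P3 => Phi Psi V (ins v y)) h2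
    h4).continuousWithinAt

/-- the points of `O` above which `QQ` stays at most `κ` -/
def Yk (Psi : P4 → P4) (V : Set P4) (O : Set P3) (v0 κ : ℝ) : Set P3 :=
  {y | y ∈ O ∧ ∀ v ∈ Ico v0 0, QQ Psi (Phi Psi V (ins v y)) ≤ κ}

/-- the points of `O` above which `QQ` stays at least `κ` -/
def Bk (Psi : P4 → P4) (V : Set P4) (O : Set P3) (v0 κ : ℝ) : Set P3 :=
  {y | y ∈ O ∧ ∀ v ∈ Ico v0 0, κ ≤ QQ Psi (Phi Psi V (ins v y))}

lemma meas_Yk (h : PreHyp K G Psi V U C R cv cw cu t0 r f) {O : Set P3} (hO : IsOpen O) {v0 : ℝ}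
    (hin : ∀ v ∈ Ico v0 0, ∀ y ∈ O, ins v y ∈ Psi '' DD t0 r f) (κ : ℝ) :
    MeasurableSet (Yk Psi V O v0 κ) := by
  have e : Yk Psi V O v0 κ = O \ ⋃ v ∈ Ico v0 0,
      (O ∩ (fun y => QQ Psi (Phi Psi V (ins v y))) ⁻¹' Ioi κ) := by
    ext y
    simp only [Yk, mem_setOf_eq, mem_diff, mem_iUnion, mem_inter_iff, mem_preimage, mem_Ioi,
      not_exists, not_and, not_lt]
    constructor
    · rintro ⟨h1, h2⟩
      exact ⟨h1, fun v hv _ => h2 v hv⟩
    · rintro ⟨h1, h2⟩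
      exact ⟨h1, fun v hv => h2 v hv h1⟩
  rw [e]
  apply hO.measurableSet.diff
  apply IsOpen.measurableSet
  apply isOpen_biUnion
  intro v hv
  exact (contOn_QP h (hin v hv)).isOpen_inter_preimage hO isOpen_Ioi

lemma meas_Bk (h : PreHyp K G Psi V U C R cv cw cu t0 r f) {O : Set P3} (hO : IsOpen O) {v0 : ℝ}
    (hin : ∀ v ∈ Ico v0 0, ∀ y ∈ O, ins v y ∈ Psi '' DD t0 r f) (κ : ℝ) :
    MeasurableSet (Bk Psi V O v0 κ) := by
  have e : Bk Psi V O v0 κ = O \ ⋃ v ∈ Ico v0 0,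
      (O ∩ (fun y => QQ Psi (Phi Psi V (ins v y))) ⁻¹' Iio κ) := by
    ext y
    simp only [Bk, mem_setOf_eq, mem_diff, mem_iUnion, mem_inter_iff, mem_preimage, mem_Iio,
      not_exists, not_and, not_lt]
    constructor
    · rintro ⟨h1, h2⟩
      exact ⟨h1, fun v hv _ => h2 v hv⟩
    · rintro ⟨h1, h2⟩
      exact ⟨h1, fun v hv => h2 v hv h1⟩
  rw [e]
  apply hO.measurableSet.diff
  apply IsOpen.measurableSet
  apply isOpen_biUnion
  intro v hv
  exact (contOn_QP h (hin v hv)).isOpen_inter_preimage hO isOpen_Iio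

end Vale.Agent.P354z
end
end

section

section

set_option maxSynthPendingDepth 3

open Set MeasureTheory Filter Topology

namespace Vale.Agent.P354z

open Vale.Agent.P354w Vale.Agent.P354x PreHyp CoreHyp

variable {K : Coef} {G : P4 → P4 →L[ℝ] P4 →L[ℝ] ℝ} {Psi : P4 → P4} {V U : Set P4}
    {C R : ℝ} {cv cw cu : ℝ → ℝ} {t0 r : ℝ} {f : P3 → ℝ}

/-- the energy of a vertical line -/
noncomputable def En (G : P4 → P4 →L[ℝ] P4 →L[ℝ] ℝ) (t0 r : ℝ) (f : P3 → ℝ) (x : P3) : ENNReal :=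
  ∫⁻ t : ℝ, (DD t0 r f).indicator (fun z => ‖fderiv ℝ G z‖ₑ ^ 2) (t, x)

lemma measurable_EnF (h : PreHyp K G Psi V U C R cv cw cu t0 r f) :
    Measurable ((DD t0 r f).indicator (fun z => ‖fderiv ℝ G z‖ₑ ^ 2)) :=
  (((measurable_fderiv ℝ G).enorm).pow_const 2).indicator h.measDD

lemma measurable_En (h : PreHyp K G Psi V U C R cv cw cu t0 r f) : Measurable (En G t0 r f) :=
  (measurable_EnF h).lintegral_prod_left'

lemma En_eq {x : P3} (hx : x ∈ Metric.ball (0 : P3) r) :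
    ∫⁻ t in Ico t0 (f x), ‖fderiv ℝ G (t, x)‖ₑ ^ 2 = En G t0 r f x := by
  rw [setLIntegral_congr (Ioo_ae_eq_Ico (μ := volume) (a := t0) (b := f x)).symm,
      ← lintegral_indicator measurableSet_Ioo]
  apply lintegral_congr
  intro t
  by_cases ht : t ∈ Ioo t0 (f x)
  · rw [indicator_of_mem ht, indicator_of_mem (show ((t, x) : P4) ∈ DD t0 r f from
      ⟨hx, ht.1, ht.2⟩)]
  · rw [indicator_of_notMem ht, indicator_of_notMem]
    rintro ⟨_, h1, h2⟩
    exact ht ⟨h1, h2⟩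

lemma lintegral_En (h : PreHyp K G Psi V U C R cv cw cu t0 r f) :
    ∫⁻ x, En G t0 r f x ≠ ⊤ := by
  have h1 := h.L2
  rw [← lintegral_indicator h.measDD, Measure.volume_eq_prod,
    lintegral_prod_symm _ (measurable_EnF h).aemeasurable] at h1
  exact h1

/-- bad generators occupy a small part of the slices -/
lemma vol_Bk (h : CoreHyp K G Psi V U C R cv cw cu t0 r f) {O : Set P3} (hO : IsOpen O)
    {α β v1 : ℝ} (hQ : ∀ z ∈ DD t0 r f, ‖z.2‖ ≤ r / 4 → ENNReal.ofReal (QQ Psi z) ≤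
      ENNReal.ofReal α + ENNReal.ofReal β * En G t0 r f z.2) (hv1 : v1 < 0) (n : ℕ)
    (hin : ∀ v ∈ Ico v1 0, ∀ y ∈ O, ∃ z ∈ DD t0 r f, Psi z = ins v y ∧ ‖z.2‖ ≤ r / 4) :
    volume (Bk Psi V O v1 ((n : ℝ) + 1)) ≤ ENNReal.ofReal (2 * C ^ 3) *
      ∫⁻ x in NN Psi t0 r f n, (ENNReal.ofReal α + ENNReal.ofReal β * En G t0 r f x) := by
  classical
  have hpre := h.toPreHyp
  have hC := one_le_C hpre
  have hC0 : 0 < C := by linarith
  have himg : ∀ v ∈ Ico v1 0, ∀ y ∈ O, ins v y ∈ Psi '' DD t0 r f := by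
    intro v hv y hy
    obtain ⟨z, hz, hzy, _⟩ := hin v hv y hy
    exact ⟨z, hz, hzy⟩
  set B := Bk Psi V O v1 ((n : ℝ) + 1) with hB
  have hBm : MeasurableSet B := meas_Bk hpre hO himg _
  set J := ∫⁻ x in NN Psi t0 r f n, (ENNReal.ofReal α + ENNReal.ofReal β * En G t0 r f x) with hJ
  set P : Set P4 := {x | x.2.1 ∈ Ico v1 0 ∧ ((x.1, x.2.2) : P3) ∈ B} with hP
  have hPm : MeasurableSet P := by
    have m1 : Measurable (fun x : P4 => x.2.1) := by fun_prop
    have m2 : Measurable (fun x : P4 => ((x.1, x.2.2) : P3)) := by fun_prop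
    exact (m1 measurableSet_Ico).inter (m2 hBm)
  have hvolP : volume P = volume B * ENNReal.ofReal (-v1) := by
    rw [← lintegral_indicator_one hPm, lintegral_ins (measurable_one.indicator hPm)]
    have e : ∀ v : ℝ, ∫⁻ y : P3, P.indicator (1 : P4 → ENNReal) (ins v y) =
        (Ico v1 0).indicator (fun _ => volume B) v := by
      intro v
      by_cases hv : v ∈ Ico v1 0
      · rw [indicator_of_mem hv, ← lintegral_indicator_one hBm]
        apply lintegral_congr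
        intro y
        by_cases hy : y ∈ B
        · rw [indicator_of_mem hy, indicator_of_mem (show ins v y ∈ P from ⟨hv, hy⟩)]
          rfl
        · rw [indicator_of_notMem hy, indicator_of_notMem (fun hh : ins v y ∈ P => hy hh.2)]
      · rw [indicator_of_notMem hv]
        have : ∀ y : P3, P.indicator (1 : P4 → ENNReal) (ins v y) = 0 := by
          intro y
          exact indicator_of_notMem (fun hh : ins v y ∈ P => hv hh.1) _
        simp only [this, lintegral_const, zero_mul]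
    simp only [e]
    rw [lintegral_indicator measurableSet_Ico, lintegral_const]
    simp only [MeasurableSet.univ, Measure.restrict_apply, univ_inter, Real.volume_Ico, zero_sub]
  -- the preimage
  set A : Set P4 := DD t0 r f ∩ Psi ⁻¹' P with hA
  have hAm : MeasurableSet A := by
    have h1 : Measurable ((DD t0 r f).piecewise Psi (fun _ => (0 : P4))) :=
      (h.iso.smooth.continuousOn.mono h.DD_sub).measurable_piecewise continuousOn_const h.measDD
    have e : A = DD t0 r f ∩ ((DD t0 r f).piecewise Psi (fun _ => (0 : P4))) ⁻¹' P := by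
      ext z
      constructor
      · rintro ⟨a1, a2⟩
        refine ⟨a1, ?_⟩
        rw [mem_preimage, piecewise_eq_of_mem _ _ _ a1]
        exact a2
      · rintro ⟨a1, a2⟩
        rw [mem_preimage, piecewise_eq_of_mem _ _ _ a1] at a2
        exact ⟨a1, a2⟩
    rw [e]
    exact h.measDD.inter (h1 hPm)
  have hAD : A ⊆ DD t0 r f := inter_subset_left
  have hPA : P ⊆ Psi '' A := by
    rintro x ⟨hx1, hx2⟩
    obtain ⟨z, hz, hzy, _⟩ := hin x.2.1 hx1 _ hx2.1
    have e : Psi z = x := hzy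
    exact ⟨z, ⟨hz, by rw [mem_preimage, e]; exact ⟨hx1, hx2⟩⟩, e⟩
  have u1 : volume P ≤ ENNReal.ofReal C * volume A := by
    have e := lintegral_tr hpre (fun _ => (1:ENNReal)) hAm hAD
    simp only [mul_one, lintegral_const, Measure.restrict_apply MeasurableSet.univ, univ_inter,
      one_mul] at e
    refine (measure_mono hPA).trans ?_
    rw [e]
    calc ∫⁻ z in A, ENNReal.ofReal |(fderiv ℝ Psi z).det| ≤ ∫⁻ _ in A, ENNReal.ofReal C := by
          apply setLIntegral_mono' hAm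
          intro z hz
          exact ENNReal.ofReal_le_ofReal (h.det_hi z (h.DD_sub hz.1))
      _ = _ := by simp only [lintegral_const, MeasurableSet.univ, Measure.restrict_apply, univ_inter]
  -- the lines
  have hfact : ∀ z ∈ A, z.2 ∈ NN Psi t0 r f n ∧ ‖z.2‖ ≤ r / 4 ∧ (Psi z).2.1 ∈ Ico v1 0 := by
    rintro z ⟨hz, hz1, hz2⟩
    obtain ⟨z', hz', hz'y, hz'n⟩ := hin _ hz1 _ hz2.1
    have e : z' = z := h.inj (h.DD_sub hz') (h.DD_sub hz) (by rw [hz'y]; rfl)
    refine ⟨?_, by rw [← e]; exact hz'n, hz1⟩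
    by_contra hc
    obtain ⟨c1, c2⟩ := not_NN hz hc
    have h3 := hz2.2 _ hz1
    have e2 : Phi Psi V (ins (Psi z).2.1 ((Psi z).1, (Psi z).2.2)) = z := h.Phi_left (h.DD_sub hz)
    rw [e2] at h3
    unfold QQ at h3
    linarith only [c1, c2, h3]
  have hptw : ∀ x ∈ Metric.ball (0 : P3) r, ∀ t ∈ Ioo t0 (f x),
      A.indicator (fun _ => (1:ENNReal)) (t, x) ≤
      (NN Psi t0 r f n).indicator (fun x => ENNReal.ofReal (2 * C ^ 2) *
        (ENNReal.ofReal α + ENNReal.ofReal β * En G t0 r f x)) x *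
      (ENNReal.ofReal (fderiv ℝ Psi (t, x) e1).2.1 *
        (Ico v1 0).indicator (fun _ => (1:ENNReal)) (Psi (t, x)).2.1) := by
    intro x hx t ht
    by_cases hz : ((t, x) : P4) ∈ A
    · obtain ⟨f1, f2, f3⟩ := hfact _ hz
      have hzV := h.DD_sub hz.1
      rw [indicator_of_mem hz, indicator_of_mem (show x ∈ NN Psi t0 r f n from f1),
        indicator_of_mem f3, mul_one]
      have hb : 0 < (fderiv ℝ Psi (t, x) e1).2.1 := h.pos _ hzV
      obtain ⟨_, ha, hab⟩ := (h.pt hzV).sq_le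
      have hab' : (1:ℝ) ≤ 2 * C ^ 2 * QQ Psi (t, x) * (fderiv ℝ Psi (t, x) e1).2.1 := by
        have hle : (fderiv ℝ Psi (t, x) e1).2.2.1 ≤ QQ Psi (t, x) := by
          unfold QQ; linarith only [hb]
        calc (1:ℝ) ≤ 2 * C ^ 2 * ((fderiv ℝ Psi (t, x) e1).2.2.1 *
              (fderiv ℝ Psi (t, x) e1).2.1) := hab
          _ ≤ 2 * C ^ 2 * (QQ Psi (t, x) * (fderiv ℝ Psi (t, x) e1).2.1) := by (clear * - hle hb hC; gcongr)
          _ = _ := by ring
      have hq := QQ_pos hpre hzV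
      calc (1:ENNReal) = ENNReal.ofReal 1 := ENNReal.ofReal_one.symm
        _ ≤ ENNReal.ofReal (2 * C ^ 2 * QQ Psi (t, x) * (fderiv ℝ Psi (t, x) e1).2.1) :=
            ENNReal.ofReal_le_ofReal hab'
        _ = ENNReal.ofReal (2 * C ^ 2) * ENNReal.ofReal (QQ Psi (t, x)) *
            ENNReal.ofReal (fderiv ℝ Psi (t, x) e1).2.1 := by
            rw [ENNReal.ofReal_mul (by (clear * - hC hq; positivity)), ENNReal.ofReal_mul (by positivity)]
        _ ≤ _ := by
            gcongr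
            exact hQ _ hz.1 f2
    · rw [indicator_of_notMem hz]
      exact bot_le
  have hvR : ∀ z ∈ V, (Psi z).2.1 ∈ Ico (-R) 0 := by
    intro z hz
    obtain ⟨_, h1, h2, _⟩ := h.U_sub _ (h.maps hz)
    exact ⟨h1, h2⟩
  have u2 : volume A ≤ ENNReal.ofReal (2 * C ^ 2) * J * ENNReal.ofReal (-v1) := by
    have hm1 : Measurable (fun x => ENNReal.ofReal (2 * C ^ 2) *
        (ENNReal.ofReal α + ENNReal.ofReal β * En G t0 r f x)) := by
      have := measurable_En hpre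
      (clear * - this; fun_prop)
    calc volume A = ∫⁻ z in DD t0 r f, A.indicator (fun _ => (1:ENNReal)) z := by
          rw [lintegral_indicator hAm, Measure.restrict_restrict hAm,
            inter_eq_self_of_subset_left hAD]
          simp only [lintegral_const, MeasurableSet.univ, Measure.restrict_apply, univ_inter, one_mul]
      _ = ∫⁻ x in Metric.ball (0 : P3) r, ∫⁻ t in Ioo t0 (f x),
            A.indicator (fun _ => (1:ENNReal)) (t, x) :=
          h.lintegral_DD (measurable_const.indicator hAm).aemeasurable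
      _ ≤ ∫⁻ x in Metric.ball (0 : P3) r, (NN Psi t0 r f n).indicator
            (fun x => ENNReal.ofReal (2 * C ^ 2) *
              (ENNReal.ofReal α + ENNReal.ofReal β * En G t0 r f x)) x *
            ENNReal.ofReal (-v1) := by
          apply setLIntegral_mono' Metric.isOpen_ball.measurableSet
          intro x hx
          refine (setLIntegral_mono' measurableSet_Ioo (hptw x hx)).trans ?_
          have hline : ∀ s ∈ Ioo t0 (f x), ((s, x) : P4) ∈ V :=
            fun s hs => h.memV x hx s ⟨hs.1.le, hs.2⟩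
          have hv : ∀ s ∈ Ioo t0 (f x), HasDerivAt (fun s => (Psi (s, x)).2.1)
              (fderiv ℝ Psi (s, x) e1).2.1 s :=
            fun s hs => (h.hasDerivAt_line (hline s hs)).snd.fst
          have c1 : ContinuousOn (fun s : ℝ => (fderiv ℝ Psi (s, x) e1).2.1) (Ioo t0 (f x)) := by
            intro s hs
            exact ((h.hasDerivAt_line2 (hline s hs)).continuousAt.snd.fst).continuousWithinAt
          have c2 : ContinuousOn (fun s : ℝ => (Psi (s, x)).2.1) (Ioo t0 (f x)) :=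
            fun s hs => (hv s hs).continuousAt.continuousWithinAt
          have m3 : Measurable ((Ico v1 0).indicator (fun _ => (1:ENNReal))) :=
            measurable_const.indicator measurableSet_Ico
          have m4 : AEMeasurable (fun s : ℝ => ENNReal.ofReal (fderiv ℝ Psi (s, x) e1).2.1 *
              (Ico v1 0).indicator (fun _ => (1:ENNReal)) (Psi (s, x)).2.1)
              (volume.restrict (Ioo t0 (f x))) :=
            (c1.aemeasurable measurableSet_Ioo).ennreal_ofReal.mul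
              (m3.comp_aemeasurable (c2.aemeasurable measurableSet_Ioo))
          rw [lintegral_const_mul'' _ m4]
          gcongr
          refine (subst_le (φ := fun s => (Psi (s, x)).2.1) measurableSet_Ioo ordConnected_Ioo hv
            (fun s hs => h.pos _ (hline s hs)) (S := Ico (-R) 0)
            (fun s hs => hvR _ (hline s hs))
            ((Ico v1 0).indicator (fun _ => (1:ENNReal)))).trans ?_
          refine (setLIntegral_le_lintegral _ _).trans ?_
          rw [lintegral_indicator measurableSet_Ico]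
          simp only [lintegral_const, MeasurableSet.univ, Measure.restrict_apply, univ_inter, Real.volume_Ico, zero_sub, one_mul, Std.le_refl]
      _ ≤ ∫⁻ x, (NN Psi t0 r f n).indicator (fun x => ENNReal.ofReal (2 * C ^ 2) *
              (ENNReal.ofReal α + ENNReal.ofReal β * En G t0 r f x)) x *
            ENNReal.ofReal (-v1) := setLIntegral_le_lintegral _ _
      _ = ENNReal.ofReal (2 * C ^ 2) * J * ENNReal.ofReal (-v1) := by
          rw [lintegral_mul_const' _ _ ENNReal.ofReal_ne_top, lintegral_indicator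
            h.isOpen_NN.measurableSet, lintegral_const_mul' _ _ ENNReal.ofReal_ne_top]
  have hfin : volume B * ENNReal.ofReal (-v1) ≤
      (ENNReal.ofReal (2 * C ^ 3) * J) * ENNReal.ofReal (-v1) := by
    rw [← hvolP]
    refine u1.trans ?_
    calc ENNReal.ofReal C * volume A ≤ ENNReal.ofReal C *
          (ENNReal.ofReal (2 * C ^ 2) * J * ENNReal.ofReal (-v1)) := by (clear * - u2; gcongr)
      _ = (ENNReal.ofReal (C * (2 * C ^ 2)) * J) * ENNReal.ofReal (-v1) := by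
          rw [ENNReal.ofReal_mul hC0.le]; ring
      _ = _ := by
          congr 3
          ring
  have h0 : ENNReal.ofReal (-v1) ≠ 0 := by
    rw [ne_eq, ENNReal.ofReal_eq_zero, not_le]; linarith only [hv1]
  exact (ENNReal.mul_le_mul_iff_left h0 ENNReal.ofReal_ne_top).mp hfin

lemma exists_Q0 (h : CoreHyp K G Psi V U C R cv cw cu t0 r f) :
    ∃ κ0 : ℝ, ∀ x : P3, ‖x‖ ≤ r / 4 → QQ Psi (t0, x) ≤ κ0 := by
  have hr := h.r_pos
  have hpre := h.toPreHyp
  have hmem0 : ∀ x : P3, ‖x‖ ≤ r / 4 → ((t0, x) : P4) ∈ V := by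
    intro x hx
    have hxb : x ∈ Metric.ball (0 : P3) r := by
      rw [mem_ball_zero_iff]; linarith only [hr, hx]
    exact h.memV x hxb t0 ⟨le_refl _, h.t0f x hxb⟩
  have hcomp : IsCompact (Metric.closedBall (0 : P3) (r/4)) := isCompact_closedBall _ _
  have hcont : ContinuousOn (fun x : P3 => QQ Psi (t0, x)) (Metric.closedBall (0 : P3) (r/4)) := by
    intro x hx
    rw [mem_closedBall_zero_iff] at hx
    have h1 : ContinuousAt (QQ Psi) (t0, x) := contAt_QQ hpre (hmem0 x hx)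
    have h2 : ContinuousAt (fun x : P3 => ((t0, x) : P4)) x := by fun_prop
    exact (ContinuousAt.comp (g := QQ Psi) (f := fun x : P3 => ((t0, x) : P4)) h1
      h2).continuousWithinAt
  obtain ⟨M, hM⟩ := hcomp.exists_bound_of_continuousOn hcont
  refine ⟨M, fun x hx => ?_⟩
  have := hM x (by rwa [mem_closedBall_zero_iff])
  rw [Real.norm_eq_abs] at this
  exact (le_abs_self _).trans this

/-- **Almost every generator over an open set of the front is good.** -/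
theorem ae_bdd (h : CoreHyp K G Psi V U C R cv cw cu t0 r f) (hw : ∀ y ∈ U, PtW K y C)
    (hcu : ∀ u, cu u ≤ C) {O : Set P3} (hO : IsOpen O) {v0 : ℝ} (hv0 : v0 < 0)
    (hvlo : ∀ x : P3, ‖x‖ ≤ r / 2 → (Psi (t0, x)).2.1 < v0)
    (hin : ∀ y ∈ O, ∀ v ∈ Ico v0 0, ∃ z ∈ DD t0 r f, Psi z = ins v y ∧ ‖z.2‖ ≤ r / 4) :
    ∀ᵐ y : P3, y ∈ O → ∃ n : ℕ, ∀ v ∈ Ico v0 0, QQ Psi (Phi Psi V (ins v y)) ≤ n := by
  have hpre := h.toPreHyp
  have hr := h.r_pos
  obtain ⟨κ0, hκ0⟩ := exists_Q0 h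
  obtain ⟨α, β, hQ⟩ : ∃ α β : ℝ, ∀ z ∈ DD t0 r f, ‖z.2‖ ≤ r / 4 → ENNReal.ofReal (QQ Psi z) ≤
      ENNReal.ofReal α + ENNReal.ofReal β * En G t0 r f z.2 := by
    refine ⟨κ0 * Real.exp (100 * C ^ 5 * (1 + (W0 R cv cw cu).toReal) + 1),
      3 * R * Real.exp (100 * C ^ 5 * (1 + (W0 R cv cw cu).toReal) + 1), fun z hz hzn => ?_⟩
    rw [← En_eq hz.1]
    exact sup_line hpre (x := z.2) (t := z.1) hz.1 (hκ0 _ hzn) ⟨hz.2.1.le, hz.2.2⟩
  set Bad : Set P3 := {y | y ∈ O ∧ Lam G Psi V t0 r f y ≠ ⊤ ∧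
    ¬ ∃ n : ℕ, ∀ v ∈ Ico v0 0, QQ Psi (Phi Psi V (ins v y)) ≤ n} with hBad
  set vm : ℕ → ℝ := fun m => max v0 (-1 / ((m:ℝ) + 1)) with hvm
  have hvm0 : ∀ m, vm m < 0 := by
    intro m
    apply max_lt hv0
    have : (0:ℝ) < (m:ℝ) + 1 := by (clear * -; positivity)
    exact div_neg_of_neg_of_pos (by norm_num) this
  have hvml : ∀ m, v0 ≤ vm m := fun m => le_max_left _ _
  have hmono : Monotone vm := by
    intro a b hab
    apply max_le_max (le_refl _)
    have h1 : (0:ℝ) < (a:ℝ) + 1 := by (clear * -; positivity)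
    have h2 : (a:ℝ) + 1 ≤ (b:ℝ) + 1 := by
      have : (a:ℝ) ≤ b := by exact_mod_cast hab
      linarith only [this]
    rw [neg_div, neg_div]
    apply neg_le_neg
    exact one_div_le_one_div_of_le h1 h2
  have key : ∀ n : ℕ, volume Bad ≤ ENNReal.ofReal (2 * C ^ 3) *
      ∫⁻ x in NN Psi t0 r f n, (ENNReal.ofReal α + ENNReal.ofReal β * En G t0 r f x) := by
    intro n
    have hsub : Bad ⊆ ⋃ m : ℕ, Bk Psi V O (vm m) ((n : ℝ) + 1) := by
      rintro y ⟨hy, hyL, hyn⟩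
      have hn1 : (0:ℝ) < (n:ℝ) + 1 := by (clear * -; positivity)
      rcases dich h hw hcu hv0 hn1 hvlo (hin y hy) hyL with ⟨v1, hv1, hv1q⟩ | hb
      · obtain ⟨m, hm⟩ := exists_nat_one_div_lt (neg_pos.mpr hv1.2)
        have hle : v1 ≤ vm m := by
          refine le_trans ?_ (le_max_right _ _)
          rw [neg_div]
          linarith only [hm]
        exact mem_iUnion.mpr ⟨m, hy, fun v hv => hv1q v ⟨hle.trans hv.1, hv.2⟩⟩
      · exact absurd hb hyn
    have hmB : Monotone (fun m : ℕ => Bk Psi V O (vm m) ((n : ℝ) + 1)) := by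
      rintro a b hab y ⟨hy, hyq⟩
      exact ⟨hy, fun v hv => hyq v ⟨(hmono hab).trans hv.1, hv.2⟩⟩
    refine (measure_mono hsub).trans ?_
    rw [hmB.measure_iUnion]
    apply iSup_le
    intro m
    exact vol_Bk h hO hQ (hvm0 m) n (fun v hv y hy => hin y hy v ⟨(hvml m).trans hv.1, hv.2⟩)
  have hzero : volume Bad = 0 := by
    have hint : ∫⁻ x in Metric.ball (0 : P3) r,
        (ENNReal.ofReal α + ENNReal.ofReal β * En G t0 r f x) ≠ ⊤ := by
      rw [lintegral_add_left measurable_const, lintegral_const,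
        lintegral_const_mul' _ _ ENNReal.ofReal_ne_top]
      apply ENNReal.add_ne_top.mpr
      constructor
      · apply ENNReal.mul_ne_top ENNReal.ofReal_ne_top
        rw [Measure.restrict_apply MeasurableSet.univ, univ_inter]
        exact measure_ball_lt_top.ne
      · apply ENNReal.mul_ne_top ENNReal.ofReal_ne_top
        exact ne_top_of_le_ne_top (lintegral_En hpre) (setLIntegral_le_lintegral _ _)
    have ht : Tendsto (fun n : ℕ => ∫⁻ x in NN Psi t0 r f n,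
        (ENNReal.ofReal α + ENNReal.ofReal β * En G t0 r f x)
        ∂(volume.restrict (Metric.ball (0 : P3) r))) atTop (𝓝 0) := by
      apply tendsto_setLIntegral_zero hint
      apply tendsto_of_tendsto_of_tendsto_of_le_of_le tendsto_const_nhds h.tendsto_NN
        (fun _ => bot_le)
      intro n
      exact Measure.restrict_le_self _
    have ht2 : Tendsto (fun n : ℕ => ENNReal.ofReal (2 * C ^ 3) * ∫⁻ x in NN Psi t0 r f n,
        (ENNReal.ofReal α + ENNReal.ofReal β * En G t0 r f x)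
        ∂(volume.restrict (Metric.ball (0 : P3) r))) atTop (𝓝 0) := by
      have := ENNReal.Tendsto.const_mul ht (Or.inr (ENNReal.ofReal_ne_top (r := 2 * C ^ 3)))
      rwa [mul_zero] at this
    have key2 : ∀ n : ℕ, volume Bad ≤ ENNReal.ofReal (2 * C ^ 3) * ∫⁻ x in NN Psi t0 r f n,
        (ENNReal.ofReal α + ENNReal.ofReal β * En G t0 r f x)
        ∂(volume.restrict (Metric.ball (0 : P3) r)) := by
      intro n
      refine (key n).trans (le_of_eq ?_)
      rw [Measure.restrict_restrict h.isOpen_NN.measurableSet, inter_eq_self_of_subset_left NN_sub]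
    exact le_antisymm (ge_of_tendsto' ht2 key2) bot_le
  have hLam : ∀ᵐ y : P3, Lam G Psi V t0 r f y < ⊤ :=
    ae_lt_top (measurable_Lam hpre) (lintegral_Lam hpre)
  have hBadae : ∀ᵐ y : P3, y ∉ Bad := measure_eq_zero_iff_ae_notMem.mp hzero
  filter_upwards [hLam, hBadae] with y h1 h2 hy
  by_contra hc
  exact h2 ⟨hy, h1.ne, hc⟩

end Vale.Agent.P354z
end
end

section

section

set_option maxSynthPendingDepth 3

open Set MeasureTheory Filter Topology

namespace Vale.Agent.P354z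

open Vale.Agent.P354w Vale.Agent.P354x PreHyp CoreHyp

variable {K : Coef} {G : P4 → P4 →L[ℝ] P4 →L[ℝ] ℝ} {Psi : P4 → P4} {V U : Set P4}
    {C R : ℝ} {cv cw cu : ℝ → ℝ} {t0 r : ℝ} {f : P3 → ℝ}

/-- essential boundedness on the slices -/
lemma Lh_top (h : PreHyp K G Psi V U C R cv cw cu t0 r f) {c : ENNReal}
    (hc : ∀ᵐ z ∂(volume.restrict (DD t0 r f)), ‖fderiv ℝ G z‖ₑ ≤ c) :
    ∀ᵐ v : ℝ, ∀ᵐ y : P3, Lh G Psi V t0 r f (ins v y) ≤ c := by
  set A : Set P4 := DD t0 r f ∩ {z | c < ‖fderiv ℝ G z‖ₑ} with hA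
  have hAm : MeasurableSet A := h.measDD.inter
    (measurableSet_lt measurable_const (measurable_fderiv ℝ G).enorm)
  have hA0 : volume A = 0 := by
    rw [ae_restrict_iff' h.measDD] at hc
    rw [measure_eq_zero_iff_ae_notMem]
    filter_upwards [hc] with z hz hzA
    exact absurd (hz hzA.1) (not_le.mpr hzA.2)
  have e := lintegral_tr h (fun _ => (1:ENNReal)) hAm inter_subset_left
  simp only [mul_one, lintegral_const, Measure.restrict_apply MeasurableSet.univ, univ_inter,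
    one_mul] at e
  have himg0 : volume (Psi '' A) = 0 := by
    rw [e, Measure.restrict_eq_zero.mpr hA0, lintegral_zero_measure]
  set Nn : Set P4 := {x | c < Lh G Psi V t0 r f x} with hNn
  have hNm : MeasurableSet Nn := measurableSet_lt measurable_const (measurable_Lh h)
  have hN0 : volume Nn = 0 := by
    refine measure_mono_null ?_ himg0
    intro x hx
    have hx' : c < Lh G Psi V t0 r f x := hx
    by_cases hxi : x ∈ Psi '' DD t0 r f
    · obtain ⟨z, hz, rfl⟩ := hxi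
      rw [Lh, indicator_of_mem (mem_image_of_mem _ hz), h.Phi_left (h.DD_sub hz)] at hx'
      exact ⟨z, ⟨hz, hx'⟩, rfl⟩
    · rw [Lh, indicator_of_notMem hxi] at hx'
      exact absurd hx' (not_lt.mpr bot_le)
  have h1 : ∫⁻ v : ℝ, ∫⁻ y : P3, Nn.indicator 1 (ins v y) = 0 := by
    rw [← lintegral_ins (measurable_one.indicator hNm), lintegral_indicator_one hNm, hN0]
  have hm : Measurable (fun q : ℝ × P3 => Nn.indicator (1 : P4 → ENNReal) (ins q.1 q.2)) :=
    (measurable_one.indicator hNm).comp measurable_ins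
  have h2 : ∀ᵐ v : ℝ, ∫⁻ y : P3, Nn.indicator (1 : P4 → ENNReal) (ins v y) = 0 := by
    have := (lintegral_eq_zero_iff (hm.lintegral_prod_right')).mp h1
    exact this
  filter_upwards [h2] with v hv
  have hmv : Measurable (fun y : P3 => Nn.indicator (1 : P4 → ENNReal) (ins v y)) :=
    hm.comp measurable_prodMk_left
  have h3 := (lintegral_eq_zero_iff hmv).mp hv
  filter_upwards [h3] with y hy
  by_contra hcon
  push Not at hcon
  have : ins v y ∈ Nn := hcon
  simp only [Pi.zero_apply] at hy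
  rw [indicator_of_mem this] at hy
  exact absurd hy (by simp)

/-- integrability of powers on the slices -/
lemma Lh_pow (h : PreHyp K G Psi V U C R cv cw cu t0 r f) {q : ℝ} (hq : 2 ≤ q)
    (hfin : ∫⁻ z in DD t0 r f, ‖fderiv ℝ G z‖ₑ ^ q ≠ ⊤) :
    ∫⁻ v : ℝ, ∫⁻ y : P3, Lh G Psi V t0 r f (ins v y) ^ q ≠ ⊤ := by
  have hm : MeasurableSet (Psi '' DD t0 r f) := (isOpen_imDD h).measurableSet
  rw [← lintegral_ins ((measurable_Lh h).pow_const q)]
  have e : (fun y => (Lh G Psi V t0 r f y) ^ q) =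
      (Psi '' DD t0 r f).indicator (fun y => ‖fderiv ℝ G (Phi Psi V y)‖ₑ ^ q) := by
    ext y
    by_cases hy : y ∈ Psi '' DD t0 r f
    · rw [Lh, indicator_of_mem hy, indicator_of_mem hy]
    · rw [Lh, indicator_of_notMem hy, indicator_of_notMem hy, ENNReal.zero_rpow_of_pos
        (by linarith only [hq])]
  rw [e, lintegral_indicator hm,
    lintegral_tr h (fun z => ‖fderiv ℝ G z‖ₑ ^ q) h.measDD Subset.rfl]
  have h1 : ∫⁻ z in DD t0 r f, ENNReal.ofReal |(fderiv ℝ Psi z).det| * ‖fderiv ℝ G z‖ₑ ^ q ≤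
      ∫⁻ z in DD t0 r f, ENNReal.ofReal C * ‖fderiv ℝ G z‖ₑ ^ q := by
    apply setLIntegral_mono' h.measDD
    intro z hz
    gcongr
    exact h.det_hi z (h.DD_sub hz)
  refine ne_top_of_le_ne_top ?_ h1
  rw [lintegral_const_mul' _ _ ENNReal.ofReal_ne_top]
  exact ENNReal.mul_ne_top ENNReal.ofReal_ne_top hfin

/-! ### Radii -/

/-- the radius of the balls in the slice `v` -/
noncomputable def rl (l : ℝ → ℝ) (n : ℕ) (v : ℝ) : ℝ := ((n : ℝ) + 1)⁻¹ * (1 + |l v|)⁻¹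

lemma rl_pos (l : ℝ → ℝ) (n : ℕ) (v : ℝ) : 0 < rl l n v := by
  unfold rl
  have := abs_nonneg (l v)
  positivity

lemma rl_le (l : ℝ → ℝ) (n : ℕ) (v : ℝ) : rl l n v ≤ ((n : ℝ) + 1)⁻¹ := by
  unfold rl
  have h2 : (1 + |l v|)⁻¹ ≤ 1 := inv_le_one_of_one_le₀ (by linarith only [abs_nonneg (l v)])
  have h3 : (0:ℝ) < ((n : ℝ) + 1)⁻¹ := by positivity
  nlinarith only [h2, h3]

lemma rl_le_one (l : ℝ → ℝ) (n : ℕ) (v : ℝ) : rl l n v ≤ 1 := by
  refine (rl_le l n v).trans (inv_le_one_of_one_le₀ ?_)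
  have : (0:ℝ) ≤ n := Nat.cast_nonneg n
  linarith

lemma inv_rl (l : ℝ → ℝ) (n : ℕ) (v : ℝ) : (rl l n v)⁻¹ = ((n : ℝ) + 1) * (1 + |l v|) := by
  unfold rl
  rw [mul_inv, inv_inv, inv_inv]

lemma l_rl (l : ℝ → ℝ) (n : ℕ) (v : ℝ) : |l v| * rl l n v ≤ ((n : ℝ) + 1)⁻¹ := by
  unfold rl
  have h0 := abs_nonneg (l v)
  have h1 : |l v| * (1 + |l v|)⁻¹ ≤ 1 := by
    rw [← div_eq_mul_inv, div_le_one (by linarith)]
    linarith
  have h3 : (0:ℝ) < ((n : ℝ) + 1)⁻¹ := by positivity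
  calc |l v| * (((n : ℝ) + 1)⁻¹ * (1 + |l v|)⁻¹) = ((n : ℝ) + 1)⁻¹ * (|l v| * (1 + |l v|)⁻¹) := by
        ring
    _ ≤ ((n : ℝ) + 1)⁻¹ * 1 := by gcongr
    _ = _ := mul_one _

lemma measurable_rl {l : ℝ → ℝ} (h : Measurable l) (n : ℕ) : Measurable (rl l n) := by
  unfold rl
  have : Measurable fun v => |l v| := h.abs
  fun_prop

/-- the averaged `|dG|` near `y0` in the slice `v` -/
noncomputable def AvP (G : P4 → P4 →L[ℝ] P4 →L[ℝ] ℝ) (Psi : P4 → P4) (V : Set P4) (t0 r : ℝ)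
    (f : P3 → ℝ) (l : ℝ → ℝ) (n : ℕ) (y0 : P3) (v : ℝ) : ENNReal :=
  ENNReal.ofReal ((rl l n v)⁻¹ ^ 3) *
    ∫⁻ y in Metric.ball y0 (rl l n v), Lh G Psi V t0 r f (ins v y)

lemma avP_ae (h : PreHyp K G Psi V U C R cv cw cu t0 r f) {p : ENNReal} (hp : 2 ≤ p)
    (hG : LpF p (volume.restrict (DD t0 r f)) (fun z => ‖fderiv ℝ G z‖ₑ)) {l : ℝ → ℝ}
    (hl : Measurable l) (n : ℕ) :
    ∀ᵐ y0 : P3, LpF p volume (AvP G Psi V t0 r f l n y0) := by
  refine avg_aeP hp (L := fun v y => Lh G Psi V t0 r f (ins v y)) (ε := rl l n)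
    ((measurable_Lh h).comp measurable_ins) ?_ ?_ (measurable_rl hl n) (rl_pos l n)
  · intro ht
    obtain ⟨c, hc, hcb⟩ := hG.1 ht
    exact ⟨c, hc, Lh_top h hcb⟩
  · intro ht
    exact Lh_pow h (toReal_ge hp ht) (hG.2 ht)

/-- **The core estimate with exponent `p`.** -/
theorem core_YP (h : CoreHyp K G Psi V U C R cv cw cu t0 r f)
    (hcv : ∫⁻ v in Ico (-(2 * R)) 0, ENNReal.ofReal (cv v) ≠ ⊤)
    (hcw : ∫⁻ v in Ico (-(2 * R)) 0, ENNReal.ofReal (cw v) ≠ ⊤)
    (hcu' : ∫⁻ u in Icc (-(2 * R)) (2 * R), ENNReal.ofReal (cu u) ≠ ⊤)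
    (hcu : ∀ u, cu u ≤ C) {p : ENNReal} (hp : 2 ≤ p)
    (hG : LpF p (volume.restrict (DD t0 r f)) (fun z => ‖fderiv ℝ G z‖ₑ)) {l : ℝ → ℝ}
    (hlm : Measurable l) {κ v0 : ℝ} (hκ : 1 ≤ κ) (hv0 : v0 < 0)
    (hl : LpF p (volume.restrict (Ico v0 0)) (fun v => ‖l v‖ₑ)) {Y : Set P3}
    (hYm : MeasurableSet Y) (hvlo : ∀ x : P3, ‖x‖ ≤ r / 2 → (Psi (t0, x)).2.1 < v0)
    (hY : ∀ y ∈ Y, ∀ v ∈ Ico v0 0, ∃ z ∈ DD t0 r f, Psi z = ins v y ∧ ‖z.2‖ ≤ r / 4 ∧
      QQ Psi z ≤ κ) :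
    ∀ᵐ y0 : P3, y0 ∈ Y →
      ∀ m ρ : ℝ, 0 < m → 0 < ρ → ∃ B : ℝ → ENNReal, LpF p (volume.restrict (Ico v0 0)) B ∧
        ∀ v ∈ Ico v0 0, ∀ (j : Fin 3) (σ γ : ℝ), |σ| = 1 → 0 ≤ γ →
          (∀ y : P3, ‖y - y0‖ < ρ → |l v| * ‖y - y0‖ < ρ → ins v y ∈ Psi '' DD t0 r f →
            |fderiv ℝ K.g11 (ins v y) (e4 K (ins v y))| ≤ m * γ ∧
            |fderiv ℝ K.g12 (ins v y) (e4 K (ins v y))| ≤ m * γ ∧
            |fderiv ℝ K.g22 (ins v y) (e4 K (ins v y))| ≤ m * γ ∧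
            γ ≤ σ * D3 K j (ins v y)) → ENNReal.ofReal γ ≤ B v := by
  obtain ⟨D, hD, hest⟩ := local_est3 h hcv hcw hcu' hcu hκ
  filter_upwards [density hYm, ae_all_iff.mpr (avP_ae h.toPreHyp hp hG hlm)] with y0 hdens0
    havg hy0
  have hdens := hdens0 hy0
  intro m ρ hm hρ
  set δ : ℝ := (8192 * (1 + D * m))⁻¹ with hδ
  have hδ0 : 0 < δ := by rw [hδ]; (clear * - hD hm; positivity)
  obtain ⟨ρ0, hρ0, hdn⟩ := hdens δ hδ0
  obtain ⟨n, hn⟩ := exists_nat_one_div_lt (lt_min hρ0 hρ)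
  rw [one_div, lt_min_iff] at hn
  refine ⟨fun v => ENNReal.ofReal (1024 * D) * (ENNReal.ofReal (16 * (rl l n v)⁻¹) +
    AvP G Psi V t0 r f l n y0 v), ?_, ?_⟩
  · apply LpF.const_mul _ ENNReal.ofReal_ne_top
    have hm1 : Measurable (fun v => ENNReal.ofReal (16 * (rl l n v)⁻¹)) :=
      ((measurable_rl hlm n).inv.const_mul 16).ennreal_ofReal
    refine LpF.add ?_ ((havg n).mono_meas Measure.restrict_le_self) hp hm1.aemeasurable
    have hvol : (volume.restrict (Ico v0 0)) univ ≠ ⊤ := by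
      rw [Measure.restrict_apply MeasurableSet.univ, univ_inter, Real.volume_Ico]
      exact ENNReal.ofReal_ne_top
    have h1 : LpF p (volume.restrict (Ico v0 0)) (fun v => (1:ENNReal) + ‖l v‖ₑ) :=
      LpF.add (LpF.const hvol (by norm_num)) hl hp aemeasurable_const
    refine (h1.const_mul (ENNReal.ofReal_ne_top (r := 16 * ((n:ℝ) + 1)))).mono fun v => ?_
    rw [inv_rl, ← mul_assoc, ENNReal.ofReal_mul (by (clear * -; positivity)),
      ENNReal.ofReal_add (by norm_num) (abs_nonneg _), ENNReal.ofReal_one, ← Real.norm_eq_abs,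
      ofReal_norm]
  · intro v hv j σ γ hσ hγ hball
    have hr0 := rl_pos l n v
    have hr1 := rl_le l n v
    have hr2 := rl_le_one l n v
    have hr3 := l_rl l n v
    have hrr : 2 * (rl l n v / 2) = rl l n v := by ring
    have h1 := hest j v y0 (rl l n v / 2) σ γ (m * γ) Y hv.2
      (fun x hx => lt_of_lt_of_le (hvlo x hx) hv.1) (by (clear * - hr0; positivity)) (by linarith only [hr2]) hσ hγ
      (by (clear * - hm hγ; positivity)) hYm (fun y hy => hY y hy v hv)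
      (by
        intro y hy hyi
        rw [hrr, Metric.mem_ball, dist_eq_norm] at hy
        apply hball y (by linarith only [hn, hr1, hy]) _ hyi
        calc |l v| * ‖y - y0‖ ≤ |l v| * rl l n v := by (clear * - hy; gcongr)
          _ < ρ := by linarith only [hn, hr3])
    rw [hrr, vol_ball y0 hr0.le] at h1
    refine absorb hγ hD hm hr0 hδ h1 ?_ ?_ (le_refl _)
    · have e1 : ENNReal.ofReal (rl l n v ^ 3 / 512) = volume (Metric.ball y0 (rl l n v / 2 / 8)) := by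
        rw [vol_ball y0 (by (clear * - hr0; positivity))]
        congr 1
        ring
      rw [e1, ← measure_inter_add_diff (Metric.ball y0 (rl l n v / 2 / 8)) hYm]
      gcongr
      refine le_trans (measure_mono ?_) (hdn _ hr0 (by linarith only [hn, hr1]))
      apply diff_subset_diff_left
      apply Metric.ball_subset_ball
      linarith only [hr0]
    · exact hdn _ hr0 (by linarith only [hn, hr1])

end Vale.Agent.P354z
end
end

section

section

set_option maxSynthPendingDepth 3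

open Set MeasureTheory Filter Topology

namespace Vale.Agent.P354z

open Vale.Agent.P354w Vale.Agent.P354x PreHyp CoreHyp

variable {K : Coef} {G : P4 → P4 →L[ℝ] P4 →L[ℝ] ℝ} {Psi : P4 → P4} {V U : Set P4}
    {C R : ℝ} {cv cw cu : ℝ → ℝ} {t0 r : ℝ} {f : P3 → ℝ}

/-- For almost every generator of an open set of the front the metric derivatives which are
comparable to a constant on balls of radius `1/l` are in `L^p`. -/
theorem open_coreP (h : CoreHyp K G Psi V U C R cv cw cu t0 r f) (hw : ∀ y ∈ U, PtW K y C)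
    (hcv : ∫⁻ v in Ico (-(2 * R)) 0, ENNReal.ofReal (cv v) ≠ ⊤)
    (hcw : ∫⁻ v in Ico (-(2 * R)) 0, ENNReal.ofReal (cw v) ≠ ⊤)
    (hcu' : ∫⁻ u in Icc (-(2 * R)) (2 * R), ENNReal.ofReal (cu u) ≠ ⊤)
    (hcu : ∀ u, cu u ≤ C) {p : ENNReal} (hp : 2 ≤ p)
    (hG : LpF p (volume.restrict (DD t0 r f)) (fun z => ‖fderiv ℝ G z‖ₑ)) {l : ℝ → ℝ}
    (hlm : Measurable l) {va : ℝ} (hva : va < 0)
    (hl : LpF p (volume.restrict (Ico va 0)) (fun v => ‖l v‖ₑ)) {O : Set P3} (hO : IsOpen O)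
    {v0 : ℝ} (hv0 : v0 < 0)
    (hin : ∀ y ∈ O, ∀ v ∈ Ico v0 0, ∃ z ∈ DD t0 r f, Psi z = ins v y ∧ ‖z.2‖ ≤ r / 4) :
    ∃ v1 ∈ Ico v0 0, va ≤ v1 ∧ ∀ᵐ y0 : P3, y0 ∈ O →
      ∀ m ρ : ℝ, 0 < m → 0 < ρ → ∃ B : ℝ → ENNReal, LpF p (volume.restrict (Ico v1 0)) B ∧
        ∀ v ∈ Ico v1 0, ∀ (j : Fin 3) (σ γ : ℝ), |σ| = 1 → 0 ≤ γ →
          (∀ y : P3, ‖y - y0‖ < ρ → |l v| * ‖y - y0‖ < ρ → ins v y ∈ Psi '' DD t0 r f →
            |fderiv ℝ K.g11 (ins v y) (e4 K (ins v y))| ≤ m * γ ∧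
            |fderiv ℝ K.g12 (ins v y) (e4 K (ins v y))| ≤ m * γ ∧
            |fderiv ℝ K.g22 (ins v y) (e4 K (ins v y))| ≤ m * γ ∧
            γ ≤ σ * D3 K j (ins v y)) → ENNReal.ofReal γ ≤ B v := by
  have hpre := h.toPreHyp
  obtain ⟨vlo, hvlo0, _, hvlo⟩ := exists_vlo h
  set v1 : ℝ := max (max v0 va) (vlo / 2) with hv1
  have hv10 : v1 < 0 := max_lt (max_lt hv0 hva) (by linarith only [hvlo0])
  have hv01 : v0 ≤ v1 := (le_max_left _ _).trans (le_max_left _ _)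
  have hva1 : va ≤ v1 := (le_max_right _ _).trans (le_max_left _ _)
  have hvlo1 : ∀ x : P3, ‖x‖ ≤ r / 2 → (Psi (t0, x)).2.1 < v1 := by
    intro x hx
    have h1 := hvlo x hx
    have h2 : vlo / 2 ≤ v1 := le_max_right _ _
    linarith only [hv10, h1, h2]
  have hin1 : ∀ y ∈ O, ∀ v ∈ Ico v1 0, ∃ z ∈ DD t0 r f, Psi z = ins v y ∧ ‖z.2‖ ≤ r / 4 :=
    fun y hy v hv => hin y hy v ⟨hv01.trans hv.1, hv.2⟩
  have himg : ∀ v ∈ Ico v1 0, ∀ y ∈ O, ins v y ∈ Psi '' DD t0 r f := by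
    intro v hv y hy
    obtain ⟨z, hz, hzy, _⟩ := hin1 y hy v hv
    exact ⟨z, hz, hzy⟩
  refine ⟨v1, ⟨hv01, hv10⟩, hva1, ?_⟩
  have hY : ∀ n : ℕ, ∀ y ∈ Yk Psi V O v1 ((n:ℝ) + 1), ∀ v ∈ Ico v1 0, ∃ z ∈ DD t0 r f,
      Psi z = ins v y ∧ ‖z.2‖ ≤ r / 4 ∧ QQ Psi z ≤ (n:ℝ) + 1 := by
    intro n y hy v hv
    obtain ⟨z, hz, hzy, hzn⟩ := hin1 y hy.1 v hv
    have hzP : Phi Psi V (ins v y) = z := by rw [← hzy]; exact h.Phi_left (h.DD_sub hz)
    have := hy.2 v hv
    rw [hzP] at this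
    exact ⟨z, hz, hzy, hzn, this⟩
  have hl1 : LpF p (volume.restrict (Ico v1 0)) (fun v => ‖l v‖ₑ) :=
    hl.mono_meas (Measure.restrict_mono (Ico_subset_Ico_left hva1) le_rfl)
  have hcore := fun n : ℕ => core_YP h hcv hcw hcu' hcu hp hG hlm (κ := (n:ℝ) + 1) (v0 := v1)
    (by have : (0:ℝ) ≤ n := Nat.cast_nonneg n
        linarith only []) hv10 hl1 (Y := Yk Psi V O v1 ((n:ℝ) + 1)) (meas_Yk hpre hO himg _) hvlo1 (hY n)
  filter_upwards [ae_bdd h hw hcu hO hv10 hvlo1 hin1, ae_all_iff.mpr hcore] with y0 h1 h2 hy0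
  obtain ⟨n, hn⟩ := h1 hy0
  exact h2 n ⟨hy0, fun v hv => (hn v hv).trans (by linarith only [])⟩

end Vale.Agent.P354z
end
end

section

section

set_option linter.unusedSectionVars false
set_option maxSynthPendingDepth 3

open Set MeasureTheory Filter Topology

namespace Vale.Agent.P354k

open Vale.Agent.P354w Vale.Agent.P354x PreHyp

section

variable {K : Coef} {x : P4} {C S : ℝ}

lemma le4 {a : P4} : |a.1| ≤ ‖a‖ ∧ |a.2.1| ≤ ‖a‖ ∧ |a.2.2.1| ≤ ‖a‖ ∧ |a.2.2.2| ≤ ‖a‖ :=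
  P354.norm_P4_le.1 le_rfl

lemma h1_le (hC : 0 ≤ S) (s1 : |K.s1 x| ≤ S) (w1 : |K.w1 x| ≤ S) (a : P4) :
    |K.h1 x a| ≤ (1 + 2 * S) * ‖a‖ := by
  obtain ⟨a1, a2, a3, a4⟩ := le4 (a := a)
  have k1 : |K.s1 x * a.2.1| ≤ S * ‖a‖ := by rw [abs_mul]; gcongr
  have k2 : |K.w1 x * a.2.2.1| ≤ S * ‖a‖ := by rw [abs_mul]; gcongr
  unfold Coef.h1
  rw [abs_le] at *
  constructor <;> linarith only [a1, k1, k2]

lemma h2_le (hC : 0 ≤ S) (s1 : |K.s2 x| ≤ S) (w1 : |K.w2 x| ≤ S) (a : P4) :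
    |K.h2 x a| ≤ (1 + 2 * S) * ‖a‖ := by
  obtain ⟨a1, a2, a3, a4⟩ := le4 (a := a)
  have k1 : |K.s2 x * a.2.1| ≤ S * ‖a‖ := by rw [abs_mul]; gcongr
  have k2 : |K.w2 x * a.2.2.1| ≤ S * ‖a‖ := by rw [abs_mul]; gcongr
  unfold Coef.h2
  rw [abs_le] at *
  constructor <;> linarith only [a4, k1, k2]

/-- bounds of the coefficients at a point -/
structure Bdd (K : Coef) (x : P4) (C S : ℝ) : Prop where
  C1 : 1 ≤ C
  S0 : 0 ≤ S
  om : |K.om x| ≤ C
  g11 : |K.g11 x| ≤ C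
  g12 : |K.g12 x| ≤ C
  g22 : |K.g22 x| ≤ C
  s1 : |K.s1 x| ≤ S
  s2 : |K.s2 x| ≤ S
  w1 : |K.w1 x| ≤ S
  w2 : |K.w2 x| ≤ S

lemma mul3_le {g p q G P Q : ℝ} (hg : |g| ≤ G) (hp : |p| ≤ P) (hq : |q| ≤ Q) :
    |g * (p * q)| ≤ G * (P * Q) := by
  have hG : 0 ≤ G := (abs_nonneg _).trans hg
  have hP : 0 ≤ P := (abs_nonneg _).trans hp
  rw [abs_mul, abs_mul]
  gcongr

lemma gF_le (h : Bdd K x C S) (a b : P4) :
    |K.gF x a b| ≤ 6 * C * (1 + 2 * S) ^ 2 * (‖a‖ * ‖b‖) := by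
  have hC0 : 0 ≤ C := by linarith only [h.C1]
  have hS := h.S0
  obtain ⟨a1, a2, a3, a4⟩ := le4 (a := a)
  obtain ⟨b1, b2, b3, b4⟩ := le4 (a := b)
  have ha1 := h1_le h.S0 h.s1 h.w1 a
  have ha2 := h2_le h.S0 h.s2 h.w2 a
  have hb1 := h1_le h.S0 h.s1 h.w1 b
  have hb2 := h2_le h.S0 h.s2 h.w2 b
  have t1 := mul3_le h.om a2 b3
  have t2 := mul3_le h.om a3 b2
  have t3 := mul3_le h.g11 ha1 hb1
  have t4 := mul3_le h.g12 ha1 hb2
  have t5 := mul3_le h.g12 ha2 hb1
  have t6 := mul3_le h.g22 ha2 hb2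
  have e : C * ((1 + 2 * S) * ‖a‖ * ((1 + 2 * S) * ‖b‖)) =
      C * (1 + 2 * S) ^ 2 * (‖a‖ * ‖b‖) := by ring
  rw [e] at t3 t4 t5 t6
  have t7 : C * (‖a‖ * ‖b‖) ≤ C * (1 + 2 * S) ^ 2 * (‖a‖ * ‖b‖) := by
    have : 1 ≤ (1 + 2 * S) ^ 2 := by nlinarith only [hS]
    calc C * (‖a‖ * ‖b‖) = C * 1 * (‖a‖ * ‖b‖) := by ring
      _ ≤ _ := by (clear * - this hC0; gcongr)
  have e2 : K.gF x a b = -(K.om x * (a.2.1 * b.2.2.1)) - K.om x * (a.2.2.1 * b.2.1) +
      K.g11 x * (K.h1 x a * K.h1 x b) + K.g12 x * (K.h1 x a * K.h2 x b) +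
      K.g12 x * (K.h2 x a * K.h1 x b) + K.g22 x * (K.h2 x a * K.h2 x b) := by
    unfold Coef.gF; ring
  rw [e2]
  rw [abs_le] at t1 t2 t3 t4 t5 t6 ⊢
  constructor
  · linarith only [t1.2, t2.2, t3.1, t4.1, t5.1, t6.1, t7]
  · linarith only [t1.1, t2.1, t3.2, t4.2, t5.2, t6.2, t7]

end

section

variable {K : Coef} {G : P4 → P4 →L[ℝ] P4 →L[ℝ] ℝ} {Psi : P4 → P4} {V : Set P4}
  {z : P4} {C S κ cv cw cu : ℝ}

/-- the vertical vector seen from the standard side -/
lemma PP_norm (h : PtHyp K G Psi V z C cv cw cu) (hb : Bdd K (Psi z) C S) (hκ : QQ Psi z ≤ κ) :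
    ‖fderiv ℝ Psi z e1‖ ≤ (C + 2 * S + 1) * κ := by
  have hC := hb.C1
  have hS := hb.S0
  obtain ⟨k1, k2⟩ := h.abs_h_le
  have hb0 : 0 < (fderiv ℝ Psi z e1).2.1 := h.pos
  have ha0 : 0 < (fderiv ℝ Psi z e1).2.2.1 := h.sq_le.2.1
  simp only [PtHyp.PP] at k1 k2
  unfold QQ at hκ
  set p : P4 := fderiv ℝ Psi z e1 with hp
  have hκ0 : 0 ≤ κ := by
    have : 0 < p.2.2.1 + p.2.1 := by linarith only [hb0, ha0]
    exact this.le.trans hκ
  have a1 : |p.2.1| ≤ κ := by
    rw [abs_of_pos hb0]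
    have : p.2.2.1 + p.2.1 ≤ κ := hκ
    linarith only [hκ, ha0]
  have a2 : |p.2.2.1| ≤ κ := by
    rw [abs_of_pos ha0]
    have : p.2.2.1 + p.2.1 ≤ κ := hκ
    linarith only [hκ, hb0]
  have k1' : |K.h1 (Psi z) p| ≤ C * κ := k1.trans (by (clear * - hκ hC; gcongr))
  have k2' : |K.h2 (Psi z) p| ≤ C * κ := k2.trans (by (clear * - hκ hC; gcongr))
  have m1 : |K.s1 (Psi z) * p.2.1| ≤ S * κ := by rw [abs_mul]; gcongr; exact hb.s1
  have m2 : |K.w1 (Psi z) * p.2.2.1| ≤ S * κ := by rw [abs_mul]; gcongr; exact hb.w1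
  have m3 : |K.s2 (Psi z) * p.2.1| ≤ S * κ := by rw [abs_mul]; gcongr; exact hb.s2
  have m4 : |K.w2 (Psi z) * p.2.2.1| ≤ S * κ := by rw [abs_mul]; gcongr; exact hb.w2
  have hSκ : 0 ≤ S * κ := by (clear * - hS hκ0; positivity)
  have hCκ : 0 ≤ C * κ := by positivity
  have e1 : p.1 = K.h1 (Psi z) p + K.s1 (Psi z) * p.2.1 + K.w1 (Psi z) * p.2.2.1 := by
    unfold Coef.h1; ring
  have e2 : p.2.2.2 = K.h2 (Psi z) p + K.s2 (Psi z) * p.2.1 + K.w2 (Psi z) * p.2.2.1 := by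
    unfold Coef.h2; ring
  rw [P354.norm_P4_le]
  refine ⟨?_, ?_, ?_, ?_⟩
  · rw [e1, abs_le] at *
    constructor <;> linarith only [hκ, hb0, ha0, k1', m1, m2]
  · refine a1.trans ?_
    linarith only [hSκ, hCκ]
  · refine a2.trans ?_
    linarith only [hSκ, hCκ]
  · rw [e2, abs_le] at *
    constructor <;> linarith only [hκ, hb0, ha0, k2', m3, m4]

/-- preimages under the derivative are bounded -/
lemma pre_norm (h : PtHyp K G Psi V z C cv cw cu) (hb : Bdd K (Psi z) C S) (hκ1 : 1 ≤ κ)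
    (hκ : QQ Psi z ≤ κ) (Z : P4) :
    ‖Z‖ ≤ 2 * C * (6 * C * (1 + 2 * S) ^ 2) * ((C + 2 * S + 1) * κ) * ‖fderiv ℝ Psi z Z‖ := by
  have hC := hb.C1
  have hS := hb.S0
  have hC0 : 0 ≤ C := by linarith only [hC]
  set w : P4 := fderiv ℝ Psi z Z with hw
  set M : ℝ := 6 * C * (1 + 2 * S) ^ 2 with hM
  set P0 : ℝ := (C + 2 * S + 1) * κ with hP0
  have hM1 : 1 ≤ M := by rw [hM]; nlinarith only [hS, hC]
  have hP1 : 1 ≤ P0 := by
    rw [hP0]
    have : 1 ≤ C + 2 * S + 1 := by linarith only [hC, hS]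
    nlinarith only [hκ1, hC, hS]
  have h1 := h.cone Z
  rw [h.iso.iso z h.mem, h.iso.iso z h.mem] at h1
  have g1 := gF_le hb w w
  have g2 := gF_le hb w (fderiv ℝ Psi z e1)
  have hPP := PP_norm h hb hκ
  rw [← hM] at g1 g2
  have g2' : |K.gF (Psi z) w (fderiv ℝ Psi z e1)| ≤ M * (‖w‖ * P0) :=
    g2.trans (by (clear * - hPP hC hS; gcongr))
  have g3 : (K.gF (Psi z) w (fderiv ℝ Psi z e1)) ^ 2 ≤ (M * (‖w‖ * P0)) ^ 2 := by
    rw [← sq_abs]
    exact pow_le_pow_left₀ (abs_nonneg _) g2' 2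
  have hw0 := norm_nonneg w
  refine abs_le_of_sq_le_sq' (a := ‖Z‖) ?_ (by (clear * - hC hS hκ1; positivity)) |>.2
  calc ‖Z‖ ^ 2 ≤ C * K.gF (Psi z) w w + C * (K.gF (Psi z) w (fderiv ℝ Psi z e1)) ^ 2 := h1
    _ ≤ C * (M * (‖w‖ * ‖w‖)) + C * (M * (‖w‖ * P0)) ^ 2 := by
      gcongr
      exact (le_abs_self _).trans g1
    _ = (C * M + C * M ^ 2 * P0 ^ 2) * ‖w‖ ^ 2 := by ring
    _ ≤ (C ^ 2 * M ^ 2 * P0 ^ 2 + C ^ 2 * M ^ 2 * P0 ^ 2) * ‖w‖ ^ 2 := by
      have e1 : C * M ≤ C ^ 2 * M ^ 2 * P0 ^ 2 := by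
        have hx : 1 ≤ C * M * P0 ^ 2 := by
          have h2 : 1 ≤ C * M := by nlinarith only [hC, hM1]
          have h3 : 1 ≤ P0 ^ 2 := by nlinarith only [hP1]
          linarith only [mul_nonneg (sq_nonneg (P0 : ℝ)) (sub_nonneg.2 h2), h3]
        calc C * M = C * M * 1 := by ring
          _ ≤ C * M * (C * M * P0 ^ 2) := by (clear * - hx hC hS; gcongr)
          _ = _ := by ring
      have e2 : C * M ^ 2 * P0 ^ 2 ≤ C ^ 2 * M ^ 2 * P0 ^ 2 := by
        gcongr
        (by_contra nlg; linarith only [nlg, mul_pos (sub_pos.2 (not_le.1 nlg)) (sub_pos.2 (not_le.1 nlg)), mul_nonneg (sq_nonneg (C : ℝ)) (sub_nonneg.2 hC), mul_nonneg (sq_nonneg (C : ℝ)) (le_of_lt (sub_pos.2 (not_le.1 nlg)))])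
      (clear * - e1 e2; gcongr)
    _ ≤ (2 * C * M * P0 * ‖w‖) ^ 2 := by
      have : 0 ≤ C ^ 2 * M ^ 2 * P0 ^ 2 * ‖w‖ ^ 2 := by (clear * - hC hS hκ1; positivity)
      linarith

/-- the derivative is bounded -/
lemma deriv_norm (h : PtHyp K G Psi V z C cv cw cu) (hb : Bdd K (Psi z) C S) {B1 gn : ℝ}
    (hB1 : 0 ≤ B1) (hgn : 0 ≤ gn)
    (hG : ∀ a b, |G z a b| ≤ gn * (‖a‖ * ‖b‖))
    (hpre : ∀ Z, ‖Z‖ ≤ B1 * ‖fderiv ℝ Psi z Z‖) (hsurj : ∀ w, ∃ Z, fderiv ℝ Psi z Z = w)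
    (w : P4) : ‖fderiv ℝ Psi z w‖ ≤ 3 * C * (1 + S) ^ 2 * (gn * B1) * ‖w‖ := by
  have hC := hb.C1
  have hS := hb.S0
  have hC0 : 0 ≤ C := by linarith only [hC]
  set a : P4 := fderiv ℝ Psi z w with ha
  set X : ℝ := gn * B1 * ‖w‖ with hX
  have hX0 : 0 ≤ X := by (clear * - hgn hB1; positivity)
  have key : ∀ b : P4, |K.gF (Psi z) b a| ≤ X * ‖b‖ := by
    intro b
    obtain ⟨Z, hZ⟩ := hsurj b
    have h1 := hG Z w
    rw [h.iso.iso z h.mem, hZ, ← ha] at h1
    have h2 := hpre Z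
    rw [hZ] at h2
    calc |K.gF (Psi z) b a| ≤ gn * (‖Z‖ * ‖w‖) := h1
      _ ≤ gn * ((B1 * ‖b‖) * ‖w‖) := by (clear * - h2 hgn; gcongr)
      _ = _ := by rw [hX]; ring
  have hom := h.bd.om_lo
  have hompos : 0 < K.om (Psi z) := h.om_pos
  have ne3 : ‖e3 K (Psi z)‖ ≤ 1 + S := by
    rw [P354.norm_P4_le]
    refine ⟨?_, ?_, ?_, ?_⟩
    · show |K.w1 (Psi z)| ≤ _
      linarith only [hb.w1]
    · show |(0:ℝ)| ≤ _
      rw [abs_zero]; linarith only [hS]
    · show |(1:ℝ)| ≤ _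
      rw [abs_one]; linarith
    · show |K.w2 (Psi z)| ≤ _
      linarith [hb.w2]
  have ne4 : ‖e4 K (Psi z)‖ ≤ 1 + S := by
    rw [P354.norm_P4_le]
    refine ⟨?_, ?_, ?_, ?_⟩
    · show |K.s1 (Psi z)| ≤ _
      linarith only [hb.s1]
    · show |(1:ℝ)| ≤ _
      rw [abs_one]; linarith
    · show |(0:ℝ)| ≤ _
      rw [abs_zero]; linarith
    · show |K.s2 (Psi z)| ≤ _
      linarith [hb.s2]
  have k3 := key (e3 K (Psi z))
  have k4 := key (e4 K (Psi z))
  rw [gF_e3] at k3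
  rw [gF_e4] at k4
  have kk : ∀ t : ℝ, ∀ n : ℝ, |-K.om (Psi z) * t| ≤ X * n → n ≤ 1 + S → |t| ≤ C * (X * (1 + S)) := by
    intro t n h1 h2
    rw [abs_mul, abs_neg, abs_of_pos hompos] at h1
    calc |t| = 1 * |t| := (one_mul _).symm
      _ ≤ (C * K.om (Psi z)) * |t| := by (clear * - hom; gcongr)
      _ = C * (K.om (Psi z) * |t|) := by ring
      _ ≤ C * (X * n) := by (clear * - h1 hC; gcongr)
      _ ≤ _ := by (clear * - h2 hgn hB1 hC; gcongr)
  have a2 : |a.2.1| ≤ C * (X * (1 + S)) := kk _ _ k3 ne3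
  have a3 : |a.2.2.1| ≤ C * (X * (1 + S)) := kk _ _ k4 ne4
  set p : ℝ := K.h1 (Psi z) a with hp
  set q : ℝ := K.h2 (Psi z) a with hq
  have hpq : max |p| |q| ≤ C * X := by
    set ρ : ℝ := max |p| |q| with hρ
    have hρ0 : 0 ≤ ρ := le_max_of_le_left (abs_nonneg _)
    have h1 := key (p, 0, 0, q)
    have h2 : K.gF (Psi z) (p, 0, 0, q) a = K.g11 (Psi z) * p ^ 2 + 2 * K.g12 (Psi z) * p * q +
        K.g22 (Psi z) * q ^ 2 := by
      have e1 : K.h1 (Psi z) (p, 0, 0, q) = p := by simp [Coef.h1]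
      have e2 : K.h2 (Psi z) (p, 0, 0, q) = q := by simp [Coef.h2]
      unfold Coef.gF
      rw [e1, e2, ← hp, ← hq]
      simp only
      ring
    have h3 : ‖((p, 0, 0, q) : P4)‖ ≤ ρ := by
      rw [P354.norm_P4_le]
      exact ⟨le_max_left _ _, by simpa only [abs_zero] using hρ0, by simpa only [abs_zero] using hρ0, le_max_right _ _⟩
    have h4 := h.bd.g_lo p q
    rw [h2] at h1
    have h5 : ρ ^ 2 ≤ p ^ 2 + q ^ 2 := by
      rcases max_choice |p| |q| with h6 | h6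
      · rw [hρ, h6, sq_abs]; (by_contra nlg; linarith only [nlg, mul_pos (sub_pos.2 (not_le.1 nlg)) (sub_pos.2 (not_le.1 nlg)), mul_nonneg (sq_nonneg (q : ℝ)) (le_of_lt (sub_pos.2 (not_le.1 nlg)))])
      · rw [hρ, h6, sq_abs]; nlinarith only []
    have h6 : ρ ^ 2 ≤ C * X * ρ := by
      calc ρ ^ 2 ≤ _ := h5.trans h4
        _ ≤ C * (X * ‖((p, 0, 0, q) : P4)‖) := by
          gcongr
          exact (le_abs_self _).trans h1
        _ ≤ C * (X * ρ) := by (clear * - h3 hgn hB1 hC; gcongr)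
        _ = _ := by ring
    by_contra hcon
    push Not at hcon
    have h7 : 0 < ρ := lt_of_le_of_lt (by (clear * - hC hgn hB1; positivity)) hcon
    nlinarith only [h6, hcon, h7]
  have hp1 : |p| ≤ C * X := (le_max_left _ _).trans hpq
  have hq1 : |q| ≤ C * X := (le_max_right _ _).trans hpq
  have m1 : |K.s1 (Psi z) * a.2.1| ≤ S * (C * (X * (1 + S))) := by rw [abs_mul]; gcongr; exact hb.s1
  have m2 : |K.w1 (Psi z) * a.2.2.1| ≤ S * (C * (X * (1 + S))) := by
    rw [abs_mul]; gcongr; exact hb.w1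
  have m3 : |K.s2 (Psi z) * a.2.1| ≤ S * (C * (X * (1 + S))) := by rw [abs_mul]; gcongr; exact hb.s2
  have m4 : |K.w2 (Psi z) * a.2.2.1| ≤ S * (C * (X * (1 + S))) := by
    rw [abs_mul]; gcongr; exact hb.w2
  have e1 : a.1 = p + K.s1 (Psi z) * a.2.1 + K.w1 (Psi z) * a.2.2.1 := by
    rw [hp]; unfold Coef.h1; ring
  have e2 : a.2.2.2 = q + K.s2 (Psi z) * a.2.1 + K.w2 (Psi z) * a.2.2.1 := by
    rw [hq]; unfold Coef.h2; ring
  have eB : 3 * C * (1 + S) ^ 2 * (gn * B1) * ‖w‖ = 3 * C * (1 + S) ^ 2 * X := by rw [hX]; ring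
  rw [eB]
  have hCX : 0 ≤ C * X := by (clear * - hC hgn hB1; positivity)
  have hCXS : 0 ≤ C * X * S := by (clear * - hC hgn hB1 hS; positivity)
  have hCXSS : 0 ≤ C * X * S ^ 2 := by (clear * - hC hgn hB1; positivity)
  have r1 : C * (X * (1 + S)) ≤ 3 * C * (1 + S) ^ 2 * X := by
    have e3 : 3 * C * (1 + S) ^ 2 * X = 3 * (C * X) + 6 * (C * X * S) + 3 * (C * X * S ^ 2) := by
      ring
    rw [e3]
    linarith only [hCX, hCXS, hCXSS]
  have r2 : C * X + S * (C * (X * (1 + S))) + S * (C * (X * (1 + S))) ≤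
      3 * C * (1 + S) ^ 2 * X := by
    have e3 : 3 * C * (1 + S) ^ 2 * X = 3 * (C * X) + 6 * (C * X * S) + 3 * (C * X * S ^ 2) := by
      ring
    rw [e3]
    linarith only [hCX, hCXS, hCXSS]
  rw [P354.norm_P4_le]
  refine ⟨?_, a2.trans r1, a3.trans r1, ?_⟩
  · rw [e1]
    refine le_trans ?_ r2
    exact (abs_add_three _ _ _).trans (by (clear * - hp1 m1 m2; gcongr))
  · rw [e2]
    refine le_trans ?_ r2
    exact (abs_add_three _ _ _).trans (by (clear * - hq1 m3 m4; gcongr))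

end

end Vale.Agent.P354k
end
end

section

section

set_option linter.unusedSectionVars false
set_option maxSynthPendingDepth 3

open scoped Manifold ContDiff
open MeasureTheory Set Topology Filter

namespace Vale.Agent.P354c

section

variable {M : Spc}

lemma nondeg (hM : IsSpacetime IsSmooth M) {e : M.Chart} {x : R4} (hx : x ∈ tgt e)
    (ℓ : R4 →ₗ[ℝ] ℝ) : ∃ w, ∀ c, M.g e x w c = ℓ c := by
  have hb := hM.up.bilin (M := Up M) e hx
  obtain ⟨L, hL, hLi, hLm⟩ := hM.signature e x hx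
  set L' : R4 →ₗ[ℝ] R4 := hL.mk' L with hL'
  have hsurj : Function.Surjective L' := LinearMap.injective_iff_surjective.1 hLi
  let T : R4 →ₗ[ℝ] (R4 →ₗ[ℝ] ℝ) := LinearMap.mk₂ ℝ (M.g e x) (fun a b c => hb.add_left a b c)
    (fun t a b => hb.smul_left t a b) (fun a b c => hb.add_right a b c)
    (fun t a b => hb.smul_right t a b)
  have hT : ∀ w c, T w c = M.g e x w c := fun w c => rfl
  have hTi : Function.Injective T := by
    rw [injective_iff_map_eq_zero]
    intro w hw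
    have h1 : ∀ c, mink (L w) (L c) = 0 := by
      intro c
      rw [← hLm, ← hT, hw]
      rfl
    obtain ⟨c, hc⟩ := hsurj (-(L w).1, (L w).2)
    have h2 := h1 c
    have hc' : L c = (-(L w).1, (L w).2) := hc
    rw [hc'] at h2
    simp only [mink, cu, cv, c1, c2] at h2
    have h3 : (L w).1 ^ 2 + (L w).2.1 ^ 2 + (L w).2.2.1 ^ 2 + (L w).2.2.2 ^ 2 = 0 := by
      linarith only [h2]
    have p1 := sq_nonneg (L w).1
    have p2 := sq_nonneg (L w).2.1
    have p3 := sq_nonneg (L w).2.2.1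
    have p4 := sq_nonneg (L w).2.2.2
    have q1 : (L w).1 = 0 := pow_eq_zero_iff (n := 2) (by norm_num) |>.1 (by linarith only [p1, h2, p2, p3, p4])
    have q2 : (L w).2.1 = 0 := pow_eq_zero_iff (n := 2) (by norm_num) |>.1 (by linarith only [p2, h2, p1, p3, p4])
    have q3 : (L w).2.2.1 = 0 := pow_eq_zero_iff (n := 2) (by norm_num) |>.1 (by linarith only [p3, h2, p1, p2, p4])
    have q4 : (L w).2.2.2 = 0 := pow_eq_zero_iff (n := 2) (by norm_num) |>.1 (by linarith only [p4, h2, p1, p2, p3])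
    have h4 : L w = 0 := by
      ext
      · exact q1
      · exact q2
      · exact q3
      · exact q4
    have h5 : L' w = L' 0 := by
      rw [map_zero]; exact h4
    exact hLi h5
  have hTs : Function.Surjective T :=
    (LinearMap.injective_iff_surjective_of_finrank_eq_finrank
      (Subspace.dual_finrank_eq (K := ℝ) (V := R4)).symm).1 hTi
  obtain ⟨w, hw⟩ := hTs ℓ
  exact ⟨w, fun c => by rw [← hT, hw]⟩

/-- **The connection exists.** -/
theorem exists_conn (hM : IsSpacetime IsSmooth M) (e : M.Chart) :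
    ∃ G : R4 → R4 → R4 → R4, ∀ x ∈ tgt e, IsConn (M.g e) G x := by
  have hopen : IsOpen (tgt e) := (M.toE e).open_target
  have hd : ∀ a b, ∀ x ∈ tgt e, DifferentiableAt ℝ (fun y => M.g e y a b) x := by
    intro a b x hx
    have h1 : ContDiffOn ℝ ∞ (fun y => M.g e y a b) (tgt e) := hM.regular e a b
    exact (h1.contDiffAt (hopen.mem_nhds hx)).differentiableAt (by simp)
  have hder : ∀ a b c, ∀ x ∈ tgt e, deriv (fun y => M.g e y a b) x c =
      fderiv ℝ (fun y => M.g e y a b) x c := fun a b c x hx => (hd a b x hx).lineDeriv_eq_fderiv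
  have hadd : ∀ b c c' a, ∀ x ∈ tgt e, fderiv ℝ (fun y => M.g e y b (c + c')) x a =
      fderiv ℝ (fun y => M.g e y b c) x a + fderiv ℝ (fun y => M.g e y b c') x a := by
    intro b c c' a x hx
    have h1 : (fun y => M.g e y b (c + c')) =ᶠ[𝓝 x] fun y => M.g e y b c + M.g e y b c' := by
      filter_upwards [hopen.mem_nhds hx] with y hy
      exact (hM.up.bilin (M := Up M) e hy).add_right b c c'
    rw [h1.fderiv_eq, fderiv_fun_add (hd b c x hx) (hd b c' x hx)]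
    rfl
  have hsmul : ∀ b c (t : ℝ) a, ∀ x ∈ tgt e, fderiv ℝ (fun y => M.g e y b (t • c)) x a =
      t * fderiv ℝ (fun y => M.g e y b c) x a := by
    intro b c t a x hx
    have h1 : (fun y => M.g e y b (t • c)) =ᶠ[𝓝 x] fun y => t * M.g e y b c := by
      filter_upwards [hopen.mem_nhds hx] with y hy
      exact (hM.up.bilin (M := Up M) e hy).smul_right t b c
    rw [h1.fderiv_eq, fderiv_const_mul (hd b c x hx)]
    rfl
  have key : ∀ x a b, ∃ w, x ∈ tgt e → ∀ c, M.g e x w c = (deriv (fun y => M.g e y b c) x a +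
      deriv (fun y => M.g e y a c) x b - deriv (fun y => M.g e y a b) x c) / 2 := by
    intro x a b
    by_cases hx : x ∈ tgt e
    · have hlin : IsLinearMap ℝ (fun c => (deriv (fun y => M.g e y b c) x a +
          deriv (fun y => M.g e y a c) x b - deriv (fun y => M.g e y a b) x c) / 2) := by
        constructor
        · intro c c'
          simp only [hder _ _ _ x hx, hadd _ _ _ _ x hx, map_add]
          ring
        · intro t c
          simp only [hder _ _ _ x hx, hsmul _ _ _ _ x hx, map_smul, smul_eq_mul]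
          ring
      obtain ⟨w, hw⟩ := nondeg hM hx (hlin.mk' _)
      exact ⟨w, fun _ c => hw c⟩
    · exact ⟨0, fun h => absurd h hx⟩
  choose G hG using key
  refine ⟨G, fun x hx a b c => ?_⟩
  rw [hG x a b hx c]
  ring

end

end Vale.Agent.P354c
end
end
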