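import Mathlib
import Vale.Agent.P354.Bdl.B1
import Vale.Agent.P354.Bdl.B2
import Vale.Agent.P354n.Defs
import Vale.Agent.P354c.Defs
attribute [-instance] ProperSMul.toContinuousSMul IsTopologicalTorsor.toContinuousSMul IdemSemiring.toCanonicallyOrderedAdd IdemSemiring.toMulLeftMono IdemSemiring.toMulRightMono AddQuantale.instAddLeftMono AddQuantale.instAddRightMono Quantale.instMulLeftMono Quantale.instMulRightMono FiniteDimensional.rclike_to_real IsScalarTower.complexToReal FiniteDimensional.complexToReal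

set_option linter.all false

section

section

set_option maxSynthPendingDepth 3

open Set Filter Topology

namespace Vale.Agent.P354

lemma cone_nonneg {κ : ℝ} (hκ : 0 < κ) {a : P4} (ha : a ∈ cone κ) : 0 ≤ a.1 := by
  rw [mem_cone] at ha
  have := norm_nonneg a.2
  by_contra h
  push Not at h
  linarith only [ha, this, mul_neg_of_pos_of_neg hκ h]

lemma cone_add {κ : ℝ} {a b : P4} (ha : a ∈ cone κ) (hb : b ∈ cone κ) : a + b ∈ cone κ := by
  rw [mem_cone] at *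
  have e1 : (a + b).2 = a.2 + b.2 := rfl
  have e2 : (a + b).1 = a.1 + b.1 := rfl
  rw [e1, e2]
  refine (norm_add_le _ _).trans ?_
  linarith only [ha, hb]

lemma cone_smul {κ t : ℝ} (ht : 0 ≤ t) {a : P4} (ha : a ∈ cone κ) : t • a ∈ cone κ := by
  rw [mem_cone] at *
  have e1 : (t • a).2 = t • a.2 := rfl
  have e2 : (t • a).1 = t * a.1 := rfl
  rw [e1, e2, norm_smul, Real.norm_eq_abs, abs_of_nonneg ht]
  linarith only [mul_le_mul_of_nonneg_left ha ht]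

lemma cone_zero (κ : ℝ) : (0 : P4) ∈ cone κ := by simp only [mem_cone, Prod.snd_zero, norm_zero, Prod.fst_zero, mul_zero, Std.le_refl]

lemma cone_mono {κ κ' : ℝ} (hκ : 0 < κ) (h : κ ≤ κ') {a : P4} (ha : a ∈ cone κ) : a ∈ cone κ' := by
  have h0 := cone_nonneg hκ ha
  rw [mem_cone] at *
  exact ha.trans (mul_le_mul_of_nonneg_right h h0)

/-- The exit curve in exotic coordinates. -/
structure SCurve (Psi : P4 → P4) (V : Set P4) (p0 : P4) (γ : ℝ → P4) (s0 η1 : ℝ) : Prop where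
  s0_lt : s0 < 1
  cont : Continuous γ
  one : γ 1 = 0
  mem : ∀ s ∈ Ico s0 1, γ s ∈ V
  cone : ∀ s ∈ Icc s0 1, ∀ s' ∈ Icc s0 1, s ≤ s' → γ s' - γ s ∈ cone (1 / 8)
  neg : ∀ s ∈ Ico s0 1, (γ s).1 < 0
  good : ∀ s ∈ Ico s0 1, ‖Psi (γ s) - p0‖ ≤ η1
  tend : Tendsto (fun s => Psi (γ s)) (𝓝[<] 1) (𝓝 p0)

/-- reachable by a broken segment -/
def Reach (V : Set P4) (a b : P4) : Prop :=
  ∃ m, m - a ∈ cone (1 / 4) ∧ b - m ∈ cone (1 / 4) ∧ InV V a m ∧ InV V m b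

lemma inV_const {V : Set P4} {a : P4} (ha : a ∈ V) : InV V a a := fun τ _ => by simpa only [sub_self, smul_zero, add_zero] using ha

namespace SHyp

variable {K : Coef} {G : P4 → P4 →L[ℝ] P4 →L[ℝ] ℝ} {Psi Phi : P4 → P4} {V : Set P4}
  {R0 ρ C : ℝ} {p0 : P4} {γ : ℝ → P4} {s0 η1 η : ℝ}

lemma η_pos (hc : SCurve Psi V p0 γ s0 η1) : 0 ≤ η1 :=
  (norm_nonneg _).trans (hc.good s0 ⟨le_rfl, hc.s0_lt⟩)

lemma neg_cone (hc : SCurve Psi V p0 γ s0 η1) {s : ℝ} (hs : s ∈ Ico s0 1) :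
    -γ s ∈ cone (1 / 8) := by
  have := hc.cone s ⟨hs.1, hs.2.le⟩ 1 ⟨hc.s0_lt.le, le_rfl⟩ hs.2.le
  rwa [hc.one, zero_sub] at this

lemma reach_rel (H : SHyp K G Psi Phi V R0 ρ C p0) {a b : P4} (h : Reach V a b) :
    Rel C (Psi a) (Psi b) := by
  obtain ⟨m, h1, h2, h3, h4⟩ := h
  exact (H.rel_ends h1 h3).trans (H.rel_ends h2 h4)

/-- segments between points of the curve -/
lemma curve_seg (H : SHyp K G Psi Phi V R0 ρ C p0) (hc : SCurve Psi V p0 γ s0 η1)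
    (hη : 5 * C * η1 < ρ) {s s' : ℝ} (hs : s0 ≤ s) (hss : s ≤ s') (hs' : s' < 1) :
    InV V (γ s) (γ s') := by
  have hmem : ∀ t ∈ Icc s s', γ t ∈ V := fun t ht => hc.mem t ⟨hs.trans ht.1, ht.2.trans_lt hs'⟩
  have hcont : ContinuousOn (fun t => (Psi (γ t)).2.1) (Icc s s') := by
    have h1 : ContinuousOn (fun t => Psi (γ t)) (Icc s s') :=
      H.iso.smooth.continuousOn.comp hc.cont.continuousOn hmem
    exact (continuous_fst.comp continuous_snd).comp_continuousOn h1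
  obtain ⟨t, ht, hmax⟩ := isCompact_Icc.exists_isMaxOn (nonempty_Icc.2 hss) hcont
  have hneg : (Psi (γ t)).2.1 < 0 := (H.maps _ (hmem t ht)).2
  have hpar : ∀ l ∈ Icc (0:ℝ) 1, s + l * (s' - s) ∈ Icc s s' := by
    intro l hl
    have h1 : 0 ≤ l * (s' - s) := mul_nonneg hl.1 (by linarith only [hss])
    have h2 : l * (s' - s) ≤ 1 * (s' - s) := mul_le_mul_of_nonneg_right hl.2 (by linarith only [hss])
    constructor <;> linarith only [h1, h2]
  have hsI : s ∈ Ico s0 1 := ⟨hs, hss.trans_lt hs'⟩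
  have key := H.push (η := η1) (vs := (Psi (γ t)).2.1) hη hneg (a := fun _ => γ s)
    (m := fun _ => γ s) (b := fun l => γ (s + l * (s' - s))) continuous_const continuous_const
    (hc.cont.comp (by fun_prop)) (fun l _ => by simpa only [one_div, sub_self] using cone_zero (1/4))
    (fun l hl => by
      have h3 := hpar l hl
      exact cone_mono (by norm_num) (by norm_num) (hc.cone s ⟨hs, hsI.2.le⟩ _
        ⟨hs.trans h3.1, h3.2.trans hs'.le⟩ h3.1))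
    (fun l _ => H.V_sub (hc.mem s hsI)) (fun l _ => ⟨hc.mem s hsI, hc.good s hsI⟩)
    (fun l hl => by
      have h3 := hpar l hl
      exact ⟨hmem _ h3, hc.good _ ⟨hs.trans h3.1, h3.2.trans_lt hs'⟩, hmax h3⟩)
    (by simpa using inV_const (hc.mem s hsI))
  have := (key 1 ⟨zero_le_one, le_rfl⟩).2
  simpa using this

lemma curve_u_le (H : SHyp K G Psi Phi V R0 ρ C p0) (hc : SCurve Psi V p0 γ s0 η1)
    (hη : 5 * C * η1 < ρ) {s : ℝ} (hs : s ∈ Ico s0 1) : (Psi (γ s)).2.2.1 ≤ p0.2.2.1 := by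
  have h1 : Tendsto (fun s => (Psi (γ s)).2.2.1) (𝓝[<] 1) (𝓝 p0.2.2.1) :=
    ((continuous_fst.comp (continuous_snd.comp continuous_snd)).tendsto p0).comp hc.tend
  refine ge_of_tendsto h1 ?_
  filter_upwards [Ico_mem_nhdsLT hs.2] with s' hs'
  have h2 := H.rel_ends (cone_mono (by norm_num1) (by norm_num)
    (hc.cone s ⟨hs.1, hs.2.le⟩ s' ⟨hs.1.trans hs'.1, hs'.2.le⟩ hs'.1))
    (H.curve_seg hc hη hs.1 hs'.1 hs'.2)
  exact h2.2.1

lemma zero_notMem (H : SHyp K G Psi Phi V R0 ρ C p0) (hc : SCurve Psi V p0 γ s0 η1) :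
    (0 : P4) ∉ V := by
  intro h0
  have h1 : ContinuousAt Psi 0 := (H.iso.contDiffAt h0).continuousAt
  have h2 : Tendsto γ (𝓝[<] 1) (𝓝 0) := by
    have := hc.cont.tendsto 1
    rw [hc.one] at this
    exact this.mono_left nhdsWithin_le_nhds
  have h3 : Tendsto (fun s => Psi (γ s)) (𝓝[<] 1) (𝓝 (Psi 0)) := h1.tendsto.comp h2
  have h4 := tendsto_nhds_unique h3 hc.tend
  have h5 := (H.maps 0 h0).2
  rw [h4, H.p0v] at h5
  exact lt_irrefl _ h5

/-- moving the break point -/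
lemma reach_move (H : SHyp K G Psi Phi V R0 ρ C p0) (hc : SCurve Psi V p0 γ s0 η1)
    (hη : 5 * C * η < ρ) (hη1 : η1 ≤ η) {s : ℝ} (hs : s ∈ Ico s0 1) {b : P4}
    (hr : Reach V (γ s) b) (hb : ‖Psi b - p0‖ ≤ η) {q : P4} (hq : q ∈ Metric.ball (0 : P4) R0)
    (hq1 : q - γ s ∈ cone (1 / 4)) (hq2 : b - q ∈ cone (1 / 4)) :
    InV V (γ s) q ∧ InV V q b := by
  obtain ⟨m, h1, h2, h3, h4⟩ := hr
  have hbV := h4.right
  have key := H.push (η := η) (vs := (Psi b).2.1) hη (H.maps b hbV).2 (a := fun _ => γ s)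
    (m := fun l => m + l • (q - m)) (b := fun _ => b) continuous_const (by fun_prop)
    continuous_const
    (fun l hl => by
      have : m + l • (q - m) - γ s = (1 - l) • (m - γ s) + l • (q - γ s) := by module
      rw [this]
      exact cone_add (cone_smul (by linarith only [hl.2]) h1) (cone_smul hl.1 hq1))
    (fun l hl => by
      have : b - (m + l • (q - m)) = (1 - l) • (b - m) + l • (b - q) := by module
      rw [this]
      exact cone_add (cone_smul (by linarith only [hl.2]) h2) (cone_smul hl.1 hq2))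
    (fun l hl => ball_seg (H.V_sub h3.right) hq hl)
    (fun l _ => ⟨hc.mem s hs, (hc.good s hs).trans hη1⟩)
    (fun l _ => ⟨hbV, hb, le_rfl⟩) (by simpa using ⟨h3, h4⟩)
  have := key 1 ⟨zero_le_one, le_rfl⟩
  simpa using this

/-- reachable good points are not in the future cone of the exit point -/
lemma not_future (H : SHyp K G Psi Phi V R0 ρ C p0) (hc : SCurve Psi V p0 γ s0 η1)
    (hη : 5 * C * η < ρ) (hη1 : η1 ≤ η) {s : ℝ} (hs : s ∈ Ico s0 1) {b : P4}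
    (hr : Reach V (γ s) b) (hb : ‖Psi b - p0‖ ≤ η) : b.1 < 4 * ‖b.2‖ := by
  by_contra hcon
  push Not at hcon
  have hb' : b - 0 ∈ cone (1 / 4) := by
    rw [sub_zero, mem_cone]; linarith only [hcon]
  have h0 : (0 : P4) - γ s ∈ cone (1 / 4) := by
    rw [zero_sub]; exact cone_mono (by norm_num) (by norm_num) (neg_cone hc hs)
  have := (H.reach_move hc hη hη1 hs hr hb (q := 0) (by simpa only [Metric.mem_ball, dist_self] using H.R0_pos) h0 hb').1.right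
  exact H.zero_notMem hc this

/-- the past region -/
lemma past (H : SHyp K G Psi Phi V R0 ρ C p0) (hc : SCurve Psi V p0 γ s0 η1)
    (hη : 5 * C * η1 < ρ) {s : ℝ} (hs : s ∈ Ico s0 1) {q : P4} (hq1 : q - γ s ∈ cone (1 / 4))
    (hq2 : 4 * ‖q.2‖ < -q.1) :
    InV V (γ s) q ∧ ∀ᶠ s' in 𝓝[<] 1, InV V q (γ s') ∧ γ s' - q ∈ cone (1 / 4) := by
  have htend : Tendsto γ (𝓝[<] 1) (𝓝 0) := by
    have := hc.cont.tendsto 1
    rw [hc.one] at this
    exact this.mono_left nhdsWithin_le_nhds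
  have hev : ∀ᶠ s' in 𝓝[<] (1:ℝ), γ s' - q ∈ cone (1 / 4) := by
    have h1 : Tendsto (fun s' => ‖(γ s' - q).2‖ - 1 / 4 * (γ s' - q).1) (𝓝[<] 1)
        (𝓝 (‖(0 - q).2‖ - 1 / 4 * (0 - q).1)) := by
      have hcont : Continuous (fun z : P4 => ‖(z - q).2‖ - 1 / 4 * (z - q).1) := by (clear * -; fun_prop)
      exact (hcont.tendsto 0).comp htend
    have h2 : ‖(0 - q).2‖ - 1 / 4 * (0 - q).1 < 0 := by
      have e1 : (0 - q).2 = -q.2 := by simp only [zero_sub, Prod.snd_neg]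
      have e2 : (0 - q).1 = -q.1 := by simp only [zero_sub, Prod.fst_neg]
      rw [e1, e2, norm_neg]; linarith only [hq2]
    filter_upwards [h1.eventually (gt_mem_nhds h2)] with s' hs'
    rw [mem_cone]
    have : ‖(γ s' - q).2‖ - 1 / 4 * (γ s' - q).1 < 0 := hs'
    linarith only [hs']
  have hqR : q ∈ Metric.ball (0 : P4) R0 := by
    have h1 := cone_nonneg (by norm_num) hq1
    have e1 : (q - γ s).1 = q.1 - (γ s).1 := rfl
    rw [e1] at h1
    have h2 := H.V_sub (hc.mem s hs)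
    rw [mem_ball_zero_iff] at h2 ⊢
    have h3 := (norm_fst_le (γ s)).trans_lt h2
    rw [Real.norm_eq_abs, abs_of_neg (hc.neg s hs)] at h3
    have h4 := norm_nonneg q.2
    rw [norm_P4]
    apply max_lt
    · rw [abs_of_nonpos (by linarith only [hq2, h4])]; linarith only [h1, h3]
    · linarith only [hq2, h1, h3, h4]
  have key : ∀ s' ∈ Ico s 1, γ s' - q ∈ cone (1 / 4) → InV V (γ s) q ∧ InV V q (γ s') := by
    intro s' hs' hcn
    have hs'I : s' ∈ Ico s0 1 := ⟨hs.1.trans hs'.1, hs'.2⟩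
    have hr : Reach V (γ s) (γ s') := ⟨γ s, by simpa only [one_div, sub_self] using cone_zero (1 / 4),
      cone_mono (by norm_num) (by norm_num) (hc.cone s ⟨hs.1, hs.2.le⟩ s' ⟨hs'I.1, hs'.2.le⟩ hs'.1),
      inV_const (hc.mem s hs), H.curve_seg hc hη hs.1 hs'.1 hs'.2⟩
    exact H.reach_move hc hη le_rfl hs hr (hc.good s' hs'I) hqR hq1 hcn
  have hev2 : ∀ᶠ s' in 𝓝[<] (1:ℝ), s' ∈ Ico s 1 := Ico_mem_nhdsLT hs.2
  constructor
  · obtain ⟨s', h1, h2⟩ := (hev.and hev2).exists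
    exact (key s' h2 h1).1
  · filter_upwards [hev, hev2] with s' h1 h2
    exact ⟨(key s' h2 h1).2, h1⟩

lemma past_u (H : SHyp K G Psi Phi V R0 ρ C p0) (hc : SCurve Psi V p0 γ s0 η1)
    (hη : 5 * C * η1 < ρ) {s : ℝ} (hs : s ∈ Ico s0 1) {q : P4} (hq1 : q - γ s ∈ cone (1 / 4))
    (hq2 : 4 * ‖q.2‖ < -q.1) : (Psi q).2.2.1 ≤ p0.2.2.1 := by
  obtain ⟨-, h2⟩ := H.past hc hη hs hq1 hq2
  obtain ⟨s', h3, h4⟩ := (h2.and (Ico_mem_nhdsLT hs.2)).exists
  have h5 := H.rel_ends h3.2 h3.1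
  exact h5.2.1.trans (H.curve_u_le hc hη ⟨hs.1.trans h4.1, h4.2⟩)

/-- reachable points with bounded `u` are good -/
lemma reach_good (H : SHyp K G Psi Phi V R0 ρ C p0) (hc : SCurve Psi V p0 γ s0 η1)
    {s : ℝ} (hs : s ∈ Ico s0 1) {b : P4} (hr : Reach V (γ s) b)
    (hb : (Psi b).2.2.1 ≤ p0.2.2.1 + η1) : ‖Psi b - p0‖ ≤ 5 * C * η1 := by
  have hbV : b ∈ V := by
    obtain ⟨m, -, -, -, h⟩ := hr
    exact h.right
  have hrel := H.reach_rel hr
  have hv := (H.maps b hbV).2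
  have hη0 : 0 ≤ η1 := η_pos hc
  have hC := H.one_le
  obtain ⟨x1, x2, x3, x4⟩ := norm_P4_le.1 (hc.good s hs)
  simp only [Prod.fst_sub, Prod.snd_sub, H.p0v, sub_zero] at x1 x2 x3 x4
  obtain ⟨a1, a2, a3⟩ := hrel
  obtain ⟨c1, c2⟩ := a3 1 one_pos
  have hCη : η1 ≤ C * η1 := le_mul_of_one_le_left (by linarith only [hη0]) (by linarith only [hC])
  have hV : (Psi b).2.1 - (Psi (γ s)).2.1 ≤ η1 := by linarith only [hv, (abs_le.1 x2).1]
  have hU : (Psi b).2.2.1 - (Psi (γ s)).2.2.1 ≤ 2 * η1 := by linarith only [hb, (abs_le.1 x3).1]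
  have hS : C * ((Psi b).2.1 - (Psi (γ s)).2.1 + 1 * ((Psi b).2.2.1 - (Psi (γ s)).2.2.1) +
      ((Psi b).2.1 - (Psi (γ s)).2.1) / 1) ≤ C * (4 * η1) := by
    gcongr
    rw [div_one]; linarith only [hV, hU]
  refine norm_P4_le.2 ⟨?_, ?_, ?_, ?_⟩
  · simp only [Prod.fst_sub]
    have : (Psi b).1 - p0.1 = ((Psi b).1 - (Psi (γ s)).1) + ((Psi (γ s)).1 - p0.1) := by ring
    rw [this]
    refine (abs_add_le _ _).trans ?_
    linarith only [x1, c1, hCη, hS]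
  · simp only [Prod.fst_sub, Prod.snd_sub, H.p0v, sub_zero]
    rw [abs_le]
    constructor <;> linarith only [a1, hCη, (abs_le.1 x2).1, hη0, hv]
  · simp only [Prod.fst_sub, Prod.snd_sub]
    rw [abs_le]
    constructor <;> linarith only [hη0, a2, hCη, (abs_le.1 x3).1, hb]
  · simp only [Prod.snd_sub]
    have : (Psi b).2.2.2 - p0.2.2.2 = ((Psi b).2.2.2 - (Psi (γ s)).2.2.2) +
      ((Psi (γ s)).2.2.2 - p0.2.2.2) := by ring
    rw [this]
    refine (abs_add_le _ _).trans ?_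
    linarith only [x4, c2, hCη, hS]

/-- near the exit point, good points have `v` close to zero -/
lemma small_v (H : SHyp K G Psi Phi V R0 ρ C p0) (hc : SCurve Psi V p0 γ s0 η1) (hη : η < ρ)
    {vs : ℝ} (hvs : vs < 0) :
    ∃ ε > 0, ∀ z ∈ V, ‖z‖ < ε → ‖Psi z - p0‖ ≤ η → vs < (Psi z).2.1 := by
  obtain ⟨F, hF, hVF⟩ := H.cl _ (KB_compact p0 η vs) (KB_sub hη hvs)
  have h0 : (0 : P4) ∉ F := by
    intro h
    have : (0 : P4) ∈ V ∩ Psi ⁻¹' KB p0 η vs := by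
      rw [hVF]; exact ⟨by simpa only [Metric.mem_ball, dist_self] using H.R0_pos, h⟩
    exact H.zero_notMem hc this.1
  obtain ⟨ε, hε, hball⟩ := Metric.isOpen_iff.1 hF.isOpen_compl 0 h0
  refine ⟨ε, hε, fun z hz hzε hzg => ?_⟩
  by_contra hcon
  push Not at hcon
  have h1 : z ∈ V ∩ Psi ⁻¹' KB p0 η vs := ⟨hz, hzg, hcon⟩
  rw [hVF] at h1
  exact hball (by simpa only [Metric.mem_ball, dist_zero_right] using hzε) h1.2

end SHyp

end Vale.Agent.P354
end
end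

section

section

set_option maxSynthPendingDepth 3

open Set Filter Topology

namespace Vale.Agent.P354

/-- numerical part of the exit lemma, first half -/
lemma exit_theta {C δ k w τ v1 l2 dV dU dV2 dU2 X Y : ℝ} (hC : 1 ≤ C) (hδ : 0 < δ) (hk : 0 < k)
    (hw : 0 < w) (hτ : 0 < τ) (hw2 : w ^ 2 = τ * δ) (hτk : τ * k ≤ w)
    (hdV : dV ≤ τ) (hdU : dU ≤ 2 * δ / k ^ 2) (hl2 : l2 = w / (2 * k * δ))
    (hdV2 : dV2 ≤ v1) (hv1 : v1 * (1 + 1 / l2) ≤ w / (2 * k)) (hdU2 : dU2 ≤ δ)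
    (hX : |X| ≤ C * (dV + (k * w / δ) * dU + dV / (k * w / δ)))
    (hY : |Y| ≤ C * (dV2 + l2 * dU2 + dV2 / l2)) : |X + Y| ≤ 5 * C * w / k := by
  have hl : 0 < k * w / δ := by positivity
  have hl2p : 0 < l2 := by rw [hl2]; positivity
  have hC0 : 0 < C := by linarith only [hC]
  have a1 : dV ≤ w / k := by
    rw [le_div_iff₀ hk]
    exact (mul_le_mul_of_nonneg_right hdV hk.le).trans hτk
  have a2 : (k * w / δ) * dU ≤ 2 * w / k := by
    calc (k * w / δ) * dU ≤ (k * w / δ) * (2 * δ / k ^ 2) := by (clear * - hdU hk hw hδ; gcongr)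
      _ = 2 * w / k := by (clear * - hδ hw hk; field_simp)
  have a3 : dV / (k * w / δ) ≤ w / k := by
    calc dV / (k * w / δ) ≤ τ / (k * w / δ) := by (clear * - hdV hk hw hδ; gcongr)
      _ = (τ * δ) / (k * w) := by field_simp
      _ = w / k := by rw [← hw2]; field_simp
  have a4 : |X| ≤ C * (4 * (w / k)) := by
    refine hX.trans ?_
    have : 2 * w / k = 2 * (w / k) := by ring
    refine mul_le_mul_of_nonneg_left ?_ hC0.le
    linarith only [this, a3, a2, a1]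
  have b1 : dV2 + dV2 / l2 ≤ w / (2 * k) := by
    calc dV2 + dV2 / l2 ≤ v1 + v1 / l2 := by (clear * - hdV2 hl2p; gcongr)
      _ = v1 * (1 + 1 / l2) := by ring
      _ ≤ _ := hv1
  have b2 : l2 * dU2 ≤ w / (2 * k) := by
    calc l2 * dU2 ≤ l2 * δ := by (clear * - hdU2 hl2p; gcongr)
      _ = w / (2 * k) := by rw [hl2]; (clear * - hδ hk hw; field_simp)
  have b3 : |Y| ≤ C * (w / k) := by
    refine hY.trans ?_
    have : w / (2 * k) = (w / k) / 2 := by field_simp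
    refine mul_le_mul_of_nonneg_left ?_ hC0.le
    linarith only [b1, b2, this]
  calc |X + Y| ≤ |X| + |Y| := abs_add_le _ _
    _ ≤ C * (4 * (w / k)) + C * (w / k) := add_le_add a4 b3
    _ = 5 * C * w / k := by ring

/-- numerical part of the exit lemma, second half -/
lemma exit_num {C δ k w τ dv du X1 X2 T : ℝ} (hC : 1 ≤ C) (hk : k = 50 * C ^ 2)
    (hw : 0 < w) (hw2 : w ^ 2 = τ * δ) (hτ : 0 < τ) (hδ : 0 < δ) (hτk : τ * k ≤ w)
    (hdv : τ / 2 ≤ dv) (hdv2 : dv ≤ τ) (hdu : δ ≤ du)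
    (hX1 : |X1| ≤ 5 * C * w / k) (hX2 : |X2| ≤ 5 * C * w / k) :
    (2 * (X1 ^ 2 + X2 ^ 2) + 4 * C ^ 2 * dv ^ 2 ≤ 1 / (8 * C ^ 2) * (dv * du)) ∧
    (|T| ≤ 4 * C * w / k → ¬ (dv * du ≤ 2 * C * T ^ 2)) := by
  have hC0 : 0 < C := by linarith only [hC]
  have hkp : 0 < k := by rw [hk]; positivity
  have hdvdu : w ^ 2 / 2 ≤ dv * du := by
    calc w ^ 2 / 2 = (τ / 2) * δ := by rw [hw2]; ring
      _ ≤ dv * du := by gcongr; linarith only [hτ, hdv]
  have hdv0 : 0 ≤ dv := by linarith only [hτ, hdv]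
  constructor
  · have e1 : X1 ^ 2 ≤ (5 * C * w / k) ^ 2 := by
      rw [← sq_abs X1]; (clear * - hX1; gcongr)
    have e2 : X2 ^ 2 ≤ (5 * C * w / k) ^ 2 := by
      rw [← sq_abs X2]; (clear * - hX2; gcongr)
    have e3 : dv ^ 2 ≤ (w / k) ^ 2 := by
      have : dv ≤ w / k := by
        rw [le_div_iff₀ hkp]
        exact (mul_le_mul_of_nonneg_right hdv2 hkp.le).trans hτk
      (clear * - hdv0 this; gcongr)
    have e4 : 4 * C ^ 2 * dv ^ 2 ≤ 4 * C ^ 2 * (w / k) ^ 2 := by (clear * - e3 hC; gcongr)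
    have e5 : 1 / (8 * C ^ 2) * (w ^ 2 / 2) ≤ 1 / (8 * C ^ 2) * (dv * du) := by (clear * - hdvdu hC; gcongr)
    have e6 : 2 * ((5 * C * w / k) ^ 2 + (5 * C * w / k) ^ 2) + 4 * C ^ 2 * (w / k) ^ 2 =
        104 * C ^ 2 * w ^ 2 / k ^ 2 := by field_simp; ring
    have e7 : 104 * C ^ 2 * w ^ 2 / k ^ 2 ≤ 1 / (8 * C ^ 2) * (w ^ 2 / 2) := by
      rw [hk]
      have h1 : 104 * C ^ 2 * w ^ 2 / (50 * C ^ 2) ^ 2 = (104 / 2500) * (w ^ 2 / C ^ 2) := by
        field_simp; ring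
      have h2 : 1 / (8 * C ^ 2) * (w ^ 2 / 2) = (1 / 16) * (w ^ 2 / C ^ 2) := by
        field_simp; ring
      rw [h1, h2]
      have : 0 ≤ w ^ 2 / C ^ 2 := by positivity
      linarith only [this]
    (clear * - e1 e2 e4 e5 e6 e7; linarith)
  · intro hT hcon
    have e1 : T ^ 2 ≤ (4 * C * w / k) ^ 2 := by
      rw [← sq_abs T]; (clear * - hT; gcongr)
    have e2 : 2 * C * T ^ 2 ≤ 2 * C * (4 * C * w / k) ^ 2 := by (clear * - e1 hC; gcongr)
    have e3 : 2 * C * (4 * C * w / k) ^ 2 = (32 / 2500) * (w ^ 2 / C) := by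
      rw [hk]; field_simp; ring
    have e4 : w ^ 2 / C ≤ w ^ 2 := div_le_self (by positivity) hC
    have e5 : 0 < w ^ 2 := by positivity
    have e6 : 0 < w ^ 2 / C := by positivity
    linarith only [hdvdu, hcon, e2, e3, e4, e5]

lemma vline_sub (t t' : ℝ) (x : ℝ × ℝ × ℝ) : ((t, x) : P4) - (t', x) = (t - t', 0) := by
  simp

lemma vline_cone {t t' : ℝ} (h : t' ≤ t) (x : ℝ × ℝ × ℝ) :
    ((t, x) : P4) - (t', x) ∈ cone (1 / 4) := by
  rw [vline_sub, mem_cone]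
  simp only [norm_zero]
  linarith

lemma vline_inV {V : Set P4} {t t' : ℝ} (h : t' ≤ t) {x : ℝ × ℝ × ℝ}
    (hV : ∀ s ∈ Icc t' t, ((s, x) : P4) ∈ V) : InV V (t', x) (t, x) := by
  intro τ hτ
  have : ((t', x) : P4) + τ • ((t, x) - (t', x)) = (t' + τ * (t - t'), x) := by
    rw [vline_sub]
    ext <;> simp only [Prod.smul_mk, smul_eq_mul, smul_zero, Prod.mk_add_mk, add_zero]
  rw [this]
  have h1 : 0 ≤ τ * (t - t') := mul_nonneg hτ.1 (by linarith)
  have h2 : τ * (t - t') ≤ 1 * (t - t') := mul_le_mul_of_nonneg_right hτ.2 (by linarith only [h])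
  exact hV _ ⟨by linarith only [h1], by linarith only [h2]⟩

namespace SHyp

variable {K : Coef} {G : P4 → P4 →L[ℝ] P4 →L[ℝ] ℝ} {Psi Phi : P4 → P4} {V : Set P4}
  {R0 ρ C : ℝ} {p0 : P4} {γ : ℝ → P4} {s0 η1 η : ℝ}

/-- the exotic time to the exit point is bounded by the null coordinates -/
lemma ts_bound (H : SHyp K G Psi Phi V R0 ρ C p0) (hc : SCurve Psi V p0 γ s0 η1)
    (hη : 5 * C * η1 < ρ) {s : ℝ} (hs : s ∈ Ico s0 1) {l : ℝ} (hl : 0 < l) :
    -(γ s).1 ≤ C * (l * (p0.2.2.1 - (Psi (γ s)).2.2.1) + (-(Psi (γ s)).2.1) / l) := by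
  have hC := H.one_le
  have htend : Tendsto (fun s' => (γ s').1 - (γ s).1) (𝓝[<] 1) (𝓝 (-(γ s).1)) := by
    have h1 := hc.cont.tendsto 1
    rw [hc.one] at h1
    have h2 : Tendsto (fun s' => (γ s').1) (𝓝 1) (𝓝 ((0 : P4).1)) :=
      (continuous_fst.tendsto _).comp h1
    have h3 := (h2.mono_left (nhdsWithin_le_nhds (s := Iio 1))).sub_const (γ s).1
    simpa only [Prod.fst_zero, zero_sub] using h3
  refine le_of_tendsto htend ?_
  filter_upwards [Ico_mem_nhdsLT hs.2] with s' hs'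
  have hs'I : s' ∈ Ico s0 1 := ⟨hs.1.trans hs'.1, hs'.2⟩
  have h1 := H.len_upper (cone_mono (by norm_num) (by norm_num)
    (hc.cone s ⟨hs.1, hs.2.le⟩ s' ⟨hs'I.1, hs'.2.le⟩ hs'.1))
    (H.curve_seg hc hη hs.1 hs'.1 hs'.2) hl
  have h2 := H.curve_u_le hc hη hs'I
  have h3 := (H.maps _ (hc.mem s' hs'I)).2
  refine h1.trans ?_
  gcongr
  linarith only [h3]

/-- core of the regular exit lemma -/
lemma exit_core (H : SHyp K G Psi Phi V R0 ρ C p0) (hc : SCurve Psi V p0 γ s0 η1)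
    (hη1 : 0 < η1) (hη : 5 * C * (5 * C * η1) < ρ) (hη2 : 280 * C ^ 6 * (5 * C * η1) ≤ 1)
    {k w : ℝ} (hk : k = 50 * C ^ 2) {s1 s : ℝ} (hs1 : s1 ∈ Ico s0 1) (hs : s ∈ Ico s1 1)
    (hsR : ‖γ s‖ ≤ R0 / 8) (hμ : p0.2.2.1 - (Psi (γ s)).2.2.1 ≤ η1 / k ^ 2)
    (hτ : -(Psi (γ s)).2.1 ≤ η1 / k ^ 2) (hw : 0 < w) (hw2 : w ^ 2 = -(Psi (γ s)).2.1 * η1)
    {r' v1 : ℝ} (hr1 : r' ≤ -(γ s).1 / 16) (hr2 : 4 * r' ≤ R0 / 8)
    (hv1 : v1 * (1 + 1 / (w / (2 * k * η1))) ≤ w / (2 * k)) (hv2 : v1 ≤ -(Psi (γ s)).2.1 / 2)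
    {b q : P4} (hb : Reach V (γ s1) b) (hq : Reach V (γ s1) q)
    (hbu : (Psi b).2.2.1 = p0.2.2.1 + η1 / k ^ 2) (hqu : (Psi q).2.2.1 = p0.2.2.1 + η1)
    (hbq : InV V b q) (hbqc : q - b ∈ cone (1 / 4)) (hbr : ‖b.2‖ ≤ r') (hqr : ‖q.2‖ ≤ r')
    (hb4 : -(4 * r') ≤ b.1) (hq4 : |q.1| ≤ 4 * r') (hbv : -v1 ≤ (Psi b).2.1) : False := by
  have hC := H.one_le
  have hC0 : 0 < C := by linarith only [hC]
  have hkp : 0 < k := by rw [hk]; (clear * - hC; positivity)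
  have hk1 : 1 ≤ k ^ 2 := by
    have h1 : 1 ≤ k := by
      rw [hk]
      have : 1 ≤ C ^ 2 := one_le_pow₀ hC
      linarith only [this]
    exact one_le_pow₀ h1
  have hsI : s ∈ Ico s0 1 := ⟨hs1.1.trans hs.1, hs.2⟩
  have hη1' : 5 * C * η1 < ρ := by
    have : 5 * C * η1 ≤ 5 * C * (5 * C * η1) := by
      have h1 : 1 * (5 * C * η1) ≤ (5 * C) * (5 * C * η1) := by
        gcongr; linarith only [hC]
      linarith only [h1]
    linarith only [hη, this]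
  have hη1le : η1 ≤ 5 * C * η1 := le_mul_of_one_le_left (by linarith only [hη1]) (by linarith only [hC])
  have hdel : η1 / k ^ 2 ≤ η1 := div_le_self hη1.le hk1
  set τ := -(Psi (γ s)).2.1 with hτdef
  have hτpos : 0 < τ := by
    have := (H.maps _ (hc.mem s hsI)).2
    rw [hτdef]; linarith only [this]
  have hτk : τ * k ≤ w := by
    apply le_of_sq_le_sq _ hw.le
    rw [hw2, mul_pow]
    have : τ * k ^ 2 ≤ η1 := by
      rw [le_div_iff₀ (by (clear * - hkp; positivity))] at hτ; exact hτ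
    linarith only [mul_le_mul_of_nonneg_left this hτpos.le]
  -- |t_s|
  have hts : -(γ s).1 ≤ 2 * C * w / k := by
    have h1 := H.ts_bound hc hη1' hsI (l := k * w / η1) (by (clear * - hkp hw hη1; positivity))
    refine h1.trans ?_
    have e1 : (k * w / η1) * (p0.2.2.1 - (Psi (γ s)).2.2.1) ≤ w / k := by
      calc (k * w / η1) * (p0.2.2.1 - (Psi (γ s)).2.2.1) ≤ (k * w / η1) * (η1 / k ^ 2) := by (clear * - hμ hkp hw hη1; gcongr)
        _ = w / k := by (clear * - hη1 hw hkp; field_simp)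
    have e2 : τ / (k * w / η1) ≤ w / k := by
      refine le_of_eq ?_
      calc τ / (k * w / η1) = (τ * η1) / (k * w) := by (clear * - hη1 hw hkp hτpos; field_simp)
        _ = w / k := by rw [← hw2]; (clear * - hkp hw; field_simp)
    calc _ ≤ C * (w / k + w / k) := by (clear * - e1 e2 hC; gcongr)
      _ = 2 * C * w / k := by ring
  -- membership
  have hneg := hc.neg s hsI
  have hnc := neg_cone hc hsI
  rw [mem_cone] at hnc
  have hn1 : (-γ s).2 = -(γ s).2 := rfl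
  have hn2 : (-γ s).1 = -(γ s).1 := rfl
  rw [hn1, hn2, norm_neg] at hnc
  have hsub : ∀ z : P4, ‖z.2‖ ≤ r' → -(4 * r') ≤ z.1 → z - γ s ∈ cone (1 / 4) := by
    intro z h1 h2
    rw [mem_cone]
    have e1 : (z - γ s).2 = z.2 - (γ s).2 := rfl
    have e2 : (z - γ s).1 = z.1 - (γ s).1 := rfl
    rw [e1, e2]
    refine (norm_sub_le _ _).trans ?_
    linarith only [hr1, hnc, h1, h2]
  have hgb : ‖Psi b - p0‖ ≤ 5 * C * η1 := H.reach_good hc hs1 hb (by rw [hbu]; linarith only [hdel])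
  have hgq : ‖Psi q - p0‖ ≤ 5 * C * η1 := H.reach_good hc hs1 hq (by rw [hqu])
  have hsball : γ s ∈ Metric.ball (0 : P4) R0 := H.V_sub (hc.mem s hsI)
  have hs1s : γ s - γ s1 ∈ cone (1 / 4) := cone_mono (by norm_num) (by norm_num)
    (hc.cone s1 ⟨hs1.1, hs1.2.le⟩ s ⟨hsI.1, hs.2.le⟩ hs.1)
  have hqc : q - γ s ∈ cone (1 / 4) := hsub q hqr (abs_le.1 hq4).1
  have hbc : b - γ s ∈ cone (1 / 4) := hsub b hbr hb4
  have hinq : InV V (γ s) q :=
    (H.reach_move hc hη hη1le hs1 hq hgq hsball hs1s hqc).2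
  have hinb : InV V (γ s) b :=
    (H.reach_move hc hη hη1le hs1 hb hgb hsball hs1s hbc).2
  have r1 := H.rel_ends hbc hinb
  have r2 := H.rel_ends hbqc hbq
  have hbneg := (H.maps b hinb.right).2
  have hqneg := (H.maps q hinq.right).2
  have hl2p : 0 < w / (2 * k * η1) := by (clear * - hw hkp hη1; positivity)
  obtain ⟨x1, x2⟩ := r1.2.2 (k * w / η1) (by (clear * - hkp hw hη1; positivity))
  obtain ⟨y1, y2⟩ := r2.2.2 (w / (2 * k * η1)) hl2p
  have hdV : (Psi b).2.1 - (Psi (γ s)).2.1 ≤ τ := by rw [hτdef]; linarith only [hbneg]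
  have hdU : (Psi b).2.2.1 - (Psi (γ s)).2.2.1 ≤ 2 * η1 / k ^ 2 := by
    rw [hbu]
    have : 2 * η1 / k ^ 2 = η1 / k ^ 2 + η1 / k ^ 2 := by ring
    linarith only [hμ, this]
  have hdV2 : (Psi q).2.1 - (Psi b).2.1 ≤ v1 := by linarith only [hbv, hqneg]
  have hdU2 : (Psi q).2.2.1 - (Psi b).2.2.1 ≤ η1 := by
    rw [hbu, hqu]
    have : 0 ≤ η1 / k ^ 2 := by (clear * - hη1 hkp; positivity)
    linarith only [hbv, hτ, hv2, hbneg]
  have T1 := exit_theta (X := (Psi b).1 - (Psi (γ s)).1) (Y := (Psi q).1 - (Psi b).1) hC hη1 hkp hw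
    hτpos hw2 hτk hdV hdU rfl hdV2 hv1 hdU2 x1 y1
  have T2 := exit_theta (X := (Psi b).2.2.2 - (Psi (γ s)).2.2.2)
    (Y := (Psi q).2.2.2 - (Psi b).2.2.2) hC hη1 hkp hw
    hτpos hw2 hτk hdV hdU rfl hdV2 hv1 hdU2 x2 y2
  have s1' : (Psi b).1 - (Psi (γ s)).1 + ((Psi q).1 - (Psi b).1) =
    (Psi q).1 - (Psi (γ s)).1 := by ring
  have s2' : (Psi b).2.2.2 - (Psi (γ s)).2.2.2 + ((Psi q).2.2.2 - (Psi b).2.2.2) =
    (Psi q).2.2.2 - (Psi (γ s)).2.2.2 := by ring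
  rw [s1'] at T1
  rw [s2'] at T2
  have hdv : τ / 2 ≤ (Psi q).2.1 - (Psi (γ s)).2.1 := by
    have := r2.1
    rw [hτdef] at hv2 ⊢
    linarith only [hbv, hv2, this]
  have hdv2 : (Psi q).2.1 - (Psi (γ s)).2.1 ≤ τ := by rw [hτdef]; linarith only [hqneg]
  have hule := H.curve_u_le hc hη1' hsI
  have hdu : η1 ≤ (Psi q).2.2.1 - (Psi (γ s)).2.2.1 := by rw [hqu]; linarith only [hule]
  obtain ⟨N1, N2⟩ := exit_num (T := q.1 - (γ s).1) hC hk hw hw2 hτpos hη1 hτk hdv hdv2 hdu T1 T2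
  have hqs : |q.1 - (γ s).1| ≤ 4 * C * w / k := by
    obtain ⟨q1, q2⟩ := abs_le.1 hq4
    have h1 : q.1 - (γ s).1 ≤ 2 * (2 * C * w / k) := by linarith only [hr1, hts, hneg, q2]
    have h2 : 2 * (2 * C * w / k) = 4 * C * w / k := by ring
    rw [h2] at h1
    rw [abs_le]
    constructor
    · have h0 : 0 ≤ q.1 - (γ s).1 := by linarith only [hr1, hneg, q1]
      linarith only [hr1, hts, hneg, q1, h2]
    · exact h1
  refine N2 hqs ?_
  refine H.len_lower hqc hinq hsR ?_ hη hη2 ((hc.good s hsI).trans hη1le) hgq ?_ ?_ N1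
  · rw [norm_P4]
    apply max_le
    · exact hq4.trans hr2
    · have : 0 ≤ r' := (norm_nonneg _).trans hqr
      linarith only [hr2, hqr, this]
  · have e : (q - γ s).1 = q.1 - (γ s).1 := rfl
    rw [e]
    have := (abs_le.1 hq4).1
    linarith only [hr1, hneg, this]
  · linarith only [hqu, hdel, hτ, hqneg, hule]

end SHyp

end Vale.Agent.P354
end
end

section

section

set_option maxSynthPendingDepth 3

open Set Filter Topology

namespace Vale.Agent.P354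

/-- the segment from `a` to `b` is future timelike -/
def TSeg (G : P4 → P4 →L[ℝ] P4 →L[ℝ] ℝ) (a b : P4) : Prop :=
  (∀ τ ∈ Icc (0:ℝ) 1, G (a + τ • (b - a)) (b - a) (b - a) < 0) ∧ 0 < (b - a).1

namespace SHyp

variable {K : Coef} {G : P4 → P4 →L[ℝ] P4 →L[ℝ] ℝ} {Psi Phi : P4 → P4} {V : Set P4}
  {R0 ρ C : ℝ} {p0 : P4}

lemma fc_time (H : SHyp K G Psi Phi V R0 ρ C p0) {z a : P4} (hz : z ∈ V)
    (ha : G z a a < 0) (h0 : 0 < a.1) : FC K C (Psi z) (fderiv ℝ Psi z a) := by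
  have h5 := H.v_pos hz ha h0
  rw [H.iso.iso z hz] at ha
  exact H.fc_of_timelike (H.maps z hz) ha h5

lemma rel_segG (H : SHyp K G Psi Phi V R0 ρ C p0) {a b : P4} (hab : TSeg G a b)
    (hin : InV V a b) {τ1 τ2 : ℝ} (h0 : 0 ≤ τ1) (h12 : τ1 ≤ τ2) (h2 : τ2 ≤ 1) :
    Rel C (Psi (a + τ1 • (b - a))) (Psi (a + τ2 • (b - a))) := by
  have hin' : ∀ τ ∈ Icc τ1 τ2, a + τ • (b - a) ∈ V :=
    fun τ hτ => hin τ ⟨h0.trans hτ.1, hτ.2.trans h2⟩
  exact rel_of_curve (K := K) (ν := fun τ => Psi (a + τ • (b - a)))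
    (ν' := fun τ => fderiv ℝ Psi (a + τ • (b - a)) (b - a)) h12
    (fun τ hτ => H.hasDerivAt_seg (hin' τ hτ)) (fun τ hτ => H.cbd (hin' τ hτ))
    (fun τ hτ => H.fc_time (hin' τ hτ) (hab.1 τ ⟨h0.trans hτ.1, hτ.2.trans h2⟩) hab.2)

/-- points of future timelike segments between good points stay in a compact set -/
lemma seg_mem_KBG (H : SHyp K G Psi Phi V R0 ρ C p0) {η vs : ℝ} {a b : P4} (hab : TSeg G a b)
    (hin : InV V a b) (ha : ‖Psi a - p0‖ ≤ η) (hb : ‖Psi b - p0‖ ≤ η)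
    (hbv : (Psi b).2.1 ≤ vs) {τ : ℝ} (hτ : τ ∈ Icc (0:ℝ) 1) :
    Psi (a + τ • (b - a)) ∈ KB p0 (5 * C * η) vs := by
  have hbneg : (Psi b).2.1 < 0 := (H.maps b hin.right).2
  have r1 := H.rel_segG hab hin le_rfl hτ.1 hτ.2
  have r2 := H.rel_segG hab hin hτ.1 hτ.2 le_rfl
  simp only [zero_smul, add_zero, one_smul, add_sub_cancel] at r1 r2
  have := confine H.one_le H.p0v r1 r2 ha hb hbneg
  exact ⟨this.1, this.2.trans hbv⟩

/-- moving the ends of a future timelike segment -/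
lemma pushG (H : SHyp K G Psi Phi V R0 ρ C p0) {η vs : ℝ} (hη : 5 * C * η < ρ) (hvs : vs < 0)
    {a b : ℝ → P4} (ha : Continuous a) (hb : Continuous b)
    (hab : ∀ l ∈ Icc (0:ℝ) 1, TSeg G (a l) (b l))
    (haV : ∀ l ∈ Icc (0:ℝ) 1, a l ∈ V ∧ ‖Psi (a l) - p0‖ ≤ η)
    (hbV : ∀ l ∈ Icc (0:ℝ) 1, b l ∈ V ∧ ‖Psi (b l) - p0‖ ≤ η ∧ (Psi (b l)).2.1 ≤ vs)
    (h0 : InV V (a 0) (b 0)) : ∀ l ∈ Icc (0:ℝ) 1, InV V (a l) (b l) := by
  obtain ⟨F, hF, hVF⟩ := H.cl _ (KB_compact p0 (5 * C * η) vs) (KB_sub hη hvs)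
  set S : Set ℝ := {l | InV V (a l) (b l)} with hS
  have hset : S ∩ Icc 0 1 = {l | l ∈ Icc (0:ℝ) 1 ∧ ∀ τ ∈ Icc (0:ℝ) 1,
      a l + τ • (b l - a l) ∈ F} := by
    ext l
    constructor
    · rintro ⟨h1, hl⟩
      refine ⟨hl, fun τ hτ => ?_⟩
      have h3 := H.seg_mem_KBG (hab l hl) h1 (haV l hl).2 (hbV l hl).2.1 (hbV l hl).2.2 hτ
      have h4 : a l + τ • (b l - a l) ∈ V ∩ Psi ⁻¹' KB p0 (5 * C * η) vs := ⟨h1 τ hτ, h3⟩
      rw [hVF] at h4
      exact h4.2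
    · rintro ⟨hl, h⟩
      refine ⟨fun τ hτ => ?_, hl⟩
      have h4 : a l + τ • (b l - a l) ∈ Metric.ball (0 : P4) R0 ∩ F :=
        ⟨ball_seg (H.V_sub (haV l hl).1) (H.V_sub (hbV l hl).1) hτ, h τ hτ⟩
      rw [← hVF] at h4
      exact h4.1
  have hclosed : IsClosed (S ∩ Icc 0 1) := by
    rw [hset]
    have : {l : ℝ | l ∈ Icc (0:ℝ) 1 ∧ ∀ τ ∈ Icc (0:ℝ) 1, a l + τ • (b l - a l) ∈ F} =
        Icc (0:ℝ) 1 ∩ ⋂ τ ∈ Icc (0:ℝ) 1, (fun l => a l + τ • (b l - a l)) ⁻¹' F := by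
      ext l; simp only [mem_Icc, and_imp, mem_ofPred_eq, mem_inter_iff, mem_iInter, mem_preimage]
    rw [this]
    refine isClosed_Icc.inter (isClosed_biInter fun τ _ => ?_)
    exact hF.preimage (by fun_prop)
  have key : Icc (0:ℝ) 1 ⊆ S := by
    refine hclosed.Icc_subset_of_forall_mem_nhdsWithin h0 ?_
    rintro l ⟨h1, hl⟩
    refine mem_nhdsWithin_of_mem_nhds ?_
    filter_upwards [tube H.iso.isOpen ha hb h1] with l' k1
    exact k1
  exact fun l hl => key hl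

end SHyp

end Vale.Agent.P354
end
end

section

section

set_option maxSynthPendingDepth 3

open Set Filter Topology

namespace Vale.Agent.P354

lemma ball_segE {E a b : P4} {δ : ℝ} (ha : ‖a - E‖ < δ) (hb : ‖b - E‖ < δ) {τ : ℝ}
    (hτ : τ ∈ Icc (0:ℝ) 1) : ‖a + τ • (b - a) - E‖ < δ := by
  have h1 : a ∈ Metric.ball E δ := by rwa [mem_ball_iff_norm]
  have h2 : b ∈ Metric.ball E δ := by rwa [mem_ball_iff_norm]
  have := (convex_ball E δ).add_smul_sub_mem h1 h2 hτ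
  rwa [mem_ball_iff_norm] at this

namespace SHyp

variable {K : Coef} {G : P4 → P4 →L[ℝ] P4 →L[ℝ] ℝ} {Psi Phi : P4 → P4} {V : Set P4}
  {R0 ρ C : ℝ} {p0 : P4}

/-- the length of a timelike segment is bounded by the null coordinates -/
lemma len_upG (H : SHyp K G Psi Phi V R0 ρ C p0) {a b : P4} (hab : TSeg G a b)
    (hin : InV V a b) {m : ℝ}
    (hm2 : ∀ τ ∈ Icc (0:ℝ) 1, G (a + τ • (b - a)) (b - a) (b - a) ≤ -m ^ 2) :
    m ≤ C * (((Psi b).2.2.1 - (Psi a).2.2.1) + ((Psi b).2.1 - (Psi a).2.1)) := by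
  have hd : ∀ τ ∈ Icc (0:ℝ) 1, HasDerivAt (fun τ : ℝ => Psi (a + τ • (b - a)))
      (fderiv ℝ Psi (a + τ • (b - a)) (b - a)) τ := fun τ hτ => H.hasDerivAt_seg (hin τ hτ)
  have hd2 : ∀ τ ∈ Icc (0:ℝ) 1, HasDerivAt (fun τ : ℝ => (Psi (a + τ • (b - a))).2.1)
      (fderiv ℝ Psi (a + τ • (b - a)) (b - a)).2.1 τ := fun τ hτ => (hd τ hτ).snd.fst
  have hd3 : ∀ τ ∈ Icc (0:ℝ) 1, HasDerivAt (fun τ : ℝ => (Psi (a + τ • (b - a))).2.2.1)
      (fderiv ℝ Psi (a + τ • (b - a)) (b - a)).2.2.1 τ := fun τ hτ => (hd τ hτ).snd.snd.fst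
  have hg : ∀ τ ∈ Icc (0:ℝ) 1, HasDerivAt (fun τ : ℝ => C * ((Psi (a + τ • (b - a))).2.2.1
      + (Psi (a + τ • (b - a))).2.1))
      (C * ((fderiv ℝ Psi (a + τ • (b - a)) (b - a)).2.2.1
        + (fderiv ℝ Psi (a + τ • (b - a)) (b - a)).2.1)) τ := fun τ hτ =>
    ((hd3 τ hτ).add (hd2 τ hτ)).const_mul C
  have hf : ∀ τ ∈ Icc (0:ℝ) 1, HasDerivAt (fun τ : ℝ => τ * m) m τ := by
    intro τ _
    simpa only [id_eq, one_mul] using (hasDerivAt_id τ).mul_const m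
  have := le_of_deriv zero_le_one hf hg (fun τ hτ => by
    have hz := hin τ hτ
    have hfc := H.fc_time hz (hab.1 τ hτ) hab.2
    have hN := hm2 τ hτ
    rw [H.iso.iso _ hz, gF_diag] at hN
    have hc := H.cbd hz
    have hQ := hc.Q_nonneg (K.h1 (Psi (a + τ • (b - a))) (fderiv ℝ Psi (a + τ • (b - a)) (b - a)))
      (K.h2 (Psi (a + τ • (b - a))) (fderiv ℝ Psi (a + τ • (b - a)) (b - a)))
    set w := fderiv ℝ Psi (a + τ • (b - a)) (b - a) with hw
    obtain ⟨f1, f2, -⟩ := hfc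
    have h5 : m ^ 2 ≤ 2 * C * (w.2.1 * w.2.2.1) := by
      have : K.om (Psi (a + τ • (b - a))) * (w.2.1 * w.2.2.1) ≤ C * (w.2.1 * w.2.2.1) :=
        mul_le_mul_of_nonneg_right hc.om_hi (mul_nonneg f1 f2)
      linarith only [hN, hQ, this]
    have hC := hc.one_le
    have h6 : m ^ 2 ≤ (C * (w.2.2.1 + w.2.1)) ^ 2 := by
      have h7 : 4 * (w.2.1 * w.2.2.1) ≤ (w.2.2.1 + w.2.1) ^ 2 := by
        linarith only [sq_nonneg (w.2.2.1 - w.2.1)]
      have h8 : C * (w.2.2.1 + w.2.1) ^ 2 ≤ C ^ 2 * (w.2.2.1 + w.2.1) ^ 2 := by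
        have := (powC hC).1
        (clear * - this; gcongr)
      have h9 : 0 ≤ C * (w.2.1 * w.2.2.1) := mul_nonneg hc.C_pos.le (mul_nonneg f1 f2)
      linarith only [mul_nonneg (sub_nonneg.2 hC) (sub_nonneg.2 h9), mul_nonneg (sq_nonneg (C : ℝ)) (sub_nonneg.2 h7), mul_nonneg (sq_nonneg (C : ℝ)) (sq_nonneg (w.2.2.1 + w.2.1 : ℝ)), h5]
    exact le_of_abs_le (abs_le_of_sq_le_sq h6 (mul_nonneg hc.C_pos.le (by linarith only [f1, f2]))))
  simp only [one_mul, zero_mul, sub_zero, one_smul, zero_smul, add_zero, add_sub_cancel] at this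
  refine this.trans (le_of_eq ?_)
  ring

/-- A future timelike curve which starts close to the good exit point `E` on the vertical line
and stays in the region where `u` is bounded remains close to `E`. -/
lemma lateral (H : SHyp K G Psi Phi V R0 ρ C p0) {x : ℝ × ℝ × ℝ} {T Cx δ ω s η vs pu : ℝ}
    (hω : 0 < ω) (hω1 : ω ≤ 1 / 100) (hcl : CloseTo G (T, x) δ ω) (hN : NearM (G (T, x)))
    (hs : 0 < s) (hsδ : s < δ) (hCx : 1 ≤ Cx) (hη : 5 * C * η < ρ) (hvs : vs < 0)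
    (hline : ∀ t ∈ Icc (T - s) (T - s / 2), ((t, x) : P4) ∈ V ∧ ‖Psi (t, x) - p0‖ ≤ η)
    (hua : pu - Cx * s ≤ (Psi (T - s, x)).2.2.1) (hva : -(Cx * s) ≤ (Psi (T - s, x)).2.1)
    {ν ν' : ℝ → P4} (hν0 : ν 0 = (T - s / 2, x))
    (hν : ∀ τ ∈ Icc (0:ℝ) 1, HasDerivAt ν (ν' τ) τ) (hV : ∀ τ ∈ Icc (0:ℝ) 1, ν τ ∈ V)
    (hE : ∀ τ ∈ Icc (0:ℝ) 1, ‖ν τ - (T, x)‖ < δ)
    (hT : ∀ τ ∈ Icc (0:ℝ) 1, G (ν τ) (ν' τ) (ν' τ) < 0) (hp : ∀ τ ∈ Icc (0:ℝ) 1, 0 < (ν' τ).1)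
    (hη2 : ∀ τ ∈ Icc (0:ℝ) 1, ‖Psi (ν τ) - p0‖ ≤ η ∧ (Psi (ν τ)).2.1 ≤ vs ∧
      (Psi (ν τ)).2.2.1 ≤ pu + Cx * s)
    (hωs : 64 * ω * (2 * δ) ≤ s) :
    ∀ τ ∈ Icc (0:ℝ) 1, (0 < (ν τ - (T - s, x)).1 ∧ ∀ z, ‖z - (T, x)‖ < δ →
        G z (ν τ - (T - s, x)) (ν τ - (T - s, x)) < 0) ∧ InV V (T - s, x) (ν τ) ∧
      ‖ν τ - (T, x)‖ ≤ 289 * C ^ 2 * Cx ^ 2 * s := by
  set E : P4 := (T, x) with hEdef
  set a : P4 := (T - s, x) with ha
  set a' : P4 := (T - s / 2, x) with ha'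
  have haa' : ∀ z : P4, z - a = (z - a') + (s / 2) • Tv := by
    intro z
    rw [ha, ha']
    ext
    · simp only [Prod.fst_sub, Tv, Prod.smul_mk, smul_eq_mul, mul_one, mul_zero, Prod.fst_add]; ring
    · simp only [Prod.snd_sub, Prod.fst_sub, Tv, Prod.smul_mk, smul_eq_mul, mul_one, mul_zero, Prod.snd_add, Prod.fst_add, add_zero]
    · simp only [Prod.snd_sub, Prod.fst_sub, Tv, Prod.smul_mk, smul_eq_mul, mul_one, mul_zero, Prod.snd_add, Prod.fst_add, add_zero]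
    · simp only [Prod.snd_sub, Tv, Prod.smul_mk, smul_eq_mul, mul_one, mul_zero, Prod.snd_add, add_zero]
  have haE : a - E = (-s) • Tv := by
    rw [ha, hEdef]
    ext <;> simp only [Prod.mk_sub_mk, sub_sub_cancel_left, sub_self, Tv, neg_smul, Prod.smul_mk, smul_eq_mul, mul_one, mul_zero, Prod.neg_mk, neg_zero, Prod.fst_zero, Prod.snd_zero]
  have haEn : ‖a - E‖ = s := by
    rw [haE, norm_smul, norm_Tv, mul_one, Real.norm_eq_abs, abs_neg, abs_of_pos hs]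
  have ha'E : a' - E = (-(s / 2)) • Tv := by
    rw [ha', hEdef]
    ext <;> simp only [Prod.mk_sub_mk, sub_sub_cancel_left, sub_self, Tv, neg_smul, Prod.smul_mk, smul_eq_mul, mul_one, mul_zero, Prod.neg_mk, neg_zero, Prod.fst_zero, Prod.snd_zero]
  have ha'En : ‖a' - E‖ = s / 2 := by
    rw [ha'E, norm_smul, norm_Tv, mul_one, Real.norm_eq_abs, abs_neg, abs_of_pos (by linarith only [hs])]
  -- displacement
  have hD1 : ∀ τ ∈ Icc (0:ℝ) 1, 0 ≤ (ν τ - a').1 := by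
    intro τ hτ
    have h1 : ∀ t ∈ Icc (0:ℝ) τ, HasDerivAt (fun t => (ν t).1) (ν' t).1 t :=
      fun t ht => (hν t ⟨ht.1, ht.2.trans hτ.2⟩).fst
    have h2 : ∀ t ∈ Icc (0:ℝ) τ, HasDerivAt (fun _ : ℝ => (0:ℝ)) ((fun _ => (0:ℝ)) t) t :=
      fun t _ => hasDerivAt_const t 0
    have := le_of_deriv hτ.1 h2 h1 (fun t ht => (hp t ⟨ht.1, ht.2.trans hτ.2⟩).le)
    rw [hν0] at this
    have e : (ν τ - a').1 = (ν τ).1 - a'.1 := rfl
    rw [e]
    linarith only [this]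
  have hD2 : ∀ τ ∈ Icc (0:ℝ) 1, (ν τ - a').1 ≤ 2 * δ := by
    intro τ hτ
    have h1 : ν τ - a' = (ν τ - E) - (a' - E) := by abel
    have h2 : (ν τ - a').1 ≤ ‖ν τ - a'‖ := (Real.le_norm_self _).trans (norm_fst_le (ν τ - a'))
    have h3 : ‖ν τ - a'‖ ≤ ‖ν τ - E‖ + ‖a' - E‖ := by
      rw [h1]; exact norm_sub_le _ _
    rw [ha'En] at h3
    linarith only [hs, hsδ, h2, h3, hE τ hτ]
  have hclose : ∀ τ ∈ Icc (0:ℝ) 1, ∀ z, ‖z - E‖ < δ →
      G z (ν τ - a) (ν τ - a) ≤ -(s / 16 * (ν τ - a).1) := by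
    intro τ hτ z hz
    have h1 := hN.disp_close (ω := ω) (s := s / 2) (D := ν τ - a') hω hω1 (hD1 τ hτ) (by
        intro b hb hb1
        have := H.disp_curve hω hcl (ν := ν) (ν' := ν') hτ.1
          (fun t ht => hν t ⟨ht.1, ht.2.trans hτ.2⟩) (fun t ht => hV t ⟨ht.1, ht.2.trans hτ.2⟩)
          (fun t ht => hE t ⟨ht.1, ht.2.trans hτ.2⟩) (fun t ht => hT t ⟨ht.1, ht.2.trans hτ.2⟩)
          (fun t ht => hp t ⟨ht.1, ht.2.trans hτ.2⟩) b hb hb1
        rwa [hν0] at this)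
      (by linarith only [hs]) (by
        have : 32 * ω * (ν τ - a').1 ≤ 32 * ω * (2 * δ) := by
          have := hD2 τ hτ
          (clear * - hω this; gcongr)
        linarith only [hωs, this]) (hcl z hz)
    rw [haa']
    refine h1.trans (le_of_eq ?_)
    have : ((ν τ - a') + (s / 2) • Tv).1 = (ν τ - a').1 + s / 2 := by simp only [Tv, Prod.smul_mk, smul_eq_mul, mul_one, mul_zero, Prod.fst_add, Prod.fst_sub]
    rw [this]; ring
  have hpos : ∀ τ ∈ Icc (0:ℝ) 1, 0 < (ν τ - a).1 := by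
    intro τ hτ
    rw [haa']
    have : ((ν τ - a') + (s / 2) • Tv).1 = (ν τ - a').1 + s / 2 := by simp only [Tv, Prod.smul_mk, smul_eq_mul, mul_one, mul_zero, Prod.fst_add, Prod.fst_sub]
    rw [this]
    linarith only [hs, hD1 τ hτ]
  have hTS : ∀ τ ∈ Icc (0:ℝ) 1, TSeg G a (ν τ) := by
    intro τ hτ
    refine ⟨fun t ht => ?_, hpos τ hτ⟩
    have h1 := hclose τ hτ (a + t • (ν τ - a)) (ball_segE (by rw [haEn]; exact hsδ) (hE τ hτ) ht)
    have h2 : 0 < s / 16 * (ν τ - a).1 := mul_pos (by linarith only [hs]) (hpos τ hτ)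
    linarith only [h1, h2]
  have haV := hline (T - s) ⟨le_rfl, by linarith only [hs]⟩
  -- the segments are in V
  have hcn : ContinuousOn ν (Icc 0 1) := fun τ hτ => (hν τ hτ).continuousAt.continuousWithinAt
  have hproj : Continuous (fun l : ℝ => ((projIcc (0:ℝ) 1 zero_le_one l : Icc (0:ℝ) 1) : ℝ)) :=
    continuous_subtype_val.comp continuous_projIcc
  have hcb : Continuous (fun l : ℝ => ν (projIcc (0:ℝ) 1 zero_le_one l)) :=
    hcn.comp_continuous hproj (fun l => (projIcc (0:ℝ) 1 zero_le_one l).2)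
  have hpr : ∀ l ∈ Icc (0:ℝ) 1, ((projIcc (0:ℝ) 1 zero_le_one l : Icc (0:ℝ) 1) : ℝ) = l :=
    fun l hl => by rw [projIcc_of_mem _ hl]
  have hin : ∀ τ ∈ Icc (0:ℝ) 1, InV V a (ν τ) := by
    intro τ hτ
    have key := H.pushG (η := η) (vs := vs) hη hvs (a := fun _ => a)
      (b := fun l => ν (projIcc (0:ℝ) 1 zero_le_one l)) continuous_const hcb
      (fun l hl => by rw [hpr l hl]; exact hTS l hl) (fun l _ => haV)
      (fun l hl => by rw [hpr l hl]; exact ⟨hV l hl, (hη2 l hl).1, (hη2 l hl).2.1⟩)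
      (by
        rw [hpr 0 ⟨le_rfl, zero_le_one⟩, hν0]
        intro t ht
        have : a + t • (a' - a) = (T - s + t * (s / 2), x) := by
          refine Prod.ext ?_ ?_
          · show T - s + t * ((T - s / 2) - (T - s)) = T - s + t * (s / 2)
            ring
          · show x + t • (x - x) = x
            simp
        rw [this]
        have h1 : 0 ≤ t * (s / 2) := mul_nonneg ht.1 (by linarith only [hs])
        have h2 : t * (s / 2) ≤ 1 * (s / 2) := mul_le_mul_of_nonneg_right ht.2 (by linarith only [hs])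
        exact (hline _ ⟨by linarith only [h1], by linarith only [h2]⟩).1) τ hτ
    rwa [hpr τ hτ] at key
  intro τ hτ
  refine ⟨⟨hpos τ hτ, fun z hz => ?_⟩, hin τ hτ, ?_⟩
  · have h1 := hclose τ hτ z hz
    have h2 : 0 < s / 16 * (ν τ - a).1 := mul_pos (by linarith only [hs]) (hpos τ hτ)
    linarith only [h1, h2]
  have hw := hpos τ hτ
  set w1 := (ν τ - a).1 with hw1
  set m := Real.sqrt (s / 16 * w1) with hm
  have hm2 : m ^ 2 = s / 16 * w1 := Real.sq_sqrt (by (clear * - hs hw; positivity))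
  have hm0 : 0 ≤ m := Real.sqrt_nonneg _
  have hlen := H.len_upG (hTS τ hτ) (hin τ hτ) (m := m) (fun t ht => by
    rw [hm2]
    exact hclose τ hτ _ (ball_segE (by rw [haEn]; exact hsδ) (hE τ hτ) ht))
  have hC := H.one_le
  have hC0 : 0 < C := by linarith only [hC]
  have hvb := (H.maps _ (hV τ hτ)).2
  have hub := (hη2 τ hτ).2.2
  have h3 : m ≤ 3 * C * Cx * s := by
    calc m ≤ _ := hlen
      _ ≤ C * (3 * (Cx * s)) := by
        gcongr
        linarith only [hua, hva, hvb, hub]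
      _ = _ := by ring
  have h4 : s / 16 * w1 ≤ (3 * C * Cx * s) ^ 2 := by
    rw [← hm2]
    (clear * - hs hw h3; gcongr)
  have h5 : w1 ≤ 144 * C ^ 2 * Cx ^ 2 * s := by
    have h6 : s * w1 ≤ s * (144 * C ^ 2 * Cx ^ 2 * s) := by linarith only [h4]
    exact le_of_mul_le_mul_left h6 hs
  have h7 : ‖ν τ - a‖ ≤ 2 * w1 := by
    have h8 := (hTS τ hτ).1 0 ⟨le_rfl, zero_le_one⟩
    simp only [zero_smul, add_zero] at h8
    have := (H.nearV haV.1).norm_le_of_causal h8.le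
    rwa [abs_of_pos hw] at this
  have h9 : ν τ - E = (ν τ - a) + (a - E) := by abel
  have h10 : ‖ν τ - E‖ ≤ 2 * w1 + s := by
    rw [h9]
    refine (norm_add_le _ _).trans ?_
    rw [haEn]
    linarith only [h7]
  have h11 : 1 ≤ C ^ 2 * Cx ^ 2 := by
    have h12 : 1 ≤ C ^ 2 := one_le_pow₀ hC
    have h13 : 1 ≤ Cx ^ 2 := one_le_pow₀ hCx
    linarith only [mul_nonneg (sq_nonneg (Cx : ℝ)) (sub_nonneg.2 h12), h13]
  have h14 : s ≤ C ^ 2 * Cx ^ 2 * s := by nlinarith only [hs, h11]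
  linarith only [h5, h10, h14]

end SHyp

end Vale.Agent.P354
end
end

section

section

set_option maxSynthPendingDepth 3

open Set Filter Topology

namespace Vale.Agent.P354

lemma vline_norm (t : ℝ) (x : ℝ × ℝ × ℝ) : ‖((t, x) : P4)‖ = max |t| ‖x‖ := rfl

namespace SHyp

variable {K : Coef} {G : P4 → P4 →L[ℝ] P4 →L[ℝ] ℝ} {Psi Phi : P4 → P4} {V : Set P4}
  {R0 ρ C : ℝ} {p0 : P4} {γ : ℝ → P4} {s0 η1 η : ℝ}

/-- the initial slice -/
lemma slice_cone (hc : SCurve Psi V p0 γ s0 η1) {s1 : ℝ} (hs1 : s1 ∈ Ico s0 1)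
    {x : ℝ × ℝ × ℝ} (hx : ‖x‖ < -(γ s1).1 / 16) :
    (((γ s1).1 / 4, x) : P4) - γ s1 ∈ cone (1 / 4) ∧ 4 * ‖x‖ < -((γ s1).1 / 4) := by
  have hneg := hc.neg s1 hs1
  have hnc := neg_cone hc hs1
  rw [mem_cone] at hnc
  have hn1 : (-γ s1).2 = -(γ s1).2 := rfl
  have hn2 : (-γ s1).1 = -(γ s1).1 := rfl
  rw [hn1, hn2, norm_neg] at hnc
  constructor
  · rw [mem_cone]
    have e1 : ((((γ s1).1 / 4, x) : P4) - γ s1).2 = x - (γ s1).2 := rfl
    have e2 : ((((γ s1).1 / 4, x) : P4) - γ s1).1 = (γ s1).1 / 4 - (γ s1).1 := rfl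
    rw [e1, e2]
    refine (norm_sub_le _ _).trans ?_
    linarith only [hx, hnc]
  · linarith only [hx]

lemma line_reach (H : SHyp K G Psi Phi V R0 ρ C p0) (hc : SCurve Psi V p0 γ s0 η1)
    (hη : 5 * C * η1 < ρ) {s1 : ℝ} (hs1 : s1 ∈ Ico s0 1) {x : ℝ × ℝ × ℝ}
    (hx : ‖x‖ < -(γ s1).1 / 16) {t : ℝ} (ht : (γ s1).1 / 4 ≤ t)
    (hV : ∀ t' ∈ Icc ((γ s1).1 / 4) t, ((t', x) : P4) ∈ V) : Reach V (γ s1) (t, x) := by
  obtain ⟨h1, h2⟩ := slice_cone hc hs1 hx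
  exact ⟨((γ s1).1 / 4, x), h1, vline_cone ht x, (H.past hc hη hs1 h1 h2).1, vline_inV ht hV⟩

/-- Points of vertical lines beyond the exit value of `u` are close to the exit point. -/
lemma line_bound (H : SHyp K G Psi Phi V R0 ρ C p0) (hc : SCurve Psi V p0 γ s0 η1)
    (hη : 5 * C * (5 * C * η1) < ρ) {s1 : ℝ} (hs1 : s1 ∈ Ico s0 1) {x : ℝ × ℝ × ℝ}
    (hx : ‖x‖ < -(γ s1).1 / 16) {t : ℝ} (ht : (γ s1).1 / 4 ≤ t)
    (hV : ∀ t' ∈ Icc ((γ s1).1 / 4) t, ((t', x) : P4) ∈ V)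
    (hu : (Psi (t, x)).2.2.1 ≤ p0.2.2.1 + η1) :
    t < 4 * ‖x‖ ∧ ‖Psi (t, x) - p0‖ ≤ 5 * C * η1 ∧
      (p0.2.2.1 < (Psi (t, x)).2.2.1 → -(4 * ‖x‖) ≤ t) := by
  have hC := H.one_le
  have hη10 : 0 ≤ η1 := η_pos hc
  have hη1le : η1 ≤ 5 * C * η1 := le_mul_of_one_le_left (by linarith only [hη10]) (by linarith only [hC])
  have hη' : 5 * C * η1 < ρ := by
    have : 5 * C * η1 ≤ 5 * C * (5 * C * η1) := by (clear * - hη1le hC; gcongr)
    linarith only [hη, this]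
  have hr := H.line_reach hc hη' hs1 hx ht hV
  have hg := H.reach_good hc hs1 hr hu
  refine ⟨H.not_future hc hη hη1le hs1 hr hg, hg, fun hgt => ?_⟩
  by_contra hcon
  push Not at hcon
  have h1 : ((t, x) : P4) - γ s1 ∈ cone (1 / 4) := by
    have : ((t, x) : P4) - γ s1 = ((t, x) - ((γ s1).1 / 4, x)) + (((γ s1).1 / 4, x) - γ s1) := by
      abel
    rw [this]
    exact cone_add (vline_cone ht x) (slice_cone hc hs1 hx).1
  have h2 : 4 * ‖((t, x) : P4).2‖ < -((t, x) : P4).1 := by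
    simp only; linarith only [hcon]
  have := H.past_u hc hη' hs1 h1 h2
  linarith only [hgt, this]

/-- Vertical lines near the exit point do not leave through a regular boundary value of `u`. -/
lemma no_u_exit (H : SHyp K G Psi Phi V R0 ρ C p0) (hc : SCurve Psi V p0 γ s0 η1)
    (hη1 : 0 < η1) (hη : 5 * C * (5 * C * η1) < ρ) (hη2 : 280 * C ^ 6 * (5 * C * η1) ≤ 1)
    {s1 : ℝ} (hs1 : s1 ∈ Ico s0 1) :
    ∃ r > 0, r ≤ -(γ s1).1 / 16 ∧ 4 * r ≤ R0 / 8 ∧ ∀ x : ℝ × ℝ × ℝ, ‖x‖ < r →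
      ∀ t, (γ s1).1 / 4 ≤ t → (∀ t' ∈ Icc ((γ s1).1 / 4) t, ((t', x) : P4) ∈ V) →
        (Psi (t, x)).2.2.1 < p0.2.2.1 + η1 := by
  have hC := H.one_le
  have hC0 : 0 < C := by linarith only [hC]
  have hη1le : η1 ≤ 5 * C * η1 := le_mul_of_one_le_left (by linarith) (by linarith)
  have hη' : 5 * C * η1 < ρ := by
    have : 5 * C * η1 ≤ 5 * C * (5 * C * η1) := by (clear * - hη1le hC; gcongr)
    linarith only [hη, this]
  set k : ℝ := 50 * C ^ 2 with hk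
  have hkp : 0 < k := by rw [hk]; positivity
  have hk1 : 1 ≤ k ^ 2 := by
    have h1 : 1 ≤ k := by
      rw [hk]
      have : 1 ≤ C ^ 2 := one_le_pow₀ hC
      linarith only [this]
    exact one_le_pow₀ h1
  have hdelpos : 0 < η1 / k ^ 2 := by positivity
  have hdel : η1 / k ^ 2 ≤ η1 := div_le_self hη1.le hk1
  -- choose s
  have ex : ∃ s ∈ Ico s1 1, ‖γ s‖ ≤ R0 / 8 ∧ p0.2.2.1 - (Psi (γ s)).2.2.1 ≤ η1 / k ^ 2 ∧
      -(Psi (γ s)).2.1 ≤ η1 / k ^ 2 := by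
    have htend : Tendsto γ (𝓝[<] 1) (𝓝 0) := by
      have := hc.cont.tendsto 1
      rw [hc.one] at this
      exact this.mono_left nhdsWithin_le_nhds
    have e1 : ∀ᶠ s in 𝓝[<] (1:ℝ), γ s ∈ Metric.ball (0 : P4) (R0 / 8) :=
      htend.eventually (Metric.ball_mem_nhds _ (by linarith only [H.R0_pos]))
    have e2 : ∀ᶠ s in 𝓝[<] (1:ℝ), Psi (γ s) ∈ Metric.ball p0 (η1 / k ^ 2) :=
      hc.tend.eventually (Metric.ball_mem_nhds _ hdelpos)
    obtain ⟨s, ⟨h1, h2⟩, h3⟩ := ((e1.and e2).and (Ico_mem_nhdsLT hs1.2)).exists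
    rw [mem_ball_zero_iff] at h1
    rw [mem_ball_iff_norm] at h2
    obtain ⟨-, x2, x3, -⟩ := norm_P4_le.1 h2.le
    simp only [Prod.fst_sub, Prod.snd_sub, H.p0v, sub_zero] at x2 x3
    exact ⟨s, h3, h1.le, by linarith only [(abs_le.1 x3).1], by linarith only [(abs_le.1 x2).1]⟩
  obtain ⟨s, hs, hsR, hμ, hτ⟩ := ex
  have hsI : s ∈ Ico s0 1 := ⟨hs1.1.trans hs.1, hs.2⟩
  have hτpos : 0 < -(Psi (γ s)).2.1 := by
    have := (H.maps _ (hc.mem s hsI)).2
    linarith only [this]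
  set w : ℝ := Real.sqrt (-(Psi (γ s)).2.1 * η1) with hw
  have hwpos : 0 < w := Real.sqrt_pos.2 (by (clear * - hτpos hη1; positivity))
  have hw2 : w ^ 2 = -(Psi (γ s)).2.1 * η1 := Real.sq_sqrt (by (clear * - hτpos hη1; positivity))
  set a : ℝ := 1 + 1 / (w / (2 * k * η1)) with ha
  have hapos : 0 < a := by (clear * - hτpos hη1 hC; positivity)
  set v1 : ℝ := min (-(Psi (γ s)).2.1 / 2) (w / (2 * k) / a) with hv1
  have hv1pos : 0 < v1 := lt_min (by linarith only [hτpos]) (by (clear * - hτpos hη1 hC; positivity))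
  have hv1a : v1 * a ≤ w / (2 * k) := by
    have : v1 ≤ w / (2 * k) / a := min_le_right _ _
    rwa [le_div_iff₀ hapos] at this
  obtain ⟨ε, hε, hsmall⟩ := H.small_v hc hη' (vs := -v1) (by linarith only [hv1pos])
  have hns1 := hc.neg s1 hs1
  have hns := hc.neg s hsI
  set r : ℝ := min (min (-(γ s).1 / 16) (-(γ s1).1 / 16)) (min (R0 / 32) (ε / 8)) with hr
  have hr1 : r ≤ -(γ s).1 / 16 := (min_le_left _ _).trans (min_le_left _ _)
  have hr2 : r ≤ -(γ s1).1 / 16 := (min_le_left _ _).trans (min_le_right _ _)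
  have hr3 : r ≤ R0 / 32 := (min_le_right _ _).trans (min_le_left _ _)
  have hr4 : r ≤ ε / 8 := (min_le_right _ _).trans (min_le_right _ _)
  have hrpos : 0 < r := lt_min (lt_min (by linarith only [hns]) (by linarith only [hns1]))
    (lt_min (by linarith only [H.R0_pos]) (by linarith only [hε]))
  refine ⟨r, hrpos, hr2, by linarith only [hr3], fun x hx t ht hV => ?_⟩
  by_contra hcon
  push Not at hcon
  have hx1 : ‖x‖ < -(γ s1).1 / 16 := hx.trans_le hr2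
  obtain ⟨hsl1, hsl2⟩ := slice_cone hc hs1 hx1
  have hu0 := H.past_u hc hη' hs1 hsl1 hsl2
  have hcont : ContinuousOn (fun t' => (Psi ((t', x) : P4)).2.2.1) (Icc ((γ s1).1 / 4) t) := by
    have h1 : ContinuousOn (fun t' => Psi ((t', x) : P4)) (Icc ((γ s1).1 / 4) t) :=
      H.iso.smooth.continuousOn.comp (by fun_prop) (fun t' ht' => hV t' ht')
    exact (continuous_fst.comp (continuous_snd.comp continuous_snd)).comp_continuousOn h1
  obtain ⟨t2, ht2, hu2⟩ := intermediate_value_Icc ht hcont (show p0.2.2.1 + η1 ∈ _ from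
    ⟨by linarith only [hη1, hu0], hcon⟩)
  simp only at hu2
  obtain ⟨t1, ht1, hu1⟩ := intermediate_value_Icc ht2.1
    (hcont.mono (Icc_subset_Icc_right ht2.2)) (show p0.2.2.1 + η1 / k ^ 2 ∈ _ from
    ⟨by linarith only [hdelpos, hu0], by simp only [hu2]; linarith only [hdel]⟩)
  simp only at hu1
  have hV2 : ∀ t' ∈ Icc ((γ s1).1 / 4) t2, ((t', x) : P4) ∈ V :=
    fun t' ht' => hV t' ⟨ht'.1, ht'.2.trans ht2.2⟩
  have hV1 : ∀ t' ∈ Icc ((γ s1).1 / 4) t1, ((t', x) : P4) ∈ V :=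
    fun t' ht' => hV2 t' ⟨ht'.1, ht'.2.trans ht1.2⟩
  have B2 := H.line_bound hc hη hs1 hx1 ht2.1 hV2 (by rw [hu2])
  have B1 := H.line_bound hc hη hs1 hx1 ht1.1 hV1 (by rw [hu1]; linarith only [hdel])
  have C2 := B2.2.2 (by rw [hu2]; linarith only [hη1])
  have C1 := B1.2.2 (by rw [hu1]; linarith only [hdelpos])
  have hreach1 := H.line_reach hc hη' hs1 hx1 ht1.1 hV1
  have hreach2 := H.line_reach hc hη' hs1 hx1 ht2.1 hV2
  have hb4 : |t1| ≤ 4 * r := by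
    rw [abs_le]; constructor <;> linarith only [hx, B1.1, C1]
  have hq4 : |t2| ≤ 4 * r := by
    rw [abs_le]; constructor <;> linarith only [hx, B2.1, C2]
  have hbn : ‖((t1, x) : P4)‖ < ε := by
    rw [vline_norm]
    apply max_lt
    · linarith only [hr4, hx, B2, C2, hb4]
    · linarith only [hr4, hx, B2, C2]
  have hbv := hsmall (t1, x) (hV1 t1 ⟨ht1.1, le_rfl⟩) hbn B1.2.1
  exact H.exit_core hc hη1 hη hη2 hk hs1 hs hsR hμ hτ hwpos hw2 (r' := r) (v1 := v1) hr1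
    (by linarith only [hr3]) hv1a (min_le_left _ _) hreach1 hreach2 hu1 hu2
    (vline_inV ht1.2 (fun t' ht' => hV2 t' ⟨ht1.1.trans ht'.1, ht'.2⟩)) (vline_cone ht1.2 x)
    hx.le hx.le (abs_le.1 hb4).1 hq4 hbv.le

end SHyp

end Vale.Agent.P354
end
end

section

section

set_option maxSynthPendingDepth 3

open Set Filter Topology MeasureTheory

namespace Vale.Agent.P354

/-- times reached by the vertical line over `x` inside `V` -/
def TT (V : Set P4) (t0 : ℝ) (x : P3) : Set ℝ := {t | t0 ≤ t ∧ ∀ t' ∈ Icc t0 t, ((t', x) : P4) ∈ V}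

/-- exit time -/
noncomputable def exitT (V : Set P4) (t0 : ℝ) (x : P3) : ℝ := sSup (TT V t0 x)

lemma TT_facts {V : Set P4} (hV : IsOpen V) {x : P3} {t0 M : ℝ} (h0 : ((t0, x) : P4) ∈ V)
    (hM : ∀ t ∈ TT V t0 x, t ≤ M) :
    t0 < exitT V t0 x ∧ (∀ t ∈ Ico t0 (exitT V t0 x), t ∈ TT V t0 x) ∧
      ((exitT V t0 x, x) : P4) ∉ V ∧ (∀ t ∈ TT V t0 x, t < exitT V t0 x) ∧
      exitT V t0 x ≤ M := by
  have hne : t0 ∈ TT V t0 x := by
    refine ⟨le_rfl, fun t' ht' => ?_⟩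
    have : t' = t0 := le_antisymm ht'.2 ht'.1
    rw [this]; exact h0
  have hbdd : BddAbove (TT V t0 x) := ⟨M, hM⟩
  have hico : ∀ t ∈ Ico t0 (exitT V t0 x), t ∈ TT V t0 x := by
    intro t ht
    obtain ⟨t1, ht1, hlt⟩ := exists_lt_of_lt_csSup ⟨t0, hne⟩ ht.2
    exact ⟨ht.1, fun t' ht' => ht1.2 t' ⟨ht'.1, ht'.2.trans hlt.le⟩⟩
  have hge : t0 ≤ exitT V t0 x := le_csSup hbdd hne
  have hnot : ((exitT V t0 x, x) : P4) ∉ V := by
    intro hin
    have hc : Continuous (fun t : ℝ => ((t, x) : P4)) := by fun_prop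
    have h1 : ∀ᶠ t in 𝓝 (exitT V t0 x), ((t, x) : P4) ∈ V :=
      hc.continuousAt.eventually (hV.mem_nhds hin)
    obtain ⟨ε, hε, hball⟩ := Metric.eventually_nhds_iff.1 h1
    have h2 : exitT V t0 x + ε / 2 ∈ TT V t0 x := by
      refine ⟨by linarith only [hge, hε], fun t' ht' => ?_⟩
      rcases lt_or_ge t' (exitT V t0 x) with h | h
      · exact (hico t' ⟨ht'.1, h⟩).2 t' ⟨ht'.1, le_rfl⟩
      · apply hball
        rw [Real.dist_eq, abs_of_nonneg (by linarith only [h])]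
        linarith only [hε, ht'.2]
    have h3 : exitT V t0 x + ε / 2 ≤ exitT V t0 x := le_csSup hbdd h2
    linarith only [hε, h3]
  refine ⟨lt_of_le_of_ne hge ?_, hico, hnot, ?_, csSup_le ⟨t0, hne⟩ hM⟩
  · intro h
    rw [← h] at hnot
    exact hnot h0
  · intro t ht
    refine lt_of_le_of_ne (le_csSup hbdd ht) ?_
    intro h
    have := ht.2 t ⟨ht.1, le_rfl⟩
    rw [h] at this
    exact hnot this

namespace SHyp

variable {K : Coef} {G : P4 → P4 →L[ℝ] P4 →L[ℝ] ℝ} {Psi Phi : P4 → P4} {V : Set P4}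
  {R0 ρ C : ℝ} {p0 : P4} {γ : ℝ → P4} {s0 η1 η : ℝ}

/-- The structure lemma, with the bound of the image. -/
theorem main' (H : SHyp K G Psi Phi V R0 ρ C p0) (hc : SCurve Psi V p0 γ s0 η1)
    (hη1 : 0 < η1) (hη : 5 * C * (5 * C * η1) < ρ) (hη2 : 280 * C ^ 6 * (5 * C * η1) ≤ 1) :
    ∃ (t0 r : ℝ) (f : P3 → ℝ), 0 < r ∧ (∀ x ∈ Metric.ball (0 : P3) r, t0 < f x) ∧
      (∀ x ∈ Metric.ball (0 : P3) r, ∀ t ∈ Ico t0 (f x), ((t, x) : P4) ∈ V) ∧
      IsOpen (DD t0 r f) ∧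
      (∀ r' < r, ∀ v2 < 0, IsCompact {z : P4 | ‖z.2‖ ≤ r' ∧ t0 ≤ z.1 ∧ z.1 < f z.2 ∧
        (Psi z).2.1 ≤ v2}) ∧
      (∀ x ∈ Metric.ball (0 : P3) r, ∀ v2 < 0, ∃ t ∈ Ico t0 (f x), v2 < (Psi (t, x)).2.1) ∧
      (∀ z ∈ DD t0 r f, ‖z‖ ≤ R0 / 2) ∧
      (∀ x ∈ Metric.ball (0 : P3) r, ∀ t ∈ Ico t0 (f x), ‖Psi (t, x) - p0‖ ≤ 5 * C * η1) := by
  have hC := H.one_le
  have hC0 : 0 < C := by linarith
  have hη' : 5 * C * η1 < ρ := by
    have : 5 * C * η1 ≤ 5 * C * (5 * C * η1) := by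
      have : η1 ≤ 5 * C * η1 := le_mul_of_one_le_left (by linarith) (by linarith)
      (clear * - this hC; gcongr)
    (clear * - hη this; linarith)
  have hs0 : s0 ∈ Ico s0 1 := ⟨le_rfl, hc.s0_lt⟩
  obtain ⟨r, hr, hr1, hr2, hexit⟩ := H.no_u_exit hc hη1 hη hη2 hs0
  set t0 := (γ s0).1 / 4 with ht0
  have hneg := hc.neg s0 hs0
  have ht0R : -t0 < R0 / 4 := by
    have h1 := H.V_sub (hc.mem s0 hs0)
    rw [mem_ball_zero_iff] at h1
    have h2 := (norm_fst_le (γ s0)).trans_lt h1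
    rw [Real.norm_eq_abs, abs_of_neg hneg] at h2
    rw [ht0]; linarith only [h2]
  have ht0neg : t0 < 0 := by rw [ht0]; linarith only [hr, hr1]
  have hslice : ∀ x ∈ Metric.ball (0 : P3) r, ((t0, x) : P4) ∈ V := by
    intro x hx
    rw [mem_ball_zero_iff] at hx
    obtain ⟨h1, h2⟩ := slice_cone hc hs0 (hx.trans_le hr1)
    exact (H.past hc hη' hs0 h1 h2).1.right
  -- points on lines
  have hline : ∀ x ∈ Metric.ball (0 : P3) r, ∀ t ∈ TT V t0 x,
      t < 4 * ‖x‖ ∧ ‖Psi (t, x) - p0‖ ≤ 5 * C * η1 := by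
    intro x hx t ht
    rw [mem_ball_zero_iff] at hx
    have h1 := hexit x hx t ht.1 ht.2
    have h2 := H.line_bound hc hη hs0 (hx.trans_le hr1) ht.1 ht.2 h1.le
    exact ⟨h2.1, h2.2.1⟩
  have hM : ∀ x ∈ Metric.ball (0 : P3) r, ∀ t ∈ TT V t0 x, t ≤ 4 * r := by
    intro x hx t ht
    have h1 := (hline x hx t ht).1
    rw [mem_ball_zero_iff] at hx
    linarith only [hx, h1]
  have hfacts := fun x hx => TT_facts H.iso.isOpen (hslice x hx) (hM x hx)
  refine ⟨t0, r, exitT V t0, hr, fun x hx => (hfacts x hx).1, ?_, ?_, ?_, ?_, ?_,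
    fun x hx t ht => (hline x hx t ((hfacts x hx).2.1 t ht)).2⟩
  · intro x hx t ht
    exact ((hfacts x hx).2.1 t ht).2 t ⟨ht.1, le_rfl⟩
  · -- openness
    rw [isOpen_iff_mem_nhds]
    rintro ⟨t, x⟩ ⟨hx, ht, htf⟩
    simp only at hx ht htf
    have hT := (hfacts x hx).2.1 t ⟨ht.le, htf⟩
    have hin : InV V (t0, x) (t, x) := vline_inV ht.le hT.2
    have ev1 : ∀ᶠ z : P4 in 𝓝 (t, x), z.2 ∈ Metric.ball (0 : P3) r :=
      continuous_snd.continuousAt.eventually (Metric.isOpen_ball.mem_nhds hx)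
    have ev2 : ∀ᶠ z : P4 in 𝓝 (t, x), t0 < z.1 :=
      continuous_fst.continuousAt.eventually (lt_mem_nhds ht)
    have ev3 : ∀ᶠ z : P4 in 𝓝 (t, x), ∀ τ ∈ Icc (0:ℝ) 1,
        ((t0 + τ * (z.1 - t0), z.2) : P4) ∈ V := by
      refine isCompact_Icc.eventually_forall_of_forall_eventually
        (P := fun (z : P4) (τ : ℝ) => ((t0 + τ * (z.1 - t0), z.2) : P4) ∈ V) ?_
      intro τ hτ
      have hcc : Continuous (fun p : P4 × ℝ => ((t0 + p.2 * (p.1.1 - t0), p.1.2) : P4)) := by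
        (clear * -; fun_prop)
      refine hcc.continuousAt.eventually (H.iso.isOpen.mem_nhds ?_)
      have h1 : 0 ≤ τ * (t - t0) := mul_nonneg hτ.1 (by linarith only [ht])
      have h2 : τ * (t - t0) ≤ 1 * (t - t0) := mul_le_mul_of_nonneg_right hτ.2 (by linarith only [ht])
      exact hT.2 _ ⟨by simp only; linarith only [h1], by simp only; linarith only [h2]⟩
    filter_upwards [ev1, ev2, ev3] with z h1 h2 h3
    refine ⟨h1, h2, ?_⟩
    refine (hfacts z.2 h1).2.2.2.1 z.1 ⟨h2.le, fun t' ht' => ?_⟩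
    have hpos : 0 < z.1 - t0 := by linarith only [h2]
    have h4 := h3 ((t' - t0) / (z.1 - t0)) ⟨div_nonneg (by linarith only [ht'.1]) hpos.le, by
      rw [div_le_one hpos]; linarith only [ht'.2]⟩
    rw [div_mul_cancel₀ _ hpos.ne'] at h4
    have : t0 + (t' - t0) = t' := by ring
    rwa [this] at h4
  · -- compactness
    intro r' hr' v2 hv2
    obtain ⟨F, hF, hVF⟩ := H.cl _ (KB_compact p0 (5 * C * η1) v2) (KB_sub hη' hv2)
    have hset : {z : P4 | ‖z.2‖ ≤ r' ∧ t0 ≤ z.1 ∧ z.1 < exitT V t0 z.2 ∧ (Psi z).2.1 ≤ v2} =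
        ({z : P4 | ‖z.2‖ ≤ r'} ∩ {z : P4 | t0 ≤ z.1} ∩ {z : P4 | z.1 ≤ 4 * r}) ∩
          ⋂ τ ∈ Icc (0:ℝ) 1, (fun z : P4 => ((t0 + τ * (z.1 - t0), z.2) : P4)) ⁻¹' F := by
      ext z
      simp only [mem_inter_iff, mem_ofPred_eq, mem_iInter, mem_preimage]
      constructor
      · rintro ⟨h1, h2, h3, h4⟩
        have hzb : z.2 ∈ Metric.ball (0 : P3) r := by
          rw [mem_ball_zero_iff]; exact h1.trans_lt hr'
        have hT := (hfacts z.2 hzb).2.1 z.1 ⟨h2, h3⟩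
        refine ⟨⟨⟨h1, h2⟩, hM z.2 hzb z.1 hT⟩, fun τ hτ => ?_⟩
        have e1 : 0 ≤ τ * (z.1 - t0) := mul_nonneg hτ.1 (by linarith only [h2])
        have e2 : τ * (z.1 - t0) ≤ 1 * (z.1 - t0) := mul_le_mul_of_nonneg_right hτ.2 (by linarith only [h2])
        set t' := t0 + τ * (z.1 - t0) with ht'
        have ht'1 : t0 ≤ t' := by linarith only [e1]
        have ht'2 : t' ≤ z.1 := by linarith only [e2]
        have hT' : t' ∈ TT V t0 z.2 := ⟨ht'1, fun s hs => hT.2 s ⟨hs.1, hs.2.trans ht'2⟩⟩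
        have hg := (hline z.2 hzb t' hT').2
        have hrel := H.rel_ends (vline_cone ht'2 z.2)
          (vline_inV ht'2 (fun s hs => hT.2 s ⟨ht'1.trans hs.1, hs.2⟩))
        have hmem : ((t', z.2) : P4) ∈ V ∩ Psi ⁻¹' KB p0 (5 * C * η1) v2 :=
          ⟨hT'.2 t' ⟨ht'1, le_rfl⟩, hg, hrel.1.trans h4⟩
        rw [hVF] at hmem
        exact hmem.2
      · rintro ⟨⟨⟨h1, h2⟩, h3⟩, h4⟩
        have hzb : z.2 ∈ Metric.ball (0 : P3) r := by
          rw [mem_ball_zero_iff]; exact h1.trans_lt hr'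
        have hall : ∀ τ ∈ Icc (0:ℝ) 1, ((t0 + τ * (z.1 - t0), z.2) : P4) ∈
            V ∩ Psi ⁻¹' KB p0 (5 * C * η1) v2 := by
          intro τ hτ
          rw [hVF]
          refine ⟨?_, h4 τ hτ⟩
          have e1 : 0 ≤ τ * (z.1 - t0) := mul_nonneg hτ.1 (by linarith only [h2])
          have e2 : τ * (z.1 - t0) ≤ 1 * (z.1 - t0) :=
            mul_le_mul_of_nonneg_right hτ.2 (by linarith only [h2])
          rw [mem_ball_zero_iff, vline_norm]
          apply max_lt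
          · rw [abs_lt]; constructor <;> linarith only [hr, hr2, ht0R, e1, h3, e2]
          · linarith only [hr, hr2, hr', h1]
        refine ⟨h1, h2, ?_, ?_⟩
        · refine (hfacts z.2 hzb).2.2.2.1 z.1 ⟨h2, fun t' ht' => ?_⟩
          rcases eq_or_lt_of_le h2 with he | hlt
          · have : t' = t0 := le_antisymm (by rw [he]; exact ht'.2) ht'.1
            rw [this]; exact hslice z.2 hzb
          · have hpos : 0 < z.1 - t0 := by linarith only [hlt]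
            have h5 := hall ((t' - t0) / (z.1 - t0)) ⟨div_nonneg (by linarith only [ht'.1]) hpos.le, by
              rw [div_le_one hpos]; linarith only [ht'.2]⟩
            rw [div_mul_cancel₀ _ hpos.ne'] at h5
            have : t0 + (t' - t0) = t' := by ring
            rw [this] at h5
            exact h5.1
        · have h5 := (hall 1 ⟨zero_le_one, le_rfl⟩).2.2
          have : ((t0 + 1 * (z.1 - t0), z.2) : P4) = z := by
            ext <;> simp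
          rw [this] at h5
          exact h5
    rw [hset]
    refine (isCompact_closedBall (0 : P4) (R0 / 2)).of_isClosed_subset ?_ ?_
    · refine IsClosed.inter ((IsClosed.inter ?_ ?_).inter ?_) ?_
      · exact isClosed_le (by fun_prop) continuous_const
      · exact isClosed_le continuous_const (by fun_prop)
      · exact isClosed_le (by fun_prop) continuous_const
      · exact isClosed_biInter fun τ _ => hF.preimage (by (clear * -; fun_prop))
    · rintro z ⟨⟨⟨h1, h2⟩, h3⟩, -⟩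
      simp only [mem_ofPred_eq] at h1 h2 h3
      rw [mem_closedBall_zero_iff, norm_P4]
      apply max_le
      · rw [abs_le]; constructor <;> linarith only [hr2, ht0R, h2, h3]
      · linarith only [hr, hr2, hr', h1]
  · -- exit
    intro x hx v2 hv2
    by_contra hcon
    push Not at hcon
    obtain ⟨F, hF, hVF⟩ := H.cl _ (KB_compact p0 (5 * C * η1) v2) (KB_sub hη' hv2)
    obtain ⟨f1, f2, f3, f4, f5⟩ := hfacts x hx
    have hmem : ∀ t ∈ Ico t0 (exitT V t0 x), ((t, x) : P4) ∈ F := by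
      intro t ht
      have hT := f2 t ht
      have : ((t, x) : P4) ∈ V ∩ Psi ⁻¹' KB p0 (5 * C * η1) v2 :=
        ⟨hT.2 t ⟨ht.1, le_rfl⟩, (hline x hx t hT).2, hcon t ht⟩
      rw [hVF] at this
      exact this.2
    have hlim : Tendsto (fun t : ℝ => ((t, x) : P4)) (𝓝[<] (exitT V t0 x))
        (𝓝 ((exitT V t0 x, x) : P4)) := by
      have hcc : Continuous (fun t : ℝ => ((t, x) : P4)) := by fun_prop
      exact (hcc.tendsto _).mono_left nhdsWithin_le_nhds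
    have hFin : ((exitT V t0 x, x) : P4) ∈ F := by
      refine hF.mem_of_tendsto hlim ?_
      filter_upwards [Ico_mem_nhdsLT f1] with t ht
      exact hmem t ht
    have hball : ((exitT V t0 x, x) : P4) ∈ Metric.ball (0 : P4) R0 := by
      rw [mem_ball_zero_iff] at hx ⊢
      rw [vline_norm]
      apply max_lt
      · rw [abs_lt]; constructor <;> linarith only [hr, hr2, ht0R, f1, f5]
      · linarith only [hr, hr2, hx]
    have : ((exitT V t0 x, x) : P4) ∈ V ∩ Psi ⁻¹' KB p0 (5 * C * η1) v2 := by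
      rw [hVF]; exact ⟨hball, hFin⟩
    exact f3 this.1
  · -- norm bound
    rintro z ⟨h1, h2, h3⟩
    obtain ⟨-, -, -, -, f5⟩ := hfacts z.2 h1
    rw [mem_ball_zero_iff] at h1
    rw [norm_P4]
    apply max_le
    · rw [abs_le]; constructor <;> linarith only [hr, hr2, ht0R, h2, h3, f5]
    · linarith only [hr, hr2, h1]

end SHyp

end Vale.Agent.P354
end
end

section

section

set_option maxSynthPendingDepth 3

open Set Filter Topology

namespace Vale.Agent.P354w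

open Vale.Agent.P354 (mink NearM Tv norm_Tv cone mem_cone InV norm_sub_le_of_deriv
  hasDerivAt_line)

/-- Pointwise bounds of the coefficients. -/
structure CBdW (K : Coef) (C : ℝ) (x : P4) : Prop where
  one_le : 1 ≤ C
  om_lo : 1 / C ≤ K.om x
  om_hi : K.om x ≤ C
  g_lo : ∀ p q : ℝ, (p ^ 2 + q ^ 2) / C ≤ K.g11 x * p ^ 2 + 2 * K.g12 x * p * q + K.g22 x * q ^ 2
  g11_hi : |K.g11 x| ≤ C
  g12_hi : |K.g12 x| ≤ C
  g22_hi : |K.g22 x| ≤ C
  s1_hi : |K.s1 x| ≤ C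
  s2_hi : |K.s2 x| ≤ C
  w1_hi : |K.w1 x| ≤ C
  w2_hi : |K.w2 x| ≤ C

/-- the quadratic form of the sphere part -/
def Qg (K : Coef) (x : P4) (p q : ℝ) : ℝ := K.g11 x * p ^ 2 + 2 * K.g12 x * p * q + K.g22 x * q ^ 2

lemma gF_diag (K : Coef) (x a : P4) :
    K.gF x a a = -(2 * K.om x * (a.2.1 * a.2.2.1)) + Qg K x (K.h1 x a) (K.h2 x a) := by
  unfold Coef.gF Qg; ring

namespace CBdW

variable {K : Coef} {C : ℝ} {x : P4}

lemma C_pos (h : CBdW K C x) : 0 < C := by linarith only [h.one_le]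

lemma om_pos (h : CBdW K C x) : 0 < K.om x :=
  lt_of_lt_of_le (by have := h.C_pos; (clear * - this; positivity)) h.om_lo

lemma Q_nonneg (h : CBdW K C x) (p q : ℝ) : 0 ≤ Qg K x p q := by
  have h1 := h.g_lo p q
  have := h.C_pos
  have h2 : 0 ≤ (p ^ 2 + q ^ 2) / C := by (clear * - this; positivity)
  unfold Qg; linarith

lemma det_nonneg (h : CBdW K C x) : 0 ≤ K.g11 x * K.g22 x - K.g12 x ^ 2 := by
  have h1 := h.Q_nonneg (K.g12 x) (-K.g11 x)
  have h2 := h.g_lo 1 0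
  have h3 : 0 < K.g11 x := by
    have := h.C_pos
    have h4 : 0 < (1 ^ 2 + 0 ^ 2) / C := by (clear * - this; positivity)
    linarith
  unfold Qg at h1
  have h5 : 0 ≤ K.g11 x * (K.g11 x * K.g22 x - K.g12 x ^ 2) := by linarith only [h1]
  exact nonneg_of_mul_nonneg_right h5 h3

/-- Cauchy-Schwarz -/
lemma cs (h : CBdW K C x) (p q p' q' : ℝ) :
    (K.g11 x * (p * p') + K.g12 x * (p * q' + q * p') + K.g22 x * (q * q')) ^ 2 ≤
      Qg K x p q * Qg K x p' q' := by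
  have h1 := h.det_nonneg
  have h2 : Qg K x p q * Qg K x p' q' -
      (K.g11 x * (p * p') + K.g12 x * (p * q' + q * p') + K.g22 x * (q * q')) ^ 2 =
      (K.g11 x * K.g22 x - K.g12 x ^ 2) * (p * q' - q * p') ^ 2 := by
    unfold Qg; ring
  have h3 : 0 ≤ (K.g11 x * K.g22 x - K.g12 x ^ 2) * (p * q' - q * p') ^ 2 := by (clear * - h1; positivity)
  linarith only [h2, h3]

lemma uv_pos (h : CBdW K C x) {a : P4} (ha : K.gF x a a < 0) : 0 < a.2.1 * a.2.2.1 := by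
  rw [gF_diag] at ha
  have h1 := h.Q_nonneg (K.h1 x a) (K.h2 x a)
  have h2 := h.om_pos
  have h3 : 0 < K.om x * (a.2.1 * a.2.2.1) := by linarith
  exact (pos_iff_pos_of_mul_pos h3).1 h2

lemma u_pos (h : CBdW K C x) {a : P4} (ha : K.gF x a a < 0) (hv : 0 < a.2.1) : 0 < a.2.2.1 :=
  (pos_iff_pos_of_mul_pos (h.uv_pos ha)).1 hv

lemma hat_le (h : CBdW K C x) {a : P4} (ha : K.gF x a a ≤ 0) :
    K.h1 x a ^ 2 + K.h2 x a ^ 2 ≤ 2 * C ^ 2 * (a.2.1 * a.2.2.1) ∨ a.2.1 * a.2.2.1 < 0 := by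
  by_cases hs : a.2.1 * a.2.2.1 < 0
  · exact Or.inr hs
  · left
    push Not at hs
    rw [gF_diag] at ha
    have h1 := h.g_lo (K.h1 x a) (K.h2 x a)
    have hC := h.C_pos
    have h2 := h.om_hi
    rw [div_le_iff₀ hC] at h1
    unfold Qg at ha
    have h3 : K.om x * (a.2.1 * a.2.2.1) ≤ C * (a.2.1 * a.2.2.1) := by (clear * - h2 hs; gcongr)
    linarith only [h1, mul_nonneg hC.le (neg_nonneg.2 ha), mul_le_mul_of_nonneg_left h3 hC.le]

/-- two timelike vectors with positive v components are in the same cone -/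
lemma gF_neg (h : CBdW K C x) {a b : P4} (ha : K.gF x a a < 0) (hb : K.gF x b b < 0)
    (hav : 0 < a.2.1) (hbv : 0 < b.2.1) : K.gF x a b < 0 := by
  have hau := h.u_pos ha hav
  have hbu := h.u_pos hb hbv
  have hom := h.om_pos
  have h1 := h.cs (K.h1 x a) (K.h2 x a) (K.h1 x b) (K.h2 x b)
  have hQa := h.Q_nonneg (K.h1 x a) (K.h2 x a)
  have hQb := h.Q_nonneg (K.h1 x b) (K.h2 x b)
  have e1 : Qg K x (K.h1 x a) (K.h2 x a) < 2 * K.om x * (a.2.1 * a.2.2.1) := by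
    have := gF_diag K x a; linarith only [ha, this]
  have e2 : Qg K x (K.h1 x b) (K.h2 x b) < 2 * K.om x * (b.2.1 * b.2.2.1) := by
    have := gF_diag K x b; linarith only [hb, this]
  set m : ℝ := K.g11 x * (K.h1 x a * K.h1 x b) + K.g12 x * (K.h1 x a * K.h2 x b +
    K.h2 x a * K.h1 x b) + K.g22 x * (K.h2 x a * K.h2 x b) with hm
  have e3 : m ^ 2 < (K.om x * (a.2.1 * b.2.2.1 + a.2.2.1 * b.2.1)) ^ 2 := by
    calc m ^ 2 ≤ _ := h1
      _ < (2 * K.om x * (a.2.1 * a.2.2.1)) * (2 * K.om x * (b.2.1 * b.2.2.1)) := by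
          have : 0 < 2 * K.om x * (b.2.1 * b.2.2.1) := by (clear * - hom hbv hbu; positivity)
          calc _ ≤ Qg K x (K.h1 x a) (K.h2 x a) * (2 * K.om x * (b.2.1 * b.2.2.1)) := by (clear * - e2 hQa; gcongr)
            _ < _ := by (clear * - e1 hom hbv hbu; gcongr)
      _ ≤ _ := by
          have h4 : 0 ≤ K.om x ^ 2 * (a.2.1 * b.2.2.1 - a.2.2.1 * b.2.1) ^ 2 := by (clear * - hom; positivity)
          linarith only [h4]
  have hpos : 0 ≤ K.om x * (a.2.1 * b.2.2.1 + a.2.2.1 * b.2.1) := by (clear * - hom hav hbu hau hbv; positivity)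
  have e4 := (abs_lt.1 (abs_lt_of_sq_lt_sq e3 hpos)).2
  have e5 : K.gF x a b = -(K.om x * (a.2.1 * b.2.2.1 + a.2.2.1 * b.2.1)) + m := by
    rw [hm]; unfold Coef.gF; ring
  rw [e5]; linarith only [e4]

lemma v_pos_of_gF_neg (h : CBdW K C x) {a b : P4} (ha : K.gF x a a < 0) (hb : K.gF x b b < 0)
    (hav : 0 < a.2.1) (hab : K.gF x a b < 0) : 0 < b.2.1 := by
  by_contra hcon
  push Not at hcon
  have hne : b.2.1 ≠ 0 := by
    intro h0
    have := h.uv_pos hb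
    rw [h0] at this; simp at this
  have hneg : 0 < (-b).2.1 := by
    have : (-b).2.1 = -(b.2.1) := rfl
    rw [this]
    have := lt_of_le_of_ne hcon hne
    linarith only [this]
  have hb' : K.gF x (-b) (-b) < 0 := by
    have : K.gF x (-b) (-b) = K.gF x b b := by
      simp only [Coef.gF, Coef.h1, Coef.h2, Prod.fst_neg, Prod.snd_neg]; ring
    rw [this]; exact hb
  have h1 := h.gF_neg ha hb' hav hneg
  have h2 : K.gF x a (-b) = - K.gF x a b := by
    simp only [Coef.gF, Coef.h1, Coef.h2, Prod.fst_neg, Prod.snd_neg]; ring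
  rw [h2] at h1
  linarith only [hab, h1]

end CBdW

/-- the corner box -/
def MC (p0 : P4) (ρ : ℝ) : Set P4 := {x | ‖x - p0‖ < ρ ∧ x.2.1 < 0 ∧ x.2.2.1 < 0}

/-- relation between successive points on future causal curves -/
def RelW (C : ℝ) (x y : P4) : Prop :=
  x.2.1 ≤ y.2.1 ∧ x.2.2.1 ≤ y.2.2.1 ∧
    |y.1 - x.1| ≤ 2 * C * ((y.2.1 - x.2.1) + (y.2.2.1 - x.2.2.1)) ∧
    |y.2.2.2 - x.2.2.2| ≤ 2 * C * ((y.2.1 - x.2.1) + (y.2.2.1 - x.2.2.1))

lemma RelW.trans {C : ℝ} {x y z : P4} (h1 : RelW C x y) (h2 : RelW C y z) : RelW C x z := by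
  refine ⟨h1.1.trans h2.1, h1.2.1.trans h2.2.1, ?_, ?_⟩
  · have e : z.1 - x.1 = (y.1 - x.1) + (z.1 - y.1) := by ring
    rw [e]
    refine (abs_add_le _ _).trans ?_
    linarith only [h1.2.2.1, h2.2.2.1]
  · have e : z.2.2.2 - x.2.2.2 = (y.2.2.2 - x.2.2.2) + (z.2.2.2 - y.2.2.2) := by ring
    rw [e]
    refine (abs_add_le _ _).trans ?_
    linarith only [h1.2.2.2, h2.2.2.2]

/-- a future causal vector on the standard side -/
def FCW (K : Coef) (C : ℝ) (x a : P4) : Prop :=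
  0 ≤ a.2.1 ∧ 0 ≤ a.2.2.1 ∧ K.h1 x a ^ 2 + K.h2 x a ^ 2 ≤ 2 * C ^ 2 * (a.2.1 * a.2.2.1)

lemma FCW.abs_h {K : Coef} {C : ℝ} {x a : P4} (hC : 0 ≤ C) (h : FCW K C x a) :
    |K.h1 x a| ≤ C * (a.2.1 + a.2.2.1) ∧ |K.h2 x a| ≤ C * (a.2.1 + a.2.2.1) := by
  obtain ⟨h1, h2, h3⟩ := h
  have h5 : 0 ≤ C * (a.2.1 + a.2.2.1) := by (clear * - hC h1 h2; positivity)
  have h6 : 2 * C ^ 2 * (a.2.1 * a.2.2.1) ≤ (C * (a.2.1 + a.2.2.1)) ^ 2 := by
    have : (C * (a.2.1 + a.2.2.1)) ^ 2 =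
      2 * C ^ 2 * (a.2.1 * a.2.2.1) + C ^ 2 * (a.2.1 ^ 2 + a.2.2.1 ^ 2) := by ring
    rw [this]
    have : 0 ≤ C ^ 2 * (a.2.1 ^ 2 + a.2.2.1 ^ 2) := by (clear * -; positivity)
    linarith only [this]
  constructor
  · apply abs_le_of_sq_le_sq _ h5
    linarith only [h3, h6, sq_nonneg (K.h2 x a)]
  · apply abs_le_of_sq_le_sq _ h5
    linarith only [h3, h6, sq_nonneg (K.h1 x a)]

lemma FCW.abs_th {K : Coef} {C : ℝ} {x a : P4} (hc : CBdW K C x) (h : FCW K C x a) :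
    |a.1| ≤ 2 * C * (a.2.1 + a.2.2.1) ∧ |a.2.2.2| ≤ 2 * C * (a.2.1 + a.2.2.1) := by
  have hh := h.abs_h hc.C_pos.le
  obtain ⟨h1, h2, h3⟩ := h
  have sb : ∀ s w : ℝ, |s| ≤ C → |w| ≤ C →
      |s * a.2.1 + w * a.2.2.1| ≤ C * (a.2.1 + a.2.2.1) := by
    intro s w hs hw
    refine (abs_add_le _ _).trans ?_
    rw [abs_mul, abs_mul, abs_of_nonneg h1, abs_of_nonneg h2, mul_add]
    exact add_le_add (mul_le_mul_of_nonneg_right hs h1) (mul_le_mul_of_nonneg_right hw h2)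
  constructor
  · have e : a.1 = K.h1 x a + (K.s1 x * a.2.1 + K.w1 x * a.2.2.1) := by
      unfold Coef.h1; ring
    rw [e]
    refine (abs_add_le _ _).trans ?_
    have := sb _ _ hc.s1_hi hc.w1_hi
    linarith only [this, hh.1]
  · have e : a.2.2.2 = K.h2 x a + (K.s2 x * a.2.1 + K.w2 x * a.2.2.1) := by
      unfold Coef.h2; ring
    rw [e]
    refine (abs_add_le _ _).trans ?_
    have := sb _ _ hc.s2_hi hc.w2_hi
    linarith only [this, hh.2]

lemma relW_of_curve {K : Coef} {C : ℝ} {ν ν' : ℝ → P4} {a b : ℝ} (hab : a ≤ b)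
    (hd : ∀ τ ∈ Icc a b, HasDerivAt ν (ν' τ) τ) (hC : ∀ τ ∈ Icc a b, CBdW K C (ν τ))
    (hT : ∀ τ ∈ Icc a b, FCW K C (ν τ) (ν' τ)) : RelW C (ν a) (ν b) := by
  have hd1 : ∀ τ ∈ Icc a b, HasDerivAt (fun τ => (ν τ).1) (ν' τ).1 τ := fun τ hτ => (hd τ hτ).fst
  have hd2 : ∀ τ ∈ Icc a b, HasDerivAt (fun τ => (ν τ).2.1) (ν' τ).2.1 τ :=
    fun τ hτ => (hd τ hτ).snd.fst
  have hd3 : ∀ τ ∈ Icc a b, HasDerivAt (fun τ => (ν τ).2.2.1) (ν' τ).2.2.1 τ :=
    fun τ hτ => (hd τ hτ).snd.snd.fst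
  have hd4 : ∀ τ ∈ Icc a b, HasDerivAt (fun τ => (ν τ).2.2.2) (ν' τ).2.2.2 τ :=
    fun τ hτ => (hd τ hτ).snd.snd.snd
  have hz : ∀ τ ∈ Icc a b, HasDerivAt (fun _ : ℝ => (0:ℝ)) ((fun _ => (0:ℝ)) τ) τ :=
    fun τ _ => hasDerivAt_const τ 0
  have r1 := norm_sub_le_of_deriv hab hz hd2 (fun τ hτ => by simpa only [norm_zero] using (hT τ hτ).1)
  have r2 := norm_sub_le_of_deriv hab hz hd3 (fun τ hτ => by simpa only [norm_zero] using (hT τ hτ).2.1)
  simp only [sub_self, norm_zero, sub_nonneg] at r1 r2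
  have hg : ∀ τ ∈ Icc a b, HasDerivAt (fun τ => 2 * C * ((ν τ).2.1 + (ν τ).2.2.1))
      (2 * C * ((ν' τ).2.1 + (ν' τ).2.2.1)) τ := by
    intro τ hτ
    exact ((hd2 τ hτ).add (hd3 τ hτ)).const_mul (2 * C)
  refine ⟨r1, r2, ?_, ?_⟩
  · have := norm_sub_le_of_deriv hab hd1 hg (fun τ hτ => by
      rw [Real.norm_eq_abs]
      exact ((hT τ hτ).abs_th (hC τ hτ)).1)
    rw [Real.norm_eq_abs] at this
    refine this.trans (le_of_eq ?_)
    ring
  · have := norm_sub_le_of_deriv hab hd4 hg (fun τ hτ => by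
      rw [Real.norm_eq_abs]
      exact ((hT τ hτ).abs_th (hC τ hτ)).2)
    rw [Real.norm_eq_abs] at this
    refine this.trans (le_of_eq ?_)
    ring

/-- The hypotheses of the structure lemma at a corner. -/
structure SHypC (K : Coef) (G : P4 → P4 →L[ℝ] P4 →L[ℝ] ℝ) (Psi : P4 → P4) (V : Set P4)
    (R0 ρ C : ℝ) (p0 : P4) : Prop where
  iso : Iso K G Psi V
  R0_pos : 0 < R0
  ρ_pos : 0 < ρ
  p0v : p0.2.1 = 0
  p0u : p0.2.2.1 = 0
  V_sub : V ⊆ Metric.ball 0 R0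
  near : ∀ z ∈ Metric.ball (0 : P4) R0, NearM (G z)
  maps : ∀ z ∈ V, Psi z ∈ MC p0 ρ
  beta : ∀ z ∈ V, 0 < (fderiv ℝ Psi z Tv).2.1
  cl : ∀ Kc : Set P4, IsCompact Kc → Kc ⊆ MC p0 ρ →
    ∃ F, IsClosed F ∧ V ∩ Psi ⁻¹' Kc = Metric.ball 0 R0 ∩ F
  one_le : 1 ≤ C
  bd : ∀ x ∈ MC p0 ρ, CBdW K C x

namespace SHypC

variable {K : Coef} {G : P4 → P4 →L[ℝ] P4 →L[ℝ] ℝ} {Psi : P4 → P4} {V : Set P4}
  {R0 ρ C : ℝ} {p0 : P4}

lemma cbd (H : SHypC K G Psi V R0 ρ C p0) {z : P4} (hz : z ∈ V) : CBdW K C (Psi z) :=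
  H.bd _ (H.maps z hz)

lemma nearV (H : SHypC K G Psi V R0 ρ C p0) {z : P4} (hz : z ∈ V) : NearM (G z) :=
  H.near z (H.V_sub hz)

/-- future timelike vectors have positive `v` component -/
lemma v_pos (H : SHypC K G Psi V R0 ρ C p0) {z : P4} (hz : z ∈ V) {a : P4}
    (ha : G z a a < 0) (h0 : 0 < a.1) : 0 < (fderiv ℝ Psi z a).2.1 := by
  have hN := H.nearV hz
  have h1 := hN.T_neg ha.le h0
  rw [H.iso.iso z hz] at h1 ha
  have h2 : K.gF (Psi z) (fderiv ℝ Psi z Tv) (fderiv ℝ Psi z Tv) < 0 := by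
    rw [← H.iso.iso z hz]
    have : Tv ∈ cone (1 / 4) := by simp only [one_div, Tv, mem_cone, Prod.norm_mk, norm_zero, max_self, mul_one, inv_nonneg, Nat.ofNat_nonneg]
    have := hN.timelike_of_cone this
    simp only [Tv] at this ⊢
    linarith
  exact (H.cbd hz).v_pos_of_gF_neg h2 ha (H.beta z hz) h1

lemma fc_of_timelike (H : SHypC K G Psi V R0 ρ C p0) {x a : P4} (hx : x ∈ MC p0 ρ)
    (ha : K.gF x a a < 0) (h0 : 0 < a.2.1) : FCW K C x a := by
  have hc := H.bd x hx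
  refine ⟨h0.le, (hc.u_pos ha h0).le, ?_⟩
  rcases hc.hat_le ha.le with h | h
  · exact h
  · have := hc.uv_pos ha
    linarith only [h, this]

lemma fc_cone (H : SHypC K G Psi V R0 ρ C p0) {z : P4} (hz : z ∈ V) {a : P4}
    (ha : a ∈ cone (1 / 4)) : FCW K C (Psi z) (fderiv ℝ Psi z a) := by
  by_cases h0 : a.1 = 0
  · have : a = 0 := by
      rw [mem_cone, h0, mul_zero] at ha
      have h1 : a.2 = 0 := by simpa only [norm_le_zero_iff] using ha
      exact Prod.ext h0 h1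
    rw [this, map_zero]
    simp only [FCW, Prod.snd_zero, Prod.fst_zero, Std.le_refl, Coef.h1, mul_zero, sub_self, ne_eq, OfNat.ofNat_ne_zero, not_false_eq_true, zero_pow, Coef.h2, add_zero, and_self]
  · have h1 := (H.nearV hz).timelike_of_cone ha
    have h2 : 0 ≤ a.1 := by
      rw [mem_cone] at ha
      have := norm_nonneg a.2
      linarith only [ha, this]
    have h3 : 0 < a.1 := lt_of_le_of_ne h2 (Ne.symm h0)
    have h4 : G z a a < 0 := by
      have : 0 < a.1 ^ 2 := by positivity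
      linarith only [h1, this]
    have h5 := H.v_pos hz h4 h3
    rw [H.iso.iso z hz] at h4
    exact H.fc_of_timelike (H.maps z hz) h4 h5

lemma hasDerivAt_seg (H : SHypC K G Psi V R0 ρ C p0) {a w : P4} {τ : ℝ}
    (h : a + τ • w ∈ V) :
    HasDerivAt (fun τ : ℝ => Psi (a + τ • w)) (fderiv ℝ Psi (a + τ • w) w) τ :=
  (H.iso.hasFDerivAt h).comp_hasDerivAt τ (hasDerivAt_line a w τ)

lemma rel_seg (H : SHypC K G Psi V R0 ρ C p0) {a b : P4} (hab : b - a ∈ cone (1 / 4))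
    (hin : InV V a b) {τ1 τ2 : ℝ} (h0 : 0 ≤ τ1) (h12 : τ1 ≤ τ2) (h2 : τ2 ≤ 1) :
    RelW C (Psi (a + τ1 • (b - a))) (Psi (a + τ2 • (b - a))) := by
  have hin' : ∀ τ ∈ Icc τ1 τ2, a + τ • (b - a) ∈ V :=
    fun τ hτ => hin τ ⟨h0.trans hτ.1, hτ.2.trans h2⟩
  exact relW_of_curve (K := K) (ν := fun τ => Psi (a + τ • (b - a)))
    (ν' := fun τ => fderiv ℝ Psi (a + τ • (b - a)) (b - a)) h12
    (fun τ hτ => H.hasDerivAt_seg (hin' τ hτ)) (fun τ hτ => H.cbd (hin' τ hτ))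
    (fun τ hτ => H.fc_cone (hin' τ hτ) hab)

lemma rel_ends (H : SHypC K G Psi V R0 ρ C p0) {a b : P4} (hab : b - a ∈ cone (1 / 4))
    (hin : InV V a b) : RelW C (Psi a) (Psi b) := by
  have := H.rel_seg hab hin le_rfl zero_le_one le_rfl
  simpa using this

end SHypC

end Vale.Agent.P354w
end
end

section

section

set_option maxSynthPendingDepth 3

open Set Filter Topology

namespace Vale.Agent.P354w

open Vale.Agent.P354 (mink NearM Tv norm_Tv cone mem_cone InV norm_sub_le_of_deriv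
  hasDerivAt_line norm_P4_le norm_P4 tube ball_seg SCurve Reach inV_const cone_nonneg cone_add
  cone_smul cone_zero cone_mono)

/-- compact subset of the corner box -/
def KC (p0 : P4) (r vs us : ℝ) : Set P4 := {x | ‖x - p0‖ ≤ r ∧ x.2.1 ≤ vs ∧ x.2.2.1 ≤ us}

lemma KC_compact (p0 : P4) (r vs us : ℝ) : IsCompact (KC p0 r vs us) := by
  have h1 : KC p0 r vs us = Metric.closedBall p0 r ∩ ({x : P4 | x.2.1 ≤ vs} ∩
      {x : P4 | x.2.2.1 ≤ us}) := by
    ext x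
    simp only [KC, mem_ofPred_eq, mem_inter_iff, Metric.mem_closedBall, dist_eq_norm]
  rw [h1]
  refine (isCompact_closedBall p0 r).inter_right ?_
  exact (isClosed_le (by fun_prop) continuous_const).inter
    (isClosed_le (by fun_prop) continuous_const)

lemma KC_sub {p0 : P4} {r vs us ρ : ℝ} (h1 : r < ρ) (h2 : vs < 0) (h3 : us < 0) :
    KC p0 r vs us ⊆ MC p0 ρ :=
  fun _ hx => ⟨hx.1.trans_lt h1, hx.2.1.trans_lt h2, hx.2.2.trans_lt h3⟩

/-- future points of good points are good -/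
lemma confine0 {C η : ℝ} {p0 x y : P4} (hC : 1 ≤ C) (hp : p0.2.1 = 0) (hpu : p0.2.2.1 = 0)
    (hxy : RelW C x y) (hx : ‖x - p0‖ ≤ η) (hyv : y.2.1 < 0) (hyu : y.2.2.1 < 0) :
    ‖y - p0‖ ≤ 5 * C * η := by
  obtain ⟨x1, x2, x3, x4⟩ := norm_P4_le.1 hx
  simp only [Prod.fst_sub, Prod.snd_sub, hp, hpu, sub_zero] at x1 x2 x3 x4
  have hη : 0 ≤ η := (norm_nonneg _).trans hx
  obtain ⟨a1, a2, c1, c2⟩ := hxy
  have hCη : η ≤ C * η := le_mul_of_one_le_left (by linarith only [hη]) (by linarith only [hC])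
  have hV : y.2.1 - x.2.1 ≤ η := by linarith only [hyv, (abs_le.1 x2).1]
  have hU : y.2.2.1 - x.2.2.1 ≤ η := by linarith only [hyu, (abs_le.1 x3).1]
  have hS : 2 * C * ((y.2.1 - x.2.1) + (y.2.2.1 - x.2.2.1)) ≤ 2 * C * (2 * η) := by
    gcongr
    linarith only [hV, hU]
  refine norm_P4_le.2 ⟨?_, ?_, ?_, ?_⟩
  · simp only [Prod.fst_sub]
    have : y.1 - p0.1 = (y.1 - x.1) + (x.1 - p0.1) := by ring
    rw [this]
    refine (abs_add_le _ _).trans ?_
    linarith only [x1, c1, hCη, hS]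
  · simp only [Prod.fst_sub, Prod.snd_sub, hp, sub_zero]
    rw [abs_le]
    constructor <;> linarith only [a1, hCη, (abs_le.1 x2).1, hη, hyv]
  · simp only [Prod.fst_sub, Prod.snd_sub, hpu, sub_zero]
    rw [abs_le]
    constructor <;> linarith only [a2, hCη, (abs_le.1 x3).1, hη, hyu]
  · simp only [Prod.snd_sub]
    have : y.2.2.2 - p0.2.2.2 = (y.2.2.2 - x.2.2.2) + (x.2.2.2 - p0.2.2.2) := by ring
    rw [this]
    refine (abs_add_le _ _).trans ?_
    linarith only [x4, c2, hCη, hS]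

namespace SHypC

variable {K : Coef} {G : P4 → P4 →L[ℝ] P4 →L[ℝ] ℝ} {Psi : P4 → P4} {V : Set P4}
  {R0 ρ C : ℝ} {p0 : P4} {γ : ℝ → P4} {s0 η1 η : ℝ}

lemma conf (H : SHypC K G Psi V R0 ρ C p0) {a b : P4} (hb : b ∈ V) (hab : RelW C (Psi a) (Psi b))
    (ha : ‖Psi a - p0‖ ≤ η) : ‖Psi b - p0‖ ≤ 5 * C * η :=
  confine0 H.one_le H.p0v H.p0u hab ha (H.maps b hb).2.1 (H.maps b hb).2.2

/-- points of broken future segments between good points stay in a compact set -/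
lemma seg_mem_KB (H : SHypC K G Psi V R0 ρ C p0) {η vs us : ℝ} {a m b : P4}
    (ham : m - a ∈ cone (1 / 4)) (hmb : b - m ∈ cone (1 / 4))
    (hin1 : InV V a m) (hin2 : InV V m b) (ha : ‖Psi a - p0‖ ≤ η)
    (hbv : (Psi b).2.1 ≤ vs) (hbu : (Psi b).2.2.1 ≤ us) {τ : ℝ} (hτ : τ ∈ Icc (0:ℝ) 1) :
    Psi (a + τ • (m - a)) ∈ KC p0 (5 * C * η) vs us ∧
    Psi (m + τ • (b - m)) ∈ KC p0 (5 * C * η) vs us := by
  constructor
  · have r1 := H.rel_seg ham hin1 le_rfl hτ.1 hτ.2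
    have r2 := H.rel_seg ham hin1 hτ.1 hτ.2 le_rfl
    have r3 := H.rel_ends hmb hin2
    simp only [zero_smul, add_zero, one_smul, add_sub_cancel] at r1 r2
    have r4 := r2.trans r3
    exact ⟨H.conf (hin1 τ hτ) r1 ha, r4.1.trans hbv, r4.2.1.trans hbu⟩
  · have r1 := H.rel_seg hmb hin2 le_rfl hτ.1 hτ.2
    have r2 := H.rel_seg hmb hin2 hτ.1 hτ.2 le_rfl
    have r3 := H.rel_ends ham hin1
    simp only [zero_smul, add_zero, one_smul, add_sub_cancel] at r1 r2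
    exact ⟨H.conf (hin2 τ hτ) (r3.trans r1) ha, r2.1.trans hbv, r2.2.1.trans hbu⟩

lemma push (H : SHypC K G Psi V R0 ρ C p0) {η vs us : ℝ} (hη : 5 * C * η < ρ) (hvs : vs < 0)
    (hus : us < 0)
    {a m b : ℝ → P4} (ha : Continuous a) (hm : Continuous m) (hb : Continuous b)
    (ham : ∀ l ∈ Icc (0:ℝ) 1, m l - a l ∈ cone (1 / 4))
    (hmb : ∀ l ∈ Icc (0:ℝ) 1, b l - m l ∈ cone (1 / 4))
    (hmR : ∀ l ∈ Icc (0:ℝ) 1, m l ∈ Metric.ball (0 : P4) R0)
    (haV : ∀ l ∈ Icc (0:ℝ) 1, a l ∈ V ∧ ‖Psi (a l) - p0‖ ≤ η)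
    (hbV : ∀ l ∈ Icc (0:ℝ) 1, b l ∈ V ∧ (Psi (b l)).2.1 ≤ vs ∧ (Psi (b l)).2.2.1 ≤ us)
    (h0 : InV V (a 0) (m 0) ∧ InV V (m 0) (b 0)) :
    ∀ l ∈ Icc (0:ℝ) 1, InV V (a l) (m l) ∧ InV V (m l) (b l) := by
  obtain ⟨F, hF, hVF⟩ := H.cl _ (KC_compact p0 (5 * C * η) vs us) (KC_sub hη hvs hus)
  set S : Set ℝ := {l | InV V (a l) (m l) ∧ InV V (m l) (b l)} with hS
  have hset : S ∩ Icc 0 1 = {l | l ∈ Icc (0:ℝ) 1 ∧ ∀ τ ∈ Icc (0:ℝ) 1,
      a l + τ • (m l - a l) ∈ F ∧ m l + τ • (b l - m l) ∈ F} := by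
    ext l
    constructor
    · rintro ⟨⟨h1, h2⟩, hl⟩
      refine ⟨hl, fun τ hτ => ?_⟩
      have h3 := H.seg_mem_KB (ham l hl) (hmb l hl) h1 h2 (haV l hl).2 (hbV l hl).2.1
        (hbV l hl).2.2 hτ
      have h4 : a l + τ • (m l - a l) ∈ V ∩ Psi ⁻¹' KC p0 (5 * C * η) vs us := ⟨h1 τ hτ, h3.1⟩
      have h5 : m l + τ • (b l - m l) ∈ V ∩ Psi ⁻¹' KC p0 (5 * C * η) vs us := ⟨h2 τ hτ, h3.2⟩
      rw [hVF] at h4 h5
      exact ⟨h4.2, h5.2⟩
    · rintro ⟨hl, h⟩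
      refine ⟨⟨fun τ hτ => ?_, fun τ hτ => ?_⟩, hl⟩
      · have h4 : a l + τ • (m l - a l) ∈ Metric.ball (0 : P4) R0 ∩ F :=
          ⟨ball_seg (H.V_sub (haV l hl).1) (hmR l hl) hτ, (h τ hτ).1⟩
        rw [← hVF] at h4
        exact h4.1
      · have h4 : m l + τ • (b l - m l) ∈ Metric.ball (0 : P4) R0 ∩ F :=
          ⟨ball_seg (hmR l hl) (H.V_sub (hbV l hl).1) hτ, (h τ hτ).2⟩
        rw [← hVF] at h4
        exact h4.1
  have hclosed : IsClosed (S ∩ Icc 0 1) := by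
    rw [hset]
    have : {l : ℝ | l ∈ Icc (0:ℝ) 1 ∧ ∀ τ ∈ Icc (0:ℝ) 1,
        a l + τ • (m l - a l) ∈ F ∧ m l + τ • (b l - m l) ∈ F} =
        Icc (0:ℝ) 1 ∩ ⋂ τ ∈ Icc (0:ℝ) 1, ((fun l => a l + τ • (m l - a l)) ⁻¹' F ∩
          (fun l => m l + τ • (b l - m l)) ⁻¹' F) := by
      ext l; simp only [mem_Icc, and_imp, mem_ofPred_eq, mem_inter_iff, mem_iInter, mem_preimage]
    rw [this]
    refine isClosed_Icc.inter (isClosed_biInter fun τ _ => ?_)
    exact (hF.preimage (by (clear * - ha hm; fun_prop))).inter (hF.preimage (by fun_prop))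
  have key : Icc (0:ℝ) 1 ⊆ S := by
    refine hclosed.Icc_subset_of_forall_mem_nhdsWithin h0 ?_
    rintro l ⟨⟨h1, h2⟩, hl⟩
    refine mem_nhdsWithin_of_mem_nhds ?_
    filter_upwards [tube H.iso.isOpen ha hm h1, tube H.iso.isOpen hm hb h2] with l' k1 k2
    exact ⟨k1, k2⟩
  exact fun l hl => key hl

lemma reach_rel (H : SHypC K G Psi V R0 ρ C p0) {a b : P4} (h : Reach V a b) :
    RelW C (Psi a) (Psi b) := by
  obtain ⟨m, h1, h2, h3, h4⟩ := h
  exact (H.rel_ends h1 h3).trans (H.rel_ends h2 h4)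

/-- segments between points of the curve -/
lemma curve_seg (H : SHypC K G Psi V R0 ρ C p0) (hc : SCurve Psi V p0 γ s0 η1)
    (hη : 5 * C * η1 < ρ) {s s' : ℝ} (hs : s0 ≤ s) (hss : s ≤ s') (hs' : s' < 1) :
    InV V (γ s) (γ s') := by
  have hmem : ∀ t ∈ Icc s s', γ t ∈ V := fun t ht => hc.mem t ⟨hs.trans ht.1, ht.2.trans_lt hs'⟩
  have hcont0 : ContinuousOn (fun t => Psi (γ t)) (Icc s s') :=
    H.iso.smooth.continuousOn.comp hc.cont.continuousOn hmem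
  have hcont : ContinuousOn (fun t => (Psi (γ t)).2.1) (Icc s s') :=
    (continuous_fst.comp continuous_snd).comp_continuousOn hcont0
  have hcontu : ContinuousOn (fun t => (Psi (γ t)).2.2.1) (Icc s s') :=
    (continuous_fst.comp (continuous_snd.comp continuous_snd)).comp_continuousOn hcont0
  obtain ⟨t, ht, hmax⟩ := isCompact_Icc.exists_isMaxOn (nonempty_Icc.2 hss) hcont
  obtain ⟨tu, htu, hmaxu⟩ := isCompact_Icc.exists_isMaxOn (nonempty_Icc.2 hss) hcontu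
  have hneg : (Psi (γ t)).2.1 < 0 := (H.maps _ (hmem t ht)).2.1
  have hnegu : (Psi (γ tu)).2.2.1 < 0 := (H.maps _ (hmem tu htu)).2.2
  have hpar : ∀ l ∈ Icc (0:ℝ) 1, s + l * (s' - s) ∈ Icc s s' := by
    intro l hl
    have h1 : 0 ≤ l * (s' - s) := mul_nonneg hl.1 (by linarith only [hss])
    have h2 : l * (s' - s) ≤ 1 * (s' - s) := mul_le_mul_of_nonneg_right hl.2 (by linarith only [hss])
    constructor <;> linarith only [h1, h2]
  have hsI : s ∈ Ico s0 1 := ⟨hs, hss.trans_lt hs'⟩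
  have key := H.push (η := η1) (vs := (Psi (γ t)).2.1) (us := (Psi (γ tu)).2.2.1) hη hneg hnegu
    (a := fun _ => γ s)
    (m := fun _ => γ s) (b := fun l => γ (s + l * (s' - s))) continuous_const continuous_const
    (hc.cont.comp (by fun_prop)) (fun l _ => by simpa only [one_div, sub_self] using cone_zero (1/4))
    (fun l hl => by
      have h3 := hpar l hl
      exact cone_mono (by (clear * -; norm_num)) (by norm_num) (hc.cone s ⟨hs, hsI.2.le⟩ _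
        ⟨hs.trans h3.1, h3.2.trans hs'.le⟩ h3.1))
    (fun l _ => H.V_sub (hc.mem s hsI)) (fun l _ => ⟨hc.mem s hsI, hc.good s hsI⟩)
    (fun l hl => by
      have h3 := hpar l hl
      exact ⟨hmem _ h3, hmax h3, hmaxu h3⟩)
    (by simpa only [zero_mul, add_zero, and_self] using inV_const (hc.mem s hsI))
  have := (key 1 ⟨zero_le_one, le_rfl⟩).2
  simpa using this

lemma zero_notMem (H : SHypC K G Psi V R0 ρ C p0) (hc : SCurve Psi V p0 γ s0 η1) :
    (0 : P4) ∉ V := by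
  intro h0
  have h1 : ContinuousAt Psi 0 := (H.iso.contDiffAt h0).continuousAt
  have h2 : Tendsto γ (𝓝[<] 1) (𝓝 0) := by
    have := hc.cont.tendsto 1
    rw [hc.one] at this
    exact this.mono_left nhdsWithin_le_nhds
  have h3 : Tendsto (fun s => Psi (γ s)) (𝓝[<] 1) (𝓝 (Psi 0)) := h1.tendsto.comp h2
  have h4 := tendsto_nhds_unique h3 hc.tend
  have h5 := (H.maps 0 h0).2.1
  rw [h4, H.p0v] at h5
  exact lt_irrefl _ h5

/-- moving the break point -/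
lemma reach_move (H : SHypC K G Psi V R0 ρ C p0) (hc : SCurve Psi V p0 γ s0 η1)
    (hη : 5 * C * η1 < ρ) {s : ℝ} (hs : s ∈ Ico s0 1) {b : P4}
    (hr : Reach V (γ s) b) {q : P4} (hq : q ∈ Metric.ball (0 : P4) R0)
    (hq1 : q - γ s ∈ cone (1 / 4)) (hq2 : b - q ∈ cone (1 / 4)) :
    InV V (γ s) q ∧ InV V q b := by
  obtain ⟨m, h1, h2, h3, h4⟩ := hr
  have hbV := h4.right
  have key := H.push (η := η1) (vs := (Psi b).2.1) (us := (Psi b).2.2.1) hη (H.maps b hbV).2.1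
    (H.maps b hbV).2.2 (a := fun _ => γ s)
    (m := fun l => m + l • (q - m)) (b := fun _ => b) continuous_const (by (clear * -; fun_prop))
    continuous_const
    (fun l hl => by
      have : m + l • (q - m) - γ s = (1 - l) • (m - γ s) + l • (q - γ s) := by module
      rw [this]
      exact cone_add (cone_smul (by linarith [hl.2]) h1) (cone_smul hl.1 hq1))
    (fun l hl => by
      have : b - (m + l • (q - m)) = (1 - l) • (b - m) + l • (b - q) := by module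
      rw [this]
      exact cone_add (cone_smul (by linarith only [hl.2]) h2) (cone_smul hl.1 hq2))
    (fun l hl => ball_seg (H.V_sub h3.right) hq hl)
    (fun l _ => ⟨hc.mem s hs, hc.good s hs⟩)
    (fun l _ => ⟨hbV, le_rfl, le_rfl⟩) (by simpa using ⟨h3, h4⟩)
  have := key 1 ⟨zero_le_one, le_rfl⟩
  simpa using this

lemma neg_cone (hc : SCurve Psi V p0 γ s0 η1) {s : ℝ} (hs : s ∈ Ico s0 1) :
    -γ s ∈ cone (1 / 8) := by
  have := hc.cone s ⟨hs.1, hs.2.le⟩ 1 ⟨hc.s0_lt.le, le_rfl⟩ hs.2.le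
  rwa [hc.one, zero_sub] at this

/-- reachable points are not in the future cone of the exit point -/
lemma not_future (H : SHypC K G Psi V R0 ρ C p0) (hc : SCurve Psi V p0 γ s0 η1)
    (hη : 5 * C * η1 < ρ) {s : ℝ} (hs : s ∈ Ico s0 1) {b : P4}
    (hr : Reach V (γ s) b) : b.1 < 4 * ‖b.2‖ := by
  by_contra hcon
  push Not at hcon
  have hb' : b - 0 ∈ cone (1 / 4) := by
    rw [sub_zero, mem_cone]; linarith
  have h0 : (0 : P4) - γ s ∈ cone (1 / 4) := by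
    rw [zero_sub]; exact cone_mono (by (clear * -; norm_num)) (by norm_num) (neg_cone hc hs)
  have := (H.reach_move hc hη hs hr (q := 0) (by simpa only [Metric.mem_ball, dist_self] using H.R0_pos) h0 hb').1.right
  exact H.zero_notMem hc this

/-- the past region -/
lemma past (H : SHypC K G Psi V R0 ρ C p0) (hc : SCurve Psi V p0 γ s0 η1)
    (hη : 5 * C * η1 < ρ) {s : ℝ} (hs : s ∈ Ico s0 1) {q : P4} (hq1 : q - γ s ∈ cone (1 / 4))
    (hq2 : 4 * ‖q.2‖ < -q.1) : InV V (γ s) q := by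
  have htend : Tendsto γ (𝓝[<] 1) (𝓝 0) := by
    have := hc.cont.tendsto 1
    rw [hc.one] at this
    exact this.mono_left nhdsWithin_le_nhds
  have hev : ∀ᶠ s' in 𝓝[<] (1:ℝ), γ s' - q ∈ cone (1 / 4) := by
    have h1 : Tendsto (fun s' => ‖(γ s' - q).2‖ - 1 / 4 * (γ s' - q).1) (𝓝[<] 1)
        (𝓝 (‖(0 - q).2‖ - 1 / 4 * (0 - q).1)) := by
      have hcont : Continuous (fun z : P4 => ‖(z - q).2‖ - 1 / 4 * (z - q).1) := by (clear * -; fun_prop)
      exact (hcont.tendsto 0).comp htend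
    have h2 : ‖(0 - q).2‖ - 1 / 4 * (0 - q).1 < 0 := by
      have e1 : (0 - q).2 = -q.2 := by simp
      have e2 : (0 - q).1 = -q.1 := by simp
      rw [e1, e2, norm_neg]; (clear * - hq2; linarith)
    filter_upwards [h1.eventually (gt_mem_nhds h2)] with s' hs'
    rw [mem_cone]
    have : ‖(γ s' - q).2‖ - 1 / 4 * (γ s' - q).1 < 0 := hs'
    linarith only [hs']
  have hqR : q ∈ Metric.ball (0 : P4) R0 := by
    have h1 := cone_nonneg (by norm_num) hq1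
    have e1 : (q - γ s).1 = q.1 - (γ s).1 := rfl
    rw [e1] at h1
    have h2 := H.V_sub (hc.mem s hs)
    rw [mem_ball_zero_iff] at h2 ⊢
    have h3 := (norm_fst_le (γ s)).trans_lt h2
    rw [Real.norm_eq_abs, abs_of_neg (hc.neg s hs)] at h3
    have h4 := norm_nonneg q.2
    rw [norm_P4]
    apply max_lt
    · rw [abs_of_nonpos (by linarith only [hq2, h4])]; linarith only [h1, h3]
    · linarith
  have hev2 : ∀ᶠ s' in 𝓝[<] (1:ℝ), s' ∈ Ico s 1 := Ico_mem_nhdsLT hs.2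
  obtain ⟨s', h1, hs'⟩ := (hev.and hev2).exists
  have hs'I : s' ∈ Ico s0 1 := ⟨hs.1.trans hs'.1, hs'.2⟩
  have hr : Reach V (γ s) (γ s') := ⟨γ s, by simpa only [one_div, sub_self] using cone_zero (1 / 4),
    cone_mono (by norm_num) (by norm_num) (hc.cone s ⟨hs.1, hs.2.le⟩ s' ⟨hs'I.1, hs'.2.le⟩ hs'.1),
    inV_const (hc.mem s hs), H.curve_seg hc hη hs.1 hs'.1 hs'.2⟩
  exact (H.reach_move hc hη hs hr hqR hq1 h1).1

/-- reachable points are good -/
lemma reach_good (H : SHypC K G Psi V R0 ρ C p0) (hc : SCurve Psi V p0 γ s0 η1)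
    {s : ℝ} (hs : s ∈ Ico s0 1) {b : P4} (hr : Reach V (γ s) b) :
    ‖Psi b - p0‖ ≤ 5 * C * η1 := by
  have hbV : b ∈ V := by
    obtain ⟨m, -, -, -, h⟩ := hr
    exact h.right
  exact H.conf hbV (H.reach_rel hr) (hc.good s hs)

end SHypC

end Vale.Agent.P354w
end
end

section

section

set_option maxSynthPendingDepth 3

open Set Filter Topology

namespace Vale.Agent.P354w

open Vale.Agent.P354 (mink NearM Tv norm_Tv cone mem_cone InV norm_sub_le_of_deriv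
  hasDerivAt_line norm_P4_le norm_P4 tube ball_seg SCurve Reach inV_const cone_nonneg cone_add
  cone_smul cone_zero cone_mono vline_sub vline_cone vline_inV vline_norm TT exitT TT_facts)

namespace SHypC

variable {K : Coef} {G : P4 → P4 →L[ℝ] P4 →L[ℝ] ℝ} {Psi : P4 → P4} {V : Set P4}
  {R0 ρ C : ℝ} {p0 : P4} {γ : ℝ → P4} {s0 η1 η : ℝ}

/-- the initial slice -/
lemma slice_cone (hc : SCurve Psi V p0 γ s0 η1) {s1 : ℝ} (hs1 : s1 ∈ Ico s0 1)
    {x : ℝ × ℝ × ℝ} (hx : ‖x‖ < -(γ s1).1 / 16) :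
    (((γ s1).1 / 4, x) : P4) - γ s1 ∈ cone (1 / 4) ∧ 4 * ‖x‖ < -((γ s1).1 / 4) := by
  have hneg := hc.neg s1 hs1
  have hnc := neg_cone hc hs1
  rw [mem_cone] at hnc
  have hn1 : (-γ s1).2 = -(γ s1).2 := rfl
  have hn2 : (-γ s1).1 = -(γ s1).1 := rfl
  rw [hn1, hn2, norm_neg] at hnc
  constructor
  · rw [mem_cone]
    have e1 : ((((γ s1).1 / 4, x) : P4) - γ s1).2 = x - (γ s1).2 := rfl
    have e2 : ((((γ s1).1 / 4, x) : P4) - γ s1).1 = (γ s1).1 / 4 - (γ s1).1 := rfl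
    rw [e1, e2]
    refine (norm_sub_le _ _).trans ?_
    linarith only [hx, hnc]
  · linarith only [hx]

lemma line_reach (H : SHypC K G Psi V R0 ρ C p0) (hc : SCurve Psi V p0 γ s0 η1)
    (hη : 5 * C * η1 < ρ) {s1 : ℝ} (hs1 : s1 ∈ Ico s0 1) {x : ℝ × ℝ × ℝ}
    (hx : ‖x‖ < -(γ s1).1 / 16) {t : ℝ} (ht : (γ s1).1 / 4 ≤ t)
    (hV : ∀ t' ∈ Icc ((γ s1).1 / 4) t, ((t', x) : P4) ∈ V) : Reach V (γ s1) (t, x) := by
  obtain ⟨h1, h2⟩ := slice_cone hc hs1 hx
  exact ⟨((γ s1).1 / 4, x), h1, vline_cone ht x, H.past hc hη hs1 h1 h2, vline_inV ht hV⟩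

/-- The structure lemma at a corner. -/
theorem main (H : SHypC K G Psi V R0 ρ C p0) (hc : SCurve Psi V p0 γ s0 η1)
    (hη : 5 * C * η1 < ρ) :
    ∃ (t0 r : ℝ) (f : P3 → ℝ), 0 < r ∧ (∀ x ∈ Metric.ball (0 : P3) r, t0 < f x) ∧
      (∀ x ∈ Metric.ball (0 : P3) r, ∀ t ∈ Ico t0 (f x), ((t, x) : P4) ∈ V) ∧
      IsOpen (DD t0 r f) ∧
      (∀ x ∈ Metric.ball (0 : P3) r, ∀ t ∈ Ico t0 (f x), ‖Psi (t, x) - p0‖ ≤ 5 * C * η1) ∧
      (∀ x ∈ Metric.ball (0 : P3) r, ∀ v2 < 0, ∀ u2 < 0, ∃ t ∈ Ico t0 (f x),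
        v2 < (Psi (t, x)).2.1 ∨ u2 < (Psi (t, x)).2.2.1) ∧
      (∀ x ∈ Metric.ball (0 : P3) r, ∀ t ∈ Icc t0 (f x), ‖((t, x) : P4)‖ ≤ R0 / 2) := by
  have hC := H.one_le
  have hC0 : 0 < C := by linarith only [hC]
  have hs0 : s0 ∈ Ico s0 1 := ⟨le_rfl, hc.s0_lt⟩
  set t0 := (γ s0).1 / 4 with ht0
  have hneg := hc.neg s0 hs0
  have ht0R : -t0 < R0 / 4 := by
    have h1 := H.V_sub (hc.mem s0 hs0)
    rw [mem_ball_zero_iff] at h1
    have h2 := (norm_fst_le (γ s0)).trans_lt h1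
    rw [Real.norm_eq_abs, abs_of_neg hneg] at h2
    rw [ht0]; linarith only [h2]
  have ht0neg : t0 < 0 := by rw [ht0]; linarith only [hneg]
  set r : ℝ := min (-(γ s0).1 / 16) (R0 / 32) with hrdef
  have hr : 0 < r := lt_min (by linarith only [ht0, ht0neg]) (by linarith only [ht0R, ht0neg])
  have hr1 : r ≤ -(γ s0).1 / 16 := min_le_left _ _
  have hr2 : 4 * r ≤ R0 / 8 := by
    have : r ≤ R0 / 32 := min_le_right _ _
    linarith only [this]
  have hslice : ∀ x ∈ Metric.ball (0 : P3) r, ((t0, x) : P4) ∈ V := by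
    intro x hx
    rw [mem_ball_zero_iff] at hx
    obtain ⟨h1, h2⟩ := slice_cone hc hs0 (hx.trans_le hr1)
    exact (H.past hc hη hs0 h1 h2).right
  -- points on lines
  have hline : ∀ x ∈ Metric.ball (0 : P3) r, ∀ t ∈ TT V t0 x,
      t < 4 * ‖x‖ ∧ ‖Psi (t, x) - p0‖ ≤ 5 * C * η1 := by
    intro x hx t ht
    rw [mem_ball_zero_iff] at hx
    have h2 := H.line_reach hc hη hs0 (hx.trans_le hr1) ht.1 ht.2
    exact ⟨H.not_future hc hη hs0 h2, H.reach_good hc hs0 h2⟩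
  have hM : ∀ x ∈ Metric.ball (0 : P3) r, ∀ t ∈ TT V t0 x, t ≤ 4 * r := by
    intro x hx t ht
    have h1 := (hline x hx t ht).1
    rw [mem_ball_zero_iff] at hx
    linarith only [hx, h1]
  have hfacts := fun x hx => TT_facts H.iso.isOpen (hslice x hx) (hM x hx)
  refine ⟨t0, r, exitT V t0, hr, fun x hx => (hfacts x hx).1, ?_, ?_, ?_, ?_, ?_⟩
  · intro x hx t ht
    exact ((hfacts x hx).2.1 t ht).2 t ⟨ht.1, le_rfl⟩
  · -- openness
    rw [isOpen_iff_mem_nhds]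
    rintro ⟨t, x⟩ ⟨hx, ht, htf⟩
    simp only at hx ht htf
    have hT := (hfacts x hx).2.1 t ⟨ht.le, htf⟩
    have hin : InV V (t0, x) (t, x) := vline_inV ht.le hT.2
    have ev1 : ∀ᶠ z : P4 in 𝓝 (t, x), z.2 ∈ Metric.ball (0 : P3) r :=
      continuous_snd.continuousAt.eventually (Metric.isOpen_ball.mem_nhds hx)
    have ev2 : ∀ᶠ z : P4 in 𝓝 (t, x), t0 < z.1 :=
      continuous_fst.continuousAt.eventually (lt_mem_nhds ht)
    have ev3 : ∀ᶠ z : P4 in 𝓝 (t, x), ∀ τ ∈ Icc (0:ℝ) 1,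
        ((t0 + τ * (z.1 - t0), z.2) : P4) ∈ V := by
      refine isCompact_Icc.eventually_forall_of_forall_eventually
        (P := fun (z : P4) (τ : ℝ) => ((t0 + τ * (z.1 - t0), z.2) : P4) ∈ V) ?_
      intro τ hτ
      have hcc : Continuous (fun p : P4 × ℝ => ((t0 + p.2 * (p.1.1 - t0), p.1.2) : P4)) := by
        (clear * -; fun_prop)
      refine hcc.continuousAt.eventually (H.iso.isOpen.mem_nhds ?_)
      have h1 : 0 ≤ τ * (t - t0) := mul_nonneg hτ.1 (by linarith only [ht])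
      have h2 : τ * (t - t0) ≤ 1 * (t - t0) := mul_le_mul_of_nonneg_right hτ.2 (by linarith only [ht])
      exact hT.2 _ ⟨by simp only; linarith only [h1], by simp only; linarith only [h2]⟩
    filter_upwards [ev1, ev2, ev3] with z h1 h2 h3
    refine ⟨h1, h2, ?_⟩
    refine (hfacts z.2 h1).2.2.2.1 z.1 ⟨h2.le, fun t' ht' => ?_⟩
    have hpos : 0 < z.1 - t0 := by linarith only [h2]
    have h4 := h3 ((t' - t0) / (z.1 - t0)) ⟨div_nonneg (by linarith only [ht'.1]) hpos.le, by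
      rw [div_le_one hpos]; linarith only [ht'.2]⟩
    rw [div_mul_cancel₀ _ hpos.ne'] at h4
    have : t0 + (t' - t0) = t' := by ring
    rwa [this] at h4
  · intro x hx t ht
    exact (hline x hx t ((hfacts x hx).2.1 t ht)).2
  · -- exit
    intro x hx v2 hv2 u2 hu2
    by_contra hcon
    push Not at hcon
    obtain ⟨F, hF, hVF⟩ := H.cl _ (KC_compact p0 (5 * C * η1) v2 u2) (KC_sub hη hv2 hu2)
    obtain ⟨f1, f2, f3, f4, f5⟩ := hfacts x hx
    have hmem : ∀ t ∈ Ico t0 (exitT V t0 x), ((t, x) : P4) ∈ F := by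
      intro t ht
      have hT := f2 t ht
      have : ((t, x) : P4) ∈ V ∩ Psi ⁻¹' KC p0 (5 * C * η1) v2 u2 :=
        ⟨hT.2 t ⟨ht.1, le_rfl⟩, (hline x hx t hT).2, hcon t ht⟩
      rw [hVF] at this
      exact this.2
    have hlim : Tendsto (fun t : ℝ => ((t, x) : P4)) (𝓝[<] (exitT V t0 x))
        (𝓝 ((exitT V t0 x, x) : P4)) := by
      have hcc : Continuous (fun t : ℝ => ((t, x) : P4)) := by fun_prop
      exact (hcc.tendsto _).mono_left nhdsWithin_le_nhds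
    have hFin : ((exitT V t0 x, x) : P4) ∈ F := by
      refine hF.mem_of_tendsto hlim ?_
      filter_upwards [Ico_mem_nhdsLT f1] with t ht
      exact hmem t ht
    have hball : ((exitT V t0 x, x) : P4) ∈ Metric.ball (0 : P4) R0 := by
      rw [mem_ball_zero_iff] at hx ⊢
      rw [vline_norm]
      apply max_lt
      · rw [abs_lt]; constructor <;> linarith only [hr, hr2, f5, ht0R, f1]
      · linarith only [hr, hr2, hx]
    have : ((exitT V t0 x, x) : P4) ∈ V ∩ Psi ⁻¹' KC p0 (5 * C * η1) v2 u2 := by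
      rw [hVF]; exact ⟨hball, hFin⟩
    exact f3 this.1
  · -- norm bound
    rintro x h1 t ⟨h2, h3⟩
    obtain ⟨-, -, -, -, f5⟩ := hfacts x h1
    rw [mem_ball_zero_iff] at h1
    rw [norm_P4]
    apply max_le
    · simp only
      rw [abs_le]; constructor <;> linarith only [ht0R, hr, hr2, h2, h3, f5]
    · simp only
      linarith only [hr, hr2, h1]

/-- limits along the vertical lines -/
theorem line_limit (H : SHypC K G Psi V R0 ρ C p0) {t0 b : ℝ} {x : P3} (htb : t0 < b)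
    (hV : ∀ t ∈ Ico t0 b, ((t, x) : P4) ∈ V) {η : ℝ}
    (hη : ∀ t ∈ Ico t0 b, ‖Psi (t, x) - p0‖ ≤ η)
    (hexit : ∀ v2 < 0, ∀ u2 < 0, ∃ t ∈ Ico t0 b,
        v2 < (Psi (t, x)).2.1 ∨ u2 < (Psi (t, x)).2.2.1) :
    ∃ q : P4, Tendsto (fun t => Psi (t, x)) (𝓝[<] b) (𝓝 q) ∧ ‖q - p0‖ ≤ η ∧
      q.2.1 ≤ 0 ∧ q.2.2.1 ≤ 0 ∧ (q.2.1 = 0 ∨ q.2.2.1 = 0) := by
  have hC := H.one_le
  have hrel : ∀ s ∈ Ico t0 b, ∀ t ∈ Ico t0 b, s ≤ t → RelW C (Psi (s, x)) (Psi (t, x)) := by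
    intro s hs t ht hst
    exact H.rel_ends (vline_cone hst x)
      (vline_inV hst (fun s' hs' => hV s' ⟨hs.1.trans hs'.1, hs'.2.trans_lt ht.2⟩))
  have hbd : ∀ t ∈ Ico t0 b, |(Psi (t, x)).1 - p0.1| ≤ η ∧ |(Psi (t, x)).2.1| ≤ η ∧
      |(Psi (t, x)).2.2.1| ≤ η ∧ |(Psi (t, x)).2.2.2 - p0.2.2.2| ≤ η := by
    intro t ht
    have h1 := norm_P4_le.1 (hη t ht)
    simpa only [Prod.fst_sub, Prod.snd_sub, H.p0v, sub_zero, H.p0u] using h1
  -- monotone functions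
  have hmono : ∀ F : ℝ → ℝ, (∀ s ∈ Ico t0 b, ∀ t ∈ Ico t0 b, s ≤ t → F s ≤ F t) →
      (∃ B, ∀ t ∈ Ico t0 b, F t ≤ B) → ∃ L, Tendsto F (𝓝[<] b) (𝓝 L) ∧ ∀ t ∈ Ico t0 b, F t ≤ L := by
    intro F h1 h2
    obtain ⟨B, hB⟩ := h2
    have hm : MonotoneOn F (Ioo t0 b) := fun s hs t ht hst =>
      h1 s ⟨hs.1.le, hs.2⟩ t ⟨ht.1.le, ht.2⟩ hst
    have hb : BddAbove (F '' Ioo t0 b) := by
      refine ⟨B, ?_⟩
      rintro _ ⟨t, ht, rfl⟩
      exact hB t ⟨ht.1.le, ht.2⟩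
    have h3 := MonotoneOn.tendsto_nhdsWithin_Ioo_left (nonempty_Ioo.2 htb) hm hb
    refine ⟨_, h3, fun t ht => ?_⟩
    obtain ⟨t', ht'1, ht'2⟩ := exists_between ht.2
    exact (h1 t ht t' ⟨ht.1.trans ht'1.le, ht'2⟩ ht'1.le).trans
      (le_csSup hb ⟨t', ⟨ht.1.trans_lt ht'1, ht'2⟩, rfl⟩)
  obtain ⟨Lv, hLv, hLv'⟩ := hmono (fun t => (Psi (t, x)).2.1)
    (fun s hs t ht hst => (hrel s hs t ht hst).1)
    ⟨0, fun t ht => (H.maps _ (hV t ht)).2.1.le⟩
  obtain ⟨Lu, hLu, hLu'⟩ := hmono (fun t => (Psi (t, x)).2.2.1)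
    (fun s hs t ht hst => (hrel s hs t ht hst).2.1)
    ⟨0, fun t ht => (H.maps _ (hV t ht)).2.2.le⟩
  have hη0 : 0 ≤ η := (norm_nonneg _).trans (hη t0 ⟨le_rfl, htb⟩)
  obtain ⟨L1, hL1, -⟩ := hmono
    (fun t => (Psi (t, x)).1 + 2 * C * ((Psi (t, x)).2.1 + (Psi (t, x)).2.2.1))
    (fun s hs t ht hst => by
      have := (abs_le.1 (hrel s hs t ht hst).2.2.1).1
      linarith)
    ⟨η + p0.1 + 2 * C * (η + η), fun t ht => by
      obtain ⟨a1, a2, a3, a4⟩ := hbd t ht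
      have : 2 * C * ((Psi (t, x)).2.1 + (Psi (t, x)).2.2.1) ≤ 2 * C * (η + η) := by
        have := (abs_le.1 a2).2
        have := (abs_le.1 a3).2
        (clear t0 b htb hV hη hexit hrel hbd hmono Lv hLv hLv' Lu hLu hLu' hη0 ht a1 a4; gcongr)
      linarith only [this, (abs_le.1 a1).2]⟩
  obtain ⟨L2, hL2, -⟩ := hmono
    (fun t => (Psi (t, x)).2.2.2 + 2 * C * ((Psi (t, x)).2.1 + (Psi (t, x)).2.2.1))
    (fun s hs t ht hst => by
      have := (abs_le.1 (hrel s hs t ht hst).2.2.2).1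
      linarith)
    ⟨η + p0.2.2.2 + 2 * C * (η + η), fun t ht => by
      obtain ⟨a1, a2, a3, a4⟩ := hbd t ht
      have : 2 * C * ((Psi (t, x)).2.1 + (Psi (t, x)).2.2.1) ≤ 2 * C * (η + η) := by
        have := (abs_le.1 a2).2
        have := (abs_le.1 a3).2
        (clear t0 b htb hV hη hexit hrel hbd hmono Lv hLv hLv' Lu hLu hLu' hη0 L1 hL1 ht a1 a4; gcongr)
      linarith only [this, (abs_le.1 a4).2]⟩
  have hL1' : Tendsto (fun t => (Psi (t, x)).1) (𝓝[<] b) (𝓝 (L1 - 2 * C * (Lv + Lu))) := by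
    have h1 := hL1.sub ((hLv.add hLu).const_mul (2 * C))
    refine h1.congr fun t => ?_
    ring
  have hL2' : Tendsto (fun t => (Psi (t, x)).2.2.2) (𝓝[<] b) (𝓝 (L2 - 2 * C * (Lv + Lu))) := by
    have h1 := hL2.sub ((hLv.add hLu).const_mul (2 * C))
    refine h1.congr fun t => ?_
    ring
  have hlim : Tendsto (fun t => Psi (t, x)) (𝓝[<] b)
      (𝓝 (L1 - 2 * C * (Lv + Lu), Lv, Lu, L2 - 2 * C * (Lv + Lu))) :=
    hL1'.prodMk_nhds (hLv.prodMk_nhds (hLu.prodMk_nhds hL2'))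
  have hIco : ∀ᶠ t in 𝓝[<] b, t ∈ Ico t0 b := Ico_mem_nhdsLT htb
  have hv0 : Lv ≤ 0 := le_of_tendsto hLv (hIco.mono fun t ht => (H.maps _ (hV t ht)).2.1.le)
  have hu0 : Lu ≤ 0 := le_of_tendsto hLu (hIco.mono fun t ht => (H.maps _ (hV t ht)).2.2.le)
  refine ⟨_, hlim, ?_, hv0, hu0, ?_⟩
  · have h1 := (hlim.sub_const p0).norm
    exact le_of_tendsto h1 (hIco.mono fun t ht => hη t ht)
  · by_contra hcon
    push Not at hcon
    have hv1 : Lv < 0 := lt_of_le_of_ne hv0 hcon.1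
    have hu1 : Lu < 0 := lt_of_le_of_ne hu0 hcon.2
    obtain ⟨t, ht, h1⟩ := hexit Lv hv1 Lu hu1
    rcases h1 with h1 | h1
    · exact absurd (hLv' t ht) (not_le.2 h1)
    · exact absurd (hLu' t ht) (not_le.2 h1)

end SHypC

end Vale.Agent.P354w
end
end

section

section

set_option linter.unusedSectionVars false
set_option maxSynthPendingDepth 3

open Set

namespace Vale.Agent.P354

/-- The cone condition of the core, from closeness to the Minkowski form. -/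
lemma NearM.cone4 {B : P4 →L[ℝ] P4 →L[ℝ] ℝ} (h : NearM B) {C : ℝ} (hC : 1 ≤ C) (a : P4) :
    ‖a‖ ^ 2 ≤ C * ((4:ℝ) • B) a a + C * (((4:ℝ) • B) a P354w.e1) ^ 2 := by
  have h1 := (abs_le.1 (h a a)).1
  rw [mink_self] at h1
  have h2 := h a P354w.e1
  have hme : P354.mink a P354w.e1 = -a.1 := by simp only [mink, P354w.e1, mul_one, mul_zero, add_zero]
  have hne : ‖(P354w.e1 : P4)‖ = 1 := norm_Tv
  rw [hme, hne] at h2
  have e1' : (((4:ℝ) • B) a a) = 4 * B a a := rfl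
  have e2' : (((4:ℝ) • B) a P354w.e1) = 4 * B a P354w.e1 := rfl
  rw [e1', e2']
  set t := B a P354w.e1 with ht
  set n := ‖a‖ with hn
  have hn0 : 0 ≤ n := norm_nonneg a
  have hat : |a.1| ≤ n := norm_fst_le a
  -- t ^ 2 ≥ a.1 ^ 2 - n ^ 2 / 50
  have h3 : a.1 ^ 2 - n ^ 2 / 50 ≤ t ^ 2 := by
    obtain ⟨p1, p2⟩ := abs_le.1 h2
    obtain ⟨q1, q2⟩ := abs_le.1 hat
    have h4 : |t| ≥ |a.1| - n / 100 := by
      have : |a.1| ≤ |t| + |t - -a.1| := by
        have e : a.1 = (t - -a.1) - t := by ring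
        calc |a.1| = |(t - -a.1) - t| := by rw [← e]
          _ ≤ |t - -a.1| + |t| := abs_sub _ _
          _ = _ := by ring
      linarith only [h2, this]
    have h5 : 0 ≤ |t| := abs_nonneg t
    have h6 : 0 ≤ |a.1| := abs_nonneg _
    have h7 : t ^ 2 = |t| ^ 2 := (sq_abs t).symm
    have h8 : a.1 ^ 2 = |a.1| ^ 2 := (sq_abs _).symm
    rw [h7, h8]
    rcases le_total (|a.1|) (n / 100) with h9 | h9
    · linarith only [pow_le_pow_left₀ h6 h9 2, sq_nonneg n, sq_nonneg |t|]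
    · have h10 : (|a.1| - n / 100) ^ 2 ≤ |t| ^ 2 := by
        have : 0 ≤ |a.1| - n / 100 := by linarith only [h9]
        (clear * - h9 h4; gcongr)
      linarith only [h10, mul_le_mul_of_nonneg_right hat hn0, sq_nonneg n]
  have h4 : n ^ 2 ≤ a.1 ^ 2 + (a.2.1 ^ 2 + a.2.2.1 ^ 2 + a.2.2.2 ^ 2) := by
    have hm : n = max |a.1| (max |a.2.1| (max |a.2.2.1| |a.2.2.2|)) := rfl
    have s1 := sq_nonneg a.1
    have s2 := sq_nonneg a.2.1
    have s3 := sq_nonneg a.2.2.1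
    have s4 := sq_nonneg a.2.2.2
    rw [hm]
    rcases max_cases |a.1| (max |a.2.1| (max |a.2.2.1| |a.2.2.2|)) with h5 | h5
    · rw [h5.1, sq_abs]; linarith only [s2, s3, s4]
    · rw [h5.1]
      rcases max_cases |a.2.1| (max |a.2.2.1| |a.2.2.2|) with h6 | h6
      · rw [h6.1, sq_abs]; linarith only [s1, s3, s4]
      · rw [h6.1]
        rcases max_cases |a.2.2.1| |a.2.2.2| with h7 | h7
        · rw [h7.1, sq_abs]; linarith only [s1, s2, s4]
        · rw [h7.1, sq_abs]; linarith only [s1, s2, s3]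
  have h5 : n ^ 2 ≤ 4 * B a a + (4 * t) ^ 2 := by
    have h6 : 0 ≤ n ^ 2 := by (clear * -; positivity)
    have h7 : 0 ≤ a.1 ^ 2 := sq_nonneg _
    linarith only [h1, h3, h4, h6, h7]
  have h6 : 0 ≤ 4 * B a a + (4 * t) ^ 2 := (sq_nonneg n).trans h5
  linarith only [h5, mul_le_mul_of_nonneg_right hC h6]


end Vale.Agent.P354
end
end

section

section

set_option maxSynthPendingDepth 3

open Set Filter Topology MeasureTheory

namespace Vale.Agent.P354w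

open Vale.Agent.P354 (mink NearM Tv norm_Tv cone mem_cone InV norm_sub_le_of_deriv
  hasDerivAt_line norm_P4_le norm_P4 tube ball_seg SCurve Reach inV_const cone_nonneg cone_add
  cone_smul cone_zero cone_mono vline_sub vline_cone vline_inV vline_norm TT exitT TT_facts
  BP BP_apply bP Gram)

/-- scaling of the metric by a constant -/
def Coef.scale (c : ℝ) (K : Coef) : Coef where
  om := fun x => c * K.om x
  s1 := K.s1
  s2 := K.s2
  w1 := K.w1
  w2 := K.w2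
  g11 := fun x => c * K.g11 x
  g12 := fun x => c * K.g12 x
  g22 := fun x => c * K.g22 x

lemma gF_scale (c : ℝ) (K : Coef) (x a b : P4) : (K.scale c).gF x a b = c * K.gF x a b := by
  simp only [Coef.gF, Coef.scale, Coef.h1, Coef.h2]; ring

lemma Iso.scale {K : Coef} {G : P4 → P4 →L[ℝ] P4 →L[ℝ] ℝ} {Psi : P4 → P4} {V : Set P4}
    (h : Iso K G Psi V) (c : ℝ) : Iso (K.scale c) (fun z => c • G z) Psi V where
  isOpen := h.isOpen
  smooth := h.smooth
  diffG := fun z hz => (h.diffG z hz).const_smul c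
  diffK := fun z hz => by
    have hK := h.diffK z hz
    exact ⟨hK.om.const_mul c, hK.s1, hK.s2, hK.w1, hK.w2, hK.g11.const_mul c, hK.g12.const_mul c,
      hK.g22.const_mul c⟩
  iso := fun z hz a b => by
    rw [gF_scale, ← h.iso z hz a b]
    rfl

lemma Coef.SmoothOn.scale {K : Coef} {U : Set P4} (h : K.SmoothOn U) (c : ℝ) :
    (K.scale c).SmoothOn U where
  om := contDiffOn_const.mul h.om
  s1 := h.s1
  s2 := h.s2
  w1 := h.w1
  w2 := h.w2
  g11 := contDiffOn_const.mul h.g11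
  g12 := contDiffOn_const.mul h.g12
  g22 := contDiffOn_const.mul h.g22

/-- Gram matrix of the standard side -/
noncomputable def GramK (K : Coef) (x : P4) : Matrix (Fin 4) (Fin 4) ℝ :=
  Matrix.of fun i j => K.gF x (bP i) (bP j)

lemma det_GramK (K : Coef) (x : P4) :
    (GramK K x).det = -(K.om x ^ 2 * (K.g11 x * K.g22 x - K.g12 x ^ 2)) := by
  rw [Matrix.det_succ_row_zero]
  simp only [Nat.succ_eq_add_one, Nat.reduceAdd, GramK, Coef.gF, bP, neg_mul, Coef.h1, Coef.h2, Fin.isValue, Matrix.of_apply, Matrix.cons_val_zero, zero_mul, add_zero, mul_zero, neg_zero, sub_zero, one_mul, zero_add, sub_self, Matrix.submatrix, Fin.succAbove, Matrix.cons_val_succ, Matrix.det_fin_three, Fin.castSucc_zero, Fin.succ_zero_eq_one, mul_one, zero_sub, mul_neg, Matrix.cons_val_one, Fin.castSucc_one, Fin.succ_one_eq_two, Matrix.cons_val, Fin.reduceCastSucc, Fin.reduceSucc, Fin.sum_univ_succ, Fin.coe_ofNat_eq_mod, Nat.zero_mod,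 pow_zero, lt_self_iff_false, ↓reduceIte, neg_neg, not_lt_zero, Fin.val_succ, Fin.succ_pos, pow_one, neg_add_rev, Fin.lt_one_iff, Fin.reduceEq, even_two, Even.neg_pow, one_pow, Fin.reduceLT, Finset.univ_unique, Fin.default_eq_zero, Fin.val_eq_zero, Matrix.cons_val_fin_one, Finset.sum_singleton]
  ring

lemma gF_smul_left (K : Coef) (x a b : P4) (t : ℝ) : K.gF x (t • a) b = t * K.gF x a b := by
  simp only [Coef.gF, Prod.smul_snd, Prod.smul_fst, smul_eq_mul, Coef.h1, Coef.h2]; ring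

lemma gF_smul_right (K : Coef) (x a b : P4) (t : ℝ) : K.gF x a (t • b) = t * K.gF x a b := by
  simp only [Coef.gF, Prod.smul_snd, Prod.smul_fst, smul_eq_mul, Coef.h1, Coef.h2]; ring

lemma gF_expand (K : Coef) (x : P4) (c d : Fin 4 → ℝ) :
    K.gF x (∑ i, c i • bP i) (∑ j, d j • bP j) = ∑ i, ∑ j, c i * (K.gF x (bP i) (bP j)) * d j := by
  simp only [Fin.sum_univ_four, K.gF_add_left, K.gF_add_right, gF_smul_left, gF_smul_right]
  ring

lemma Gram_eq {K : Coef} {G : P4 → P4 →L[ℝ] P4 →L[ℝ] ℝ} {Psi : P4 → P4} {V : Set P4}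
    (h : Iso K G Psi V) {z : P4} (hz : z ∈ V) :
    Gram (G z) = (LinearMap.toMatrix BP BP (fderiv ℝ Psi z : P4 →ₗ[ℝ] P4)).transpose *
      GramK K (Psi z) * (LinearMap.toMatrix BP BP (fderiv ℝ Psi z : P4 →ₗ[ℝ] P4)) := by
  set L : Matrix (Fin 4) (Fin 4) ℝ := LinearMap.toMatrix BP BP (fderiv ℝ Psi z : P4 →ₗ[ℝ] P4)
    with hL
  have hcol : ∀ j, fderiv ℝ Psi z (bP j) = ∑ i, L i j • bP i := by
    intro j
    have h1 := BP.sum_repr (fderiv ℝ Psi z (bP j))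
    rw [← h1]
    refine Finset.sum_congr rfl fun i _ => ?_
    rw [hL, LinearMap.toMatrix_apply, BP_apply, BP_apply]
    rfl
  ext i j
  rw [Matrix.mul_apply]
  simp only [Matrix.mul_apply, Matrix.transpose_apply]
  have h2 : Gram (G z) i j = G z (bP i) (bP j) := rfl
  rw [h2, h.iso z hz, hcol, hcol, gF_expand]
  simp only [Finset.sum_mul]
  rw [Finset.sum_comm]
  rfl

lemma det_bounds {K : Coef} {G : P4 → P4 →L[ℝ] P4 →L[ℝ] ℝ} {Psi : P4 → P4} {V : Set P4}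
    (h : Iso K G Psi V) {z : P4} (hz : z ∈ V) {C : ℝ} (hC : CBdW K C (Psi z))
    (hdet : (Gram (G z)).det ∈ Ioo (-2 : ℝ) (-(1 / 2))) :
    1 ≤ 4 * C ^ 4 * |(fderiv ℝ Psi z).det| ∧ |(fderiv ℝ Psi z).det| ≤ 4 * C ^ 4 := by
  have h1 := Gram_eq h hz
  have h2 := congrArg Matrix.det h1
  rw [Matrix.det_mul, Matrix.det_mul, Matrix.det_transpose, LinearMap.det_toMatrix,
    det_GramK] at h2
  have h3 : LinearMap.det (fderiv ℝ Psi z : P4 →ₗ[ℝ] P4) = (fderiv ℝ Psi z).det := rfl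
  rw [h3] at h2
  set D := (fderiv ℝ Psi z).det with hD
  set om := K.om (Psi z) with hom
  set g := K.g11 (Psi z) * K.g22 (Psi z) - K.g12 (Psi z) ^ 2 with hg
  have hC1 := hC.one_le
  have hC0 := hC.C_pos
  have hompos := hC.om_pos
  have hom1 : om ^ 2 ≤ C ^ 2 := by
    have := hC.om_hi
    (clear * - hompos this; gcongr)
  have hom2 : 1 ≤ C ^ 2 * om ^ 2 := by
    have h4 := hC.om_lo
    rw [div_le_iff₀ hC0] at h4
    have h5 : 1 ≤ (om * C) ^ 2 := one_le_pow₀ h4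
    calc (1:ℝ) ≤ (om * C) ^ 2 := h5
      _ = _ := by ring
  have hg1 : g ≤ C ^ 2 := by
    have a1 : K.g11 (Psi z) * K.g22 (Psi z) ≤ C * C := by
      calc K.g11 (Psi z) * K.g22 (Psi z) ≤ |K.g11 (Psi z) * K.g22 (Psi z)| := le_abs_self _
        _ = |K.g11 (Psi z)| * |K.g22 (Psi z)| := abs_mul _ _
        _ ≤ C * C := mul_le_mul hC.g11_hi hC.g22_hi (abs_nonneg _) hC0.le
    have a2 := sq_nonneg (K.g12 (Psi z))
    rw [hg]; linarith only [a1, a2]
  have hg2 : 1 ≤ C ^ 2 * g := by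
    have b1 := hC.g_lo (K.g12 (Psi z)) (-K.g11 (Psi z))
    have b2 := hC.g_lo 1 0
    rw [div_le_iff₀ hC0] at b1 b2
    have b3 : 1 ≤ K.g11 (Psi z) * C := by linarith only [b2]
    have b4 : 0 < K.g11 (Psi z) := by
      by_contra hcon
      push Not at hcon
      linarith only [b2, mul_nonpos_of_nonpos_of_nonneg hcon hC0.le]
    have b5 : K.g11 (Psi z) ^ 2 ≤ K.g11 (Psi z) * g * C := by
      have : K.g11 (Psi z) * K.g12 (Psi z) ^ 2 + 2 * K.g12 (Psi z) * K.g12 (Psi z) *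
        -K.g11 (Psi z) + K.g22 (Psi z) * (-K.g11 (Psi z)) ^ 2 = K.g11 (Psi z) * g := by
        rw [hg]; ring
      rw [this] at b1
      linarith only [b1, sq_nonneg (K.g12 (Psi z))]
    have b6 : K.g11 (Psi z) ≤ g * C := by
      have : K.g11 (Psi z) * K.g11 (Psi z) ≤ K.g11 (Psi z) * (g * C) := by linarith only [b5]
      exact le_of_mul_le_mul_left this b4
    linarith only [b2, mul_le_mul_of_nonneg_right b6 hC0.le]
  have hD2 : D * -(om ^ 2 * g) * D = -(D ^ 2 * (om ^ 2 * g)) := by ring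
  rw [hD2] at h2
  have hdl : D ^ 2 * (om ^ 2 * g) < 2 := by linarith only [h2, hdet.1]
  have hdu : 1 / 2 < D ^ 2 * (om ^ 2 * g) := by linarith only [h2, hdet.2]
  have hgpos : 0 < g := by
    by_contra hcon
    push Not at hcon
    linarith only [hg2, mul_nonpos_of_nonneg_of_nonpos (sq_nonneg C) hcon]
  have hC4 : 0 < C ^ 4 := by (clear * - hC1; positivity)
  have hC41 : 1 ≤ C ^ 4 := one_le_pow₀ hC1
  have e1 : D ^ 2 ≤ 2 * C ^ 4 := by
    have : 1 ≤ C ^ 4 * (om ^ 2 * g) := by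
      calc (1:ℝ) ≤ (C ^ 2 * om ^ 2) * (C ^ 2 * g) := one_le_mul_of_one_le_of_one_le hom2 hg2
        _ = _ := by ring
    calc D ^ 2 = D ^ 2 * 1 := by ring
      _ ≤ D ^ 2 * (C ^ 4 * (om ^ 2 * g)) := by (clear * - this; gcongr)
      _ = C ^ 4 * (D ^ 2 * (om ^ 2 * g)) := by ring
      _ ≤ C ^ 4 * 2 := by (clear * - hdl hC1; gcongr)
      _ = _ := by ring
  have e2 : 1 / 2 ≤ D ^ 2 * C ^ 4 := by
    calc 1 / 2 ≤ D ^ 2 * (om ^ 2 * g) := hdu.le
      _ ≤ D ^ 2 * (C ^ 2 * C ^ 2) := by (clear * - hom1 hg1 hgpos hC1; gcongr)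
      _ = _ := by ring
  constructor
  · have e3 : 1 ≤ (4 * C ^ 4 * |D|) ^ 2 := by
      have : (4 * C ^ 4 * |D|) ^ 2 = 16 * C ^ 4 * (D ^ 2 * C ^ 4) := by
        rw [mul_pow, sq_abs]; ring
      rw [this]
      linarith only [mul_le_mul hC41 e2 (by norm_num) hC4.le]
    have e4 : 0 ≤ 4 * C ^ 4 * |D| := by (clear * - hC1; positivity)
    by_contra hcon
    push Not at hcon
    linarith only [e3, pow_lt_one₀ e4 hcon two_ne_zero]
  · apply abs_le_of_sq_le_sq _ (by positivity)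
    calc D ^ 2 ≤ 2 * C ^ 4 := e1
      _ ≤ 16 * (C ^ 4 * C ^ 4) := by linarith only [hC4, mul_le_mul_of_nonneg_left hC41 hC4.le]
      _ = _ := by ring

lemma MC_isOpen (p0 : P4) (r : ℝ) : IsOpen (MC p0 r) := by
  have : MC p0 r = {x | ‖x - p0‖ < r} ∩ ({x | x.2.1 < 0} ∩ {x | x.2.2.1 < 0}) := rfl
  rw [this]
  exact (isOpen_lt (by (clear * -; fun_prop)) continuous_const).inter
    ((isOpen_lt (by fun_prop) continuous_const).inter (isOpen_lt (by fun_prop) continuous_const))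

/-- the energy hypothesis on the exotic side -/
structure EHyp (G : P4 → P4 →L[ℝ] P4 →L[ℝ] ℝ) (V : Set P4) (R0 : ℝ) : Prop where
  det : ∀ z ∈ V, (Gram (G z)).det ∈ Ioo (-2 : ℝ) (-(1 / 2))
  energy : ∀ D ⊆ V, IsOpen D → (∀ z ∈ D, ‖z‖ ≤ R0 / 2) →
    ∫⁻ z in D, ‖fderiv ℝ (fun z => (4:ℝ) • G z) z‖ₑ ^ 2 ≠ ⊤

/-- **Exit near a corner.** Some vertical line near a curve which exits at the corner exits at a
boundary point which is not on the corner. -/
theorem corner_exit {K : Coef} {G : P4 → P4 →L[ℝ] P4 →L[ℝ] ℝ} {Psi : P4 → P4} {V : Set P4}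
    {R0 ρ C : ℝ} {p0 : P4} {γ : ℝ → P4} {s0 η1 Cc : ℝ} {cv cw cu : ℝ → ℝ}
    (H : SHypC K G Psi V R0 ρ C p0) (hc : SCurve Psi V p0 γ s0 η1)
    (hη : 5 * C * η1 < ρ) (hinj : InjOn Psi V) (hsm : K.SmoothOn (MC p0 ρ))
    (hCc : 4 * C ^ 4 ≤ Cc)
    (hbd : ∀ y ∈ MC p0 ρ, (K.scale 4).Bd y Cc (cv y.2.1) (cw y.2.1) (cu y.2.2.1))
    (hcvm : Measurable cv) (hcwm : Measurable cw) (hcum : Measurable cu)
    (hcv : ∫⁻ v in Ico (-(ρ + ‖p0‖)) 0, ENNReal.ofReal (cv v) ≠ ⊤)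
    (hcw : ∫⁻ v in Ico (-(ρ + ‖p0‖)) 0, ENNReal.ofReal (cw v) ≠ ⊤)
    (hcu : ∫⁻ u in Icc (-(ρ + ‖p0‖)) (ρ + ‖p0‖), ENNReal.ofReal (cu u) ≠ ⊤)
    (hE : EHyp G V R0) :
    ∃ (t0 b : ℝ) (x : P3) (q : P4), t0 < b ∧ (∀ t ∈ Ico t0 b, ((t, x) : P4) ∈ V) ∧
      (∀ t ∈ Icc t0 b, ‖((t, x) : P4)‖ ≤ R0 / 2) ∧
      Tendsto (fun t => Psi (t, x)) (𝓝[<] b) (𝓝 q) ∧ ‖q - p0‖ ≤ 5 * C * η1 ∧
      ((q.2.1 = 0 ∧ q.2.2.1 < 0) ∨ (q.2.1 < 0 ∧ q.2.2.1 = 0)) := by
  have hC1 := H.one_le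
  have hC0 : 0 < C := by linarith only [hC1]
  obtain ⟨t0, r, f, hr, ht0f, hmemV, hopenD, hgood, hexit, hR⟩ := H.main hc hη
  have hDV : DD t0 r f ⊆ V := by
    rintro ⟨t, x⟩ ⟨hx, h1, h2⟩
    exact hmemV x hx t ⟨le_of_lt h1, h2⟩
  have hDR : ∀ z ∈ DD t0 r f, ‖z‖ ≤ R0 / 2 := by
    rintro ⟨t, x⟩ ⟨hx, h1, h2⟩
    exact hR x hx t ⟨le_of_lt h1, le_of_lt h2⟩
  have hC4 : C ≤ C ^ 4 := by
    calc C = C ^ 1 := (pow_one _).symm
      _ ≤ C ^ 4 := pow_le_pow_right₀ hC1 (by norm_num)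
  have hCc1 : 1 ≤ Cc := by linarith only [hCc, hC1, hC4]
  set R : ℝ := ρ + ‖p0‖ with hRdef
  have hρ := H.ρ_pos
  have hpre : PreHyp (K.scale 4) (fun z => (4:ℝ) • G z) Psi V (MC p0 ρ) Cc R cv cw cu t0 r f := by
    refine
      { openU := MC_isOpen _ _
        smoothK := hsm.scale 4
        bd := hbd
        U_sub := ?_
        cv_meas := hcvm
        cw_meas := hcwm
        cu_meas := hcum
        cv_int := hcv
        cw_int := hcw
        cu_int := hcu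
        iso := H.iso.scale 4
        inj := hinj
        maps := fun z hz => H.maps z hz
        cone := fun z hz a => (H.nearV hz).cone4 hCc1 a
        tt := ?_
        pos := fun z hz => H.beta z hz
        det_lo := ?_
        det_hi := ?_
        r_pos := hr
        t0f := ht0f
        memV := hmemV
        openD := hopenD
        finD := ?_
        L2 := hE.energy _ hDV hopenD hDR }
    · intro y hy
      have h1 := hy.1
      have h2 := norm_P4_le.1 (le_refl ‖y - p0‖)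
      have h3 := norm_P4_le.1 (le_refl ‖p0‖)
      simp only [Prod.fst_sub, Prod.snd_sub] at h2
      have tri : ∀ s t : ℝ, |s - t| < ρ → |t| ≤ ‖p0‖ → |s| ≤ R := by
        intro s t h4 h5
        have : |s| ≤ |s - t| + |t| := by
          calc |s| = |(s - t) + t| := by congr 1; ring
            _ ≤ _ := abs_add_le _ _
        rw [hRdef]; linarith only [h4, h5, this]
      have hyv := tri _ _ (h2.2.1.trans_lt h1) h3.2.1
      exact ⟨tri _ _ (h2.1.trans_lt h1) h3.1, (abs_le.1 hyv).1, hy.2.1,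
        tri _ _ (h2.2.2.1.trans_lt h1) h3.2.2.1, tri _ _ (h2.2.2.2.trans_lt h1) h3.2.2.2⟩
    · intro z hz
      have hTc : Tv ∈ cone (1 / 4) := by simp only [one_div, Tv, mem_cone, Prod.norm_mk, norm_zero, max_self, mul_one, inv_nonneg, Nat.ofNat_nonneg]
      have h1 := (H.nearV hz).timelike_of_cone hTc
      have h2 : (Tv : P4).1 = 1 := rfl
      rw [h2] at h1
      have h3 : ((4:ℝ) • G z) e1 e1 = 4 * G z Tv Tv := rfl
      show 1 ≤ Cc * (-(((4:ℝ) • G z) e1 e1))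
      rw [h3]
      nlinarith only [hCc, hC1, hC4, h1]
    · intro z hz
      have h1 := (det_bounds H.iso hz (H.cbd hz) (hE.det z hz)).1
      refine h1.trans ?_
      (clear * - hCc; gcongr)
    · intro z hz
      exact (det_bounds H.iso hz (H.cbd hz) (hE.det z hz)).2.trans hCc
    · refine ne_of_lt (lt_of_le_of_lt (measure_mono (t := Metric.closedBall (0 : P4) (R0 / 2)) ?_)
        measure_closedBall_lt_top)
      intro z hz
      simpa only [Metric.mem_closedBall, dist_zero_right] using hDR z hz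
  by_contra hcon
  push Not at hcon
  apply hpre.corner (fun y hy => hy.2.2)
  intro x hx
  have hVx := hmemV x hx
  obtain ⟨q, hq, hqη, hqv, hqu, hq0⟩ := H.line_limit (ht0f x hx) hVx (hgood x hx) (hexit x hx)
  have h1 := hcon t0 (f x) x q (ht0f x hx) hVx (hR x hx) hq hqη
  obtain ⟨h2, h3⟩ := h1
  have hq00 : q.2.1 = 0 ∧ q.2.2.1 = 0 := by
    rcases hq0 with h | h
    · exact ⟨h, le_antisymm hqu (h2 h)⟩
    · refine ⟨?_, h⟩
      by_contra hne
      exact h3 (lt_of_le_of_ne hqv hne) h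
  intro ε hε
  have hv : Tendsto (fun t => (Psi (t, x)).2.1) (𝓝[<] (f x)) (𝓝 0) := by
    have := ((continuous_fst.comp continuous_snd).tendsto q).comp hq
    simpa only [Function.comp_def, Function.comp_apply, hq00.1] using this
  have hu : Tendsto (fun t => (Psi (t, x)).2.2.1) (𝓝[<] (f x)) (𝓝 0) := by
    have := ((continuous_fst.comp (continuous_snd.comp continuous_snd)).tendsto q).comp hq
    simpa only [Function.comp_def, Function.comp_apply, hq00.2] using this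
  have hev := ((hv.eventually (Metric.ball_mem_nhds _ hε)).and
    (hu.eventually (Metric.ball_mem_nhds _ hε)))
  obtain ⟨t1, ht1, ht1'⟩ := mem_nhdsLT_iff_exists_Ico_subset.1 hev
  refine ⟨t1, ht1, fun t ht _ => ?_⟩
  have h4 := ht1' (show t ∈ Ico t1 (f x) from ⟨ht.1.le, ht.2⟩)
  simpa only [dist_zero_right, Real.norm_eq_abs, mem_ofPred_eq] using h4

end Vale.Agent.P354w
end
end

section

section

set_option linter.unusedSectionVars false
set_option maxSynthPendingDepth 3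

open scoped Manifold ContDiff
open MeasureTheory Set Topology

namespace Vale.Agent.P354p

open Vale.Agent.P354 (Bilin LBasis P4 Coef Iso comb exists_adapted B_comb)

section

variable {M N : Spc} [Nonempty M.pt] {e : M.Chart} {e' : N.Chart}
  {ι : M.pt → N.pt} {h : IsOpenEmbedding ι} {Reg Reg' : (R4 → ℝ) → Set R4 → Prop}
  {C : ℕ → R4 → ℝ} {Om : Set R4}

/-- domain of the map Psi, in exotic coordinates -/
noncomputable def Vset (e : M.Chart) (e' : N.Chart) (ι : M.pt → N.pt) (h : IsOpenEmbedding ι)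
    (Om : Set R4) (y0 : R4) (A : R4 ≃L[ℝ] R4) : Set R4 :=
  {z | yv y0 A z ∈ (theta e e' ι h).target ∧ (theta e e' ι h).symm (yv y0 A z) ∈ Om}

/-- from exotic coordinates to the standard coordinates (th1, (v, (u, th2))) -/
noncomputable def PsiF (e : M.Chart) (e' : N.Chart) (ι : M.pt → N.pt) (h : IsOpenEmbedding ι)
    (y0 : R4) (A : R4 ≃L[ℝ] R4) (z : R4) : R4 :=
  Sp ((theta e e' ι h).symm (yv y0 A z))

lemma Vset_isOpen (hOm : IsOpen Om) (y0 : R4) (A : R4 ≃L[ℝ] R4) :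
    IsOpen (Vset e e' ι h Om y0 A) := by
  have : IsOpen ((theta e e' ι h).target ∩ (theta e e' ι h).symm ⁻¹' Om) :=
    (theta e e' ι h).symm.isOpen_inter_preimage hOm
  exact this.preimage (yv_continuous y0 A)

lemma Psi_contDiffOn (hg : IsSpacetime Reg M) (hg' : IsSpacetime Reg' N)
    (hI : IsIsom ι) (Om : Set R4) (y0 : R4) (A : R4 ≃L[ℝ] R4) :
    ContDiffOn ℝ ∞ (PsiF e e' ι h y0 A) (Vset e e' ι h Om y0 A) := by
  have h1 := theta_symm_contDiffOn (h := h) (e := e) (e' := e') hg hg' hI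
  exact Sp.contDiff.comp_contDiffOn
    (h1.comp (yv_contDiff y0 A).contDiffOn (fun z hz => hz.1))

lemma Psi_hasFDerivAt (hg : IsSpacetime Reg M) (hg' : IsSpacetime Reg' N)
    (hI : IsIsom ι) (y0 : R4) (A : R4 ≃L[ℝ] R4) {z : R4}
    (hz : yv y0 A z ∈ (theta e e' ι h).target) :
    HasFDerivAt (PsiF e e' ι h y0 A) ((Sp : R4 →L[ℝ] R4).comp
      ((fderiv ℝ (theta e e' ι h).symm (yv y0 A z)).comp (A : R4 →L[ℝ] R4))) z := by
  have h2 : HasFDerivAt (theta e e' ι h).symm (fderiv ℝ (theta e e' ι h).symm (yv y0 A z))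
      (yv y0 A z) :=
    (((theta_symm_contDiffOn (h := h) hg hg' hI).differentiableOn (by simp)).differentiableAt
      ((theta e e' ι h).open_target.mem_nhds hz)).hasFDerivAt
  exact Sp.hasFDerivAt.comp z (h2.comp z (yv_hasFDerivAt y0 A z))

lemma target_sub {y : R4} (hy : y ∈ (theta e e' ι h).target) : y ∈ tgt e' :=
  (mem_theta_target.1 hy).1

lemma Psi_form (hg : IsSpacetime Reg M) (hg' : IsSpacetime Reg' N)
    (hI : IsIsom ι)
    (hC : ∀ x ∈ Om, ∀ a b, M.g e x a b = form C x a b)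
    (y0 : R4) (A : R4 ≃L[ℝ] R4) {z : R4} (hz : z ∈ Vset e e' ι h Om y0 A) (a b : R4) :
    Gf (comp e') y0 A z a b = form C ((theta e e' ι h).symm (yv y0 A z))
      (fderiv ℝ (theta e e' ι h).symm (yv y0 A z) (A a))
      (fderiv ℝ (theta e e' ι h).symm (yv y0 A z) (A b)) := by
  rw [Gf_apply (hg'.bilin e' (target_sub hz.1)), theta_pull_symm (h := h) hg hg' hI hz.1,
    hC _ hz.2]

lemma Psi_iso (hg : IsSpacetime Reg M) (hg' : IsSpacetime Reg' N)
    (hI : IsIsom ι)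
    (hC : ∀ x ∈ Om, ∀ a b, M.g e x a b = form C x a b)
    (h67 : ∀ x ∈ Om, C 6 x = 0 ∧ C 7 x = 0)
    (y0 : R4) (A : R4 ≃L[ℝ] R4) {z : R4} (hz : z ∈ Vset e e' ι h Om y0 A) (a b : R4) :
    Gf (comp e') y0 A z a b = (toCoef C).gF (PsiF e e' ι h y0 A z)
      (fderiv ℝ (PsiF e e' ι h y0 A) z a) (fderiv ℝ (PsiF e e' ι h y0 A) z b) := by
  rw [Psi_form hg hg' hI hC y0 A hz, form_eq C (h67 _ hz.2).1 (h67 _ hz.2).2,
    (Psi_hasFDerivAt (h := h) hg hg' hI y0 A hz.1).fderiv]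
  rfl

lemma diff_Sp {f : R4 → ℝ} {x : R4} (hf : DifferentiableAt ℝ f x) :
    DifferentiableAt ℝ (fun z => f (Sp.symm z)) (Sp x) := by
  have : DifferentiableAt ℝ f (Sp.symm (Sp x)) := by simpa using hf
  exact this.comp (Sp x) Sp.symm.differentiableAt

lemma diffG (hg : IsSpacetime IsSmooth M) (hg' : IsSpacetime Reg' N)
    (hI : IsIsom ι) (y0 : R4) (A : R4 ≃L[ℝ] R4) {z : R4}
    (hz : yv y0 A z ∈ (theta e e' ι h).target) :
    DifferentiableAt ℝ (Gf (comp e') y0 A) z := by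
  have h1 := Gf_contDiffOn (c := comp e')
    (fun i j => comp_contDiffOn_target (h := h) (e := e) (e' := e') hg hg' hI (bas i) (bas j)) y0 A
  refine (h1.differentiableOn (by simp)).differentiableAt ?_
  exact ((theta e e' ι h).open_target.preimage (yv_continuous y0 A)).mem_nhds hz

lemma Psi_Iso (hg : IsSpacetime IsSmooth M) (hg' : IsSpacetime Reg' N)
    (hI : IsIsom ι) (hOm : IsOpen Om)
    (hC : ∀ x ∈ Om, ∀ a b, M.g e x a b = form C x a b)
    (h67 : ∀ x ∈ Om, C 6 x = 0 ∧ C 7 x = 0)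
    (hCd : ∀ x ∈ Om, ∀ i, DifferentiableAt ℝ (C i) x)
    (y0 : R4) (A : R4 ≃L[ℝ] R4) :
    Iso (toCoef C) (Gf (comp e') y0 A) (PsiF e e' ι h y0 A) (Vset e e' ι h Om y0 A) where
  isOpen := Vset_isOpen hOm y0 A
  smooth := (Psi_contDiffOn hg hg' hI Om y0 A).of_le (by norm_cast)
  diffG := fun z hz => diffG hg hg' hI y0 A hz.1
  diffK := by
    intro z hz
    have hd := hCd _ hz.2
    exact ⟨diff_Sp (hd 3), diff_Sp (hd 4), diff_Sp (hd 5), diff_Sp (hd 0), diff_Sp (hd 1),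
      diff_Sp (hd 2)⟩
  iso := fun z hz a b => Psi_iso hg hg' hI hC h67 y0 A hz a b

/-- coefficients transported to the internal order of coordinates, both shifts -/
noncomputable def toW (C : ℕ → R4 → ℝ) : P354w.Coef where
  om := fun z => C 3 (Sp.symm z)
  s1 := fun z => C 4 (Sp.symm z)
  s2 := fun z => C 5 (Sp.symm z)
  w1 := fun z => C 6 (Sp.symm z)
  w2 := fun z => C 7 (Sp.symm z)
  g11 := fun z => C 0 (Sp.symm z)
  g12 := fun z => C 1 (Sp.symm z)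
  g22 := fun z => C 2 (Sp.symm z)

lemma form_eqW (C : ℕ → R4 → ℝ) (x a b : R4) :
    form C x a b = (toW C).gF (Sp x) (Sp a) (Sp b) := by
  simp only [form, ang, h1, h2, cu, cv, c1, c2, P354w.Coef.gF,
    P354w.Coef.h1, P354w.Coef.h2, toW, ContinuousLinearEquiv.symm_apply_apply]
  simp only [Sp_apply]
  ring

lemma Psi_IsoW (hg : IsSpacetime IsSmooth M) (hg' : IsSpacetime Reg' N)
    (hI : IsIsom ι) (hOm : IsOpen Om)
    (hC : ∀ x ∈ Om, ∀ a b, M.g e x a b = form C x a b)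
    (hCd : ∀ x ∈ Om, ∀ i, DifferentiableAt ℝ (C i) x)
    (y0 : R4) (A : R4 ≃L[ℝ] R4) :
    P354w.Iso (toW C) (Gf (comp e') y0 A) (PsiF e e' ι h y0 A) (Vset e e' ι h Om y0 A) where
  isOpen := Vset_isOpen hOm y0 A
  smooth := (Psi_contDiffOn hg hg' hI Om y0 A).of_le (by norm_cast)
  diffG := fun z hz => diffG hg hg' hI y0 A hz.1
  diffK := by
    intro z hz
    have hd := hCd _ hz.2
    exact ⟨diff_Sp (hd 3), diff_Sp (hd 4), diff_Sp (hd 5), diff_Sp (hd 6), diff_Sp (hd 7),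
      diff_Sp (hd 0), diff_Sp (hd 1), diff_Sp (hd 2)⟩
  iso := fun z hz a b => by
    rw [Psi_form hg hg' hI hC y0 A hz, form_eqW,
      (Psi_hasFDerivAt (h := h) hg hg' hI y0 A hz.1).fderiv]
    rfl

end

section

variable {N : Spc} {e' : N.Chart} {Reg' : (R4 → ℝ) → Set R4 → Prop}

/-- the linear map with columns b -/
noncomputable def colMap (b : Fin 4 → R4) : R4 →ₗ[ℝ] R4 where
  toFun := fun a => comb b ![a.1, a.2.1, a.2.2.1, a.2.2.2]
  map_add' := fun x y => by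
    simp [comb, add_smul]
    abel
  map_smul' := fun t x => by
    simp [comb, mul_smul, smul_add]

lemma colMap_apply (b : Fin 4 → R4) (a : R4) :
    colMap b a = comb b ![a.1, a.2.1, a.2.2.1, a.2.2.2] := rfl

lemma mink_nondeg {a : R4} (h : ∀ b, P354.mink a b = 0) : a = 0 := by
  have h0 := h (1, 0, 0, 0)
  have h1 := h (0, 1, 0, 0)
  have h2 := h (0, 0, 1, 0)
  have h3 := h (0, 0, 0, 1)
  simp only [P354.mink, mul_one, mul_zero, add_zero, neg_eq_zero, neg_zero, zero_add] at h0 h1 h2 h3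
  ext <;> simp [h0, h1, h2, h3]

lemma exists_A (hg' : IsSpacetime Reg' N) {y0 : R4}
    (hy0 : y0 ∈ tgt e') {w : R4} (hw : N.g e' y0 w w < 0) :
    ∃ A : R4 ≃L[ℝ] R4, (∀ a b, N.g e' y0 (A a) (A b) = P354.mink a b) ∧
      ∃ l : ℝ, 0 < l ∧ A (1, 0, 0, 0) = l • w := by
  obtain ⟨b, hb⟩ := hg'.exists_LBasis e' hy0
  have hB := hg'.bilin e' hy0
  obtain ⟨b', hb', l, hl, hb0⟩ := exists_adapted hB hb (hb.span hB finrank_R4) hw
  have hform : ∀ a c : R4, N.g e' y0 (colMap b' a) (colMap b' c) = P354.mink a c := by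
    intro a c
    rw [colMap_apply, colMap_apply, B_comb hB hb']
    simp only [Fin.isValue, Matrix.cons_val_zero, Matrix.cons_val_one, Matrix.cons_val, P354.mink]
  have hinj : Function.Injective (colMap b') := by
    rw [injective_iff_map_eq_zero]
    intro a ha
    apply mink_nondeg
    intro c
    rw [← hform, ha]
    have := hB.smul_left 0 0 (colMap b' c)
    simpa only [smul_zero, zero_mul] using this
  let L : R4 ≃ₗ[ℝ] R4 := LinearMap.linearEquivOfInjective (colMap b') hinj rfl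
  have hL : ∀ a, L a = colMap b' a := fun a => rfl
  refine ⟨L.toContinuousLinearEquiv, ?_, l, hl, ?_⟩
  · intro a c
    exact hform a c
  · show colMap b' (1, 0, 0, 0) = l • w
    rw [colMap_apply, ← hb0]
    simp [comb]

end

end Vale.Agent.P354p
end
end

section

section

set_option maxSynthPendingDepth 3

open Set Filter Topology

namespace Vale.Agent.P354

/-- A curve with bounded velocity has an end point. -/
lemma exists_limit {φ : ℝ → P4} {T t0 A : ℝ} (ht : t0 < T) (hA : 0 < A)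
    (h : ∀ t ∈ Ico t0 T, ∀ t' ∈ Ico t0 T, t ≤ t' → ‖φ t' - φ t‖ ≤ A * (t' - t)) :
    ∃ p, Tendsto φ (𝓝[<] T) (𝓝 p) := by
  have hc : Cauchy (map φ (𝓝[<] T)) := by
    rw [Metric.cauchy_iff]
    refine ⟨inferInstance, fun ε hε => ?_⟩
    set t1 := max t0 (T - ε / (2 * A)) with ht1
    have h1 : t1 < T := max_lt ht (by have : 0 < ε / (2 * A) := by (clear * - hε hA; positivity)
                                      linarith only [this])
    refine ⟨φ '' Ico t1 T, image_mem_map (Ico_mem_nhdsLT h1), ?_⟩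
    have key : ∀ t ∈ Ico t1 T, ∀ t' ∈ Ico t1 T, t ≤ t' → dist (φ t') (φ t) < ε := by
      intro t hti t' hti' htt
      rw [dist_eq_norm]
      have h2 := h t ⟨(le_max_left _ _).trans hti.1, hti.2⟩ t' ⟨(le_max_left _ _).trans hti'.1,
        hti'.2⟩ htt
      have h3 : t' - t ≤ ε / (2 * A) := by
        have := (le_max_right t0 (T - ε / (2 * A))).trans hti.1
        linarith only [this, hti'.2]
      calc ‖φ t' - φ t‖ ≤ A * (ε / (2 * A)) := h2.trans (by (clear * - h3 hA; gcongr))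
        _ = ε / 2 := by (clear * - hA hε; field_simp)
        _ < ε := by linarith only [hε]
    rintro _ ⟨t, ht, rfl⟩ _ ⟨t', ht', rfl⟩
    rcases le_total t t' with h4 | h4
    · rw [dist_comm]; exact key t ht t' ht' h4
    · exact key t' ht' t ht h4
  obtain ⟨p, hp⟩ := CompleteSpace.complete hc
  exact ⟨p, hp⟩

namespace SHyp

variable {K : Coef} {G : P4 → P4 →L[ℝ] P4 →L[ℝ] ℝ} {Psi Phi : P4 → P4} {V : Set P4}
  {R0 ρ C : ℝ} {p0 : P4}

/-- bounds of the velocity of the image of a good vertical line -/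
lemma good_vel (H : SHyp K G Psi Phi V R0 ρ C p0) {z : P4} (hz : z ∈ V) {A : ℝ} (hA : 1 ≤ A)
    (hb : ‖fderiv ℝ Psi z Tv‖ ≤ A) :
    K.gF (Psi z) (fderiv ℝ Psi z Tv) (fderiv ℝ Psi z Tv) ≤ -(1 / 2) ∧
      0 < (fderiv ℝ Psi z Tv).2.1 ∧ 1 / (4 * C * A) ≤ (fderiv ℝ Psi z Tv).2.1 := by
  have hc := H.cbd hz
  have hTc : Tv ∈ cone (1 / 4) := by simp only [one_div, Tv, mem_cone, Prod.norm_mk, norm_zero, max_self, mul_one, inv_nonneg, Nat.ofNat_nonneg]
  have h1 := (H.nearV hz).timelike_of_cone hTc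
  have h2 : (Tv : P4).1 = 1 := rfl
  rw [h2, H.iso.iso z hz] at h1
  have h3 := H.beta z hz
  have h4 : K.gF (Psi z) (fderiv ℝ Psi z Tv) (fderiv ℝ Psi z Tv) ≤ -(1 / 2) := by linarith
  refine ⟨h4, h3, ?_⟩
  have h5 := hc.u_pos (by linarith only [h1]) h3
  have h6 := h4
  rw [gF_diag] at h6
  have hQ := hc.Q_nonneg (K.h1 (Psi z) (fderiv ℝ Psi z Tv)) (K.h2 (Psi z) (fderiv ℝ Psi z Tv))
  have h7 : K.om (Psi z) * ((fderiv ℝ Psi z Tv).2.1 * (fderiv ℝ Psi z Tv).2.2.1) ≤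
      C * ((fderiv ℝ Psi z Tv).2.1 * A) := by
    have h8 : (fderiv ℝ Psi z Tv).2.2.1 ≤ A :=
      (le_abs_self _).trans ((norm_P4_le.1 hb).2.2.1)
    have := hc.om_hi
    have := hc.C_pos
    gcongr
  have hC0 := hc.C_pos
  rw [div_le_iff₀ (by (clear * - hC0 hA; positivity))]
  linarith only [h6, hQ, h7]

/-- the facts on a good vertical line -/
structure GoodL (K : Coef) (Psi : P4 → P4) (V : Set P4) (p0 : P4) (x : P3) (t0 T c A η : ℝ)
    (ps : P4) : Prop where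
  lt : t0 < T
  c_pos : 0 < c
  one : 1 ≤ A
  mem : ∀ t ∈ Ico t0 T, ((t, x) : P4) ∈ V
  bd : ∀ t ∈ Ico t0 T, ‖Psi (t, x) - p0‖ ≤ η
  vel : ∀ t ∈ Ico t0 T, HasDerivAt (fun t : ℝ => Psi ((t, x) : P4)) (fderiv ℝ Psi (t, x) Tv) t
  good : ∀ t ∈ Ico t0 T, ‖fderiv ℝ Psi (t, x) Tv‖ ≤ A
  neg : ∀ t ∈ Ico t0 T, K.gF (Psi (t, x)) (fderiv ℝ Psi (t, x) Tv)
    (fderiv ℝ Psi (t, x) Tv) ≤ -(1 / 2)
  vpos : ∀ t ∈ Ico t0 T, 0 < (fderiv ℝ Psi (t, x) Tv).2.1
  vinc : ∀ t ∈ Ico t0 T, ∀ t' ∈ Ico t0 T, t ≤ t' →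
    c * (t' - t) ≤ (Psi (t', x)).2.1 - (Psi (t, x)).2.1
  lim : ∀ t ∈ Ico t0 T, ‖ps - Psi (t, x)‖ ≤ A * (T - t)
  ps0 : ps.2.1 = 0
  vT : ∀ t ∈ Ico t0 T, c * (T - t) ≤ -(Psi (t, x)).2.1
  uT : ∀ t ∈ Ico t0 T, (Psi (t, x)).2.2.1 ≤ ps.2.2.1
  exit : ∀ v2 < 0, ∃ t ∈ Ico t0 T, v2 < (Psi (t, x)).2.1

lemma exists_goodL (H : SHyp K G Psi Phi V R0 ρ C p0) {t0 T η : ℝ} {x : P3} (htT : t0 < T)
    (hline : ∀ t ∈ Ico t0 T, ((t, x) : P4) ∈ V)
    (hexit : ∀ v2 < 0, ∃ t ∈ Ico t0 T, v2 < (Psi (t, x)).2.1)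
    (hbd : ∀ t ∈ Ico t0 T, ‖Psi (t, x) - p0‖ ≤ η) {Cx : ℝ} (hCx : 1 ≤ Cx)
    (hgood : ∀ t ∈ Ico t0 T, ‖fderiv ℝ Psi (t, x) Tv‖ ≤ Cx) :
    ∃ ps, GoodL K Psi V p0 x t0 T (1 / (4 * C * Cx)) Cx η ps := by
  have hC := H.one_le
  have hC0 : 0 < C := by linarith only [hC]
  have hCx0 : 0 < Cx := by linarith only [hCx]
  have hvelv : ∀ t ∈ Ico t0 T, HasDerivAt (fun t : ℝ => Psi ((t, x) : P4))
      (fderiv ℝ Psi (t, x) Tv) t := by
    intro t ht
    have h1 : HasDerivAt (fun t : ℝ => ((t, x) : P4)) Tv t :=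
      (hasDerivAt_id t).prodMk (hasDerivAt_const t x)
    exact (H.iso.hasFDerivAt (hline t ht)).comp_hasDerivAt t h1
  have hLip : ∀ t ∈ Ico t0 T, ∀ t' ∈ Ico t0 T, t ≤ t' →
      ‖Psi (t', x) - Psi (t, x)‖ ≤ Cx * (t' - t) := by
    intro t ht t' ht' htt
    have h1 := norm_sub_le_of_deriv htt (f := fun t => Psi ((t, x) : P4))
      (f' := fun t => fderiv ℝ Psi (t, x) Tv) (g := fun t => Cx * t) (g' := fun _ => Cx)
      (fun τ hτ => hvelv τ ⟨ht.1.trans hτ.1, hτ.2.trans_lt ht'.2⟩)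
      (fun τ _ => by simpa only [id_eq, mul_one] using (hasDerivAt_id τ).const_mul Cx)
      (fun τ hτ => hgood τ ⟨ht.1.trans hτ.1, hτ.2.trans_lt ht'.2⟩)
    linarith only [h1]
  set cv : ℝ := 1 / (4 * C * Cx) with hcv
  have hcv0 : 0 < cv := by (clear * - hC hCx; positivity)
  have hvinc : ∀ t ∈ Ico t0 T, ∀ t' ∈ Ico t0 T, t ≤ t' →
      cv * (t' - t) ≤ (Psi (t', x)).2.1 - (Psi (t, x)).2.1 := by
    intro t ht t' ht' htt
    have h1 := le_of_deriv htt (f := fun t => cv * t) (f' := fun _ => cv)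
      (g := fun t => (Psi ((t, x) : P4)).2.1) (g' := fun t => (fderiv ℝ Psi (t, x) Tv).2.1)
      (fun τ _ => by simpa only [id_eq, mul_one] using (hasDerivAt_id τ).const_mul cv)
      (fun τ hτ => (hvelv τ ⟨ht.1.trans hτ.1, hτ.2.trans_lt ht'.2⟩).snd.fst)
      (fun τ hτ => (H.good_vel (hline τ ⟨ht.1.trans hτ.1, hτ.2.trans_lt ht'.2⟩) hCx
        (hgood τ ⟨ht.1.trans hτ.1, hτ.2.trans_lt ht'.2⟩)).2.2)
    linarith only [h1]
  obtain ⟨ps, hps⟩ := exists_limit htT hCx0 hLip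
  have hpsd : ∀ t ∈ Ico t0 T, ‖ps - Psi (t, x)‖ ≤ Cx * (T - t) := by
    intro t ht
    have h1 : Tendsto (fun t' => ‖Psi ((t', x) : P4) - Psi (t, x)‖) (𝓝[<] T)
        (𝓝 ‖ps - Psi (t, x)‖) := (hps.sub_const _).norm
    refine le_of_tendsto h1 ?_
    filter_upwards [Ico_mem_nhdsLT ht.2] with t' ht'
    refine (hLip t ht t' ⟨ht.1.trans ht'.1, ht'.2⟩ ht'.1).trans ?_
    have := ht'.2.le
    (clear * - this hCx; gcongr)
  have hvlim : Tendsto (fun t => (Psi ((t, x) : P4)).2.1) (𝓝[<] T) (𝓝 ps.2.1) :=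
    ((continuous_fst.comp continuous_snd).tendsto ps).comp hps
  have hps0 : ps.2.1 = 0 := by
    apply le_antisymm
    · refine le_of_tendsto hvlim ?_
      filter_upwards [Ico_mem_nhdsLT htT] with t ht
      exact (H.maps _ (hline t ht)).2.le
    · by_contra hcon
      push Not at hcon
      obtain ⟨t, ht, htv⟩ := hexit _ hcon
      have h1 : (Psi (t, x)).2.1 ≤ ps.2.1 := by
        refine ge_of_tendsto hvlim ?_
        filter_upwards [Ico_mem_nhdsLT ht.2] with t' ht'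
        have h2 := hvinc t ht t' ⟨ht.1.trans ht'.1, ht'.2⟩ ht'.1
        have h3 : 0 ≤ cv * (t' - t) := mul_nonneg hcv0.le (by linarith only [ht'.1])
        linarith only [h2, h3]
      linarith only [htv, h1]
  have hvT : ∀ t ∈ Ico t0 T, cv * (T - t) ≤ -(Psi (t, x)).2.1 := by
    intro t ht
    have h1 : Tendsto (fun t' : ℝ => cv * (t' - t)) (𝓝[<] T) (𝓝 (cv * (T - t))) := by
      have hcc : Continuous (fun t' : ℝ => cv * (t' - t)) := by (clear * -; fun_prop)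
      exact (hcc.tendsto T).mono_left nhdsWithin_le_nhds
    refine le_of_tendsto h1 ?_
    filter_upwards [Ico_mem_nhdsLT ht.2] with t' ht'
    have h2 := hvinc t ht t' ⟨ht.1.trans ht'.1, ht'.2⟩ ht'.1
    have h3 := (H.maps _ (hline t' ⟨ht.1.trans ht'.1, ht'.2⟩)).2
    linarith only [h2, h3]
  refine ⟨ps, htT, hcv0, hCx, hline, hbd, hvelv, hgood,
    fun t ht => (H.good_vel (hline t ht) hCx (hgood t ht)).1,
    fun t ht => (H.good_vel (hline t ht) hCx (hgood t ht)).2.1, hvinc, hpsd, hps0, hvT, ?_, hexit⟩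
  intro t ht
  have hulim : Tendsto (fun t => (Psi ((t, x) : P4)).2.2.1) (𝓝[<] T) (𝓝 ps.2.2.1) :=
    ((continuous_fst.comp (continuous_snd.comp continuous_snd)).tendsto ps).comp hps
  refine ge_of_tendsto hulim ?_
  filter_upwards [Ico_mem_nhdsLT ht.2] with t' ht'
  have h4 := H.rel_ends (vline_cone ht'.1 x) (vline_inV ht'.1
    (fun w hw => hline w ⟨ht.1.trans hw.1, hw.2.trans_lt ht'.2⟩))
  exact h4.2.1

/-- the time at which the value `v` is reached, and the difference of the points -/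
lemma GoodL.time {x : P3} {t0 T c A η : ℝ} {ps : P4} (g : GoodL K Psi V p0 x t0 T c A η ps)
    {s e : ℝ} (hs : 0 < s) (he : 0 < e) (hsT : s ≤ T - t0) {q : P4}
    (hq0 : -(c * min (s / 4) (e / (2 * A))) ≤ q.2.1) (hqneg : q.2.1 < 0)
    (hq1 : |q.1 - ps.1| < e / 2) (hq2 : |q.2.2.1 - ps.2.2.1| < e / 2)
    (hq3 : |q.2.2.2 - ps.2.2.2| < e / 2) :
    ∃ t2 ∈ Ico (T - s / 2) T, (Psi (t2, x)).2.1 = q.2.1 ∧ T - t2 ≤ s / 4 ∧
      ‖q - Psi (t2, x)‖ ≤ e := by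
  have hcv0 := g.c_pos
  have hA0 : 0 < A := by linarith only [g.one]
  have hm1 : min (s / 4) (e / (2 * A)) ≤ s / 4 := min_le_left _ _
  have hm2 : min (s / 4) (e / (2 * A)) ≤ e / (2 * A) := min_le_right _ _
  have hta' : T - s / 2 ∈ Ico t0 T := ⟨by linarith only [hs, hsT], by linarith only [hs]⟩
  obtain ⟨t2, ht2I, ht2v⟩ : ∃ t2 ∈ Ico (T - s / 2) T, (Psi (t2, x)).2.1 = q.2.1 := by
    obtain ⟨t3, ht3, ht3v⟩ := g.exit _ hqneg
    have h1 : (Psi (T - s / 2, x)).2.1 ≤ q.2.1 := by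
      have h2 := g.vT _ hta'
      have h3 : c * min (s / 4) (e / (2 * A)) ≤ c * (s / 4) := by (clear * - hm1 hcv0; gcongr)
      have h4 : T - (T - s / 2) = s / 2 := by ring
      rw [h4] at h2
      have h5 : c * (s / 4) ≤ c * (s / 2) := by gcongr; norm_num
      linarith only [hq0, hqneg, h2, h3]
    have h2 : T - s / 2 ≤ t3 := by
      by_contra hcon
      push Not at hcon
      have h3 := g.vinc t3 ht3 _ hta' hcon.le
      have h4 : 0 ≤ c * (T - s / 2 - t3) := mul_nonneg hcv0.le (by linarith only [hcon])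
      linarith only [ht3v, h1, h3, h4]
    have hcont : ContinuousOn (fun t => (Psi ((t, x) : P4)).2.1) (Icc (T - s / 2) t3) := by
      intro t ht
      have h5 : HasDerivAt (fun t => (Psi ((t, x) : P4)).2.1) (fderiv ℝ Psi (t, x) Tv).2.1 t :=
        (g.vel t ⟨hta'.1.trans ht.1, ht.2.trans_lt ht3.2⟩).snd.fst
      exact h5.continuousAt.continuousWithinAt
    obtain ⟨t2, ht2, ht2v⟩ := intermediate_value_Icc h2 hcont (show q.2.1 ∈ _ from ⟨h1, ht3v.le⟩)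
    exact ⟨t2, ⟨ht2.1, ht2.2.trans_lt ht3.2⟩, ht2v⟩
  have ht2 : t2 ∈ Ico t0 T := ⟨hta'.1.trans ht2I.1, ht2I.2⟩
  have hTt2 : T - t2 ≤ min (s / 4) (e / (2 * A)) := by
    have h1 := g.vT t2 ht2
    rw [ht2v] at h1
    have h2 : c * (T - t2) ≤ c * min (s / 4) (e / (2 * A)) := by linarith only [hq0, h1]
    exact le_of_mul_le_mul_left h2 hcv0
  refine ⟨t2, ht2I, ht2v, hTt2.trans hm1, ?_⟩
  have h1 := g.lim t2 ht2
  have h2 : A * (T - t2) ≤ e / 2 := by
    calc A * (T - t2) ≤ A * (e / (2 * A)) := by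
          have := hTt2.trans hm2
          (clear * - this hA0; gcongr)
      _ = e / 2 := by (clear * - hA0 he; field_simp)
  obtain ⟨k1, k2, k3, k4⟩ := norm_P4_le.1 (h1.trans h2)
  simp only [Prod.fst_sub, Prod.snd_sub] at k1 k2 k3 k4
  have tri : ∀ a b c : ℝ, |a - b| < e / 2 → |b - c| ≤ e / 2 → |a - c| ≤ e := by
    intro a b c h3 h4
    have : a - c = (a - b) + (b - c) := by ring
    rw [this]
    refine (abs_add_le _ _).trans ?_
    linarith only [h3, h4]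
  refine norm_P4_le.2 ⟨tri _ _ _ hq1 k1, ?_, tri _ _ _ hq2 k3, tri _ _ _ hq3 k4⟩
  show |q.2.1 - (Psi (t2, x)).2.1| ≤ e
  rw [ht2v, sub_self, abs_zero]; exact he.le

end SHyp

end Vale.Agent.P354
end
end

section

section

set_option linter.unusedSectionVars false
set_option maxSynthPendingDepth 3

open MeasureTheory Set Filter Topology
open scoped ContDiff

namespace Vale.Agent.P354k

section

variable {E E' : Type*} [NormedAddCommGroup E] [NormedSpace ℝ E]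
  [NormedAddCommGroup E'] [NormedSpace ℝ E']

/-- The curvature. -/
noncomputable def Riem (g : E → E → E → ℝ) (Γ : E → E → E → E) (x a b c d : E) : ℝ :=
  lineDeriv ℝ (fun y => g y (Γ y b c) d) x a - lineDeriv ℝ (fun y => g y (Γ y a c) d) x b -
    g x (Γ x b c) (Γ x a d) + g x (Γ x a c) (Γ x b d)

/-- The connection. -/
def Conn (g : E → E → E → ℝ) (Γ : E → E → E → E) (x : E) : Prop :=
  ∀ a b c, 2 * g x (Γ x a b) c = lineDeriv ℝ (fun y => g y b c) x a +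
    lineDeriv ℝ (fun y => g y a c) x b - lineDeriv ℝ (fun y => g y a b) x c

/-- The metric g is the pull back of H by F. -/
structure CB (g : E → E → E → ℝ) (F : E → E') (H : E → E' →L[ℝ] E' →L[ℝ] ℝ) (D : Set E) :
    Prop where
  openD : IsOpen D
  smF : ContDiffOn ℝ ∞ F D
  smH : ContDiffOn ℝ ∞ H D
  symm : ∀ y ∈ D, ∀ s w, H y s w = H y w s
  iso : ∀ y ∈ D, ∀ a b, g y a b = H y (fderiv ℝ F y a) (fderiv ℝ F y b)

/-- the lower order terms of the curvature -/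
noncomputable def QQ (F : E → E') (H : E → E' →L[ℝ] E' →L[ℝ] ℝ) (Γ : E → E → E → E)
    (a b c d y : E) : ℝ :=
  fderiv ℝ H y a (PP F b c y) (fderiv ℝ F y d) - fderiv ℝ H y b (PP F a c y) (fderiv ℝ F y d)
      - H y (PP F b c y) (fderiv ℝ F y (Γ y a d) - PP F a d y)
      - H y (fderiv ℝ F y (Γ y b c) - PP F b c y) (PP F a d y)
      - H y (fderiv ℝ F y (Γ y b c) - PP F b c y) (fderiv ℝ F y (Γ y a d) - PP F a d y)
      + H y (PP F a c y) (fderiv ℝ F y (Γ y b d) - PP F b d y)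
      + H y (fderiv ℝ F y (Γ y a c) - PP F a c y) (PP F b d y)
      + H y (fderiv ℝ F y (Γ y a c) - PP F a c y) (fderiv ℝ F y (Γ y b d) - PP F b d y)

/-- second derivative along fields -/
noncomputable def Ph (F : E → E') (X Y : E → E) (y : E) : E' :=
  fderiv ℝ (fun z => fderiv ℝ F z (Y z)) y (X y)

/-- the lower order terms of the curvature, along fields -/
noncomputable def QF (F : E → E') (H : E → E' →L[ℝ] E' →L[ℝ] ℝ) (Γ : E → E → E → E)
    (Xa Xb Xc Xd : E → E) (y : E) : ℝ :=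
  fderiv ℝ H y (Xa y) (Ph F Xb Xc y) (fderiv ℝ F y (Xd y))
      - fderiv ℝ H y (Xb y) (Ph F Xa Xc y) (fderiv ℝ F y (Xd y))
      - H y (Ph F Xb Xc y) (fderiv ℝ F y (Γ y (Xa y) (Xd y)) - PP F (Xa y) (Xd y) y)
      - H y (fderiv ℝ F y (Γ y (Xb y) (Xc y)) - PP F (Xb y) (Xc y) y) (Ph F Xa Xd y)
      - H y (fderiv ℝ F y (Γ y (Xb y) (Xc y)) - PP F (Xb y) (Xc y) y)
          (fderiv ℝ F y (Γ y (Xa y) (Xd y)) - PP F (Xa y) (Xd y) y)
      + H y (Ph F Xa Xc y) (fderiv ℝ F y (Γ y (Xb y) (Xd y)) - PP F (Xb y) (Xd y) y)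
      + H y (fderiv ℝ F y (Γ y (Xa y) (Xc y)) - PP F (Xa y) (Xc y) y) (Ph F Xb Xd y)
      + H y (fderiv ℝ F y (Γ y (Xa y) (Xc y)) - PP F (Xa y) (Xc y) y)
          (fderiv ℝ F y (Γ y (Xb y) (Xd y)) - PP F (Xb y) (Xd y) y)

variable {g : E → E → E → ℝ} {F : E → E'} {H : E → E' →L[ℝ] E' →L[ℝ] ℝ} {D : Set E}
  {Γ : E → E → E → E}

namespace CB

lemma gam (h : CB g F H D) (hΓ : ∀ y ∈ D, Conn g Γ y) {y : E} (hy : y ∈ D) (b c d : E) :
    H y (fderiv ℝ F y (Γ y b c)) (fderiv ℝ F y d) =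
      H y (PP F b c y) (fderiv ℝ F y d) + TT F H b c d y := by
  have hev : ∀ a b : E, (fun y => g y a b) =ᶠ[𝓝 y]
      fun y => H y (fderiv ℝ F y a) (fderiv ℝ F y b) := by
    intro a b
    filter_upwards [h.openD.mem_nhds hy] with z hz
    exact h.iso z hz a b
  have hd : ∀ a b v : E, lineDeriv ℝ (fun y => g y a b) y v =
      fderiv ℝ (fun y => H y (fderiv ℝ F y a) (fderiv ℝ F y b)) y v := by
    intro a b v
    rw [(hev a b).lineDeriv_eq]
    exact (((dAt h.openD h.smH hy).clm_apply (dAt h.openD (smooth_F1 h.openD h.smF a) hy)).clm_apply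
      (dAt h.openD (smooth_F1 h.openD h.smF b) hy)).lineDeriv_eq_fderiv
  have h1 := hΓ y hy b c d
  rw [hd, hd, hd] at h1
  have h2 := chr_eq h.openD h.smF h.smH h.symm hy b c d
  rw [← h.iso y hy (Γ y b c) d]
  linarith

/-- The curvature, up to lower order terms. -/
lemma riem_eq (h : CB g F H D) (hΓ : ∀ y ∈ D, Conn g Γ y) {y : E} (hy : y ∈ D)
    (a b c d : E) : Riem g Γ y a b c d =
      fderiv ℝ (TT F H b c d) y a - fderiv ℝ (TT F H a c d) y b + QQ F H Γ a b c d y := by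
  have h1 : ∀ b c d v : E, lineDeriv ℝ (fun y => g y (Γ y b c) d) y v =
      fderiv ℝ (fun y => H y (PP F b c y) (fderiv ℝ F y d) + TT F H b c d y) y v := by
    intro b c d v
    have hev : (fun y => g y (Γ y b c) d) =ᶠ[𝓝 y]
        fun y => H y (PP F b c y) (fderiv ℝ F y d) + TT F H b c d y := by
      filter_upwards [h.openD.mem_nhds hy] with z hz
      rw [h.iso z hz, h.gam hΓ hz]
    rw [hev.lineDeriv_eq]
    exact ((((dAt h.openD h.smH hy).clm_apply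
      (dAt h.openD (smooth_PP h.openD h.smF b c) hy)).clm_apply
      (dAt h.openD (smooth_F1 h.openD h.smF d) hy)).add
      (dAt h.openD (smooth_TT h.openD h.smF h.smH b c d) hy)).lineDeriv_eq_fderiv
  unfold Riem
  rw [h1, h1, h.iso y hy, h.iso y hy]
  exact curv_eq h.openD h.smF h.smH hy a b c d

lemma DH_symm (h : CB g F H D) {y : E} (hy : y ∈ D) (b : E) (s w : E') :
    fderiv ℝ H y b s w = fderiv ℝ H y b w s := by
  have hH := dAt h.openD h.smH hy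
  have h1 : ∀ s w : E', fderiv ℝ (fun y => H y s w) y b = fderiv ℝ H y b s w := by
    intro s w
    rw [fderiv_H hH (differentiableAt_const s) (differentiableAt_const w)]
    simp
  have h2 : (fun y => H y s w) =ᶠ[𝓝 y] fun y => H y w s := by
    filter_upwards [h.openD.mem_nhds hy] with z hz
    exact h.symm z hz s w
  rw [← h1, ← h1, h2.fderiv_eq]

lemma TT_add (h : CB g F H D) {y : E} (hy : y ∈ D) (b w d : E) :
    TT F H b w d y + TT F H b d w y = fderiv ℝ H y b (fderiv ℝ F y w) (fderiv ℝ F y d) := by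
  unfold TT
  rw [h.DH_symm hy b (fderiv ℝ F y d) (fderiv ℝ F y w)]
  ring

end CB

lemma smooth_F2 (hD : IsOpen D) (hF : ContDiffOn ℝ ∞ F D) {X : E → E}
    (hX : ContDiffOn ℝ ∞ X D) : ContDiffOn ℝ ∞ (fun y => fderiv ℝ F y (X y)) D :=
  (hF.fderiv_of_isOpen hD (m := ∞) (by simp)).clm_apply hX

lemma smooth_TF (hD : IsOpen D) (hF : ContDiffOn ℝ ∞ F D) (hH : ContDiffOn ℝ ∞ H D)
    {X Y Z : E → E} (hX : ContDiffOn ℝ ∞ X D) (hY : ContDiffOn ℝ ∞ Y D)
    (hZ : ContDiffOn ℝ ∞ Z D) :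
    ContDiffOn ℝ ∞ (fun y => TT F H (X y) (Y y) (Z y) y) D := by
  have h1 : ∀ {X Y Z : E → E}, ContDiffOn ℝ ∞ X D → ContDiffOn ℝ ∞ Y D → ContDiffOn ℝ ∞ Z D →
      ContDiffOn ℝ ∞ (fun y => fderiv ℝ H y (X y) (fderiv ℝ F y (Y y)) (fderiv ℝ F y (Z y))) D :=
    fun hX hY hZ => ((smooth_F2 hD hH hX).clm_apply (smooth_F2 hD hF hY)).clm_apply
      (smooth_F2 hD hF hZ)
  exact (((h1 hX hY hZ).add (h1 hY hX hZ)).sub (h1 hZ hX hY)).div_const 2

/-- derivative along a field -/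
lemma fderiv_F2 (hD : IsOpen D) (hF : ContDiffOn ℝ ∞ F D) {X : E → E} {y : E} (hy : y ∈ D)
    (hX : DifferentiableAt ℝ X y) (v : E) :
    fderiv ℝ (fun z => fderiv ℝ F z (X z)) y v = PP F v (X y) y + fderiv ℝ F y (fderiv ℝ X y v) := by
  have hd : DifferentiableAt ℝ (fderiv ℝ F) y :=
    dAt hD (hF.fderiv_of_isOpen hD (m := ∞) (by simp)) hy
  have h1 := hd.hasFDerivAt.clm_apply hX.hasFDerivAt
  have h2 := hd.hasFDerivAt.clm_apply (hasFDerivAt_const (X y) y)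
  unfold PP
  rw [h1.fderiv, h2.fderiv]
  simp only [add_apply, ContinuousLinearMap.comp_apply, ContinuousLinearMap.flip_apply, ContinuousLinearMap.comp_zero, zero_add]
  abel

/-- product rule for one term -/
lemma fderiv_one (hD : IsOpen D) (hF : ContDiffOn ℝ ∞ F D) (hH : ContDiffOn ℝ ∞ H D)
    {X Y Z : E → E} {y : E} (hy : y ∈ D) (hX : DifferentiableAt ℝ X y)
    (hY : DifferentiableAt ℝ Y y) (hZ : DifferentiableAt ℝ Z y) (v : E) :
    fderiv ℝ (fun y => fderiv ℝ H y (X y) (fderiv ℝ F y (Y y)) (fderiv ℝ F y (Z y))) y v =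
      PP H v (X y) y (fderiv ℝ F y (Y y)) (fderiv ℝ F y (Z y)) +
      fderiv ℝ H y (fderiv ℝ X y v) (fderiv ℝ F y (Y y)) (fderiv ℝ F y (Z y)) +
      fderiv ℝ H y (X y) (PP F v (Y y) y + fderiv ℝ F y (fderiv ℝ Y y v)) (fderiv ℝ F y (Z y)) +
      fderiv ℝ H y (X y) (fderiv ℝ F y (Y y)) (PP F v (Z y) y + fderiv ℝ F y (fderiv ℝ Z y v)) := by
  have hFd : DifferentiableAt ℝ (fderiv ℝ F) y :=
    dAt hD (hF.fderiv_of_isOpen hD (m := ∞) (by simp)) hy
  have hHd : DifferentiableAt ℝ (fderiv ℝ H) y :=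
    dAt hD (hH.fderiv_of_isOpen hD (m := ∞) (by simp)) hy
  have h1 : DifferentiableAt ℝ (fun y => fderiv ℝ H y (X y)) y := hHd.clm_apply hX
  have h2 : ∀ {Y : E → E}, DifferentiableAt ℝ Y y →
      DifferentiableAt ℝ (fun y => fderiv ℝ F y (Y y)) y := fun hY => hFd.clm_apply hY
  rw [fderiv_H h1 (h2 hY) (h2 hZ), fderiv_F2 hD hH hy hX, fderiv_F2 hD hF hy hY,
    fderiv_F2 hD hF hy hZ]
  simp only [_root_.add_apply]

lemma dTF (hD : IsOpen D) (hF : ContDiffOn ℝ ∞ F D) (hH : ContDiffOn ℝ ∞ H D)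
    {X Y Z : E → E} (hX : ContDiffOn ℝ ∞ X D) (hY : ContDiffOn ℝ ∞ Y D)
    (hZ : ContDiffOn ℝ ∞ Z D) {y : E} (hy : y ∈ D) (v : E) :
    fderiv ℝ (fun y => TT F H (X y) (Y y) (Z y) y) y v =
      fderiv ℝ (TT F H (X y) (Y y) (Z y)) y v + TT F H (fderiv ℝ X y v) (Y y) (Z y) y +
      TT F H (X y) (fderiv ℝ Y y v) (Z y) y + TT F H (X y) (Y y) (fderiv ℝ Z y v) y := by
  have s1 : ∀ {X Y Z : E → E}, ContDiffOn ℝ ∞ X D → ContDiffOn ℝ ∞ Y D → ContDiffOn ℝ ∞ Z D →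
      DifferentiableAt ℝ
        (fun y => fderiv ℝ H y (X y) (fderiv ℝ F y (Y y)) (fderiv ℝ F y (Z y))) y :=
    fun hX hY hZ => dAt hD (((smooth_F2 hD hH hX).clm_apply (smooth_F2 hD hF hY)).clm_apply
      (smooth_F2 hD hF hZ)) hy
  have key : ∀ {X Y Z : E → E}, ContDiffOn ℝ ∞ X D → ContDiffOn ℝ ∞ Y D → ContDiffOn ℝ ∞ Z D →
      fderiv ℝ (fun y => TT F H (X y) (Y y) (Z y) y) y v =
      (fderiv ℝ (fun y => fderiv ℝ H y (X y) (fderiv ℝ F y (Y y)) (fderiv ℝ F y (Z y))) y v +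
      fderiv ℝ (fun y => fderiv ℝ H y (Y y) (fderiv ℝ F y (X y)) (fderiv ℝ F y (Z y))) y v -
      fderiv ℝ (fun y => fderiv ℝ H y (Z y) (fderiv ℝ F y (X y)) (fderiv ℝ F y (Y y))) y v) / 2 := by
    intro X Y Z hX hY hZ
    have h1 := (((s1 hX hY hZ).hasFDerivAt.add (s1 hY hX hZ).hasFDerivAt).sub
      (s1 hZ hX hY).hasFDerivAt).const_mul (2:ℝ)⁻¹
    have h2 : (fun y => TT F H (X y) (Y y) (Z y) y) = fun y => (2:ℝ)⁻¹ *
        ((fderiv ℝ H y (X y) (fderiv ℝ F y (Y y)) (fderiv ℝ F y (Z y)) +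
        fderiv ℝ H y (Y y) (fderiv ℝ F y (X y)) (fderiv ℝ F y (Z y))) -
        fderiv ℝ H y (Z y) (fderiv ℝ F y (X y)) (fderiv ℝ F y (Y y))) := by
      funext y
      unfold TT
      ring
    rw [h2]
    refine (DFunLike.congr_fun h1.fderiv v).trans ?_
    simp only [_root_.smul_apply, _root_.sub_apply, _root_.add_apply, smul_eq_mul]
    ring
  have hXd := dAt hD hX hy
  have hYd := dAt hD hY hy
  have hZd := dAt hD hZ hy
  have hc := fun (x : E) => (contDiffOn_const : ContDiffOn ℝ ∞ (fun _ : E => x) D)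
  have e0 : fderiv ℝ (TT F H (X y) (Y y) (Z y)) y v =
      fderiv ℝ (fun z => TT F H ((fun _ => X y) z) ((fun _ => Y y) z) ((fun _ => Z y) z) z) y v :=
    rfl
  rw [e0, key hX hY hZ, key (hc (X y)) (hc (Y y)) (hc (Z y)),
    fderiv_one hD hF hH hy hXd hYd hZd, fderiv_one hD hF hH hy hYd hXd hZd,
    fderiv_one hD hF hH hy hZd hXd hYd,
    fderiv_one hD hF hH hy (differentiableAt_const _) (differentiableAt_const _)
      (differentiableAt_const _),
    fderiv_one hD hF hH hy (differentiableAt_const _) (differentiableAt_const _)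
      (differentiableAt_const _),
    fderiv_one hD hF hH hy (differentiableAt_const _) (differentiableAt_const _)
      (differentiableAt_const _)]
  unfold TT
  simp only [fderiv_fun_const, Pi.zero_apply, _root_.zero_apply, map_zero, add_zero, map_add,
    _root_.add_apply]
  ring

/-- **The curvature along fields.** -/
theorem CB.riem_F (h : CB g F H D) (hΓ : ∀ y ∈ D, Conn g Γ y) {Xa Xb Xc Xd : E → E}
    (ha : ContDiffOn ℝ ∞ Xa D) (hb : ContDiffOn ℝ ∞ Xb D) (hc : ContDiffOn ℝ ∞ Xc D)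
    (hd : ContDiffOn ℝ ∞ Xd D) {y : E} (hy : y ∈ D) :
    Riem g Γ y (Xa y) (Xb y) (Xc y) (Xd y) =
      fderiv ℝ (fun y => TT F H (Xb y) (Xc y) (Xd y) y) y (Xa y) -
      fderiv ℝ (fun y => TT F H (Xa y) (Xc y) (Xd y) y) y (Xb y) -
      TT F H (fderiv ℝ Xb y (Xa y) - fderiv ℝ Xa y (Xb y)) (Xc y) (Xd y) y +
      QF F H Γ Xa Xb Xc Xd y := by
  have hS : ∀ b c d : E, H y (fderiv ℝ F y (Γ y b c) - PP F b c y) (fderiv ℝ F y d) =
      TT F H b c d y := by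
    intro b c d
    rw [map_sub, _root_.sub_apply, h.gam hΓ hy b c d]
    ring
  have hS' : ∀ b c d : E, H y (fderiv ℝ F y d) (fderiv ℝ F y (Γ y b c) - PP F b c y) =
      TT F H b c d y := by
    intro b c d
    rw [h.symm y hy, hS]
  have hP : ∀ {X Y : E → E}, DifferentiableAt ℝ Y y →
      Ph F X Y y = PP F (X y) (Y y) y + fderiv ℝ F y (fderiv ℝ Y y (X y)) := by
    intro X Y hY
    exact fderiv_F2 h.openD h.smF hy hY (X y)
  have hcd := dAt h.openD hc hy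
  have hdd := dAt h.openD hd hy
  have t1 := h.TT_add hy (Xb y) (fderiv ℝ Xc y (Xa y)) (Xd y)
  have t2 := h.TT_add hy (Xa y) (fderiv ℝ Xc y (Xb y)) (Xd y)
  have hsub : ∀ b b' c d : E, TT F H (b - b') c d y = TT F H b c d y - TT F H b' c d y := by
    intro b b' c d
    unfold TT
    simp only [map_sub, sub_apply]
    ring
  rw [h.riem_eq hΓ hy, dTF h.openD h.smF h.smH hb hc hd hy, dTF h.openD h.smF h.smH ha hc hd hy,
    hsub]
  unfold QF QQ
  rw [hP hcd, hP hcd, hP hdd, hP hdd]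
  simp only [map_add, add_apply, hS', hS]
  linarith only [t1, t2]

end

end Vale.Agent.P354k
end
end

section

section

set_option linter.unusedSectionVars false
set_option maxSynthPendingDepth 3

open MeasureTheory Set Filter Topology
open scoped ContDiff

namespace Vale.Agent.P354k

section

variable {E E' : Type*} [NormedAddCommGroup E] [NormedSpace ℝ E]
  [NormedAddCommGroup E'] [NormedSpace ℝ E']

/-- the frame vector with the constant components a -/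
def Ev (σ1 σ2 : E → ℝ) (ℓ : E →L[ℝ] ℝ) (w1 w2 : E) (y a : E) : E :=
  a + (ℓ a * σ1 y) • w1 + (ℓ a * σ2 y) • w2

/-- The metric g is the pull back of H by F, all bounded by B, up to the connection of g in the
frame, which is bounded by kap. -/
structure FHyp (g : E → E → E → ℝ) (F : E → E') (H : E → E' →L[ℝ] E' →L[ℝ] ℝ) (D : Set E)
    (B : ℝ) (kap : E → ℝ) (σ1 σ2 : E → ℝ) (ℓ : E →L[ℝ] ℝ) (w1 w2 : E) : Prop
    extends CB g F H D where
  one_le : 1 ≤ B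
  hF : ∀ y ∈ D, ‖fderiv ℝ F y‖ ≤ B
  hH : ∀ y ∈ D, ‖H y‖ ≤ B
  hDH : ∀ y ∈ D, ‖fderiv ℝ H y‖ ≤ B
  inv : ∀ y ∈ D, ∀ w, ∃ d, fderiv ℝ F y d = w ∧ ‖d‖ ≤ B * ‖w‖
  nondeg : ∀ y ∈ D, ∀ s, ∃ w, ‖w‖ ≤ 1 ∧ ‖s‖ ≤ B * |H y s w|
  kap_one : ∀ y ∈ D, 1 ≤ kap y
  sm1 : ContDiffOn ℝ ∞ σ1 D
  sm2 : ContDiffOn ℝ ∞ σ2 D
  b1 : ∀ y ∈ D, |σ1 y| ≤ B
  b2 : ∀ y ∈ D, |σ2 y| ≤ B
  d1 : ∀ y ∈ D, |fderiv ℝ σ1 y w1| ≤ B
  d2 : ∀ y ∈ D, |fderiv ℝ σ2 y w2| ≤ B
  hE : ∀ y ∈ D, ∀ a, ‖Ev σ1 σ2 ℓ w1 w2 y a‖ ≤ B * ‖a‖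
  comm : ∀ y ∈ D, ∀ a b, ‖fderiv ℝ (fun z => Ev σ1 σ2 ℓ w1 w2 z b) y (Ev σ1 σ2 ℓ w1 w2 y a) -
    fderiv ℝ (fun z => Ev σ1 σ2 ℓ w1 w2 z a) y (Ev σ1 σ2 ℓ w1 w2 y b)‖ ≤ B * (‖a‖ * ‖b‖)
  kos : ∀ y ∈ D, ∀ b c d, |(fderiv ℝ (fun z => g z (Ev σ1 σ2 ℓ w1 w2 y c) d) y
      (Ev σ1 σ2 ℓ w1 w2 y b) +
    fderiv ℝ (fun z => g z (Ev σ1 σ2 ℓ w1 w2 y b) d) y (Ev σ1 σ2 ℓ w1 w2 y c) -
    fderiv ℝ (fun z => g z (Ev σ1 σ2 ℓ w1 w2 y b) (Ev σ1 σ2 ℓ w1 w2 y c)) y d) / 2 +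
    g y (fderiv ℝ (fun z => Ev σ1 σ2 ℓ w1 w2 z c) y (Ev σ1 σ2 ℓ w1 w2 y b)) d| ≤
      B * kap y * (‖b‖ * ‖c‖ * ‖d‖)

lemma smooth_Ev {σ1 σ2 : E → ℝ} {D : Set E} (h1 : ContDiffOn ℝ ∞ σ1 D)
    (h2 : ContDiffOn ℝ ∞ σ2 D) (ℓ : E →L[ℝ] ℝ) (w1 w2 a : E) :
    ContDiffOn ℝ ∞ (fun z => Ev σ1 σ2 ℓ w1 w2 z a) D := by
  unfold Ev
  exact (contDiffOn_const.add ((contDiffOn_const.mul h1).smul contDiffOn_const)).add
    ((contDiffOn_const.mul h2).smul contDiffOn_const)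

namespace FHyp

variable {g : E → E → E → ℝ} {F : E → E'} {H : E → E' →L[ℝ] E' →L[ℝ] ℝ} {D : Set E}
    {B : ℝ} {kap : E → ℝ} {σ1 σ2 : E → ℝ} {ℓ : E →L[ℝ] ℝ} {w1 w2 : E} {Γ : E → E → E → E}

lemma H_le (h : FHyp g F H D B kap σ1 σ2 ℓ w1 w2) {y : E} (hy : y ∈ D) (s w : E') :
    |H y s w| ≤ B * (‖s‖ * ‖w‖) := by
  have h1 := (H y s).le_opNorm w
  have h2 := (H y).le_opNorm s
  rw [Real.norm_eq_abs] at h1
  calc |H y s w| ≤ ‖H y s‖ * ‖w‖ := h1
    _ ≤ (‖H y‖ * ‖s‖) * ‖w‖ := by (clear * - h2; gcongr)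
    _ ≤ (B * ‖s‖) * ‖w‖ := by gcongr; exact h.hH y hy
    _ = _ := by ring

lemma F_le (h : FHyp g F H D B kap σ1 σ2 ℓ w1 w2) {y : E} (hy : y ∈ D) (a : E) :
    ‖fderiv ℝ F y a‖ ≤ B * ‖a‖ :=
  ((fderiv ℝ F y).le_opNorm a).trans (mul_le_mul_of_nonneg_right (h.hF y hy) (norm_nonneg _))

lemma DH_le (h : FHyp g F H D B kap σ1 σ2 ℓ w1 w2) {y : E} (hy : y ∈ D) (a : E) (s w : E') :
    |fderiv ℝ H y a s w| ≤ B * (‖a‖ * ‖s‖ * ‖w‖) := by
  have h1 := (fderiv ℝ H y a s).le_opNorm w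
  have h2 := (fderiv ℝ H y a).le_opNorm s
  have h3 := (fderiv ℝ H y).le_opNorm a
  rw [Real.norm_eq_abs] at h1
  calc |fderiv ℝ H y a s w| ≤ ‖fderiv ℝ H y a s‖ * ‖w‖ := h1
    _ ≤ (‖fderiv ℝ H y a‖ * ‖s‖) * ‖w‖ := by gcongr
    _ ≤ ((‖fderiv ℝ H y‖ * ‖a‖) * ‖s‖) * ‖w‖ := by gcongr
    _ ≤ ((B * ‖a‖) * ‖s‖) * ‖w‖ := by gcongr; exact h.hDH y hy
    _ = _ := by ring

lemma TT_le (h : FHyp g F H D B kap σ1 σ2 ℓ w1 w2) {y : E} (hy : y ∈ D) (b c d : E) :
    |TT F H b c d y| ≤ 2 * B ^ 3 * (‖b‖ * ‖c‖ * ‖d‖) := by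
  have hB := h.one_le
  have hB0 : 0 ≤ B := by linarith only [hB]
  have key : ∀ a b c : E, |fderiv ℝ H y a (fderiv ℝ F y b) (fderiv ℝ F y c)| ≤
      B ^ 3 * (‖a‖ * ‖b‖ * ‖c‖) := by
    intro a b c
    calc |fderiv ℝ H y a (fderiv ℝ F y b) (fderiv ℝ F y c)|
        ≤ B * (‖a‖ * ‖fderiv ℝ F y b‖ * ‖fderiv ℝ F y c‖) := h.DH_le hy _ _ _
      _ ≤ B * (‖a‖ * (B * ‖b‖) * (B * ‖c‖)) := by
        gcongr
        · exact h.F_le hy b
        · exact h.F_le hy c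
      _ = _ := by ring
  have k1 := key b c d
  have k2 := key c b d
  have k3 := key d b c
  have e1 : ‖c‖ * ‖b‖ * ‖d‖ = ‖b‖ * ‖c‖ * ‖d‖ := by ring
  have e2 : ‖d‖ * ‖b‖ * ‖c‖ = ‖b‖ * ‖c‖ * ‖d‖ := by ring
  rw [e1] at k2
  rw [e2] at k3
  unfold TT
  rw [abs_div, abs_two, div_le_iff₀ (by norm_num)]
  have h4 : 0 ≤ B ^ 3 * (‖b‖ * ‖c‖ * ‖d‖) := by (clear * - hB; positivity)
  refine (abs_sub _ _).trans ?_
  refine (add_le_add (abs_add_le _ _) le_rfl).trans ?_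
  linarith only [k1, k2, k3, h4]

/-- the difference of the second derivatives and the pulled back connection -/
lemma S_le (h : FHyp g F H D B kap σ1 σ2 ℓ w1 w2) (hΓ : ∀ y ∈ D, Conn g Γ y) {y : E}
    (hy : y ∈ D) (b c : E) :
    ‖fderiv ℝ F y (Γ y b c) - PP F b c y‖ ≤ 2 * B ^ 5 * (‖b‖ * ‖c‖) := by
  have hB := h.one_le
  have hB0 : 0 ≤ B := by linarith only [hB]
  obtain ⟨w, hw, hn⟩ := h.nondeg y hy (fderiv ℝ F y (Γ y b c) - PP F b c y)
  obtain ⟨d, hd, hdn⟩ := h.inv y hy w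
  have h1 : H y (fderiv ℝ F y (Γ y b c) - PP F b c y) w = TT F H b c d y := by
    rw [← hd, map_sub, _root_.sub_apply, h.gam hΓ hy b c d]
    ring
  have hd1 : ‖d‖ ≤ B := hdn.trans (by nlinarith only [hw, hB])
  rw [h1] at hn
  calc ‖fderiv ℝ F y (Γ y b c) - PP F b c y‖ ≤ B * |TT F H b c d y| := hn
    _ ≤ B * (2 * B ^ 3 * (‖b‖ * ‖c‖ * ‖d‖)) := by gcongr; exact h.TT_le hy b c d
    _ ≤ B * (2 * B ^ 3 * (‖b‖ * ‖c‖ * B)) := by (clear * - hd1 hB; gcongr)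
    _ = _ := by ring

lemma SE_le (h : FHyp g F H D B kap σ1 σ2 ℓ w1 w2) (hΓ : ∀ y ∈ D, Conn g Γ y) {y : E}
    (hy : y ∈ D) (b c : E) :
    ‖fderiv ℝ F y (Γ y (Ev σ1 σ2 ℓ w1 w2 y b) (Ev σ1 σ2 ℓ w1 w2 y c)) -
      PP F (Ev σ1 σ2 ℓ w1 w2 y b) (Ev σ1 σ2 ℓ w1 w2 y c) y‖ ≤ 2 * B ^ 7 * (‖b‖ * ‖c‖) := by
  have hB := h.one_le
  have hB0 : 0 ≤ B := by linarith only [hB]
  refine (h.S_le hΓ hy _ _).trans ?_
  calc 2 * B ^ 5 * (‖Ev σ1 σ2 ℓ w1 w2 y b‖ * ‖Ev σ1 σ2 ℓ w1 w2 y c‖)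
      ≤ 2 * B ^ 5 * ((B * ‖b‖) * (B * ‖c‖)) := by
        gcongr
        · exact h.hE y hy b
        · exact h.hE y hy c
    _ = _ := by ring

/-- the second derivatives along the frame -/
lemma Ph_le (h : FHyp g F H D B kap σ1 σ2 ℓ w1 w2) {y : E} (hy : y ∈ D) (b c : E) :
    ‖Ph F (fun z => Ev σ1 σ2 ℓ w1 w2 z b) (fun z => Ev σ1 σ2 ℓ w1 w2 z c) y‖ ≤
      3 * B ^ 7 * kap y * (‖b‖ * ‖c‖) := by
  have hB := h.one_le
  have hB0 : 0 ≤ B := by linarith only [hB]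
  have hk := h.kap_one y hy
  have hk0 : 0 ≤ kap y := by linarith
  set Xb := fun z => Ev σ1 σ2 ℓ w1 w2 z b with hXb
  set Xc := fun z => Ev σ1 σ2 ℓ w1 w2 z c with hXc
  have hcd : DifferentiableAt ℝ Xc y := dAt h.openD (smooth_Ev h.sm1 h.sm2 ℓ w1 w2 c) hy
  have hP : Ph F Xb Xc y = PP F (Xb y) (Xc y) y + fderiv ℝ F y (fderiv ℝ Xc y (Xb y)) :=
    fderiv_F2 h.openD h.smF hy hcd (Xb y)
  obtain ⟨w, hw, hn⟩ := h.nondeg y hy (Ph F Xb Xc y)
  obtain ⟨d, hd, hdn⟩ := h.inv y hy w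
  have hd1 : ‖d‖ ≤ B := hdn.trans (by nlinarith only [hw, hB])
  have hev : ∀ a b : E, (fun y => g y a b) =ᶠ[𝓝 y]
      fun y => H y (fderiv ℝ F y a) (fderiv ℝ F y b) := by
    intro a b
    filter_upwards [h.openD.mem_nhds hy] with z hz
    exact h.iso z hz a b
  have h2 := chr_eq h.openD h.smF h.smH h.symm hy (Xb y) (Xc y) d
  rw [← (hev (Xc y) d).fderiv_eq, ← (hev (Xb y) d).fderiv_eq,
    ← (hev (Xb y) (Xc y)).fderiv_eq] at h2
  have hkos := h.kos y hy b c d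
  have h3 : H y (Ph F Xb Xc y) w = ((fderiv ℝ (fun z => g z (Xc y) d) y (Xb y) +
    fderiv ℝ (fun z => g z (Xb y) d) y (Xc y) -
    fderiv ℝ (fun z => g z (Xb y) (Xc y)) y d) / 2 + g y (fderiv ℝ Xc y (Xb y)) d) -
      TT F H (Xb y) (Xc y) d y := by
    rw [h2, hP, ← hd, map_add, _root_.add_apply, h.iso y hy]
    ring
  have k4 := h.TT_le hy (Xb y) (Xc y) d
  have hEb : ‖Xb y‖ ≤ B * ‖b‖ := h.hE y hy b
  have hEc : ‖Xc y‖ ≤ B * ‖c‖ := h.hE y hy c
  have h4 : |H y (Ph F Xb Xc y) w| ≤ B * kap y * (‖b‖ * ‖c‖ * B) +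
      2 * B ^ 3 * ((B * ‖b‖) * (B * ‖c‖) * B) := by
    rw [h3]
    refine (abs_sub _ _).trans (add_le_add (hkos.trans ?_) (k4.trans ?_))
    · (clear * - hd1 hB hk; gcongr)
    · (clear * - hEb hEc hB hd1; gcongr)
  have q0 : 0 ≤ ‖b‖ * ‖c‖ := by (clear * -; positivity)
  have q1 : B ^ 3 ≤ B ^ 7 := pow_le_pow_right₀ hB (by norm_num)
  calc ‖Ph F Xb Xc y‖ ≤ B * |H y (Ph F Xb Xc y) w| := hn
    _ ≤ B * (B * kap y * (‖b‖ * ‖c‖ * B) + 2 * B ^ 3 * ((B * ‖b‖) * (B * ‖c‖) * B)) := by (clear * - h4 hB; gcongr)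
    _ = B ^ 3 * kap y * (‖b‖ * ‖c‖) + 2 * B ^ 7 * (1 * (‖b‖ * ‖c‖)) := by ring
    _ ≤ B ^ 7 * kap y * (‖b‖ * ‖c‖) + 2 * B ^ 7 * (kap y * (‖b‖ * ‖c‖)) := by (clear * - q1 hk hB; gcongr)
    _ = _ := by ring

/-- The curvature in the frame up to a divergence. -/
lemma QF_le (h : FHyp g F H D B kap σ1 σ2 ℓ w1 w2) (hΓ : ∀ y ∈ D, Conn g Γ y) {y : E}
    (hy : y ∈ D) (a b c d : E) :
    |Riem g Γ y (Ev σ1 σ2 ℓ w1 w2 y a) (Ev σ1 σ2 ℓ w1 w2 y b) (Ev σ1 σ2 ℓ w1 w2 y c)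
        (Ev σ1 σ2 ℓ w1 w2 y d) -
      (fderiv ℝ (fun y => TT F H (Ev σ1 σ2 ℓ w1 w2 y b) (Ev σ1 σ2 ℓ w1 w2 y c)
        (Ev σ1 σ2 ℓ w1 w2 y d) y) y (Ev σ1 σ2 ℓ w1 w2 y a) -
      fderiv ℝ (fun y => TT F H (Ev σ1 σ2 ℓ w1 w2 y a) (Ev σ1 σ2 ℓ w1 w2 y c)
        (Ev σ1 σ2 ℓ w1 w2 y d) y) y (Ev σ1 σ2 ℓ w1 w2 y b))| ≤
      50 * B ^ 15 * (‖a‖ * ‖b‖ * ‖c‖ * ‖d‖) * kap y := by
  have hB := h.one_le
  have hB0 : 0 ≤ B := by linarith only [hB]
  have hk := h.kap_one y hy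
  have hk0 : 0 ≤ kap y := by linarith only [hk]
  have hsm := fun a => smooth_Ev h.sm1 h.sm2 ℓ w1 w2 a
  have hR := h.riem_F hΓ (hsm a) (hsm b) (hsm c) (hsm d) hy
  have hp11 : B ^ 11 ≤ B ^ 15 := pow_le_pow_right₀ hB (by norm_num)
  have hp6 : B ^ 6 ≤ B ^ 15 := pow_le_pow_right₀ hB (by norm_num)
  have hp0 : 0 ≤ B ^ 15 := by positivity
  have a1 : ∀ a b c d : E, |fderiv ℝ H y (Ev σ1 σ2 ℓ w1 w2 y a)
      (Ph F (fun z => Ev σ1 σ2 ℓ w1 w2 z b) (fun z => Ev σ1 σ2 ℓ w1 w2 z c) y)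
      (fderiv ℝ F y (Ev σ1 σ2 ℓ w1 w2 y d))| ≤
      6 * B ^ 15 * (‖a‖ * ‖b‖ * ‖c‖ * ‖d‖) * kap y := by
    intro a b c d
    refine (h.DH_le hy _ _ _).trans ?_
    calc _ ≤ B * ((B * ‖a‖) * (3 * B ^ 7 * kap y * (‖b‖ * ‖c‖)) * (B * (B * ‖d‖))) := by
          gcongr
          · exact h.hE y hy a
          · exact h.Ph_le hy b c
          · refine (h.F_le hy _).trans ?_
            gcongr
            exact h.hE y hy d
      _ = 3 * B ^ 11 * (‖a‖ * ‖b‖ * ‖c‖ * ‖d‖ * kap y) := by ring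
      _ ≤ 6 * B ^ 15 * (‖a‖ * ‖b‖ * ‖c‖ * ‖d‖ * kap y) :=
        mul_le_mul_of_nonneg_right (by linarith only [hp11, hp0]) (by (clear * - hk; positivity))
      _ = _ := by ring
  have a2 : ∀ a b c d : E, |H y (Ph F (fun z => Ev σ1 σ2 ℓ w1 w2 z a)
      (fun z => Ev σ1 σ2 ℓ w1 w2 z b) y)
      (fderiv ℝ F y (Γ y (Ev σ1 σ2 ℓ w1 w2 y c) (Ev σ1 σ2 ℓ w1 w2 y d)) -
      PP F (Ev σ1 σ2 ℓ w1 w2 y c) (Ev σ1 σ2 ℓ w1 w2 y d) y)| ≤
      6 * B ^ 15 * (‖a‖ * ‖b‖ * ‖c‖ * ‖d‖) * kap y := by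
    intro a b c d
    refine (h.H_le hy _ _).trans ?_
    calc _ ≤ B * ((3 * B ^ 7 * kap y * (‖a‖ * ‖b‖)) * (2 * B ^ 7 * (‖c‖ * ‖d‖))) := by
          gcongr
          · exact h.Ph_le hy a b
          · exact h.SE_le hΓ hy c d
      _ = _ := by ring
  have a3 : ∀ a b c d : E, |H y
      (fderiv ℝ F y (Γ y (Ev σ1 σ2 ℓ w1 w2 y a) (Ev σ1 σ2 ℓ w1 w2 y b)) -
      PP F (Ev σ1 σ2 ℓ w1 w2 y a) (Ev σ1 σ2 ℓ w1 w2 y b) y)
      (Ph F (fun z => Ev σ1 σ2 ℓ w1 w2 z c) (fun z => Ev σ1 σ2 ℓ w1 w2 z d) y)| ≤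
      6 * B ^ 15 * (‖a‖ * ‖b‖ * ‖c‖ * ‖d‖) * kap y := by
    intro a b c d
    rw [h.symm y hy]
    refine (a2 c d a b).trans (le_of_eq ?_)
    ring
  have a4 : ∀ a b c d : E, |H y
      (fderiv ℝ F y (Γ y (Ev σ1 σ2 ℓ w1 w2 y a) (Ev σ1 σ2 ℓ w1 w2 y b)) -
      PP F (Ev σ1 σ2 ℓ w1 w2 y a) (Ev σ1 σ2 ℓ w1 w2 y b) y)
      (fderiv ℝ F y (Γ y (Ev σ1 σ2 ℓ w1 w2 y c) (Ev σ1 σ2 ℓ w1 w2 y d)) -
      PP F (Ev σ1 σ2 ℓ w1 w2 y c) (Ev σ1 σ2 ℓ w1 w2 y d) y)| ≤
      6 * B ^ 15 * (‖a‖ * ‖b‖ * ‖c‖ * ‖d‖) * kap y := by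
    intro a b c d
    refine (h.H_le hy _ _).trans ?_
    calc _ ≤ B * ((2 * B ^ 7 * (‖a‖ * ‖b‖)) * (2 * B ^ 7 * (‖c‖ * ‖d‖))) := by
          gcongr
          · exact h.SE_le hΓ hy a b
          · exact h.SE_le hΓ hy c d
      _ = 4 * B ^ 15 * (‖a‖ * ‖b‖ * ‖c‖ * ‖d‖ * 1) := by ring
      _ ≤ 6 * B ^ 15 * (‖a‖ * ‖b‖ * ‖c‖ * ‖d‖ * kap y) := by
        refine mul_le_mul (by linarith only [hp0]) ?_ (by (clear * -; positivity)) (by positivity)
        exact mul_le_mul_of_nonneg_left hk (by (clear * -; positivity))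
      _ = _ := by ring
  have a5 : |TT F H (fderiv ℝ (fun z => Ev σ1 σ2 ℓ w1 w2 z b) y (Ev σ1 σ2 ℓ w1 w2 y a) -
      fderiv ℝ (fun z => Ev σ1 σ2 ℓ w1 w2 z a) y (Ev σ1 σ2 ℓ w1 w2 y b))
      (Ev σ1 σ2 ℓ w1 w2 y c) (Ev σ1 σ2 ℓ w1 w2 y d) y| ≤
      2 * B ^ 15 * (‖a‖ * ‖b‖ * ‖c‖ * ‖d‖) * kap y := by
    refine (h.TT_le hy _ _ _).trans ?_
    calc _ ≤ 2 * B ^ 3 * ((B * (‖a‖ * ‖b‖)) * (B * ‖c‖) * (B * ‖d‖)) := by
          gcongr
          · exact h.comm y hy a b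
          · exact h.hE y hy c
          · exact h.hE y hy d
      _ = 2 * B ^ 6 * (‖a‖ * ‖b‖ * ‖c‖ * ‖d‖ * 1) := by ring
      _ ≤ 2 * B ^ 15 * (‖a‖ * ‖b‖ * ‖c‖ * ‖d‖ * kap y) := by
        refine mul_le_mul (by linarith only [hp6]) ?_ (by (clear * -; positivity)) (by (clear * - hB; positivity))
        exact mul_le_mul_of_nonneg_left hk (by (clear * -; positivity))
      _ = _ := by ring
  have b1 := a1 a b c d
  have b2 := a1 b a c d
  have b3 := a2 b c a d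
  have b4 := a3 b c a d
  have b5 := a4 b c a d
  have b6 := a2 a c b d
  have b7 := a3 a c b d
  have b8 := a4 a c b d
  have e1 : ‖b‖ * ‖a‖ * ‖c‖ * ‖d‖ = ‖a‖ * ‖b‖ * ‖c‖ * ‖d‖ := by ring
  have e2 : ‖b‖ * ‖c‖ * ‖a‖ * ‖d‖ = ‖a‖ * ‖b‖ * ‖c‖ * ‖d‖ := by ring
  have e3 : ‖a‖ * ‖c‖ * ‖b‖ * ‖d‖ = ‖a‖ * ‖b‖ * ‖c‖ * ‖d‖ := by ring
  rw [e1] at b2
  rw [e2] at b3 b4 b5
  rw [e3] at b6 b7 b8
  rw [hR]
  unfold QF
  rw [abs_le] at a5 b1 b2 b3 b4 b5 b6 b7 b8 ⊢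
  constructor
  · linarith only [b8.1, b7.1, b6.1, b5.2, b4.2, b3.2, b2.2, b1.1, a5.2]
  · linarith only [a5.1, b1.2, b2.1, b3.1, b4.1, b5.1, b6.2, b7.2, b8.2]

end FHyp

end

end Vale.Agent.P354k
end
end

section

section

set_option linter.unusedSectionVars false
set_option maxSynthPendingDepth 3

open scoped Manifold ContDiff
open MeasureTheory Set Topology

namespace Vale.Agent.P354p

open Vale.Agent.P354 (P4 norm_P4_le)

lemma norm_Sp (x : R4) : ‖Sp x‖ = ‖x‖ := by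
  have h := norm_P4_le.1 (le_refl ‖Sp x‖)
  have h' := norm_P4_le.1 (le_refl ‖x‖)
  apply le_antisymm
  · rw [norm_P4_le]
    exact ⟨h'.2.2.1, h'.2.1, h'.1, h'.2.2.2⟩
  · rw [norm_P4_le]
    exact ⟨h.2.2.1, h.2.1, h.1, h.2.2.2⟩

lemma fderiv_comp_Sp {f : R4 → ℝ} {x : R4} (hf : DifferentiableAt ℝ f x) (w : R4) :
    fderiv ℝ (fun z => f (Sp.symm z)) (Sp x) w = deriv f x (Sp.symm w) := by
  rw [deriv_eq hf]
  have hf' : DifferentiableAt ℝ f (Sp.symm (Sp x)) := by simpa only [ContinuousLinearEquiv.symm_apply_apply] using hf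
  have h1 : HasFDerivAt (fun z => f (Sp.symm z))
      ((fderiv ℝ f (Sp.symm (Sp x))).comp (Sp.symm : R4 →L[ℝ] R4)) (Sp x) :=
    hf'.hasFDerivAt.comp (Sp x) Sp.symm.hasFDerivAt
  rw [h1.fderiv]
  simp only [ContinuousLinearEquiv.symm_apply_apply, ContinuousLinearMap.comp_apply, ContinuousLinearEquiv.coe_coe]

lemma fderiv_comp_Sp4 {f : R4 → ℝ} {x : R4} (hf : DifferentiableAt ℝ f x) (w : R4) :
    fderiv ℝ (fun z => 4 * f (Sp.symm z)) (Sp x) w = 4 * deriv f x (Sp.symm w) := by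
  have h1 : DifferentiableAt ℝ (fun z => f (Sp.symm z)) (Sp x) := diff_Sp hf
  have h2 : HasFDerivAt (fun z => 4 * f (Sp.symm z))
      ((4:ℝ) • fderiv ℝ (fun z => f (Sp.symm z)) (Sp x)) (Sp x) := h1.hasFDerivAt.const_mul 4
  rw [h2.fderiv]
  show 4 * fderiv ℝ (fun z => f (Sp.symm z)) (Sp x) w = _
  rw [fderiv_comp_Sp hf]

lemma deriv_add {f : R4 → ℝ} {x : R4} (hf : DifferentiableAt ℝ f x) (a b : R4) :
    deriv f x (a + b) = deriv f x a + deriv f x b := by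
  rw [deriv_eq hf, deriv_eq hf, deriv_eq hf, map_add]

lemma deriv_smul {f : R4 → ℝ} {x : R4} (hf : DifferentiableAt ℝ f x) (t : ℝ) (a : R4) :
    deriv f x (t • a) = t * deriv f x a := by
  rw [deriv_eq hf, deriv_eq hf, map_smul, smul_eq_mul]

/-- a vector tangent to the spheres -/
def sph (p q : ℝ) : R4 := (0, 0, p, q)

lemma norm_sph_le {p q K : ℝ} (hp : |p| ≤ K) (hq : |q| ≤ K) : ‖sph p q‖ ≤ K := by
  have hK : 0 ≤ K := (abs_nonneg _).trans hp
  exact norm_P4_le.2 ⟨by simpa only [sph, abs_zero], by simpa only [sph, abs_zero], hp, hq⟩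

section

variable {C : ℕ → R4 → ℝ} {x : R4} {K k n : ℝ}

namespace IsBounded

lemma K_one (h : IsBounded C x K k n) : 1 ≤ K := by
  have h1 := h.om_lower
  have h2 := (h.bound 3 (by norm_num)).1
  have h0 : 0 ≤ K := (abs_nonneg _).trans h2
  have h3 : K * C 3 x ≤ K * K := mul_le_mul_of_nonneg_left ((le_abs_self _).trans h2) h0
  nlinarith

lemma om_pos (h : IsBounded C x K k n) : 0 < C 3 x := by
  have h1 := h.om_lower
  have hK := h.K_one
  by_contra hcon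
  push Not at hcon
  nlinarith only [h1, hcon, hK]

lemma g_low (h : IsBounded C x K k n) (p q : ℝ) :
    p ^ 2 + q ^ 2 ≤ K * (C 0 x * p ^ 2 + 2 * C 1 x * p * q + C 2 x * q ^ 2) := by
  have h1 := h.g_lower p q
  have h2 : ang C x p q p q = C 0 x * p ^ 2 + 2 * C 1 x * p * q + C 2 x * q ^ 2 := by
    simp only [ang]; ring
  rwa [h2] at h1

lemma Q_nonneg (h : IsBounded C x K k n) (p q : ℝ) :
    0 ≤ C 0 x * p ^ 2 + 2 * C 1 x * p * q + C 2 x * q ^ 2 := by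
  have h1 := h.g_low p q
  have h2 : 0 ≤ p ^ 2 + q ^ 2 := by (clear * -; positivity)
  have hK := h.K_one
  by_contra hcon
  push Not at hcon
  linarith only [mul_nonneg (le_of_lt (sub_pos.2 hcon)) (sub_nonneg.2 hK), hcon, h1, sq_nonneg (q : ℝ), sq_nonneg (p : ℝ)]

lemma k0 (h : IsBounded C x K k n) : 0 ≤ k := (abs_nonneg _).trans (h.deriv_vu 0 (by norm_num)).1
lemma n0 (h : IsBounded C x K k n) : 0 ≤ n := (abs_nonneg _).trans (h.deriv_vu 0 (by norm_num)).2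

lemma deriv_sph (h : IsBounded C x K k n) {i : ℕ} (hi : i < 8) {p q m : ℝ} (hp : |p| ≤ m)
    (hq : |q| ≤ m) : |deriv (C i) x (sph p q)| ≤ K * m := by
  have hK := h.K_one
  calc _ ≤ K * ‖sph p q‖ := (h.bound i hi).2 _ rfl rfl
    _ ≤ K * m := by
      gcongr
      exact norm_sph_le hp hq

lemma cbd (h : IsBounded C x K k n) {K' : ℝ} (hK' : K ≤ K') :
    P354w.CBdW (toW C) K' (Sp x) := by
  have hK := h.K_one
  have hK0 : 0 < K := by linarith
  have hK'0 : 0 < K' := by linarith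
  have hb : ∀ i < 8, |C i (Sp.symm (Sp x))| ≤ K' := fun i hi => by
    rw [ContinuousLinearEquiv.symm_apply_apply]
    exact ((h.bound i hi).1).trans hK'
  refine ⟨by linarith, ?_, ?_, ?_, ?_, ?_, ?_, ?_, ?_, ?_, ?_⟩
  · rw [div_le_iff₀ (by positivity)]
    have h1 := h.om_lower
    have h2 : 0 ≤ C 3 x := h.om_pos.le
    show 1 ≤ C 3 (Sp.symm (Sp x)) * K'
    rw [ContinuousLinearEquiv.symm_apply_apply]
    linarith only [h1, mul_le_mul_of_nonneg_right hK' h2]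
  · exact (le_abs_self _).trans (hb 3 (by norm_num))
  · intro p q
    rw [div_le_iff₀ (by positivity)]
    have h1 := h.g_low p q
    have h2 := h.Q_nonneg p q
    show p ^ 2 + q ^ 2 ≤ (C 0 (Sp.symm (Sp x)) * p ^ 2 + 2 * C 1 (Sp.symm (Sp x)) * p * q +
      C 2 (Sp.symm (Sp x)) * q ^ 2) * K'
    rw [ContinuousLinearEquiv.symm_apply_apply]
    linarith only [h1, mul_le_mul_of_nonneg_right hK' h2]
  · exact hb 0 (by norm_num)
  · exact hb 1 (by norm_num)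
  · exact hb 2 (by norm_num)
  · exact hb 4 (by norm_num)
  · exact hb 5 (by norm_num)
  · exact hb 6 (by norm_num)
  · exact hb 7 (by norm_num)

lemma e4_eq (C : ℕ → R4 → ℝ) (x : R4) :
    Sp.symm (P354w.e4 ((toW C).scale 4) (Sp x)) = dv + sph (C 4 x) (C 5 x) := by
  rw [Sp_symm_apply]
  simp only [P354w.e4, P354w.Coef.scale, toW, ContinuousLinearEquiv.symm_apply_apply, dv, sph, Prod.mk_add_mk, add_zero, zero_add]

lemma e3_eq (C : ℕ → R4 → ℝ) (x : R4) :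
    Sp.symm (P354w.e3 ((toW C).scale 4) (Sp x)) = du + sph (C 6 x) (C 7 x) := by
  rw [Sp_symm_apply]
  simp only [P354w.e3, P354w.Coef.scale, toW, ContinuousLinearEquiv.symm_apply_apply, du, sph, Prod.mk_add_mk, add_zero, zero_add]

lemma bd (h : IsBounded C x K k n) (hd : ∀ i < 8, DifferentiableAt ℝ (C i) x) {Cc : ℝ}
    (hCc : 6 * K ^ 2 ≤ Cc) :
    ((toW C).scale 4).Bd (Sp x) Cc (4 * (k + K ^ 2)) (4 * (k + K ^ 2)) (4 * (n + K ^ 2)) := by
  have hK := h.K_one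
  have hK0 : 0 < K := by linarith only [hK]
  have hKK : K ≤ K ^ 2 := by nlinarith only [hK]
  have hk0 := h.k0
  have hl0 := h.k0
  have hn0 := h.n0
  have hC0 : 0 ≤ Cc := by linarith only [hCc, hK, hKK]
  have hCcK : 4 * K ≤ Cc := by linarith
  have hss : Sp.symm (Sp x) = x := ContinuousLinearEquiv.symm_apply_apply _ _
  have hb : ∀ i < 8, |C i (Sp.symm (Sp x))| ≤ Cc := fun i hi => by
    rw [hss]
    exact ((h.bound i hi).1).trans (by linarith only [hCc, hK, hKK])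
  have hb4 : ∀ i < 8, |4 * C i (Sp.symm (Sp x))| ≤ Cc := fun i hi => by
    rw [hss, abs_mul, abs_of_pos (by norm_num : (0:ℝ) < 4)]
    have := (h.bound i hi).1
    linarith only [hCc, hK, hKK, this]
  have v1 : Sp.symm P354w.e1 = sph 1 0 := by simp [Sp_symm_apply, P354w.e1, sph]
  have v2 : Sp.symm P354w.e2 = sph 0 1 := by simp [Sp_symm_apply, P354w.e2, sph]
  have hd1 : ∀ i < 8, |fderiv ℝ (fun z => C i (Sp.symm z)) (Sp x) P354w.e1| ≤ Cc := fun i hi => by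
    rw [fderiv_comp_Sp (hd i hi), v1]
    have := h.deriv_sph hi (p := 1) (q := 0) (m := 1) (by simp) (by simp only [abs_zero, zero_le_one])
    linarith only [hCc, hK, hKK, this]
  have hd2 : ∀ i < 8, |fderiv ℝ (fun z => C i (Sp.symm z)) (Sp x) P354w.e2| ≤ Cc := fun i hi => by
    rw [fderiv_comp_Sp (hd i hi), v2]
    have := h.deriv_sph hi (p := 0) (q := 1) (m := 1) (by simp only [abs_zero, zero_le_one]) (by simp)
    linarith only [hCc, hK, hKK, this]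
  have hf1 : ∀ i < 8, |fderiv ℝ (fun z => 4 * C i (Sp.symm z)) (Sp x) P354w.e1| ≤ Cc :=
    fun i hi => by
      rw [fderiv_comp_Sp4 (hd i hi), v1, abs_mul, abs_of_pos (by norm_num : (0:ℝ) < 4)]
      have := h.deriv_sph hi (p := 1) (q := 0) (m := 1) (by simp) (by simp only [abs_zero, zero_le_one])
      linarith only [hCc, hK, hKK, this]
  have hf2 : ∀ i < 8, |fderiv ℝ (fun z => 4 * C i (Sp.symm z)) (Sp x) P354w.e2| ≤ Cc :=
    fun i hi => by
      rw [fderiv_comp_Sp4 (hd i hi), v2, abs_mul, abs_of_pos (by norm_num : (0:ℝ) < 4)]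
      have := h.deriv_sph hi (p := 0) (q := 1) (m := 1) (by simp only [abs_zero, zero_le_one]) (by simp)
      linarith only [hCc, hK, hKK, this]
  have hs : ∀ i < 8, ∀ j < 8, ∀ j' < 8, |deriv (C i) x (sph (C j x) (C j' x))| ≤ K ^ 2 :=
    fun i hi j hj j' hj' => by
      have := h.deriv_sph hi (h.bound j hj).1 (h.bound j' hj').1
      linarith only [this]
  have h4v : ∀ i < 8, ∀ m : ℝ, |deriv (C i) x dv| ≤ m →
      |fderiv ℝ (fun z => 4 * C i (Sp.symm z)) (Sp x)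
        (P354w.e4 ((toW C).scale 4) (Sp x))| ≤ 4 * (m + K ^ 2) := fun i hi m hm => by
    rw [fderiv_comp_Sp4 (hd i hi), e4_eq, abs_mul, abs_of_pos (by norm_num : (0:ℝ) < 4),
      deriv_add (hd i hi)]
    have h1 := hs i hi 4 (by norm_num) 5 (by norm_num)
    have h2 := abs_add_le (deriv (C i) x dv) (deriv (C i) x (sph (C 4 x) (C 5 x)))
    linarith only [hm, h1, h2]
  have h4u : ∀ i < 8, ∀ m : ℝ, |deriv (C i) x du| ≤ m →
      |fderiv ℝ (fun z => 4 * C i (Sp.symm z)) (Sp x)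
        (P354w.e3 ((toW C).scale 4) (Sp x))| ≤ 4 * (m + K ^ 2) := fun i hi m hm => by
    rw [fderiv_comp_Sp4 (hd i hi), e3_eq, abs_mul, abs_of_pos (by norm_num : (0:ℝ) < 4),
      deriv_add (hd i hi)]
    have h1 := hs i hi 6 (by norm_num) 7 (by norm_num)
    have h2 := abs_add_le (deriv (C i) x du) (deriv (C i) x (sph (C 6 x) (C 7 x)))
    linarith only [hm, h1, h2]
  have ht : ∀ i, (i = 4 ∨ i = 5) →
      |fderiv ℝ (fun z => C i (Sp.symm z)) (Sp x) (P354w.e3 ((toW C).scale 4) (Sp x)) -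
      fderiv ℝ (fun z => C (i + 2) (Sp.symm z)) (Sp x)
        (P354w.e4 ((toW C).scale 4) (Sp x))| ≤ Cc := fun i hi => by
    have hi8 : i < 8 := by (clear * - hi; omega)
    have hi28 : i + 2 < 8 := by omega
    rw [fderiv_comp_Sp (hd i hi8), fderiv_comp_Sp (hd _ hi28), e3_eq, e4_eq,
      deriv_add (hd i hi8), deriv_add (hd _ hi28)]
    have h1 := hs i hi8 6 (by norm_num) 7 (by norm_num)
    have h2 := hs (i + 2) hi28 4 (by norm_num) 5 (by norm_num)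
    have h3 := h.torsion i hi
    rw [abs_le] at h1 h2 h3 ⊢
    constructor <;> linarith only [hCc, hK, hKK, h1, h2, h3]
  have hom := h.om_lower
  have hompos := h.om_pos
  exact
    { one_le := by linarith only [hCc, hK, hKK]
      cv0 := by (clear * - hk0 hK; positivity)
      cw0 := by (clear * - hk0 hK; positivity)
      cu0 := by (clear * - hn0 hK; positivity)
      om_lo := by
        show 1 ≤ Cc * (4 * C 3 (Sp.symm (Sp x)))
        rw [hss]
        have : K * C 3 x ≤ Cc * C 3 x := by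
          apply mul_le_mul_of_nonneg_right _ hompos.le
          linarith only [hCc, hK, hKK]
        have h2 : 0 ≤ Cc * C 3 x := by (clear * - hC0 hompos; positivity)
        linarith only [hom, this]
      om_hi := (le_abs_self _).trans (hb4 3 (by norm_num))
      g_lo := by
        intro p q
        show p ^ 2 + q ^ 2 ≤ Cc * (4 * C 0 (Sp.symm (Sp x)) * p ^ 2 +
          2 * (4 * C 1 (Sp.symm (Sp x))) * p * q + 4 * C 2 (Sp.symm (Sp x)) * q ^ 2)
        rw [hss]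
        have h1 := h.g_low p q
        have hQ := h.Q_nonneg p q
        have h3 : K * (C 0 x * p ^ 2 + 2 * C 1 x * p * q + C 2 x * q ^ 2) ≤
            (4 * Cc) * (C 0 x * p ^ 2 + 2 * C 1 x * p * q + C 2 x * q ^ 2) := by
          apply mul_le_mul_of_nonneg_right _ hQ
          linarith only [hCc, hK, hKK]
        linarith only [h1, h3]
      g11 := hb4 0 (by norm_num)
      g12 := hb4 1 (by norm_num)
      g22 := hb4 2 (by norm_num)
      om_1 := hf1 3 (by norm_num)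
      om_2 := hf2 3 (by norm_num)
      g11_1 := hf1 0 (by norm_num)
      g11_2 := hf2 0 (by norm_num)
      g12_1 := hf1 1 (by norm_num)
      g12_2 := hf2 1 (by norm_num)
      g22_1 := hf1 2 (by norm_num)
      g22_2 := hf2 2 (by norm_num)
      s1_1 := hd1 4 (by norm_num)
      s1_2 := hd2 4 (by norm_num)
      s2_1 := hd1 5 (by norm_num)
      s2_2 := hd2 5 (by norm_num)
      w1_1 := hd1 6 (by norm_num)
      w1_2 := hd2 6 (by norm_num)
      w2_1 := hd1 7 (by norm_num)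
      w2_2 := hd2 7 (by norm_num)
      t1 := ht 4 (Or.inl rfl)
      t2 := ht 5 (Or.inr rfl)
      om_4 := h4v 3 (by norm_num) _ (h.deriv_vu 3 (by norm_num)).1
      g11_4 := h4v 0 (by norm_num) _ (h.deriv_vu 0 (by norm_num)).1
      g12_4 := h4v 1 (by norm_num) _ (h.deriv_vu 1 (by norm_num)).1
      g22_4 := h4v 2 (by norm_num) _ (h.deriv_vu 2 (by norm_num)).1
      om_3 := h4u 3 (by norm_num) _ (h.deriv_vu 3 (by norm_num)).2
      g11_3 := h4u 0 (by norm_num) _ (h.deriv_vu 0 (by norm_num)).2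
      g12_3 := h4u 1 (by norm_num) _ (h.deriv_vu 1 (by norm_num)).2
      g22_3 := h4u 2 (by norm_num) _ (h.deriv_vu 2 (by norm_num)).2 }

end IsBounded

lemma smoothW {C : ℕ → R4 → ℝ} {D : Set R4} (h : ∀ i, IsSmooth (C i) D) :
    (toW C).SmoothOn (Sp '' D) := by
  have h1 : ∀ i, ContDiffOn ℝ 1 (fun z => C i (Sp.symm z)) (Sp '' D) := by
    intro i
    refine ContDiffOn.comp (ContDiffOn.of_le (h i) (by norm_cast))
      Sp.symm.contDiff.contDiffOn ?_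
    rintro _ ⟨x, hx, rfl⟩
    show Sp.symm (Sp x) ∈ D
    rw [ContinuousLinearEquiv.symm_apply_apply]; exact hx
  exact ⟨h1 3, h1 4, h1 5, h1 6, h1 7, h1 0, h1 1, h1 2⟩

end

end Vale.Agent.P354p
end
end

section

section

set_option linter.unusedSectionVars false
set_option maxSynthPendingDepth 3

open MeasureTheory Set Filter Topology
open scoped ContDiff

namespace Vale.Agent.P354k

section

variable {E : Type*} [NormedAddCommGroup E] [NormedSpace ℝ E] [FiniteDimensional ℝ E]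
  [MeasureSpace E] [BorelSpace E] [(volume : Measure E).IsAddHaarMeasure]

lemma contDiff_ts {f : E → ℝ} (hg : ∀ y ∈ tsupport f, ContDiffAt ℝ 1 f y) :
    ContDiff ℝ 1 f := by
  rw [contDiff_iff_contDiffAt]
  intro y
  by_cases hy : y ∈ tsupport f
  · exact hg y hy
  · have h1 : f =ᶠ[𝓝 y] fun _ => (0:ℝ) := notMem_tsupport_iff_eventuallyEq.mp hy
    exact contDiffAt_const.congr_of_eventuallyEq h1

/-- the integral of a derivative of a function with compact support -/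
lemma int_fderiv_zero {f : E → ℝ} (hg : ContDiff ℝ 1 f) (hgc : HasCompactSupport f) (e : E) :
    Integrable (fun y => fderiv ℝ f y e) ∧ ∫ y, fderiv ℝ f y e = 0 := by
  have c1 : Continuous (fun y => fderiv ℝ f y e) :=
    (hg.continuous_fderiv (by norm_num)).clm_apply continuous_const
  have i1 : Integrable (fun y => fderiv ℝ f y e) := by
    refine c1.integrable_of_hasCompactSupport ?_
    exact (hgc.fderiv (𝕜 := ℝ)).comp_left (g := fun L : E →L[ℝ] ℝ => L e) (by simp)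
  have i2 : Integrable f := hg.continuous.integrable_of_hasCompactSupport hgc
  have h1 := integral_mul_fderiv_eq_neg_fderiv_mul_of_integrable (μ := (volume : Measure E))
    (f := fun _ => (1:ℝ)) (g := f) (v := e) (by simp only [fderiv_fun_const, Pi.zero_apply, zero_apply, zero_mul, integrable_fun_zero]) (by simpa only [one_mul] using i1) (by simpa only [one_mul] using i2)
    (fun x _ => by fun_prop) (fun x _ => (hg.differentiable (by norm_num)) x)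
  refine ⟨i1, ?_⟩
  simpa only [one_mul, fderiv_fun_const, Pi.zero_apply, zero_apply, zero_mul, integral_zero, neg_zero] using h1

/-- integration by parts against a bounded function -/
lemma int_parts {D : Set E} (hD : IsOpen D) {t : E → ℝ} (ht : ContDiffOn ℝ ∞ t D) {A : ℝ}
    (hA : ∀ y ∈ D, |t y| ≤ A) {φ : E → ℝ} (hφ : ContDiff ℝ 1 φ) (hφc : HasCompactSupport φ)
    (hφD : tsupport φ ⊆ D) (e : E) :
    Integrable (fun y => φ y * fderiv ℝ t y e) ∧
      |∫ y, φ y * fderiv ℝ t y e| ≤ A * ∫ y, |fderiv ℝ φ y e| := by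
  have hts : tsupport (fun y => φ y * t y) ⊆ tsupport φ := by
    refine closure_mono fun y hy h0 => hy ?_
    simp only
    rw [h0, zero_mul]
  have hu : ContDiff ℝ 1 (fun y => φ y * t y) := contDiff_ts fun y hy =>
    (hφ.contDiffAt).mul ((ht.contDiffAt (hD.mem_nhds (hφD (hts hy)))).of_le (by norm_cast))
  have huc : HasCompactSupport (fun y => φ y * t y) := hφc.mul_right
  obtain ⟨i1, i2⟩ := int_fderiv_zero hu huc e
  have hd : ∀ y, fderiv ℝ (fun y => φ y * t y) y e = φ y * fderiv ℝ t y e +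
      fderiv ℝ φ y e * t y := by
    intro y
    by_cases hy : y ∈ tsupport φ
    · have h1 : DifferentiableAt ℝ t y := dAt hD ht (hφD hy)
      have h2 : DifferentiableAt ℝ φ y := (hφ.differentiable (by norm_num)) y
      rw [fderiv_fun_mul h2 h1]
      simp only [add_apply, smul_apply, smul_eq_mul, add_right_inj]
      ring
    · have h1 : φ =ᶠ[𝓝 y] fun _ => (0:ℝ) := notMem_tsupport_iff_eventuallyEq.mp hy
      have h2 : (fun y => φ y * t y) =ᶠ[𝓝 y] fun _ => (0:ℝ) := by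
        filter_upwards [h1] with x hx
        rw [hx, zero_mul]
      rw [h2.fderiv_eq, h1.fderiv_eq, h1.eq_of_nhds]
      simp
  -- the second function is integrable
  have c2 : Continuous (fun y => fderiv ℝ φ y e * t y) := by
    apply continuous_of_tsupport
    intro y hy
    have h1 : tsupport (fun y => fderiv ℝ φ y e * t y) ⊆ tsupport φ := by
      refine (closure_mono (?_ : _ ⊆ Function.support fun y => fderiv ℝ φ y e)).trans ?_
      · intro y hy h0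
        apply hy
        have h1 : fderiv ℝ φ y e = 0 := h0
        simp only
        rw [h1, zero_mul]
      · have h3 : tsupport (fun y => fderiv ℝ φ y e) ⊆ tsupport (fderiv ℝ φ) := by
          refine closure_mono fun y hy h0 => hy ?_
          simp only
          rw [h0]; simp
        exact h3.trans (tsupport_fderiv_subset ℝ)
    have h2 : ContinuousAt t y :=
      (ht.continuousOn).continuousAt (hD.mem_nhds (hφD (h1 hy)))
    exact ((((hφ.continuous_fderiv (by norm_num)).clm_apply continuous_const)).continuousAt).mul h2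
  have hφ'c : HasCompactSupport (fun y => fderiv ℝ φ y e) :=
    (hφc.fderiv (𝕜 := ℝ)).comp_left (g := fun L : E →L[ℝ] ℝ => L e) (by simp)
  have i3 : Integrable (fun y => fderiv ℝ φ y e * t y) :=
    c2.integrable_of_hasCompactSupport hφ'c.mul_right
  have i4 : Integrable (fun y => φ y * fderiv ℝ t y e) := by
    have := i1.sub i3
    refine this.congr (Filter.Eventually.of_forall fun y => ?_)
    simp only [Pi.sub_apply]
    rw [hd y]
    ring
  refine ⟨i4, ?_⟩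
  have e1 : ∫ y, φ y * fderiv ℝ t y e = - ∫ y, fderiv ℝ φ y e * t y := by
    have h2 : ∫ y, fderiv ℝ (fun y => φ y * t y) y e = ∫ y, (φ y * fderiv ℝ t y e +
      fderiv ℝ φ y e * t y) := integral_congr_ae (Filter.Eventually.of_forall hd)
    rw [i2, integral_add i4 i3] at h2
    linarith only [h2]
  rw [e1, abs_neg, ← Real.norm_eq_abs, ← integral_const_mul]
  have i5 : Integrable (fun y => |fderiv ℝ φ y e|) :=
    ((((hφ.continuous_fderiv (by norm_num)).clm_apply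
      continuous_const)).integrable_of_hasCompactSupport hφ'c).abs
  refine norm_integral_le_of_norm_le (i5.const_mul _) (Filter.Eventually.of_forall fun y => ?_)
  rw [Real.norm_eq_abs, abs_mul]
  by_cases hy : y ∈ tsupport φ
  · have h1 := hA y (hφD hy)
    rw [mul_comm A]
    (clear * - h1; gcongr)
  · have h1 : φ =ᶠ[𝓝 y] fun _ => (0:ℝ) := notMem_tsupport_iff_eventuallyEq.mp hy
    rw [h1.fderiv_eq]
    simp

lemma int_norm {φ : E → ℝ} (hφ : ContDiff ℝ 1 φ) (hφc : HasCompactSupport φ) :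
    Integrable (fun y => ‖fderiv ℝ φ y‖) :=
  ((hφ.continuous_fderiv (by norm_num)).norm).integrable_of_hasCompactSupport
      (hφc.fderiv (𝕜 := ℝ)).norm

/-- integration by parts with a variable coefficient -/
lemma int_parts_s {D : Set E} (hD : IsOpen D) {t : E → ℝ} (ht : ContDiffOn ℝ ∞ t D) {A B : ℝ}
    (hA0 : 0 ≤ A)
    (hA : ∀ y ∈ D, |t y| ≤ A) {σ : E → ℝ} (hs : ContDiffOn ℝ ∞ σ D) {w : E}
    (hB : ∀ y ∈ D, |σ y| ≤ B) (hd : ∀ y ∈ D, |fderiv ℝ σ y w| ≤ B) {φ : E → ℝ}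
    (hφ : ContDiff ℝ 1 φ) (hφc : HasCompactSupport φ)
    (hφD : tsupport φ ⊆ D) :
    Integrable (fun y => φ y * (σ y * fderiv ℝ t y w)) ∧
      |∫ y, φ y * (σ y * fderiv ℝ t y w)| ≤
        A * (|B| * (1 + ‖w‖)) * ((∫ y, |φ y|) + ∫ y, ‖fderiv ℝ φ y‖) := by
  have hts : tsupport (fun y => φ y * σ y) ⊆ tsupport φ := by
    refine closure_mono fun y hy h0 => hy ?_
    simp only
    rw [h0, zero_mul]
  have hu : ContDiff ℝ 1 (fun y => φ y * σ y) := contDiff_ts fun y hy =>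
    (hφ.contDiffAt).mul ((hs.contDiffAt (hD.mem_nhds (hφD (hts hy)))).of_le (by norm_cast))
  have huc : HasCompactSupport (fun y => φ y * σ y) := hφc.mul_right
  obtain ⟨j1, j2⟩ := int_parts hD ht hA hu huc (hts.trans hφD) w
  have e1 : (fun y => φ y * (σ y * fderiv ℝ t y w)) = fun y => φ y * σ y * fderiv ℝ t y w := by
    funext y; ring
  rw [e1]
  refine ⟨j1, j2.trans ?_⟩
  have i1 : Integrable (fun y => |φ y|) := (hφ.continuous.integrable_of_hasCompactSupport hφc).abs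
  have i2 := int_norm hφ hφc
  have hpt : ∀ y, |fderiv ℝ (fun y => φ y * σ y) y w| ≤
      |B| * (1 + ‖w‖) * (|φ y| + ‖fderiv ℝ φ y‖) := by
    intro y
    have hw := norm_nonneg w
    have hB0 := abs_nonneg B
    by_cases hy : y ∈ tsupport φ
    · have h1 : DifferentiableAt ℝ σ y := dAt hD hs (hφD hy)
      have h2 : DifferentiableAt ℝ φ y := (hφ.differentiable (by norm_num)) y
      rw [fderiv_fun_mul h2 h1]
      simp only [_root_.add_apply, _root_.smul_apply, smul_eq_mul]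
      have k1 := (hB y (hφD hy)).trans (le_abs_self B)
      have k2 := (hd y (hφD hy)).trans (le_abs_self B)
      have k3 := (fderiv ℝ φ y).le_opNorm w
      rw [Real.norm_eq_abs] at k3
      have m1 : |φ y * fderiv ℝ σ y w| ≤ |φ y| * |B| := by rw [abs_mul]; (clear * - k2; gcongr)
      have m2 : |σ y * fderiv ℝ φ y w| ≤ |B| * (‖fderiv ℝ φ y‖ * ‖w‖) := by
        rw [abs_mul]; (clear * - k1 k3; gcongr)
      refine (abs_add_le _ _).trans ((add_le_add m1 m2).trans ?_)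
      have q1 : 0 ≤ |B| * ‖w‖ * |φ y| := by (clear * -; positivity)
      have q2 : 0 ≤ |B| * ‖fderiv ℝ φ y‖ := by (clear * -; positivity)
      linarith only [q1, q2]
    · have h1 : φ =ᶠ[𝓝 y] fun _ => (0:ℝ) := notMem_tsupport_iff_eventuallyEq.mp hy
      have h2 : (fun y => φ y * σ y) =ᶠ[𝓝 y] fun _ => (0:ℝ) := by
        filter_upwards [h1] with x hx
        rw [hx, zero_mul]
      rw [h2.fderiv_eq]
      simp only [fderiv_fun_const, Pi.zero_apply, _root_.zero_apply, abs_zero]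
      (clear * -; positivity)
  have i3 : Integrable (fun y => |fderiv ℝ (fun y => φ y * σ y) y w|) :=
    ((((hu.continuous_fderiv (by norm_num)).clm_apply
      continuous_const)).integrable_of_hasCompactSupport
      ((huc.fderiv (𝕜 := ℝ)).comp_left (g := fun L : E →L[ℝ] ℝ => L w) (by simp))).abs
  have h5 : ∫ y, |fderiv ℝ (fun y => φ y * σ y) y w| ≤
      |B| * (1 + ‖w‖) * ((∫ y, |φ y|) + ∫ y, ‖fderiv ℝ φ y‖) := by
    rw [← integral_add i1 i2, ← integral_const_mul]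
    exact integral_mono i3 ((i1.add i2).const_mul _) hpt
  calc A * ∫ y, |fderiv ℝ (fun y => φ y * σ y) y w| ≤
      A * (|B| * (1 + ‖w‖) * ((∫ y, |φ y|) + ∫ y, ‖fderiv ℝ φ y‖)) := by (clear * - h5 hA0; gcongr)
    _ = _ := by ring

/-- integration by parts along a frame vector -/
lemma int_frame {D : Set E} (hD : IsOpen D) {t : E → ℝ} (ht : ContDiffOn ℝ ∞ t D) {A B : ℝ}
    (hA0 : 0 ≤ A) (hA : ∀ y ∈ D, |t y| ≤ A) {σ1 σ2 : E → ℝ} (hs1 : ContDiffOn ℝ ∞ σ1 D)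
    (hs2 : ContDiffOn ℝ ∞ σ2 D) (ℓ : E →L[ℝ] ℝ) (w1 w2 : E)
    (hB1 : ∀ y ∈ D, |σ1 y| ≤ B) (hd1 : ∀ y ∈ D, |fderiv ℝ σ1 y w1| ≤ B)
    (hB2 : ∀ y ∈ D, |σ2 y| ≤ B) (hd2 : ∀ y ∈ D, |fderiv ℝ σ2 y w2| ≤ B) (a : E) :
    ∃ L : ℝ, 0 ≤ L ∧ ∀ φ : E → ℝ, ContDiff ℝ 1 φ → HasCompactSupport φ → tsupport φ ⊆ D →
      Integrable (fun y => φ y * fderiv ℝ t y (Ev σ1 σ2 ℓ w1 w2 y a)) ∧
      |∫ y, φ y * fderiv ℝ t y (Ev σ1 σ2 ℓ w1 w2 y a)| ≤
        L * ((∫ y, |φ y|) + ∫ y, ‖fderiv ℝ φ y‖) := by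
  refine ⟨A * ‖a‖ + |ℓ a| * (A * (|B| * (1 + ‖w1‖))) + |ℓ a| * (A * (|B| * (1 + ‖w2‖))),
    by (clear * - hA0; positivity), fun φ hφ hφc hφD => ?_⟩
  obtain ⟨j0, k0⟩ := int_parts hD ht hA hφ hφc hφD a
  obtain ⟨j1, k1⟩ := int_parts_s hD ht hA0 hA hs1 hB1 hd1 hφ hφc hφD
  obtain ⟨j2, k2⟩ := int_parts_s hD ht hA0 hA hs2 hB2 hd2 hφ hφc hφD
  have i1 : Integrable (fun y => |φ y|) := (hφ.continuous.integrable_of_hasCompactSupport hφc).abs
  have i2 := int_norm hφ hφc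
  have e1 : (fun y => φ y * fderiv ℝ t y (Ev σ1 σ2 ℓ w1 w2 y a)) = fun y =>
      (φ y * fderiv ℝ t y a + ℓ a * (φ y * (σ1 y * fderiv ℝ t y w1))) +
        ℓ a * (φ y * (σ2 y * fderiv ℝ t y w2)) := by
    funext y
    unfold Ev
    rw [map_add, map_add, map_smul, map_smul, smul_eq_mul, smul_eq_mul]
    ring
  rw [e1]
  have j3 : Integrable (fun y => φ y * fderiv ℝ t y a +
    ℓ a * (φ y * (σ1 y * fderiv ℝ t y w1))) := j0.add (j1.const_mul _)
  have j4 : Integrable (fun y => ℓ a * (φ y * (σ2 y * fderiv ℝ t y w2))) := j2.const_mul _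
  refine ⟨j3.add j4, ?_⟩
  rw [integral_add j3 j4, integral_add j0 (j1.const_mul _), integral_const_mul,
    integral_const_mul]
  have h0 : |∫ y, φ y * fderiv ℝ t y a| ≤ A * ‖a‖ * ((∫ y, |φ y|) + ∫ y, ‖fderiv ℝ φ y‖) := by
    refine k0.trans ?_
    have h1 : ∫ y, |fderiv ℝ φ y a| ≤ ‖a‖ * ∫ y, ‖fderiv ℝ φ y‖ := by
      rw [← integral_const_mul]
      refine integral_mono ?_ (i2.const_mul _) fun y => ?_
      · exact ((((hφ.continuous_fderiv (by norm_num)).clm_apply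
          continuous_const)).integrable_of_hasCompactSupport
          ((hφc.fderiv (𝕜 := ℝ)).comp_left (g := fun L : E →L[ℝ] ℝ => L a) (by simp))).abs
      · have := (fderiv ℝ φ y).le_opNorm a
        rw [Real.norm_eq_abs] at this
        simp only
        rw [mul_comm ‖a‖]
        exact this
    have h2 : 0 ≤ ∫ y, |φ y| := integral_nonneg fun _ => abs_nonneg _
    calc A * ∫ y, |fderiv ℝ φ y a| ≤ A * (‖a‖ * ∫ y, ‖fderiv ℝ φ y‖) := by (clear * - h1 hA0; gcongr)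
      _ ≤ A * (‖a‖ * ((∫ y, |φ y|) + ∫ y, ‖fderiv ℝ φ y‖)) := by gcongr; linarith only [h2]
      _ = _ := by ring
  refine (abs_add_three _ _ _).trans ?_
  rw [abs_mul, abs_mul, add_mul, add_mul]
  refine add_le_add (add_le_add h0 ?_) ?_
  · rw [mul_assoc |ℓ a|]
    exact mul_le_mul_of_nonneg_left k1 (abs_nonneg _)
  · rw [mul_assoc |ℓ a|]
    exact mul_le_mul_of_nonneg_left k2 (abs_nonneg _)

/-- **The curvature in the frame is bounded as a distribution of first order.** -/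
theorem FHyp.int_le {E' : Type*} [NormedAddCommGroup E'] [NormedSpace ℝ E']
    {g : E → E → E → ℝ} {F : E → E'} {H : E → E' →L[ℝ] E' →L[ℝ] ℝ} {D : Set E}
    {B : ℝ} {kap : E → ℝ} {σ1 σ2 : E → ℝ} {ℓ : E →L[ℝ] ℝ} {w1 w2 : E} {Γ : E → E → E → E}
    (h : FHyp g F H D B kap σ1 σ2 ℓ w1 w2)
    (hΓ : ∀ y ∈ D, Conn g Γ y) (a b c d : E) :
    ∃ L : ℝ, 0 ≤ L ∧ ∀ φ : E → ℝ, ContDiff ℝ 1 φ → HasCompactSupport φ → tsupport φ ⊆ D →
      Integrable (fun y => kap y * |φ y|) →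
      |∫ y, φ y * Riem g Γ y (Ev σ1 σ2 ℓ w1 w2 y a) (Ev σ1 σ2 ℓ w1 w2 y b)
        (Ev σ1 σ2 ℓ w1 w2 y c) (Ev σ1 σ2 ℓ w1 w2 y d)| ≤
        L * ∫ y, (kap y * |φ y| + ‖fderiv ℝ φ y‖) := by
  have hB := h.one_le
  have hB0 : 0 ≤ B := by linarith
  have hsm := fun a => smooth_Ev h.sm1 h.sm2 ℓ w1 w2 a
  set t1 := fun y => TT F H (Ev σ1 σ2 ℓ w1 w2 y b) (Ev σ1 σ2 ℓ w1 w2 y c)
        (Ev σ1 σ2 ℓ w1 w2 y d) y with ht1
  set t2 := fun y => TT F H (Ev σ1 σ2 ℓ w1 w2 y a) (Ev σ1 σ2 ℓ w1 w2 y c)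
        (Ev σ1 σ2 ℓ w1 w2 y d) y with ht2
  have hst1 : ContDiffOn ℝ ∞ t1 D := smooth_TF h.openD h.smF h.smH (hsm b) (hsm c) (hsm d)
  have hst2 : ContDiffOn ℝ ∞ t2 D := smooth_TF h.openD h.smF h.smH (hsm a) (hsm c) (hsm d)
  have hbd : ∀ b c d : E, ∀ y ∈ D, |TT F H (Ev σ1 σ2 ℓ w1 w2 y b) (Ev σ1 σ2 ℓ w1 w2 y c)
        (Ev σ1 σ2 ℓ w1 w2 y d) y| ≤ 2 * B ^ 3 * ((B * ‖b‖) * (B * ‖c‖) * (B * ‖d‖)) := by
    intro b c d y hy
    refine (h.TT_le hy _ _ _).trans ?_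
    gcongr
    · exact h.hE y hy b
    · exact h.hE y hy c
    · exact h.hE y hy d
  obtain ⟨L1, hL10, hL1⟩ := int_frame h.openD hst1 (by (clear * - hB; positivity)) (hbd b c d) h.sm1 h.sm2 ℓ w1 w2
    h.b1 h.d1 h.b2 h.d2 a
  obtain ⟨L2, hL20, hL2⟩ := int_frame h.openD hst2 (by (clear * - hB; positivity)) (hbd a c d) h.sm1 h.sm2 ℓ w1 w2
    h.b1 h.d1 h.b2 h.d2 b
  set n3 : ℝ := ‖a‖ * ‖b‖ * ‖c‖ * ‖d‖ with hn3
  refine ⟨L1 + L2 + 50 * B ^ 15 * n3, by (clear * - hL10 hL20 hB; positivity), fun φ hφ hφc hφD hi => ?_⟩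
  obtain ⟨j1, k1⟩ := hL1 φ hφ hφc hφD
  obtain ⟨j2, k2⟩ := hL2 φ hφ hφc hφD
  have i5 := int_norm hφ hφc
  have i6 : Integrable (fun y => |φ y|) := (hφ.continuous.integrable_of_hasCompactSupport hφc).abs
  have hnn : 0 ≤ ∫ y, ‖fderiv ℝ φ y‖ := integral_nonneg fun _ => norm_nonneg _
  have hkn : ∀ y, |φ y| ≤ kap y * |φ y| := by
    intro y
    by_cases hy : y ∈ tsupport φ
    · have h1 := h.kap_one y (hφD hy)
      have h2 := abs_nonneg (φ y)
      linarith only [mul_nonneg (sub_nonneg.2 h1) (sub_nonneg.2 h2)]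
    · have h1 : φ y = 0 := image_eq_zero_of_notMem_tsupport hy
      rw [h1]; simp
  have hle : ∫ y, |φ y| ≤ ∫ y, kap y * |φ y| := integral_mono i6 hi hkn
  have h0 : 0 ≤ ∫ y, |φ y| := integral_nonneg fun _ => abs_nonneg _
  rw [integral_add hi i5]
  set R := fun y => Riem g Γ y (Ev σ1 σ2 ℓ w1 w2 y a) (Ev σ1 σ2 ℓ w1 w2 y b)
        (Ev σ1 σ2 ℓ w1 w2 y c) (Ev σ1 σ2 ℓ w1 w2 y d) with hR
  have hq : ∀ y, ‖φ y * R y - (φ y * fderiv ℝ t1 y (Ev σ1 σ2 ℓ w1 w2 y a) -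
      φ y * fderiv ℝ t2 y (Ev σ1 σ2 ℓ w1 w2 y b))‖ ≤ 50 * B ^ 15 * n3 * (kap y * |φ y|) := by
    intro y
    have e1 : φ y * R y - (φ y * fderiv ℝ t1 y (Ev σ1 σ2 ℓ w1 w2 y a) -
      φ y * fderiv ℝ t2 y (Ev σ1 σ2 ℓ w1 w2 y b)) = φ y * (R y -
        (fderiv ℝ t1 y (Ev σ1 σ2 ℓ w1 w2 y a) - fderiv ℝ t2 y (Ev σ1 σ2 ℓ w1 w2 y b))) := by
      ring
    rw [e1, Real.norm_eq_abs, abs_mul]
    by_cases hy : y ∈ tsupport φ
    · have h1 := h.QF_le hΓ (hφD hy) a b c d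
      calc _ ≤ |φ y| * (50 * B ^ 15 * n3 * kap y) := by (clear * - h1; gcongr)
        _ = _ := by ring
    · have h1 : φ y = 0 := image_eq_zero_of_notMem_tsupport hy
      rw [h1]; simp
  by_cases hint : Integrable (fun y => φ y * R y)
  · have h3 := norm_integral_le_of_norm_le (hi.const_mul (50 * B ^ 15 * n3))
      (Filter.Eventually.of_forall hq)
    have j3 : Integrable (fun y => φ y * fderiv ℝ t1 y (Ev σ1 σ2 ℓ w1 w2 y a) -
      φ y * fderiv ℝ t2 y (Ev σ1 σ2 ℓ w1 w2 y b)) := j1.sub j2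
    rw [integral_sub hint j3, integral_sub j1 j2, integral_const_mul,
      Real.norm_eq_abs] at h3
    set I := ∫ y, φ y * R y with hI
    set I1 := ∫ y, φ y * fderiv ℝ t1 y (Ev σ1 σ2 ℓ w1 w2 y a) with hI1
    set I2 := ∫ y, φ y * fderiv ℝ t2 y (Ev σ1 σ2 ℓ w1 w2 y b) with hI2
    have h4 : |I| ≤ |I - (I1 - I2)| + (|I1| + |I2|) := by
      have e2 : I = (I - (I1 - I2)) + (I1 - I2) := by ring
      calc |I| = |(I - (I1 - I2)) + (I1 - I2)| := by rw [← e2]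
        _ ≤ _ := (abs_add_le _ _).trans (add_le_add le_rfl (abs_sub _ _))
    have k1' : |I1| ≤ L1 * ((∫ y, kap y * |φ y|) + ∫ y, ‖fderiv ℝ φ y‖) := by
      refine k1.trans ?_
      (clear * - hle hL10; gcongr)
    have k2' : |I2| ≤ L2 * ((∫ y, kap y * |φ y|) + ∫ y, ‖fderiv ℝ φ y‖) := by
      refine k2.trans ?_
      (clear * - hle hL20; gcongr)
    have p3 : 0 ≤ 50 * B ^ 15 * n3 := by (clear * - hB; positivity)
    have q3 : 50 * B ^ 15 * n3 * (∫ y, kap y * |φ y|) ≤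
        50 * B ^ 15 * n3 * ((∫ y, kap y * |φ y|) + ∫ y, ‖fderiv ℝ φ y‖) := by
      gcongr
      linarith only [hnn]
    rw [add_mul, add_mul]
    linarith only [h3, h4, k1', k2', q3]
  · rw [integral_undef hint, abs_zero]
    have : 0 ≤ ∫ y, kap y * |φ y| := h0.trans hle
    (clear * - hL10 hL20 hB this; positivity)

end

end Vale.Agent.P354k
end
end

section

section

set_option linter.unusedSectionVars false

open scoped ContDiff
open MeasureTheory Set Filter Topology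

namespace Vale.Agent.P354p.Ex

/-- the exponent of the example -/
class Prm where
  a : ℝ
  a0 : 0 ≤ a
  a1 : a ≤ 1 / 2

/-- the region -1 < u, v < 0 -/
def D0 : Set R4 := {x | -1 < cu x ∧ cu x < 0 ∧ -1 < cv x ∧ cv x < 0}

abbrev P0 : Type := {x : R4 // x ∈ D0}

/-- exchange of u and v -/
def sw (b : Bool) (x : R4) : R4 := if b then x else (x.2.1, x.1, x.2.2)

lemma sw_sw (b : Bool) (x : R4) : sw b (sw b x) = x := by
  cases b <;> rfl

lemma sw_mem {b : Bool} {x : R4} : sw b x ∈ D0 ↔ x ∈ D0 := by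
  cases b
  · simp only [sw, D0, cu, cv, mem_ofPred_eq]
    constructor <;> (rintro ⟨h1, h2, h3, h4⟩; exact ⟨h3, h4, h1, h2⟩)
  · rfl

/-- sw as a continuous linear map -/
noncomputable def swL (b : Bool) : R4 →L[ℝ] R4 :=
  LinearMap.toContinuousLinearMap
    { toFun := sw b
      map_add' := fun x y => by cases b <;> simp [sw]
      map_smul' := fun t x => by cases b <;> simp [sw] }

lemma continuous_sw (b : Bool) : Continuous (sw b) := (swL b).continuous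

lemma isOpen_D0 : IsOpen D0 := by
  have h1 : Continuous cu := by unfold cu; fun_prop
  have h2 : Continuous cv := by unfold cv; fun_prop
  exact (isOpen_lt continuous_const h1).inter ((isOpen_lt h1 continuous_const).inter
    ((isOpen_lt continuous_const h2).inter (isOpen_lt h2 continuous_const)))

noncomputable def p0 : P0 := ⟨(-1 / 2, -1 / 2, 0, 0), by simp only [D0, cu, cv, mem_ofPred_eq]; norm_num⟩

open Classical in
/-- the point with given coordinates -/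
noncomputable def mk (x : R4) : P0 := if h : x ∈ D0 then ⟨x, h⟩ else p0

lemma mk_val {x : R4} (h : x ∈ D0) : (mk x).1 = x := by
  rw [mk, dif_pos h]

lemma mk_self (p : P0) : mk p.1 = p := Subtype.ext (mk_val p.2)

lemma continuousOn_mk : ContinuousOn mk D0 := by
  rw [continuousOn_iff_continuous_restrict]
  have : D0.domRestrict mk = fun x : D0 => (x : P0) := by
    funext x
    exact mk_self x
  rw [this]
  exact continuous_id

/-- the two charts -/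
noncomputable def ch (b : Bool) : OpenPartialHomeomorph P0 R4 where
  toFun p := sw b p.1
  invFun y := mk (sw b y)
  source := univ
  target := D0
  map_source' p _ := sw_mem.2 p.2
  map_target' _ _ := mem_univ _
  left_inv' p _ := by
    show mk (sw b (sw b p.1)) = p
    rw [sw_sw, mk_self]
  right_inv' y hy := by
    show sw b (mk (sw b y)).1 = y
    rw [mk_val (sw_mem.2 hy), sw_sw]
  open_source := isOpen_univ
  open_target := isOpen_D0
  continuousOn_toFun := ((continuous_sw b).comp continuous_subtype_val).continuousOn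
  continuousOn_invFun := continuousOn_mk.comp (continuous_sw b).continuousOn
    (fun _ hy => sw_mem.2 hy)

variable [Prm]

/-- the area function -/
noncomputable def GG (x : R4) : ℝ := Gf Prm.a 0 x

/-- the coefficients -/
noncomputable def CC : ℕ → R4 → ℝ
  | 0 => GG
  | 2 => GG
  | 3 => fun _ => 1
  | _ => fun _ => 0

/-- the example -/
@[reducible] noncomputable def M0 : Spc where
  pt := P0
  Chart := Bool
  toE := ch
  cover p := ⟨true, mem_univ p⟩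
  g := fun _ => form CC
  X := fun _ _ => (1, 1, 0, 0)

lemma form_eq (x a b : R4) : form CC x a b =
    GG x * (c1 a * c1 b) + GG x * (c2 a * c2 b) - (cu a * cv b + cv a * cu b) := by
  simp only [form, ang, h1, h2, CC]
  ring

lemma GG_sw (b : Bool) (x : R4) : GG (sw b x) = GG x := by
  cases b
  · simp only [GG, Gf, sw]
    simp only [Bool.false_eq_true, if_false]
    ring
  · rfl

lemma form_sw (b : Bool) (x a a' : R4) : form CC (sw b x) (sw b a) (sw b a') =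
    form CC x a a' := by
  rw [form_eq, form_eq, GG_sw]
  cases b
  · simp only [sw, cu, cv, c1, c2]
    simp only [Bool.false_eq_true, if_false]
    ring
  · rfl

lemma GG_ge {x : R4} (_ : x ∈ D0) : 2 ≤ GG x :=
  (Gf_bd Prm.a0 Prm.a1 le_rfl zero_le_one x).1

lemma GG_le (x : R4) : GG x ≤ 22 :=
  (Gf_bd Prm.a0 Prm.a1 le_rfl zero_le_one x).2

lemma hh_smooth {s : ℝ} (hs : 0 < s) : ContDiffAt ℝ ∞ (hh Prm.a) s := by
  have h1 : ContDiffAt ℝ ∞ (fun s : ℝ => s ^ (1 - Prm.a)) s :=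
    Real.contDiffAt_rpow_const_of_ne hs.ne'
  have h2 : ContDiffAt ℝ ∞ (fun s : ℝ => Real.log (s ^ (1 - Prm.a))) s :=
    h1.log (Real.rpow_pos_of_pos hs _).ne'
  exact (contDiffAt_const.mul h1).sub (contDiffAt_const.mul (h1.mul h2))

lemma cl_eq {s : ℝ} (h0 : 0 < s) (h1 : s < 1) : cl 0 s = s := by
  rw [cl, min_eq_left h1.le, max_eq_right h0.le]

lemma GG_smooth : ContDiffOn ℝ ∞ GG D0 := by
  intro x hx
  apply ContDiffAt.contDiffWithinAt
  have hu : ContDiffAt ℝ ∞ (fun x : R4 => -cu x) x := by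
    unfold cu; fun_prop
  have hv : ContDiffAt ℝ ∞ (fun x : R4 => -cv x) x := by
    unfold cv; fun_prop
  have h1 := ContDiffAt.comp x (hh_smooth (s := -cu x) (by linarith only [hx.2.1])) hu
  have h2 := ContDiffAt.comp x (hh_smooth (s := -cv x) (by linarith only [hx.2.2.2])) hv
  have h3 : ContDiffAt ℝ ∞ (fun x : R4 => 22 - hh Prm.a (-cu x) - hh Prm.a (-cv x)) x :=
    (contDiffAt_const.sub h1).sub h2
  refine h3.congr_of_eventuallyEq ?_
  filter_upwards [isOpen_D0.mem_nhds hx] with y hy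
  show 22 - hh Prm.a (cl 0 (-y.1)) - hh Prm.a (cl 0 (-y.2.1)) = _
  rw [cl_eq (show 0 < -y.1 by have := hy.2.1; unfold cu at this; linarith)
    (show -y.1 < 1 by have := hy.1; unfold cu at this; linarith),
    cl_eq (show 0 < -y.2.1 by have := hy.2.2.2; unfold cv at this; linarith)
    (show -y.2.1 < 1 by have := hy.2.2.1; unfold cv at this; linarith)]
  rfl

lemma rep_eq {e e' : M0.Chart} {y : R4} (hy : y ∈ D0) :
    rep (M := M0) (N := M0) id e e' y = sw e' (sw e y) := by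
  show sw e' (mk (sw e y)).1 = sw e' (sw e y)
  rw [mk_val (sw_mem.2 hy)]

lemma dom_eq (e e' : M0.Chart) : dom (M := M0) (N := M0) id e e' = D0 := by
  ext y
  constructor
  · intro h; exact h.1
  · intro h; exact ⟨h, mem_univ _⟩

lemma push_eq {e e' : M0.Chart} {y : R4} (hy : y ∈ D0) (a : R4) :
    push (M := M0) (N := M0) id e e' y a = sw e' (sw e a) := by
  have h1 : HasFDerivAt (fun y => sw e' (sw e y)) ((swL e').comp (swL e)) y :=
    ((swL e').comp (swL e)).hasFDerivAt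
  have h2 : HasFDerivAt (rep (M := M0) (N := M0) id e e') ((swL e').comp (swL e)) y := by
    refine h1.congr_of_eventuallyEq ?_
    filter_upwards [isOpen_D0.mem_nhds hy] with z hz
    exact rep_eq hz
  exact (h2.hasLineDerivAt a).lineDeriv

lemma sw_X (e : Bool) : sw e (1, 1, 0, 0) = (1, 1, 0, 0) := by
  cases e <;> rfl

lemma form_XX (y : R4) : form CC y (1, 1, 0, 0) (1, 1, 0, 0) = -2 := by
  rw [form_eq]
  simp only [cu, cv, c1, c2]
  norm_num

lemma spacetime : IsSpacetime IsSmooth M0 where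
  tensor := by
    apply IsIsom.mk'
    intro e e'
    rw [dom_eq]
    refine ⟨?_, ?_⟩
    · have h1 : ContDiffOn ℝ ∞ (fun y => (swL e').comp (swL e) y) D0 :=
        ((swL e').comp (swL e)).contDiff.contDiffOn
      exact h1.congr (fun y hy => rep_eq hy)
    · intro y hy
      rw [rep_eq hy]
      refine ⟨fun a b => ?_, ?_⟩
      · rw [push_eq hy, push_eq hy]
        show form CC y a b = form CC (sw e' (sw e y)) (sw e' (sw e a)) (sw e' (sw e b))
        rw [form_sw, form_sw]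
      · rw [push_eq hy]
        show form CC (sw e' (sw e y)) (sw e' (sw e (1, 1, 0, 0))) (1, 1, 0, 0) < 0
        rw [sw_X, sw_X, form_XX]
        norm_num
  signature := by
    intro e y hy
    have hG : 2 ≤ GG y := GG_ge hy
    have hs : √(GG y) * √(GG y) = GG y := Real.mul_self_sqrt (by linarith only [hG])
    have hs0 : 0 < √(GG y) := Real.sqrt_pos.mpr (by linarith only [hG])
    refine ⟨fun a => (cu a + cv a / 2, cu a - cv a / 2, √(GG y) * c1 a, √(GG y) * c2 a),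
      ⟨?_, ?_⟩, ?_, ?_⟩
    · intro a b
      ext <;> simp only [cu, Prod.fst_add, cv, Prod.snd_add, c1, c2, Prod.mk_add_mk] <;> ring
    · intro t a
      ext <;> simp only [cu, Prod.smul_fst, smul_eq_mul, cv, Prod.smul_snd, c1, c2, Prod.smul_mk] <;> ring
    · intro a b hab
      simp only [Prod.mk.injEq, cu, cv, c1, c2] at hab
      obtain ⟨h1, h2, h3, h4⟩ := hab
      have k1 : a.1 = b.1 := by linarith only [h1, h2]
      have k2 : a.2.1 = b.2.1 := by linarith only [h1, h2]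
      have k3 : a.2.2.1 = b.2.2.1 := mul_left_cancel₀ hs0.ne' h3
      have k4 : a.2.2.2 = b.2.2.2 := mul_left_cancel₀ hs0.ne' h4
      ext <;> assumption
    · intro a b
      show form CC y a b = _
      rw [form_eq]
      simp only [mink, cu, cv, c1, c2]
      linear_combination (-(a.2.2.1 * b.2.2.1) - a.2.2.2 * b.2.2.2) * hs
  timelike := by
    intro e y hy
    show form CC y (1, 1, 0, 0) (1, 1, 0, 0) < 0
    rw [form_XX]; norm_num
  continuous := fun e => continuousOn_const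
  regular := by
    intro e a b
    show ContDiffOn ℝ ∞ (fun y => form CC y a b) D0
    have h1 : ContDiffOn ℝ ∞ (fun y => GG y * (c1 a * c1 b) + GG y * (c2 a * c2 b) -
        (cu a * cv b + cv a * cu b)) D0 :=
      ((GG_smooth.mul contDiffOn_const).add (GG_smooth.mul contDiffOn_const)).sub
        contDiffOn_const
    exact h1.congr (fun y _ => form_eq y a b)

end Vale.Agent.P354p.Ex
end
end

section

section

set_option linter.unusedSectionVars false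

open scoped ContDiff
open MeasureTheory Set Filter Topology

namespace Vale.Agent.P354p.Ex

variable [Prm]

/-- the weight -/
noncomputable def kk (v : ℝ) : ℝ := LLe Prm.a 0 v

lemma kk_nonneg (v : ℝ) : 0 ≤ kk v := LLe_nonneg le_rfl v

lemma kk_meas : Measurable kk := LLe_meas

lemma kk_eq {v : ℝ} (h1 : -1 < v) (h2 : v < 0) : kk v = ll Prm.a (-v) := by
  unfold kk LLe
  rw [if_pos ⟨h1, by linarith only [h2]⟩]

lemma kk_anti {s t : ℝ} (h1 : -1 < s) (h2 : s ≤ t) (h3 : t < 0) : kk s ≤ kk t := by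
  rw [kk_eq h1 (by linarith only [h2, h3]), kk_eq (by linarith only [h1, h2]) h3]
  exact ll_anti Prm.a0 (by linarith only [h3]) (by linarith only [h2]) (by linarith)

lemma kk_int {r : ℝ} (_ : 0 < r) : IntegrableOn kk (Ioo (-r) 0) := by
  have h1 := LLe_Lr le_rfl (by linarith only [Prm.a1] : Prm.a * 1 < 1) Prm.a0
  simp only [ENNReal.rpow_one] at h1
  have h2 : Integrable kk := ⟨kk_meas.aestronglyMeasurable, lt_top_iff_ne_top.2 h1⟩
  exact h2.integrableOn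

lemma kk_not {pp : ENNReal} (hp : 2 ≤ pp) (hpp : Prm.a = pp.toReal⁻¹) {b : ℝ} (hb : b < 0) :
    ¬ InLp pp kk b := by
  intro h
  set b' : ℝ := min (-b) 1 with hb'
  have hb'0 : 0 < b' := lt_min (by linarith only [hb]) one_pos
  have hb'1 : b' ≤ 1 := min_le_right _ _
  have hb'2 : b ≤ -b' := by
    have := min_le_left (-b) 1
    linarith only [this]
  by_cases ht : pp = ⊤
  · have ha : Prm.a = 0 := by rw [hpp, ht]; simp
    rw [InLp, ht, eLpNorm_exponent_top] at h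
    have hae := ae_le_eLpNormEssSup (f := kk) (μ := volume.restrict (Ioo b 0))
    set c := eLpNormEssSup kk (volume.restrict (Ioo b 0)) with hc
    obtain ⟨d, hd0, hdb, hd1, hd⟩ := ll_unbdd (c := c.toReal) hb'0
    have hpos : volume (Ioo (-d) 0) ≠ 0 := by
      rw [Real.volume_Ioo]
      simpa only [sub_neg_eq_add, zero_add, ne_eq, ENNReal.ofReal_eq_zero, not_le] using hd0
    apply hpos
    rw [ae_restrict_iff' measurableSet_Ioo] at hae
    refine measure_mono_null ?_ (ae_iff.1 hae)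
    intro v hv
    have h1 : -1 < v := by linarith only [hb'1, hdb, hv.1]
    simp only [mem_ofPred_eq]
    intro hcon
    have h2 := hcon ⟨by linarith only [hb'2, hdb, hv.1], hv.2⟩
    have h3 := hd (-v) (by linarith only [hv.2]) (by linarith only [hv.1])
    rw [← ha, ← kk_eq h1 hv.2] at h3
    rw [Real.enorm_eq_ofReal (kk_nonneg v), ENNReal.ofReal_le_iff_le_toReal h.ne] at h2
    linarith only [h2, h3]
  · have hr : 2 ≤ pp.toReal := by
      have := ENNReal.toReal_mono ht hp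
      simpa only [ge_iff_le, ENNReal.toReal_ofNat] using this
    have har : Prm.a * pp.toReal = 1 := by
      rw [hpp, inv_mul_cancel₀ (by linarith only [hr])]
    have h1 := (eLpNorm_lt_top_iff_lintegral_rpow_enorm_lt_top (by
      intro h0; rw [h0] at hp; norm_num at hp) ht).1 h
    have h2 := ll_top (a := Prm.a) (r := pp.toReal) (by linarith only [hr]) har hb'0 hb'1
    have hmp : MeasurePreserving (fun t : ℝ => -t) volume volume := Measure.measurePreserving_neg _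
    have h3 := hmp.setLIntegral_comp_preimage_emb (MeasurableEquiv.neg ℝ).measurableEmbedding
      (fun s => ‖ll Prm.a s‖ₑ ^ pp.toReal) (Ioo 0 b')
    have e2 : (fun t : ℝ => -t) ⁻¹' Ioo 0 b' = Ioo (-b') 0 := by
      ext t
      simp only [mem_preimage, mem_Ioo]
      constructor <;> (rintro ⟨h3, h4⟩; constructor <;> linarith only [h4, h3])
    rw [e2, h2] at h3
    have h4 : ∫⁻ v in Ioo (-b') 0, ‖ll Prm.a (-v)‖ₑ ^ pp.toReal ≤
        ∫⁻ v in Ioo b 0, ‖kk v‖ₑ ^ pp.toReal := by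
      refine le_trans (le_of_eq ?_) (lintegral_mono_set (Ioo_subset_Ioo_left hb'2))
      apply setLIntegral_congr_fun measurableSet_Ioo
      intro v hv
      show ‖ll Prm.a (-v)‖ₑ ^ pp.toReal = ‖kk v‖ₑ ^ pp.toReal
      rw [kk_eq (by linarith only [hb'1, hv.1]) hv.2]
    rw [h3] at h4
    exact absurd h1 (not_lt.2 h4)

lemma deriv_GG_dv {x : R4} (h : cv x ≠ -1) (h' : cv x ≠ 0) : deriv GG x dv = kk (cv x) := by
  have h1 : HasDerivAt (fun t : ℝ => GG (x + t • dv)) (kk (cv x)) 0 := by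
    have e : (fun t : ℝ => GG (x + t • dv)) = fun t =>
        (22 - hh Prm.a (cl 0 (-x.1))) - hh Prm.a (cl 0 (-(x.2.1 + t * 1))) := by
      funext t
      simp only [GG, Gf, dv, Prod.smul_mk, smul_eq_mul, mul_zero, mul_one, Prod.fst_add, add_zero, Prod.snd_add, neg_add_rev]
    rw [e]
    have h2 := (cl_deriv (a := Prm.a) Prm.a1 le_rfl zero_lt_one (c := 1) (t := x.2.1) h
      (by rw [neg_zero]; exact h')).const_sub (22 - hh Prm.a (cl 0 (-x.1)))
    rw [neg_neg, mul_one] at h2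
    exact h2
  exact HasLineDerivAt.lineDeriv h1

lemma deriv_GG_du {x : R4} (h : cu x ≠ -1) (h' : cu x ≠ 0) : deriv GG x du = kk (cu x) := by
  have h1 : HasDerivAt (fun t : ℝ => GG (x + t • du)) (kk (cu x)) 0 := by
    have e : (fun t : ℝ => GG (x + t • du)) = fun t =>
        22 - hh Prm.a (cl 0 (-(x.1 + t * 1))) - hh Prm.a (cl 0 (-x.2.1)) := by
      funext t
      simp only [GG, Gf, du, Prod.smul_mk, smul_eq_mul, mul_one, mul_zero, Prod.fst_add, neg_add_rev, Prod.snd_add, add_zero]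
    rw [e]
    have h2 := ((cl_deriv (a := Prm.a) Prm.a1 le_rfl zero_lt_one (c := 1) (t := x.1) h
      (by rw [neg_zero]; exact h')).const_sub 22).sub_const (hh Prm.a (cl 0 (-x.2.1)))
    rw [neg_neg, mul_one] at h2
    exact h2
  exact HasLineDerivAt.lineDeriv h1

lemma deriv_GG_sph (x : R4) {a : R4} (h1 : cu a = 0) (h2 : cv a = 0) : deriv GG x a = 0 := by
  have h3 : HasDerivAt (fun t : ℝ => GG (x + t • a)) 0 0 := by
    have e : (fun t : ℝ => GG (x + t • a)) = fun _ => GG x := by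
      funext t
      have e1 : (x + t • a).1 = x.1 := by
        have : (x + t • a).1 = x.1 + t * cu a := rfl
        rw [this, h1]; ring
      have e2 : (x + t • a).2.1 = x.2.1 := by
        have : (x + t • a).2.1 = x.2.1 + t * cv a := rfl
        rw [this, h2]; ring
      simp only [GG, Gf, e1, e2]
    rw [e]
    exact hasDerivAt_const _ _
  exact HasLineDerivAt.lineDeriv h3

/-- derivatives of the v derivative tangent to v = const -/
lemma deriv_GG_dv_tan {x : R4} (h : cv x ≠ -1) (h' : cv x ≠ 0) {a : R4} (h2 : cv a = 0) :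
    deriv (fun y => deriv GG y dv) x a = 0 := by
  have h3 : HasDerivAt (fun t : ℝ => deriv GG (x + t • a) dv) 0 0 := by
    have e : (fun t : ℝ => deriv GG (x + t • a) dv) = fun _ => kk (cv x) := by
      funext t
      have e2 : cv (x + t • a) = cv x := by
        have : cv (x + t • a) = cv x + t * cv a := rfl
        rw [this, h2]; ring
      rw [deriv_GG_dv (by rw [e2]; exact h) (by rw [e2]; exact h'), e2]
    rw [e]
    exact hasDerivAt_const _ _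
  exact HasLineDerivAt.lineDeriv h3

lemma deriv_const' (c : ℝ) (x a : R4) : deriv (fun _ => c) x a = 0 := by
  exact HasLineDerivAt.lineDeriv (hasDerivAt_const (0:ℝ) c)

lemma norm_R4_lt {x : R4} {r : ℝ} (h : ‖x‖ < r) : |cu x| < r ∧ |cv x| < r := by
  have h1 : ‖x‖ = max ‖x.1‖ ‖x.2‖ := rfl
  have h2 : ‖x.2‖ = max ‖x.2.1‖ ‖x.2.2‖ := rfl
  have h3 : ‖x.1‖ ≤ ‖x‖ := by rw [h1]; exact le_max_left _ _
  have h4 : ‖x.2.1‖ ≤ ‖x‖ := by
    rw [h1, h2]; exact (le_max_left _ _).trans (le_max_right _ _)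
  exact ⟨lt_of_le_of_lt h3 h, lt_of_le_of_lt h4 h⟩

end Vale.Agent.P354p.Ex
end
end
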