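import Mathlib
import Vale.Agent.P354.Bdl.B1
import Vale.Agent.P354.Bdl.B4
import Vale.Agent.P354.Bdl.B3
import Vale.Agent.P354.Bdl.B2
import Vale.Agent.P354n.Defs
import Vale.Agent.P354c.Defs
attribute [-instance] ProperSMul.toContinuousSMul IsTopologicalTorsor.toContinuousSMul IdemSemiring.toCanonicallyOrderedAdd IdemSemiring.toMulLeftMono IdemSemiring.toMulRightMono AddQuantale.instAddLeftMono AddQuantale.instAddRightMono Quantale.instMulLeftMono Quantale.instMulRightMono FiniteDimensional.rclike_to_real IsScalarTower.complexToReal FiniteDimensional.complexToReal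

set_option linter.all false

section

section

set_option maxSynthPendingDepth 3

open Set Filter Topology

namespace Vale.Agent.P354

namespace SHyp

variable {K : Coef} {G : P4 → P4 →L[ℝ] P4 →L[ℝ] ℝ} {Psi Phi : P4 → P4} {V : Set P4}
  {R0 ρ C : ℝ} {p0 : P4}

lemma image_ball (H : SHyp K G Psi Phi V R0 ρ C p0) (E : P4) (r : ℝ) :
    IsOpen (Psi '' (V ∩ Metric.ball E r)) := by
  have h1 : Psi '' (V ∩ Metric.ball E r) = Psi '' V ∩ Phi ⁻¹' Metric.ball E r := by
    ext y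
    constructor
    · rintro ⟨z, ⟨hz, hb⟩, rfl⟩
      exact ⟨⟨z, hz, rfl⟩, by rw [mem_preimage, H.inv z hz]; exact hb⟩
    · rintro ⟨hy, hb⟩
      obtain ⟨h1, h2⟩ := H.Phi_mem hy
      exact ⟨Phi y, ⟨h1, hb⟩, h2⟩
  rw [h1]
  exact H.phi.continuousOn.isOpen_inter_preimage H.opn Metric.isOpen_ball

/-- Lifting of timelike curves which start on the good vertical line. -/
lemma lift_gen (H : SHyp K G Psi Phi V R0 ρ C p0) {x : ℝ × ℝ × ℝ} {T Cx δ ω s η vs pu r1 : ℝ}
    (hω : 0 < ω) (hω1 : ω ≤ 1 / 100) (hcl : CloseTo G (T, x) δ ω) (hN : NearM (G (T, x)))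
    (hs : 0 < s) (hsδ : s < δ) (hCx : 1 ≤ Cx) (hη : 5 * C * η < ρ) (hηρ : η < ρ) (hvs : vs < 0)
    (hline : ∀ t ∈ Icc (T - s) (T - s / 2), ((t, x) : P4) ∈ V ∧ ‖Psi (t, x) - p0‖ ≤ η)
    (hua : pu - Cx * s ≤ (Psi (T - s, x)).2.2.1) (hva : -(Cx * s) ≤ (Psi (T - s, x)).2.1)
    (hωs : 64 * ω * (2 * δ) ≤ s) (hr1 : r1 < δ) (hr1s : 289 * C ^ 2 * Cx ^ 2 * s < r1)
    (hsr : s ≤ r1) (hR : Metric.closedBall ((T, x) : P4) r1 ⊆ Metric.ball 0 R0)
    {c c' : ℝ → P4} (hc0 : c 0 = Psi (T - s / 2, x))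
    (hc : ∀ τ ∈ Icc (0:ℝ) 1, HasDerivAt c (c' τ) τ)
    (hK : ∀ τ ∈ Icc (0:ℝ) 1, c τ ∈ KB p0 η vs)
    (hT : ∀ τ ∈ Icc (0:ℝ) 1, K.gF (c τ) (c' τ) (c' τ) < 0)
    (hv : ∀ τ ∈ Icc (0:ℝ) 1, 0 < (c' τ).2.1)
    (hu : ∀ τ ∈ Icc (0:ℝ) 1, (c τ).2.2.1 ≤ pu + Cx * s) :
    c 1 ∈ Psi '' V ∧ (0 < (Phi (c 1) - (T - s, x)).1 ∧ ∀ z, ‖z - (T, x)‖ < δ →
        G z (Phi (c 1) - (T - s, x)) (Phi (c 1) - (T - s, x)) < 0) ∧
      InV V (T - s, x) (Phi (c 1)) ∧
      ‖Phi (c 1) - (T, x)‖ ≤ 289 * C ^ 2 * Cx ^ 2 * s := by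
  set E : P4 := (T, x) with hEdef
  obtain ⟨F, hF, hVF⟩ := H.cl _ (KB_compact p0 η vs) (KB_sub hηρ hvs)
  set Q : Set P4 := Psi '' (V ∩ Psi ⁻¹' KB p0 η vs ∩ Metric.closedBall E r1) with hQ
  have hcomp : IsCompact (V ∩ Psi ⁻¹' KB p0 η vs ∩ Metric.closedBall E r1) := by
    have h1 : V ∩ Psi ⁻¹' KB p0 η vs ∩ Metric.closedBall E r1 = F ∩ Metric.closedBall E r1 := by
      rw [hVF]
      ext z
      constructor
      · rintro ⟨⟨_, h⟩, h'⟩; exact ⟨h, h'⟩
      · rintro ⟨h, h'⟩; exact ⟨⟨hR h', h⟩, h'⟩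
    rw [h1]
    exact (isCompact_closedBall E r1).inter_left hF
  have hQc : IsCompact Q :=
    hcomp.image_of_continuousOn (H.iso.smooth.continuousOn.mono fun z hz => hz.1.1)
  have hQb : ∀ y, y ∈ Psi '' (V ∩ Metric.ball E r1) → y ∈ KB p0 η vs → y ∈ Q := by
    rintro y ⟨z, ⟨hz, hb⟩, rfl⟩ hy
    exact ⟨z, ⟨⟨hz, hy⟩, Metric.ball_subset_closedBall hb⟩, rfl⟩
  have hQV : ∀ y, y ∈ Q → y ∈ Psi '' V ∧ ‖Phi y - E‖ ≤ r1 := by
    rintro y ⟨z, ⟨⟨hz, _⟩, hb⟩, rfl⟩
    refine ⟨⟨z, hz, rfl⟩, ?_⟩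
    rw [H.inv z hz]
    rwa [mem_closedBall_iff_norm] at hb
  have hcn : ContinuousOn c (Icc 0 1) := fun τ hτ => (hc τ hτ).continuousAt.continuousWithinAt
  have hproj : Continuous (fun l : ℝ => ((projIcc (0:ℝ) 1 zero_le_one l : Icc (0:ℝ) 1) : ℝ)) :=
    continuous_subtype_val.comp continuous_projIcc
  set ct : ℝ → P4 := fun l => c (projIcc (0:ℝ) 1 zero_le_one l) with hct
  have hcb : Continuous ct :=
    hcn.comp_continuous hproj (fun l => (projIcc (0:ℝ) 1 zero_le_one l).2)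
  have hpr : ∀ l ∈ Icc (0:ℝ) 1, ct l = c l := by
    intro l hl
    show c (projIcc (0:ℝ) 1 zero_le_one l) = c l
    rw [projIcc_of_mem _ hl]
  have hmul : ∀ l ∈ Icc (0:ℝ) 1, ∀ τ ∈ Icc (0:ℝ) 1, l * τ ∈ Icc (0:ℝ) 1 := by
    intro l hl τ hτ
    refine ⟨mul_nonneg hl.1 hτ.1, ?_⟩
    calc l * τ ≤ 1 * 1 := mul_le_mul hl.2 hτ.2 hτ.1 zero_le_one
      _ = 1 := one_mul 1
  have ha' : ((T - s / 2, x) : P4) - E = (-(s / 2)) • Tv := by
    rw [hEdef]
    ext <;> simp only [Prod.mk_sub_mk, sub_sub_cancel_left, sub_self, Tv, neg_smul, Prod.smul_mk, smul_eq_mul, mul_one, mul_zero, Prod.neg_mk, neg_zero, Prod.fst_zero, Prod.snd_zero]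
  have ha'En : ‖((T - s / 2, x) : P4) - E‖ = s / 2 := by
    rw [ha', norm_smul, norm_Tv, mul_one, Real.norm_eq_abs, abs_neg, abs_of_pos (by linarith only [hs])]
  have ha'V : ((T - s / 2, x) : P4) ∈ V := (hline _ ⟨by linarith only [hs], le_rfl⟩).1
  have hc0Q : c 0 ∈ Psi '' (V ∩ Metric.ball E r1) := by
    refine ⟨(T - s / 2, x), ⟨ha'V, ?_⟩, hc0.symm⟩
    rw [mem_ball_iff_norm, ha'En]
    linarith only [hs, hsr]
  -- the conclusion of the lateral bound
  have step : ∀ τ ∈ Ioc (0:ℝ) 1, (∀ l ∈ Icc (0:ℝ) 1, ct (l * τ) ∈ Q) →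
      ∀ l ∈ Icc (0:ℝ) 1, (0 < (Phi (c (l * τ)) - (T - s, x)).1 ∧ ∀ z, ‖z - E‖ < δ →
        G z (Phi (c (l * τ)) - (T - s, x)) (Phi (c (l * τ)) - (T - s, x)) < 0) ∧
        InV V (T - s, x) (Phi (c (l * τ))) ∧
        ‖Phi (c (l * τ)) - E‖ ≤ 289 * C ^ 2 * Cx ^ 2 * s := by
    intro τ hτ hS
    have hτ' : τ ∈ Icc (0:ℝ) 1 := ⟨hτ.1.le, hτ.2⟩
    have hmQ : ∀ l ∈ Icc (0:ℝ) 1, c (l * τ) ∈ Q := by
      intro l hl
      have := hS l hl
      rwa [hpr _ (hmul l hl τ hτ')] at this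
    have hd : ∀ l ∈ Icc (0:ℝ) 1, HasDerivAt (fun l => c (l * τ)) (τ • c' (l * τ)) l := by
      intro l hl
      have h1 : HasDerivAt (fun l : ℝ => l * τ) τ l := by
        simpa using (hasDerivAt_id l).mul_const τ
      exact (hc _ (hmul l hl τ hτ')).scomp l h1
    have hlift := fun l (hl : l ∈ Icc (0:ℝ) 1) =>
      H.lift_deriv (ν := fun l => c (l * τ)) (hd l hl) (hQV _ (hmQ l hl)).1
    have hneg : ∀ l ∈ Icc (0:ℝ) 1,
        K.gF (c (l * τ)) (τ • c' (l * τ)) (τ • c' (l * τ)) < 0 := by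
      intro l hl
      have h1 := hT _ (hmul l hl τ hτ')
      have h2 : K.gF (c (l * τ)) (τ • c' (l * τ)) (τ • c' (l * τ)) =
          τ ^ 2 * K.gF (c (l * τ)) (c' (l * τ)) (c' (l * τ)) := by
        simp only [Coef.gF, Coef.h1, Coef.h2, Prod.smul_fst, Prod.smul_snd, smul_eq_mul]
        ring
      rw [h2]
      have h3 : 0 < τ ^ 2 := pow_pos hτ.1 2
      nlinarith only [h1, h3]
    have hvp : ∀ l ∈ Icc (0:ℝ) 1, 0 < (τ • c' (l * τ)).2.1 := by
      intro l hl
      have : (τ • c' (l * τ)).2.1 = τ * (c' (l * τ)).2.1 := rfl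
      rw [this]
      exact mul_pos hτ.1 (hv _ (hmul l hl τ hτ'))
    have hvel := fun l (hl : l ∈ Icc (0:ℝ) 1) =>
      H.lift_vel (hQV _ (hmQ l hl)).1 (hneg l hl) (hvp l hl) (hlift l hl).2
    refine H.lateral (ν := fun l => Phi (c (l * τ)))
      (ν' := fun l => fderiv ℝ Phi (c (l * τ)) (τ • c' (l * τ))) hω hω1 hcl hN hs hsδ hCx hη hvs
      hline hua hva ?_ (fun l hl => (hlift l hl).1) ?_ ?_ ?_ (fun l hl => (hvel l hl).1) ?_ hωs
    · show Phi (c (0 * τ)) = _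
      rw [zero_mul, hc0, H.inv _ ha'V]
    · intro l hl
      exact (H.Phi_mem (hQV _ (hmQ l hl)).1).1
    · intro l hl
      exact (hQV _ (hmQ l hl)).2.trans_lt hr1
    · intro l hl
      obtain ⟨h1, h2⟩ := H.Phi_mem (hQV _ (hmQ l hl)).1
      show G (Phi (c (l * τ))) _ _ < 0
      rw [H.iso.iso _ h1, h2, (hlift l hl).2]
      exact hneg l hl
    · intro l hl
      obtain ⟨h1, h2⟩ := H.Phi_mem (hQV _ (hmQ l hl)).1
      have h3 := hK _ (hmul l hl τ hτ')
      show ‖Psi (Phi (c (l * τ))) - p0‖ ≤ η ∧ (Psi (Phi (c (l * τ)))).2.1 ≤ vs ∧ _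
      rw [h2]
      exact ⟨h3.1, h3.2, hu _ (hmul l hl τ hτ')⟩
  set S : Set ℝ := {τ | ∀ l ∈ Icc (0:ℝ) 1, ct (l * τ) ∈ Q} with hS
  have hclosed : IsClosed (S ∩ Icc 0 1) := by
    have : S = ⋂ l ∈ Icc (0:ℝ) 1, (fun τ => ct (l * τ)) ⁻¹' Q := by
      ext τ; simp only [hS, mem_Icc, and_imp, mem_ofPred_eq, mem_iInter, mem_preimage]
    rw [this]
    refine IsClosed.inter (isClosed_biInter fun l _ => ?_) isClosed_Icc
    exact hQc.isClosed.preimage (hcb.comp (continuous_const.mul continuous_id))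
  have key : Icc (0:ℝ) 1 ⊆ S := by
    refine hclosed.Icc_subset_of_forall_mem_nhdsWithin ?_ ?_
    · intro l hl
      rw [mul_zero, hpr 0 ⟨le_rfl, zero_le_one⟩]
      exact hQb _ hc0Q (hK 0 ⟨le_rfl, zero_le_one⟩)
    · rintro τ ⟨hτS, hτ⟩
      refine mem_nhdsWithin_of_mem_nhds ?_
      have hmem : ∀ l ∈ Icc (0:ℝ) 1, ct (l * τ) ∈ Psi '' (V ∩ Metric.ball E r1) := by
        intro l hl
        rcases eq_or_lt_of_le hτ.1 with h0 | h0
        · rw [← h0, mul_zero, hpr 0 ⟨le_rfl, zero_le_one⟩]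
          exact hc0Q
        · have h1 := (step τ ⟨h0, hτ.2.le⟩ hτS l hl).2.2
          have h2 := hτS l hl
          have h3 : l * τ ∈ Icc (0:ℝ) 1 := hmul l hl τ ⟨h0.le, hτ.2.le⟩
          rw [hpr _ h3] at h2 ⊢
          obtain ⟨h4, h5⟩ := H.Phi_mem (hQV _ h2).1
          refine ⟨Phi (c (l * τ)), ⟨h4, ?_⟩, h5⟩
          rw [mem_ball_iff_norm]
          linarith only [hr1s, h1]
      have hev := isCompact_Icc.eventually_forall_of_forall_eventually (x₀ := τ)
        (K := Icc (0:ℝ) 1) (P := fun τ l => ct (l * τ) ∈ Psi '' (V ∩ Metric.ball E r1)) (by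
          intro l hl
          have hcc : Continuous (fun p : ℝ × ℝ => ct (p.2 * p.1)) :=
            hcb.comp (continuous_snd.mul continuous_fst)
          exact hcc.continuousAt.eventually ((H.image_ball E r1).mem_nhds (hmem l hl)))
      filter_upwards [hev] with τ' h l hl
      refine hQb _ (h l hl) ?_
      exact hK _ (projIcc (0:ℝ) 1 zero_le_one (l * τ')).2
  have hS1 : (1:ℝ) ∈ S := key ⟨zero_le_one, le_rfl⟩
  have hfin := step 1 ⟨zero_lt_one, le_rfl⟩ hS1 1 ⟨zero_le_one, le_rfl⟩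
  have h2 := hS1 1 ⟨zero_le_one, le_rfl⟩
  simp only [mul_one] at hfin h2
  rw [hpr _ ⟨zero_le_one, le_rfl⟩] at h2
  exact ⟨(hQV _ h2).1, hfin⟩

end SHyp

end Vale.Agent.P354
end
end

section

section

set_option maxSynthPendingDepth 3

open Set MeasureTheory Filter Topology

namespace Vale.Agent.P354z

open Vale.Agent.P354w Vale.Agent.P354x PreHyp CoreHyp

variable {K : Coef} {G : P4 → P4 →L[ℝ] P4 →L[ℝ] ℝ} {Psi : P4 → P4} {V U : Set P4}
    {C R : ℝ} {cv cw cu : ℝ → ℝ} {t0 r : ℝ} {f : P3 → ℝ}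

end Vale.Agent.P354z
end
end

section

section

set_option maxSynthPendingDepth 3

open Set MeasureTheory Filter Topology

namespace Vale.Agent.P354a

open Vale.Agent.P354w Vale.Agent.P354x Vale.Agent.P354z PreHyp CoreHyp

variable {K : Coef} {G : P4 → P4 →L[ℝ] P4 →L[ℝ] ℝ} {Psi : P4 → P4} {V U : Set P4}
    {C R : ℝ} {cv cw cu : ℝ → ℝ} {t0 r : ℝ} {f : P3 → ℝ}

/-- the quotient of `xi` and the `v` component of the velocity -/
noncomputable def Fq (K : Coef) (Psi : P4 → P4) (z : P4) : ℝ :=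
  K.gF (Psi z) (fderiv ℝ Psi z e1) e1 / (fderiv ℝ Psi z e1).2.1

lemma contDiffAt_Fq (h : PreHyp K G Psi V U C R cv cw cu t0 r f) {z : P4} (hz : z ∈ V) :
    ContDiffAt ℝ 1 (Fq K Psi) z := by
  have hP := h.contDiffAt_P hz e1
  have p2 : ContDiffAt ℝ 1 (fun z => (fderiv ℝ Psi z e1).2.1) z :=
    contDiffAt_fst.comp z (contDiffAt_snd.comp z hP)
  exact (h.contDiffAt_gF hz e1 e1).div p2 (h.pos z hz).ne'

lemma fderiv_Fq (h : PreHyp K G Psi V U C R cv cw cu t0 r f) {z : P4} (hz : z ∈ V)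
    {Z : P4} (hZ : fderiv ℝ Psi z Z = e1) :
    fderiv ℝ (Fq K Psi) z Z =
      ((K.dgF (Psi z) e1 (fderiv ℝ Psi z e1) e1 + K.gF (Psi z) (Sd Psi z Z e1) e1) *
          (fderiv ℝ Psi z e1).2.1 -
        K.gF (Psi z) (fderiv ℝ Psi z e1) e1 * (Sd Psi z Z e1).2.1) /
        (fderiv ℝ Psi z e1).2.1 ^ 2 := by
  have hl : HasDerivAt (fun τ : ℝ => z + τ • Z) Z 0 := by
    simpa using ((hasDerivAt_id (0:ℝ)).smul_const Z).const_add z
  have hz0 : z + (0:ℝ) • Z = z := by simp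
  have hT : HasDerivAt (fun τ : ℝ => Fq K Psi (z + τ • Z)) (fderiv ℝ (Fq K Psi) z Z) 0 := by
    have h1 : HasFDerivAt (Fq K Psi) (fderiv ℝ (Fq K Psi) z) (z + (0:ℝ) • Z) := by
      rw [hz0]; exact ((contDiffAt_Fq h hz).differentiableAt (by norm_num)).hasFDerivAt
    exact h1.comp_hasDerivAt (0:ℝ) hl
  have hX : HasDerivAt (fun τ : ℝ => Psi (z + τ • Z)) (fderiv ℝ Psi z Z) 0 := by
    have h1 : HasFDerivAt Psi (fderiv ℝ Psi z) (z + (0:ℝ) • Z) := by
      rw [hz0]; exact h.iso.hasFDerivAt hz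
    exact h1.comp_hasDerivAt (0:ℝ) hl
  have hD : HasDerivAt (fun τ : ℝ => fderiv ℝ Psi (z + τ • Z)) (fderiv ℝ (fderiv ℝ Psi) z Z) 0 := by
    have h1 : HasFDerivAt (fderiv ℝ Psi) (fderiv ℝ (fderiv ℝ Psi) z) (z + (0:ℝ) • Z) := by
      rw [hz0]; exact h.iso.hasFDerivAt_fderiv hz
    exact h1.comp_hasDerivAt (0:ℝ) hl
  have hA : HasDerivAt (fun τ : ℝ => fderiv ℝ Psi (z + τ • Z) e1) (Sd Psi z Z e1) 0 := by
    have := hD.clm_apply (hasDerivAt_const (0:ℝ) e1)
    simpa [Sd] using this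
  have hK0 : K.DiffAt (Psi (z + (0:ℝ) • Z)) := by rw [hz0]; exact h.iso.diffK z hz
  have hG := Coef.hasDerivAt_gF K (X := fun τ : ℝ => Psi (z + τ • Z))
    (A := fun τ : ℝ => fderiv ℝ Psi (z + τ • Z) e1) (B := fun _ : ℝ => e1)
    hK0 hX hA (hasDerivAt_const _ _)
  have hb : HasDerivAt (fun τ : ℝ => (fderiv ℝ Psi (z + τ • Z) e1).2.1)
      (Sd Psi z Z e1).2.1 0 := hA.snd.fst
  have hne : (fderiv ℝ Psi (z + (0:ℝ) • Z) e1).2.1 ≠ 0 := by rw [hz0]; exact (h.pos z hz).ne'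
  have hR := hG.div hb hne
  have := hT.unique hR
  rw [this]
  have hgF0 : K.gF (Psi z) (fderiv ℝ Psi z e1) 0 = 0 := by
    simp only [Coef.gF, Prod.snd_zero, Prod.fst_zero, mul_zero, add_zero, Coef.h1, sub_self, Coef.h2]
  simp only [hz0, hZ, hgF0, add_zero]

/-- the pointwise estimate where the frame components are bounded -/
lemma pointwise_Fq (h : PreHyp K G Psi V U C R cv cw cu t0 r f) (hC : 1 ≤ C)
    (hcu : ∀ u, cu u ≤ C) {L κ : ℝ}
    (hL0 : 0 ≤ L) (hκ : 1 ≤ κ) : ∃ D : ℝ, 0 ≤ D ∧ ∀ z ∈ V, ‖fderiv ℝ G z‖ ≤ L → QQ Psi z ≤ κ →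
      |Fq K Psi z| ≤ D ∧
      ∀ Z, fderiv ℝ Psi z Z = e1 → |fderiv ℝ (Fq K Psi) z Z + (1/2) * dg K (Psi z)| ≤ D := by
  have hC0 : 0 < C := by linarith only [hC]
  have hκ0 : 0 < κ := by linarith only [hκ]
  set M : ℝ := 9 * C ^ 3 * κ with hM
  set β : ℝ := 2 * C ^ 2 * κ with hβ
  set D1 : ℝ := 10 * C ^ 2 * (L * M ^ 2 + C * κ + κ) with hD1
  set D2 : ℝ := 10 * C ^ 4 * (L * M * κ + C * κ + κ) with hD2
  have hM0 : 0 ≤ M := by positivity
  have hβ0 : 0 ≤ β := by positivity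
  have hD10 : 0 ≤ D1 := by (clear * - hC hL0 hκ; positivity)
  have hD20 : 0 ≤ D2 := by (clear * - hC hL0 hκ; positivity)
  refine ⟨M * β + D1 * β + M * D2 * β ^ 2, by (clear * - hC hκ hL0; positivity), fun z hz hGL hQ => ?_⟩
  have hp := h.pt hz
  have hbp : 0 < (fderiv ℝ Psi z e1).2.1 := hp.pos
  have hap : 0 < (fderiv ℝ Psi z e1).2.2.1 := hp.sq_le.2.1
  have hab := hp.sq_le.2.2
  simp only [PtHyp.PP] at hab
  unfold QQ at hQ
  have hxi : K.gF (Psi z) (fderiv ℝ Psi z e1) e1 = PtHyp.xi K Psi z := by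
    rw [K.gF_symm, gF_e1]
  have hX : |K.gF (Psi z) (fderiv ℝ Psi z e1) e1|
      ≤ C * (|K.h1 (Psi z) (fderiv ℝ Psi z e1)| + |K.h2 (Psi z) (fderiv ℝ Psi z e1)|) := by
    rw [hxi]
    have t1 := aux_mul2 hp.bd.g11 (le_refl |K.h1 (Psi z) (fderiv ℝ Psi z e1)|)
    have t2 := aux_mul2 hp.bd.g12 (le_refl |K.h2 (Psi z) (fderiv ℝ Psi z e1)|)
    refine (abs_add_le _ _).trans ?_
    rw [mul_add]
    exact add_le_add t1 t2
  have hXM : |K.gF (Psi z) (fderiv ℝ Psi z e1) e1| ≤ M := by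
    have hZsq := hp.sq_norm_Z (h.Zf_spec hz)
    rw [← hxi] at hZsq
    exact (pe_bounds hC hκ hap hbp (by linarith only [hQ, hbp, hap]) (by linarith only [hQ, hbp, hap]) (by (clear * -; positivity)) (pe_y hp.sq_le.1)
      hX (norm_nonneg _) hZsq).2.2.2.1
  -- the lower bound of the v component
  have hinv : 1 / (fderiv ℝ Psi z e1).2.1 ≤ β := by
    rw [div_le_iff₀ hbp, hβ]
    calc 1 ≤ 2 * C ^ 2 * ((fderiv ℝ Psi z e1).2.2.1 * (fderiv ℝ Psi z e1).2.1) := hab
      _ ≤ 2 * C ^ 2 * (κ * (fderiv ℝ Psi z e1).2.1) := by gcongr; linarith only [hQ, hbp]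
      _ = _ := by ring
  have hinv0 : 0 ≤ 1 / (fderiv ℝ Psi z e1).2.1 := by (clear * - hbp; positivity)
  constructor
  · rw [Fq, div_eq_mul_one_div, abs_mul, abs_of_nonneg hinv0]
    have : |K.gF (Psi z) (fderiv ℝ Psi z e1) e1| * (1 / (fderiv ℝ Psi z e1).2.1) ≤ M * β := by
      (clear * - hXM hinv hbp hC hκ; gcongr)
    have k1 : 0 ≤ D1 * β := by (clear * - hC hL0 hκ; positivity)
    have k2 : 0 ≤ M * D2 * β ^ 2 := by (clear * - hC hκ hL0; positivity)
    linarith only [this, k1, k2]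
  intro Z hZ
  have hZsq := hp.sq_norm_Z hZ
  rw [← hxi] at hZsq
  have hZM : ‖Z‖ ≤ M := (pe_bounds hC hκ hap hbp (by linarith only [hQ, hbp, hap]) (by linarith only [hQ, hbp, hap]) (by (clear * -; positivity))
    (pe_y hp.sq_le.1) hX (norm_nonneg _) hZsq).2.2.2.2
  obtain ⟨Nu, hNu⟩ := h.exists_pre hz (e3 K (Psi z))
  have hS := hp.Sv_Z hNu hZ
  have hA := hp.xi_Z hZ
  simp only [PtHyp.PP] at hS hA
  rw [fderiv_Fq h hz hZ]
  have hcu0 := hp.bd.cu0
  have hcuC := hcu (Psi z).2.2.1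
  have hZ0 := norm_nonneg Z
  have hG0 := norm_nonneg (fderiv ℝ G z)
  generalize K.dgF (Psi z) e1 (fderiv ℝ Psi z e1) e1 + K.gF (Psi z) (Sd Psi z Z e1) e1 = A at *
  generalize K.gF (Psi z) (fderiv ℝ Psi z e1) e1 = X at *
  generalize (Sd Psi z Z e1).2.1 = S at *
  have hA' : |A + 1 / 2 * (fderiv ℝ Psi z e1).2.1 * dg K (Psi z)| ≤ D1 := by
    refine hA.trans ?_
    rw [hD1]
    have e1' : ‖fderiv ℝ G z‖ * ‖Z‖ ^ 2 ≤ L * M ^ 2 := by (clear * - hGL hZM hL0; gcongr)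
    have e2' : cu (Psi z).2.2.1 * (fderiv ℝ Psi z e1).2.2.1 ≤ C * κ := by
      gcongr
      linarith only [hQ, hbp]
    gcongr 10 * C ^ 2 * ?_
    linarith only [hQ, e1', e2']
  have hS' : |S| ≤ D2 := by
    refine hS.trans ?_
    rw [hD2]
    have e1' : ‖fderiv ℝ G z‖ * ‖Z‖ * (fderiv ℝ Psi z e1).2.1 ≤ L * M * κ := by
      gcongr
      linarith only [hQ, hap]
    have e2' : cu (Psi z).2.2.1 * ((fderiv ℝ Psi z e1).2.2.1 + (fderiv ℝ Psi z e1).2.1) ≤
        C * κ := by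
      (clear * - hcuC hQ hap hbp hC; gcongr)
    gcongr 10 * C ^ 4 * ?_
    linarith only [hQ, e1', e2']
  have e : (A * (fderiv ℝ Psi z e1).2.1 - X * S) / (fderiv ℝ Psi z e1).2.1 ^ 2 +
      1 / 2 * dg K (Psi z) = (A + 1 / 2 * (fderiv ℝ Psi z e1).2.1 * dg K (Psi z)) *
        (1 / (fderiv ℝ Psi z e1).2.1) - X * S * (1 / (fderiv ℝ Psi z e1).2.1) ^ 2 := by
    field_simp
    ring
  rw [e]
  generalize 1 / (fderiv ℝ Psi z e1).2.1 = q at *
  refine (abs_sub _ _).trans ?_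
  rw [abs_mul, abs_mul, abs_mul, abs_of_nonneg hinv0, abs_of_nonneg (pow_nonneg hinv0 2)]
  have k1 : |A + 1 / 2 * (fderiv ℝ Psi z e1).2.1 * dg K (Psi z)| * q ≤ D1 * β := by (clear * - hA' hinv hinv0 hC hL0 hκ; gcongr)
  have k2 : |X| * |S| * q ^ 2 ≤ M * D2 * β ^ 2 := by (clear * - hXM hS' hC hκ hinv0 hinv hL0; gcongr)
  have k3 : 0 ≤ M * β := by positivity
  linarith only [k1, k2, k3]

/-- the function on the slice is differentiable with the expected derivative -/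
lemma slice_diff (h : PreHyp K G Psi V U C R cv cw cu t0 r f) {v : ℝ} {y : P3} {z : P4}
    (hz : z ∈ V) (hzy : Psi z = ins v y) :
    ContDiffAt ℝ 1 (fun y => Fq K Psi (Phi Psi V (ins v y))) y ∧
    fderiv ℝ (fun y => Fq K Psi (Phi Psi V (ins v y))) y (1, 0, 0) =
      fderiv ℝ (Fq K Psi) z (Zf Psi V z) := by
  have hP : Phi Psi V (ins v y) = z := by rw [← hzy]; exact h.Phi_left hz
  have c1 : ContDiffAt ℝ 1 (Phi Psi V) (ins v y) := by rw [← hzy]; exact h.contDiffAt_Phi hz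
  have c2 : ContDiffAt ℝ 1 (Fq K Psi) (Phi Psi V (ins v y)) := by rw [hP]; exact contDiffAt_Fq h hz
  have c3 : ContDiffAt ℝ 1 (fun y : P3 => ins v y) y := (contDiff_insv v).contDiffAt
  have c4 : ContDiffAt ℝ 1 (fun y : P3 => Phi Psi V (ins v y)) y := c1.comp y c3
  refine ⟨ContDiffAt.comp (g := Fq K Psi) (f := fun y : P3 => Phi Psi V (ins v y)) y c2 c4, ?_⟩
  obtain ⟨L, hL, hL1⟩ := hasFDerivAt_insv v y
  have d1 : HasFDerivAt (Phi Psi V) (fderiv ℝ (Phi Psi V) (Psi z)) (ins v y) := by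
    rw [hzy]; exact (c1.differentiableAt (by norm_num)).hasFDerivAt
  have d2 : HasFDerivAt (Fq K Psi) (fderiv ℝ (Fq K Psi) z) (Phi Psi V (ins v y)) := by
    rw [hP]; exact ((contDiffAt_Fq h hz).differentiableAt (by norm_num)).hasFDerivAt
  have d3 := d2.comp y (d1.comp y hL)
  have d4 : fderiv ℝ (fun y => Fq K Psi (Phi Psi V (ins v y))) y =
      (fderiv ℝ (Fq K Psi) z).comp ((fderiv ℝ (Phi Psi V) (Psi z)).comp L) := d3.fderiv
  rw [d4, ContinuousLinearMap.comp_apply, ContinuousLinearMap.comp_apply, hL1]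
  rfl

end Vale.Agent.P354a
end
end

section

section

set_option maxSynthPendingDepth 3

open Set MeasureTheory Filter Topology

namespace Vale.Agent.P354a

open Vale.Agent.P354w Vale.Agent.P354x Vale.Agent.P354z PreHyp CoreHyp

variable {K : Coef} {G : P4 → P4 →L[ℝ] P4 →L[ℝ] ℝ} {Psi : P4 → P4} {V U : Set P4}
    {C R : ℝ} {cv cw cu : ℝ → ℝ} {t0 r : ℝ} {f : P3 → ℝ}

lemma contDiff_tsupport {g : P3 → ℝ} (hg : ∀ y ∈ tsupport g, ContDiffAt ℝ 1 g y) :
    ContDiff ℝ 1 g := by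
  rw [contDiff_iff_contDiffAt]
  intro y
  by_cases hy : y ∈ tsupport g
  · exact hg y hy
  · have h1 : g =ᶠ[𝓝 y] fun _ => (0:ℝ) := notMem_tsupport_iff_eventuallyEq.mp hy
    exact contDiffAt_const.congr_of_eventuallyEq h1

/-- the integral of a derivative of a function with compact support -/
lemma integral_fderiv_zero {g : P3 → ℝ} (hg : ContDiff ℝ 1 g) (hgc : HasCompactSupport g) (e : P3) :
    Integrable (fun y => fderiv ℝ g y e) ∧ ∫ y, fderiv ℝ g y e = 0 := by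
  have := haarP3
  have c1 : Continuous (fun y => fderiv ℝ g y e) :=
    (hg.continuous_fderiv (by norm_num)).clm_apply continuous_const
  have i1 : Integrable (fun y => fderiv ℝ g y e) := by
    refine c1.integrable_of_hasCompactSupport ?_
    exact (hgc.fderiv (𝕜 := ℝ)).comp_left (g := fun L : P3 →L[ℝ] ℝ => L e) (by simp)
  have i2 : Integrable g := hg.continuous.integrable_of_hasCompactSupport hgc
  have h1 := integral_mul_fderiv_eq_neg_fderiv_mul_of_integrable (μ := (volume : Measure P3))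
    (f := fun _ => (1:ℝ)) (g := g) (v := e) (by simp only [fderiv_fun_const, Pi.zero_apply, zero_apply, zero_mul, integrable_fun_zero]) (by simpa only [one_mul] using i1) (by simpa only [one_mul] using i2)
    (fun x _ => by fun_prop) (fun x _ => (hg.differentiable (by norm_num)) x)
  refine ⟨i1, ?_⟩
  simpa only [one_mul, fderiv_fun_const, Pi.zero_apply, zero_apply, zero_mul, integral_zero, neg_zero] using h1

/-- **The averages of the `v` derivative are bounded**, first direction. -/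
theorem avg1 (h : PreHyp K G Psi V U C R cv cw cu t0 r f) (hcu : ∀ u, cu u ≤ C) {L κ : ℝ}
    (hL : ∀ z ∈ DD t0 r f, ‖fderiv ℝ G z‖ ≤ L) (hκ : 1 ≤ κ) {O : Set P3} (hO : IsOpen O) {v0 : ℝ}
    (hin : ∀ y ∈ O, ∀ v ∈ Ico v0 0, ∃ z ∈ DD t0 r f, Psi z = ins v y ∧ QQ Psi z ≤ κ)
    {φ : P3 → ℝ} (hφ : ContDiff ℝ 1 φ) (hφc : HasCompactSupport φ) (hφO : tsupport φ ⊆ O) :
    ∃ B : ℝ, ∀ v ∈ Ico v0 0, Integrable (fun y => φ y * dg K (ins v y)) ∧
      |∫ y, φ y * dg K (ins v y)| ≤ B := by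
  have := haarP3
  have hC : 1 ≤ C := one_le_C h
  obtain ⟨D, hD0, hD⟩ := pointwise_Fq h hC hcu (L := |L|) (κ := κ) (abs_nonneg _) hκ
  have cφ' : Continuous (fun y => fderiv ℝ φ y (1, 0, 0)) :=
    (hφ.continuous_fderiv (by norm_num)).clm_apply continuous_const
  have iφ : Integrable φ := hφ.continuous.integrable_of_hasCompactSupport hφc
  have iφ' : Integrable (fun y => fderiv ℝ φ y (1, 0, 0)) :=
    (integral_fderiv_zero hφ hφc _).1
  refine ⟨∫ y, (2 * D * |fderiv ℝ φ y (1, 0, 0)| + 2 * D * |φ y|), fun v hv => ?_⟩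
  -- the integrand
  have hdc : ContinuousOn (fun y : P3 => dg K (ins v y)) O := by
    have hcins : Continuous (fun y : P3 => ins v y) := by unfold ins; fun_prop
    refine (continuousOn_dg h).comp hcins.continuousOn (fun y hy => ?_)
    obtain ⟨z, hz, hzy, _⟩ := hin y hy v hv
    show ins v y ∈ U
    rw [← hzy]; exact h.maps (h.DD_sub hz)
  have hc1 : Continuous (fun y => φ y * dg K (ins v y)) := by
    refine ContinuousOn.continuous_of_tsupport_subset (s := O)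
      (hφ.continuous.continuousOn.mul hdc) hO ?_
    exact (tsupport_mul_subset_left).trans hφO
  have hs1 : HasCompactSupport (fun y => φ y * dg K (ins v y)) := hφc.mul_right
  have i1 : Integrable (fun y => φ y * dg K (ins v y)) := hc1.integrable_of_hasCompactSupport hs1
  refine ⟨i1, ?_⟩
  -- the test function
  set g : P3 → ℝ := fun y => φ y * Fq K Psi (Phi Psi V (ins v y)) with hg
  have hgs : tsupport g ⊆ tsupport φ := tsupport_mul_subset_left
  have hgd : ContDiff ℝ 1 g := by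
    apply contDiff_tsupport
    intro y hy
    obtain ⟨z, hz, hzy, _⟩ := hin y (hφO (hgs hy)) v hv
    exact hφ.contDiffAt.mul (slice_diff h (h.DD_sub hz) hzy).1
  have hgc : HasCompactSupport g := hφc.mul_right
  obtain ⟨i2, e2⟩ := integral_fderiv_zero hgd hgc (1, 0, 0)
  have e3 : ∫ y, φ y * dg K (ins v y) =
      ∫ y, (φ y * dg K (ins v y) + 2 * fderiv ℝ g y (1, 0, 0)) := by
    rw [integral_add i1 (i2.const_mul 2), integral_const_mul, e2]
    simp
  rw [e3, ← Real.norm_eq_abs]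
  refine norm_integral_le_of_norm_le ((iφ'.abs.const_mul (2 * D)).add (iφ.abs.const_mul (2 * D))) ?_
  refine Filter.Eventually.of_forall fun y => ?_
  rw [Real.norm_eq_abs]
  by_cases hy : y ∈ tsupport φ
  · obtain ⟨z, hz, hzy, hQ⟩ := hin y (hφO hy) v hv
    have hzV := h.DD_sub hz
    have hP : Phi Psi V (ins v y) = z := by rw [← hzy]; exact h.Phi_left hzV
    obtain ⟨k1, k2⟩ := slice_diff h hzV hzy
    obtain ⟨m1, m2⟩ := hD z hzV ((hL z hz).trans (le_abs_self _)) hQ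
    have m3 := m2 _ (h.Zf_spec hzV)
    have d1 : HasFDerivAt g (φ y • fderiv ℝ (fun y => Fq K Psi (Phi Psi V (ins v y))) y +
        Fq K Psi (Phi Psi V (ins v y)) • fderiv ℝ φ y) y :=
      (hφ.differentiable (by norm_num) y).hasFDerivAt.mul
        (k1.differentiableAt (by norm_num)).hasFDerivAt
    rw [d1.fderiv, ContinuousLinearMap.add_apply, ContinuousLinearMap.smul_apply,
      ContinuousLinearMap.smul_apply, k2, hP, ← hzy, smul_eq_mul, smul_eq_mul]
    generalize fderiv ℝ (Fq K Psi) z (Zf Psi V z) = q at *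
    generalize Fq K Psi z = w at *
    generalize dg K (Psi z) = d at *
    generalize fderiv ℝ φ y (1, 0, 0) = φ' at *
    generalize φ y = p at *
    have e4 : p * d + 2 * (p * q + w * φ') = 2 * (p * (q + 1 / 2 * d)) + 2 * (w * φ') := by ring
    rw [e4]
    have n1 : |p * (q + 1 / 2 * d)| ≤ |p| * D := by rw [abs_mul]; (clear * - m3; gcongr)
    have n2 : |w * φ'| ≤ D * |φ'| := by rw [abs_mul]; (clear * - m1; gcongr)
    rw [abs_le] at n1 n2 ⊢
    constructor <;> linarith only [n1.1, n2.1, n1.2, n2.2]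
  · have h1 : φ =ᶠ[𝓝 y] fun _ => (0:ℝ) := notMem_tsupport_iff_eventuallyEq.mp hy
    have h2 : g =ᶠ[𝓝 y] fun _ => (0:ℝ) := by
      filter_upwards [h1] with x hx
      rw [hg]; simp only; rw [hx, zero_mul]
    have h3 : φ y = 0 := h1.eq_of_nhds
    rw [h2.fderiv_eq, h1.fderiv_eq, h3]
    simp

/-- the frame components are bounded when the derivatives of the metric are -/
lemma QQ_bdd (h : CoreHyp K G Psi V U C R cv cw cu t0 r f) {L : ℝ}
    (hL : ∀ z ∈ DD t0 r f, ‖fderiv ℝ G z‖ ≤ L) :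
    ∃ κ : ℝ, 1 ≤ κ ∧ ∀ z ∈ DD t0 r f, ‖z.2‖ ≤ r / 4 → QQ Psi z ≤ κ := by
  have hpre := h.toPreHyp
  have hC := one_le_C hpre
  have hC0 : 0 < C := by linarith only [hC]
  have hr := h.r_pos
  obtain ⟨κ0, hκ0⟩ := exists_Q0 h
  set w := (W0 R cv cw cu).toReal with hw
  have hw0 : 0 ≤ w := ENNReal.toReal_nonneg
  have hW0 : W0 R cv cw cu = ENNReal.ofReal w := (ENNReal.ofReal_toReal (W0_ne_top hpre)).symm
  have hR0 : 0 ≤ R := by
    have h0 : ((t0, (0 : P3)) : P4) ∈ V := h.memV 0 (Metric.mem_ball_self hr) t0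
      ⟨le_refl _, h.t0f 0 (Metric.mem_ball_self hr)⟩
    exact (abs_nonneg _).trans (h.U_sub _ (h.maps h0)).1
  set M : ℝ := 100 * C ^ 5 * (|L| * (3 * R * C) + w) with hM
  have hM0 : 0 ≤ M := by (clear * - hC hR0; positivity)
  refine ⟨max 1 (κ0 * Real.exp M), le_max_left _ _, ?_⟩
  rintro ⟨t, x⟩ hz hx
  have hxr : x ∈ Metric.ball (0 : P3) r := hz.1
  have ht0 : t0 < t := hz.2.1
  have htf : t < f x := hz.2.2
  have hzV : ∀ s ∈ Icc t0 t, ((s, x) : P4) ∈ V := fun s hs =>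
    h.memV x hxr s ⟨hs.1, lt_of_le_of_lt hs.2 htf⟩
  -- the duration
  have hdur : 1 / C * (t - t0) ≤ 3 * R := by
    have hder : ∀ τ ∈ Icc t0 t, HasDerivAt (fun τ => (Psi (τ, x)).2.2.1 + (Psi (τ, x)).2.1)
        (QQ Psi (τ, x)) τ := by
      intro τ hτ
      have h1 := h.hasDerivAt_line (hzV τ hτ)
      have k1 : HasDerivAt (fun τ => (Psi (τ, x)).2.2.1) (fderiv ℝ Psi (τ, x) e1).2.2.1 τ :=
        h1.snd.snd.fst
      have k2 : HasDerivAt (fun τ => (Psi (τ, x)).2.1) (fderiv ℝ Psi (τ, x) e1).2.1 τ :=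
        h1.snd.fst
      exact k1.add k2
    have h2 := Convex.mul_sub_le_image_sub_of_le_deriv (convex_Icc t0 t)
      (f := fun τ => (Psi (τ, x)).2.2.1 + (Psi (τ, x)).2.1)
      (fun τ hτ => (hder τ hτ).continuousAt.continuousWithinAt)
      (fun τ hτ => (hder τ (interior_subset hτ)).differentiableAt.differentiableWithinAt)
      (C := 1 / C)
      (by
        intro τ hτ
        rw [interior_Icc] at hτ
        have hτ' : τ ∈ Icc t0 t := ⟨hτ.1.le, hτ.2.le⟩
        rw [(hder τ hτ').deriv]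
        have hp := h.pt (hzV τ hτ')
        have ha := hp.sq_le.2.1
        have hb : 0 < (PtHyp.PP Psi (τ, x)).2.1 := h.pos _ (hzV τ hτ')
        have hab := hp.sq_le.2.2
        unfold QQ
        show 1 / C ≤ (PtHyp.PP Psi (τ, x)).2.2.1 + (PtHyp.PP Psi (τ, x)).2.1
        generalize (PtHyp.PP Psi (τ, x)).2.2.1 = a at *
        generalize (PtHyp.PP Psi (τ, x)).2.1 = b at *
        apply abs_le_of_sq_le_sq' _ (by (clear * - ha hb; positivity)) |>.2
        have e1' : (1 / C) ^ 2 = 1 / C ^ 2 := by rw [div_pow, one_pow]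
        rw [e1', div_le_iff₀ (by positivity)]
        have h4 : 4 * (a * b) ≤ (a + b) ^ 2 := by linarith only [sq_nonneg (a - b)]
        calc 1 ≤ 2 * C ^ 2 * (a * b) := hab
          _ ≤ C ^ 2 * (4 * (a * b)) := by
            have : 0 ≤ C ^ 2 * (a * b) := by (clear * - hC ha hb; positivity)
            linarith only [hab]
          _ ≤ C ^ 2 * (a + b) ^ 2 := by (clear * - h4 hC; gcongr)
          _ = _ := by ring)
      t0 (left_mem_Icc.mpr ht0.le) t (right_mem_Icc.mpr ht0.le) ht0.le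
    obtain ⟨_, a2, a3, a4, _⟩ := h.U_sub _ (h.maps (hzV t (right_mem_Icc.mpr ht0.le)))
    obtain ⟨_, b2, b3, b4, _⟩ := h.U_sub _ (h.maps (hzV t0 (left_mem_Icc.mpr ht0.le)))
    rw [abs_le] at a4 b4
    refine h2.trans ?_
    show (Psi (t, x)).2.2.1 + (Psi (t, x)).2.1 - ((Psi (t0, x)).2.2.1 + (Psi (t0, x)).2.1) ≤ _
    linarith only [a3, a4, b2, b4]
  have hdur' : t - t0 ≤ 3 * R * C := by
    rw [one_div, inv_mul_le_iff₀ hC0] at hdur
    linarith only [hdur]
  have hint : ∫⁻ s in Icc t0 t, ‖fderiv ℝ G (s, x)‖ₑ ≤ ENNReal.ofReal (|L| * (3 * R * C)) := by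
    rw [← setLIntegral_congr (Ioc_ae_eq_Icc (a := t0) (b := t) (μ := volume))]
    calc ∫⁻ s in Ioc t0 t, ‖fderiv ℝ G (s, x)‖ₑ ≤ ∫⁻ _ in Ioc t0 t, ENNReal.ofReal |L| := by
          apply setLIntegral_mono' measurableSet_Ioc
          intro s hs
          rw [← ofReal_norm]
          apply ENNReal.ofReal_le_ofReal
          exact (hL (s, x) ⟨hxr, hs.1, lt_of_le_of_lt hs.2 htf⟩).trans (le_abs_self _)
      _ = ENNReal.ofReal (|L| * (t - t0)) := by
          rw [setLIntegral_const, Real.volume_Ioc, ENNReal.ofReal_mul (abs_nonneg _)]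
      _ ≤ _ := by
          apply ENNReal.ofReal_le_ofReal
          (clear * - hdur'; gcongr)
  have h3 := seg_QQ hpre hxr (le_refl t0) ht0.le htf hM0 (by
    rw [hM, ENNReal.ofReal_mul (p := 100 * C ^ 5) (by (clear * - hC; positivity)),
      ENNReal.ofReal_add (p := |L| * (3 * R * C)) (by (clear * - hR0 hC; positivity)) hw0, hW0]
    (clear * - hint; gcongr))
  refine h3.trans (le_trans ?_ (le_max_right _ _))
  exact mul_le_mul_of_nonneg_right (hκ0 x hx) (Real.exp_pos _).le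

end Vale.Agent.P354a
end
end

section

section

set_option maxSynthPendingDepth 3

open Set MeasureTheory Filter Topology

namespace Vale.Agent.P354a

open Vale.Agent.P354w Vale.Agent.P354x Vale.Agent.P354z PreHyp CoreHyp

variable {K K' : Coef} {G : P4 → P4 →L[ℝ] P4 →L[ℝ] ℝ} {Psi : P4 → P4} {V U : Set P4}
    {C R : ℝ} {cv cw cu : ℝ → ℝ} {t0 r : ℝ} {f : P3 → ℝ} {T : P4 ≃L[ℝ] P4}

/-- The averages in another direction. -/
theorem avg_tr (h : CoreHyp K G Psi V U C R cv cw cu t0 r f) (hT : Tr K K' T)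
    (hcv : ∫⁻ v in Ico (-(2 * R)) 0, ENNReal.ofReal (cv v) ≠ ⊤)
    (hcw : ∫⁻ v in Ico (-(2 * R)) 0, ENNReal.ofReal (cw v) ≠ ⊤)
    (hcu' : ∫⁻ u in Icc (-(2 * R)) (2 * R), ENNReal.ofReal (cu u) ≠ ⊤)
    (hcu : ∀ u, cu u ≤ C) {τ : P3 ≃L[ℝ] P3}
    (hτ : ∀ v y, ins v (τ y) = T (ins v y)) (hτm : MeasurePreserving (τ : P3 → P3) volume volume)
    {dK : P4 → ℝ} (hd : ∀ x ∈ U, dg K' (T x) = dK x) {L κ : ℝ}
    (hL : ∀ z ∈ DD t0 r f, ‖fderiv ℝ G z‖ ≤ L) (hκ : 1 ≤ κ) {O : Set P3} (hO : IsOpen O) {v0 : ℝ}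
    (hin : ∀ y ∈ O, ∀ v ∈ Ico v0 0, ∃ z ∈ DD t0 r f, Psi z = ins v y ∧ QQ Psi z ≤ κ)
    {φ : P3 → ℝ} (hφ : ContDiff ℝ 1 φ) (hφc : HasCompactSupport φ) (hφO : tsupport φ ⊆ O) :
    ∃ B : ℝ, ∀ v ∈ Ico v0 0, Integrable (fun y => φ y * dK (ins v y)) ∧
      |∫ y, φ y * dK (ins v y)| ≤ B := by
  have h' := h.tr hT hcv hcw hcu'
  have hτemb : MeasurableEmbedding (τ : P3 → P3) := τ.toHomeomorph.measurableEmbedding
  have hfd : ∀ z ∈ V, fderiv ℝ (fun z => T (Psi z)) z = (T : P4 →L[ℝ] P4).comp (fderiv ℝ Psi z) := by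
    intro z hz
    have h1 : HasFDerivAt Psi (fderiv ℝ Psi z) z :=
      ((h.iso.contDiffAt hz).differentiableAt (by norm_num)).hasFDerivAt
    exact (T.hasFDerivAt.comp z h1).fderiv
  have hQ : ∀ z ∈ V, QQ (fun z => T (Psi z)) z = QQ Psi z := by
    intro z hz
    unfold QQ
    rw [hfd z hz]
    show (T (fderiv ℝ Psi z e1)).2.2.1 + (T (fderiv ℝ Psi z e1)).2.1 = _
    rw [hT.u, hT.v]
  have hts : tsupport (fun y => φ (τ.symm y)) = τ.symm ⁻¹' tsupport φ :=
    tsupport_comp_eq_preimage φ τ.symm.toHomeomorph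
  obtain ⟨B, hB⟩ := avg1 h'.toPreHyp (fun u => by have := hcu u; linarith only [this]) hL hκ
    (O := τ.symm ⁻¹' O) (hO.preimage τ.symm.continuous) (v0 := v0)
    (fun y hy v hv => by
      obtain ⟨z, hz, hzy, hzq⟩ := hin _ hy v hv
      refine ⟨z, hz, ?_, ?_⟩
      · rw [hzy, ← hτ]; simp
      · rw [hQ z (h.DD_sub hz)]; exact hzq)
    (φ := fun y => φ (τ.symm y)) (hφ.comp τ.symm.contDiff)
    (hφc.comp_homeomorph τ.symm.toHomeomorph)
    (by rw [hts]; exact preimage_mono hφO)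
  refine ⟨B, fun v hv => ?_⟩
  obtain ⟨k1, k2⟩ := hB v hv
  have e : (fun y => φ y * dK (ins v y)) =
      fun y => (fun y => φ (τ.symm y) * dg K' (ins v y)) (τ y) := by
    funext y
    simp only [ContinuousLinearEquiv.symm_apply_apply]
    by_cases hy : φ y = 0
    · rw [hy, zero_mul, zero_mul]
    · have hyO : y ∈ O := hφO (subset_tsupport φ hy)
      obtain ⟨z, hz, hzy, _⟩ := hin y hyO v hv
      have hU : ins v y ∈ U := by rw [← hzy]; exact h.maps (h.DD_sub hz)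
      rw [hτ, hd _ hU]
  rw [e]
  refine ⟨(hτm.integrable_comp_emb hτemb).2 k1, ?_⟩
  have e2 := hτm.integral_comp hτemb (fun y => φ (τ.symm y) * dg K' (ins v y))
  refine le_trans (le_of_eq ?_) k2
  exact congrArg abs e2

/-- **The averages of the `v` derivatives of the metric are bounded.** -/
theorem avg3 (h : CoreHyp K G Psi V U C R cv cw cu t0 r f)
    (hcv : ∫⁻ v in Ico (-(2 * R)) 0, ENNReal.ofReal (cv v) ≠ ⊤)
    (hcw : ∫⁻ v in Ico (-(2 * R)) 0, ENNReal.ofReal (cw v) ≠ ⊤)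
    (hcu' : ∫⁻ u in Icc (-(2 * R)) (2 * R), ENNReal.ofReal (cu u) ≠ ⊤)
    (hcu : ∀ u, cu u ≤ C) {L : ℝ} (hL : ∀ z ∈ DD t0 r f, ‖fderiv ℝ G z‖ ≤ L) {O : Set P3}
    (hO : IsOpen O) {v0 : ℝ}
    (hin : ∀ y ∈ O, ∀ v ∈ Ico v0 0, ∃ z ∈ DD t0 r f, Psi z = ins v y ∧ ‖z.2‖ ≤ r / 4)
    {φ : P3 → ℝ} (hφ : ContDiff ℝ 1 φ) (hφc : HasCompactSupport φ) (hφO : tsupport φ ⊆ O) :
    ∃ B : ℝ, ∀ v ∈ Ico v0 0,
      |∫ y, φ y * fderiv ℝ K.g11 (ins v y) (e4 K (ins v y))| ≤ B ∧
      |∫ y, φ y * fderiv ℝ K.g12 (ins v y) (e4 K (ins v y))| ≤ B ∧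
      |∫ y, φ y * fderiv ℝ K.g22 (ins v y) (e4 K (ins v y))| ≤ B := by
  have hKd : ∀ x ∈ U, K.DiffAt x := fun x hx => SmoothOn.diffAt h.smoothK h.openU hx
  obtain ⟨κ, hκ, hQ⟩ := QQ_bdd h hL
  have hin' : ∀ y ∈ O, ∀ v ∈ Ico v0 0, ∃ z ∈ DD t0 r f, Psi z = ins v y ∧ QQ Psi z ≤ κ := by
    intro y hy v hv
    obtain ⟨z, hz, hzy, hzn⟩ := hin y hy v hv
    exact ⟨z, hz, hzy, hQ z hz hzn⟩
  obtain ⟨B1, hB1⟩ := avg1 h.toPreHyp hcu hL hκ hO hin' hφ hφc hφO
  obtain ⟨B2, hB2⟩ := avg_tr h (tr_sw K) hcv hcw hcu' hcu (τ := tw) (fun v y => rfl) mp_tw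
    (dK := fun x => fderiv ℝ K.g22 x (e4 K x))
    (fun x hx => by
      show fderiv ℝ (fun y => K.g22 (Tw.symm y)) (Tw x) (e4 K.sw (Tw x)) = _
      rw [fderiv_T (hKd x hx).g22, sw_e4]) hL hκ hO hin' hφ hφc hφO
  obtain ⟨B3, hB3⟩ := avg_tr h (tr_sh K) hcv hcw hcu' hcu (τ := ts) (fun v y => rfl) mp_ts
    (dK := fun x => fderiv ℝ K.g11 x (e4 K x) + 2 * fderiv ℝ K.g12 x (e4 K x) +
      fderiv ℝ K.g22 x (e4 K x))
    (fun x hx => by
      show fderiv ℝ (fun y => K.g11 (Ts.symm y) +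
          2 * K.g12 (Ts.symm y) + K.g22 (Ts.symm y)) (Ts x) (e4 K.sh (Ts x)) = _
      rw [fT_add3 (hKd x hx).g11 (hKd x hx).g12 (hKd x hx).g22, sh_e4]) hL hκ hO hin' hφ hφc hφO
  refine ⟨|B1| + |B2| + |B3|, fun v hv => ?_⟩
  obtain ⟨i1, k1⟩ := hB1 v hv
  obtain ⟨i2, k2⟩ := hB2 v hv
  obtain ⟨i3, k3⟩ := hB3 v hv
  have a1 := le_abs_self B1
  have a2 := le_abs_self B2
  have a3 := le_abs_self B3
  have b1 := abs_nonneg B1
  have b2 := abs_nonneg B2
  have b3 := abs_nonneg B3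
  have k1' : |∫ y, φ y * fderiv ℝ K.g11 (ins v y) (e4 K (ins v y))| ≤ B1 := k1
  refine ⟨by linarith only [a1, b2, b3, k1'], ?_, by linarith only [k2, a2, b1, b3]⟩
  have e : ∫ y, φ y * fderiv ℝ K.g12 (ins v y) (e4 K (ins v y)) =
      1 / 2 * ((∫ y, φ y * (fderiv ℝ K.g11 (ins v y) (e4 K (ins v y)) +
        2 * fderiv ℝ K.g12 (ins v y) (e4 K (ins v y)) +
        fderiv ℝ K.g22 (ins v y) (e4 K (ins v y)))) -
        (∫ y, φ y * fderiv ℝ K.g11 (ins v y) (e4 K (ins v y))) -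
        ∫ y, φ y * fderiv ℝ K.g22 (ins v y) (e4 K (ins v y))) := by
    have i1' : Integrable (fun y => φ y * fderiv ℝ K.g11 (ins v y) (e4 K (ins v y))) := i1
    have i4 : Integrable (fun y => φ y * (fderiv ℝ K.g11 (ins v y) (e4 K (ins v y)) +
        2 * fderiv ℝ K.g12 (ins v y) (e4 K (ins v y)) +
        fderiv ℝ K.g22 (ins v y) (e4 K (ins v y))) -
        φ y * fderiv ℝ K.g11 (ins v y) (e4 K (ins v y))) := i3.sub i1'
    rw [← integral_sub i3 i1', ← integral_sub i4 i2, ← integral_const_mul]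
    refine integral_congr_ae (Filter.Eventually.of_forall fun y => ?_)
    simp only
    ring
  rw [e, abs_le]
  rw [abs_le] at k1' k2 k3
  constructor <;> linarith only [a1, a2, a3, b1, k1'.2, k2.1, k2.2, k3.1, k3.2, k1'.1]

end Vale.Agent.P354a
end
end

section

section

set_option maxSynthPendingDepth 3

open Set MeasureTheory Filter Topology

namespace Vale.Agent.P354z

open Vale.Agent.P354w Vale.Agent.P354x PreHyp CoreHyp

variable {K : Coef} {G : P4 → P4 →L[ℝ] P4 →L[ℝ] ℝ} {Psi : P4 → P4} {V U : Set P4}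
    {C R : ℝ} {cv cw cu : ℝ → ℝ} {t0 r : ℝ} {f : P3 → ℝ}

/-- near the centre there is a vertical line with bounded velocity -/
theorem exists_good_line (h : CoreHyp K G Psi V U C R cv cw cu t0 r f) {S0 : ℝ}
    (hsw : ∀ y ∈ U, |K.s1 y| ≤ S0 ∧ |K.s2 y| ≤ S0 ∧ |K.w1 y| ≤ S0 ∧ |K.w2 y| ≤ S0) :
    ∃ x : P3, ‖x‖ < r / 8 ∧ ∃ A : ℝ, 1 ≤ A ∧ ∀ t ∈ Ico t0 (f x), ‖fderiv ℝ Psi (t, x) e1‖ ≤ A := by
  have hpre := h.toPreHyp
  have hr := h.r_pos
  obtain ⟨κ0, hκ0⟩ := exists_Q0 h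
  have hae : ∀ᵐ x : P3, En G t0 r f x < ⊤ :=
    ae_lt_top (measurable_En hpre) (lintegral_En hpre)
  have hne : volume (Metric.ball (0 : P3) (r / 8)) ≠ 0 :=
    (Metric.measure_ball_pos volume (0 : P3) (by linarith only [hr])).ne'
  obtain ⟨x, hxb, hxE⟩ : ∃ x ∈ Metric.ball (0 : P3) (r / 8), En G t0 r f x < ⊤ := by
    by_contra hcon
    push Not at hcon
    apply hne
    refine measure_mono_null (t := {x | ¬ En G t0 r f x < ⊤}) ?_ (ae_iff.1 hae)
    intro x hx
    simp only [mem_ofPred_eq, not_lt]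
    exact hcon x hx
  rw [mem_ball_zero_iff] at hxb
  have hxr : x ∈ Metric.ball (0 : P3) r := by rw [mem_ball_zero_iff]; linarith only [hr, hxb]
  rw [← En_eq hxr] at hxE
  set B : ENNReal := ENNReal.ofReal (κ0 * Real.exp (100 * C ^ 5 * (1 + (W0 R cv cw cu).toReal) + 1)) +
      ENNReal.ofReal (3 * R * Real.exp (100 * C ^ 5 * (1 + (W0 R cv cw cu).toReal) + 1)) *
        ∫⁻ s in Ico t0 (f x), ‖fderiv ℝ G (s, x)‖ₑ ^ 2 with hB
  have hBt : B ≠ ⊤ := ENNReal.add_ne_top.mpr ⟨ENNReal.ofReal_ne_top,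
    ENNReal.mul_ne_top ENNReal.ofReal_ne_top hxE.ne⟩
  have hC : 1 ≤ C := by
    have : (t0, x) ∈ V := h.memV x hxr t0 ⟨le_refl _, h.t0f x hxr⟩
    exact (h.pt this).bd.one_le
  refine ⟨x, hxb, max 1 (2 * (C + S0) * B.toReal), le_max_left _ _, fun t ht => ?_⟩
  have hzV := h.memV x hxr t ht
  have h1 := sup_line hpre hxr (hκ0 x (by linarith only [hr, hxb])) ht
  rw [← hB] at h1
  have h2 : QQ Psi (t, x) ≤ B.toReal :=
    (ENNReal.ofReal_le_iff_le_toReal hBt).1 h1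
  have hbp : 0 < (fderiv ℝ Psi (t, x) e1).2.1 := h.pos _ hzV
  have hap : 0 < (fderiv ℝ Psi (t, x) e1).2.2.1 := (h.pt hzV).sq_le.2.1
  unfold QQ at h2
  exact (hpre.line_deriv_norm hsw hzV (M := B.toReal) (by linarith only [h2, hap]) (by linarith only [h2, hbp])).trans
    (le_max_right _ _)

end Vale.Agent.P354z
end
end

section

section

set_option maxSynthPendingDepth 3

open Set MeasureTheory Filter Topology

namespace Vale.Agent.P354z

lemma LpF_sqrt {α : Type*} [MeasurableSpace α] {p : ENNReal} {μ : Measure α} (hp : 2 ≤ p)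
    {l : α → ℝ} (hl : eLpNorm l (p / 2) μ ≠ ⊤) : LpF p μ (fun v => ‖Real.sqrt |l v|‖ₑ) := by
  have hp0 : p ≠ 0 := by
    intro h
    rw [h] at hp
    norm_num at hp
  by_cases hpt : p = ⊤
  · have e : p / 2 = ⊤ := by rw [hpt]; exact ENNReal.top_div_of_ne_top (by norm_num)
    rw [e, eLpNorm_exponent_top] at hl
    refine ⟨fun _ => ⟨1 + eLpNormEssSup l μ, ENNReal.add_ne_top.mpr ⟨by norm_num, hl⟩, ?_⟩,
      fun h => absurd hpt h⟩
    have h1 : ∀ᵐ v ∂μ, ‖l v‖ₑ ≤ eLpNormEssSup l μ := ae_le_eLpNormEssSup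
    filter_upwards [h1] with v hv
    refine le_trans ?_ (add_le_add_right hv 1)
    have h2 : Real.sqrt |l v| ≤ 1 + |l v| := by
      have h0 := abs_nonneg (l v)
      rw [Real.sqrt_le_left (by linarith only [h0])]
      nlinarith only []
    rw [← ofReal_norm, ← ofReal_norm, Real.norm_eq_abs, Real.norm_eq_abs,
      abs_of_nonneg (Real.sqrt_nonneg _), ← ENNReal.ofReal_one,
      ← ENNReal.ofReal_add (by norm_num) (abs_nonneg _)]
    exact ENNReal.ofReal_le_ofReal h2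
  · have e0 : p / 2 ≠ 0 := by
      rw [ne_eq, ENNReal.div_eq_zero_iff]
      push Not
      exact ⟨hp0, by norm_num⟩
    have et : p / 2 ≠ ⊤ := by
      rw [ne_eq, ENNReal.div_eq_top]
      push Not
      exact ⟨fun _ => by norm_num, fun h => absurd h hpt⟩
    have h1 := (eLpNorm_lt_top_iff_lintegral_rpow_enorm_lt_top e0 et).1 (lt_top_iff_ne_top.2 hl)
    refine ⟨fun h => absurd h hpt, fun _ => ?_⟩
    have er : (p / 2).toReal = p.toReal / 2 := by
      rw [ENNReal.toReal_div]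
      norm_num
    rw [er] at h1
    have e2 : ∀ v, ‖Real.sqrt |l v|‖ₑ ^ p.toReal = ‖l v‖ₑ ^ (p.toReal / 2) := by
      intro v
      rw [← ofReal_norm, ← ofReal_norm, Real.norm_eq_abs, Real.norm_eq_abs,
        abs_of_nonneg (Real.sqrt_nonneg _), Real.sqrt_eq_rpow,
        ← ENNReal.ofReal_rpow_of_nonneg (abs_nonneg _) (by (clear * -; norm_num)), ← ENNReal.rpow_mul]
      congr 1
      ring
    simp only [e2]
    exact h1.ne

end Vale.Agent.P354z
end
end

section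

section

set_option maxSynthPendingDepth 3

open Set MeasureTheory Filter Topology

namespace Vale.Agent.P354z

open Vale.Agent.P354w Vale.Agent.P354x PreHyp CoreHyp

variable {K : Coef} {G : P4 → P4 →L[ℝ] P4 →L[ℝ] ℝ} {Psi : P4 → P4} {V U : Set P4}
    {C R : ℝ} {cv cw cu : ℝ → ℝ} {t0 r : ℝ} {f : P3 → ℝ}

/-- For almost every generator of an open set of the front the derivative of the metric is
in `L^p` if it oscillates little near the generator. -/
theorem openPl (h : CoreHyp K G Psi V U C R cv cw cu t0 r f) (hw : ∀ y ∈ U, PtW K y C)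
    (hcv : ∫⁻ v in Ico (-(2 * R)) 0, ENNReal.ofReal (cv v) ≠ ⊤)
    (hcw : ∫⁻ v in Ico (-(2 * R)) 0, ENNReal.ofReal (cw v) ≠ ⊤)
    (hcu' : ∫⁻ u in Icc (-(2 * R)) (2 * R), ENNReal.ofReal (cu u) ≠ ⊤)
    (hcu : ∀ u, cu u ≤ C) {p : ENNReal} (hp : 2 ≤ p)
    (hG : LpF p (volume.restrict (DD t0 r f)) (fun z => ‖fderiv ℝ G z‖ₑ)) {l : ℝ → ℝ}
    (hlm : Measurable l) {va : ℝ} (hva : va < 0)
    (hl : LpF p (volume.restrict (Ico va 0)) (fun v => ‖l v‖ₑ))
    {O : Set P3} (hO : IsOpen O) {v0 : ℝ} (hv0 : v0 < 0)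
    (hin : ∀ y ∈ O, ∀ v ∈ Ico v0 0, ∃ z ∈ DD t0 r f, Psi z = ins v y ∧ ‖z.2‖ ≤ r / 4) :
    ∃ v1 ∈ Ico v0 0, va ≤ v1 ∧ ∀ᵐ y0 : P3, y0 ∈ O → ∀ P ρ1 : ℝ, 0 ≤ P → 0 < ρ1 →
      ∀ v2 ∈ Ico v1 0,
      (∀ v ∈ Ico v2 0, ∀ y, ins v y ∈ U → ins v y0 ∈ U → ‖y - y0‖ < ρ1 →
      |l v| * ‖y - y0‖ < ρ1 →
      |fderiv ℝ K.g11 (ins v y) (e4 K (ins v y)) - fderiv ℝ K.g11 (ins v y0) (e4 K (ins v y0))| ≤
        chi4 K (ins v y0) / 56 + P * (1 + |l v|) ∧
      |fderiv ℝ K.g12 (ins v y) (e4 K (ins v y)) - fderiv ℝ K.g12 (ins v y0) (e4 K (ins v y0))| ≤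
        chi4 K (ins v y0) / 56 + P * (1 + |l v|) ∧
      |fderiv ℝ K.g22 (ins v y) (e4 K (ins v y)) - fderiv ℝ K.g22 (ins v y0) (e4 K (ins v y0))| ≤
        chi4 K (ins v y0) / 56 + P * (1 + |l v|)) →
      LpF p (volume.restrict (Ico v2 0)) (fun v => ENNReal.ofReal (chi4 K (ins v y0))) := by
  obtain ⟨v1, hv1, hva1, hcore⟩ := open_coreP h hw hcv hcw hcu' hcu hp hG hlm hva hl hO hv0 hin
  refine ⟨v1, hv1, hva1, ?_⟩
  filter_upwards [hcore] with y0 hc hy0 P ρ1 hP hρ1 v2 hv2 hosc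
  have hB := hc hy0
  have himg : ∀ v ∈ Ico v1 0, ins v y0 ∈ Psi '' DD t0 r f := by
    intro v hv
    obtain ⟨z, hz, hzy, _⟩ := hin y0 hy0 v ⟨hv1.1.trans hv.1, hv.2⟩
    exact ⟨z, hz, hzy⟩
  obtain ⟨B, hBint, hBest⟩ := hB 4 ρ1 (by norm_num) hρ1
  have hUi : ∀ x, x ∈ Psi '' DD t0 r f → x ∈ U := by
    rintro _ ⟨z, hz, rfl⟩
    exact h.maps (h.DD_sub hz)
  have hpt : ∀ v ∈ Ico v2 0, ENNReal.ofReal (chi4 K (ins v y0)) ≤
      ENNReal.ofReal (56 * P) * (1 + ‖l v‖ₑ) + 7 * B v := by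
    intro v hv'
    have hv : v ∈ Ico v1 0 := ⟨hv2.1.trans hv'.1, hv'.2⟩
    have hyU := hUi _ (himg v hv)
    have hl0 := abs_nonneg (l v)
    set S := P * (1 + |l v|) with hS
    have hS0 : 0 ≤ S := by (clear * - hP; positivity)
    set χ := chi4 K (ins v y0) with hχ
    have hχ0 : 0 ≤ χ := by rw [hχ]; unfold chi4; (clear * -; positivity)
    set w := χ / 56 + S with hwd
    have hw0 : 0 ≤ w := by (clear * - hχ0 hP; positivity)
    have hχe : χ = |fderiv ℝ K.g11 (ins v y0) (e4 K (ins v y0))| +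
        |fderiv ℝ K.g12 (ins v y0) (e4 K (ins v y0))| +
        |fderiv ℝ K.g22 (ins v y0) (e4 K (ins v y0))| := rfl
    rcases le_total (8 * w) (max |fderiv ℝ K.g11 (ins v y0) (e4 K (ins v y0))|
        (max |fderiv ℝ K.g22 (ins v y0) (e4 K (ins v y0))|
          |fderiv ℝ K.g11 (ins v y0) (e4 K (ins v y0)) +
            2 * fderiv ℝ K.g12 (ins v y0) (e4 K (ins v y0)) +
            fderiv ℝ K.g22 (ins v y0) (e4 K (ins v y0))|)) with hc | hc
    · obtain ⟨j, σ, γ, hσ, hγ, hsum, hdir⟩ := choose_dir hw0 hc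
      have h1 := hBest v hv j σ γ hσ hγ (by
        intro y hy1 hy2 hyi
        have hyU' := hUi _ hyi
        obtain ⟨o1, o2, o3⟩ := hosc v hv' y hyU' hyU hy1 hy2
        have := hdir _ _ _ o1 o2 o3
        rw [D3_eq]
        exact this)
      calc ENNReal.ofReal χ ≤ ENNReal.ofReal (7 * γ) := by
            apply ENNReal.ofReal_le_ofReal
            exact hsum
        _ = 7 * ENNReal.ofReal γ := by
            rw [ENNReal.ofReal_mul (by norm_num)]; norm_num
        _ ≤ 7 * B v := by (clear * - h1; gcongr)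
        _ ≤ _ := le_add_self
    · have hle : χ ≤ (56 * P) * (1 + |l v|) := by
        generalize fderiv ℝ K.g11 (ins v y0) (e4 K (ins v y0)) = d11 at *
        generalize fderiv ℝ K.g12 (ins v y0) (e4 K (ins v y0)) = d12 at *
        generalize fderiv ℝ K.g22 (ins v y0) (e4 K (ins v y0)) = d22 at *
        have h1 : |d11| ≤ 8 * w := (le_max_left _ _).trans hc
        have h2 : |d22| ≤ 8 * w := ((le_max_left _ _).trans (le_max_right _ _)).trans hc
        have h3 : |d11 + 2 * d12 + d22| ≤ 8 * w :=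
          ((le_max_right _ _).trans (le_max_right _ _)).trans hc
        have h4 : |d12| ≤ 12 * w := by
          rw [abs_le] at h1 h2 h3 ⊢
          constructor <;> linarith only [h1, h2, h3]
        have h5 : χ ≤ 28 * w := by rw [hχe]; linarith only [h1, h2, h4]
        have h6 : 28 * w = χ / 2 + 28 * S := by rw [hwd]; ring
        have : 56 * P * (1 + |l v|) = 56 * S := by rw [hS]; ring
        linarith only [hwd, hχe, h1, h2, h4]
      calc ENNReal.ofReal χ ≤ ENNReal.ofReal ((56 * P) * (1 + |l v|)) :=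
            ENNReal.ofReal_le_ofReal hle
        _ = ENNReal.ofReal (56 * P) * (1 + ‖l v‖ₑ) := by
            rw [ENNReal.ofReal_mul (by (clear * - hP; positivity)), ENNReal.ofReal_add (by norm_num) hl0,
              ENNReal.ofReal_one, ← Real.norm_eq_abs, ofReal_norm]
        _ ≤ _ := le_self_add
  have hvol : (volume.restrict (Ico v2 0)) univ ≠ ⊤ := by
    rw [Measure.restrict_apply MeasurableSet.univ, univ_inter, Real.volume_Ico]
    exact ENNReal.ofReal_ne_top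
  have hl1 : LpF p (volume.restrict (Ico v2 0)) (fun v => ‖l v‖ₑ) :=
    hl.mono_meas (Measure.restrict_mono (Ico_subset_Ico_left (hva1.trans hv2.1)) le_rfl)
  have hB1 : LpF p (volume.restrict (Ico v2 0)) B :=
    hBint.mono_meas (Measure.restrict_mono (Ico_subset_Ico_left hv2.1) le_rfl)
  have h1 : LpF p (volume.restrict (Ico v2 0)) (fun v => (1:ENNReal) + ‖l v‖ₑ) :=
    LpF.add (LpF.const hvol (by norm_num)) hl1 hp aemeasurable_const
  have hm1 : Measurable (fun v => ENNReal.ofReal (56 * P) * (1 + ‖l v‖ₑ)) :=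
    (hlm.enorm.const_add 1).const_mul _
  have hfin : LpF p (volume.restrict (Ico v2 0))
      (fun v => ENNReal.ofReal (56 * P) * (1 + ‖l v‖ₑ) + 7 * B v) :=
    LpF.add (h1.const_mul ENNReal.ofReal_ne_top) (hB1.const_mul (by norm_num)) hp
      hm1.aemeasurable
  refine hfin.mono_ae ?_
  rw [ae_restrict_iff' measurableSet_Ico]
  exact Eventually.of_forall fun v hv => hpt v hv

end Vale.Agent.P354z
end
end

section

section

set_option linter.unusedSectionVars false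
set_option maxSynthPendingDepth 3

open scoped Manifold ContDiff
open MeasureTheory Set Topology Filter

namespace Vale.Agent.P354p

section

variable {M N : Spc} {e : M.Chart} {e' : N.Chart}
  {ι : M.pt → N.pt} {Reg Reg' : (R4 → ℝ) → Set R4 → Prop} {m : ℝ} {I : Set ℝ}

/-- the image of a curve, in charts -/
lemma curve_push (h : IsOpenEmbedding ι) (hI : IsIsom ι) {c : ℝ → M.pt} {t : ℝ}
    (hc : ContinuousWithinAt c I t) (he : On e (c t)) (he' : On e' (ι (c t)))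
    (hd : ContDiffWithinAt ℝ 1 (fun s => co e (c s)) I t)
    (hu : UniqueDiffWithinAt ℝ I t) :
    ContDiffWithinAt ℝ 1 (fun s => co e' (ι (c s))) I t ∧
      derivWithin (fun s => co e' (ι (c s))) I t =
        push ι e e' (co e (c t)) (derivWithin (fun s => co e (c s)) I t) := by
  have hne : Nonempty M.pt := ⟨c t⟩
  have hdom : co e (c t) ∈ dom ι e e' := ⟨co_mem he, by rw [inv_co he]; exact he'⟩
  have hdom' : co e (c t) ∈ (theta e e' ι h).source := by rw [theta_source]; exact hdom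
  have hopen : IsOpen (dom ι e e') := by
    rw [← theta_source (h := h)]; exact (theta e e' ι h).open_source
  have hr : ContDiffAt ℝ ∞ (rep ι e e') (co e (c t)) :=
    (hI.old e e').1.contDiffAt (hopen.mem_nhds hdom)
  have hev : (fun s => co e' (ι (c s))) =ᶠ[𝓝[I] t] (rep ι e e' ∘ fun s => co e (c s)) := by
    filter_upwards [hc.preimage_mem_nhdsWithin ((M.toE e).open_source.mem_nhds he)] with s hs
    have hs' : On e (c s) := hs
    simp only [Function.comp, rep]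
    rw [inv_co hs']
  have heq : (fun s => co e' (ι (c s))) t = (rep ι e e' ∘ fun s => co e (c s)) t := by
    simp only [Function.comp, rep]
    rw [inv_co he]
  have h1 : ContDiffWithinAt ℝ 1 (rep ι e e' ∘ fun s => co e (c s)) I t :=
    ContDiffAt.comp_contDiffWithinAt t (hr.of_le (by norm_cast)) hd
  refine ⟨h1.congr_of_eventuallyEq hev heq, ?_⟩
  rw [hev.derivWithin_eq heq]
  have h2 : HasDerivWithinAt (fun s => co e (c s)) (derivWithin (fun s => co e (c s)) I t) I t :=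
    (hd.differentiableWithinAt (by simp)).hasDerivWithinAt
  have h3 : HasFDerivAt (rep ι e e') (fderiv ℝ (rep ι e e') (co e (c t))) (co e (c t)) :=
    (hr.differentiableAt (by simp)).hasFDerivAt
  rw [(h3.comp_hasDerivWithinAt t h2).derivWithin hu, push_eq (h := h) hI hdom', theta_eq_rep]

lemma push_pull (hI : IsIsom ι) {y : R4} (hy : y ∈ dom ι e e') (a b : R4) :
    N.g e' (rep ι e e' y) (push ι e e' y a) (push ι e e' y b) = M.g e y a b :=
  (((hI.old e e').2 y hy).1 a b).symm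

lemma rep_mem {y : R4} (hy : y ∈ dom ι e e') : rep ι e e' y ∈ tgt e' := co_mem hy.2

lemma rep_co {p : M.pt} (he : On e p) : rep ι e e' (co e p) = co e' (ι p) := by
  unfold rep; rw [inv_co he]

/-- future directed vectors are pushed to future directed vectors -/
lemma push_future (hg : IsSpacetime Reg M) (hg' : IsSpacetime Reg' N)
    (hI : IsIsom ι) {y : R4} (hy : y ∈ dom ι e e') {w : R4} (hw : M.g e y w w < 0)
    (hwX : M.g e y w (M.X e y) < 0) :
    N.g e' (rep ι e e' y) (push ι e e' y w) (N.X e' (rep ι e e' y)) < 0 := by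
  have hy' := rep_mem hy
  have h1 := push_pull (e := e) (e' := e') hI hy w w
  have h2 := push_pull (e := e) (e' := e') hI hy w (M.X e y)
  have h3 := push_pull (e := e) (e' := e') hI hy (M.X e y) (M.X e y)
  have h4 := ((hI.old e e').2 y hy).2
  refine hg'.same_cone e' hy' (t := push ι e e' y (M.X e y)) ?_ ?_ ?_ ?_ ?_
  · rw [h3]; exact hg.timelike e y hy.1
  · rw [h1]; exact hw
  · rw [h2]; exact hwX
  · exact (hg'.timelike e' _ hy').le
  · rw [hg'.symm e' hy']; exact h4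

/-- and conversely -/
lemma push_future_conv (hg : IsSpacetime Reg M) (hg' : IsSpacetime Reg' N)
    (hI : IsIsom ι) {y : R4} (hy : y ∈ dom ι e e') {w : R4} (hw : M.g e y w w < 0)
    (hwX : N.g e' (rep ι e e' y) (push ι e e' y w) (N.X e' (rep ι e e' y)) < 0) :
    M.g e y w (M.X e y) < 0 := by
  have hy' := rep_mem hy
  have h1 := push_pull (e := e) (e' := e') hI hy w w
  have h2 := push_pull (e := e) (e' := e') hI hy w (M.X e y)
  have h3 := push_pull (e := e) (e' := e') hI hy (M.X e y) (M.X e y)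
  have h4 := ((hI.old e e').2 y hy).2
  rw [← h2]
  refine hg'.same_cone e' hy' (t := N.X e' (rep ι e e' y)) ?_ ?_ hwX ?_ h4
  · exact hg'.timelike e' _ hy'
  · rw [h1]; exact hw
  · rw [h3]; exact (hg.timelike e y hy.1).le

/-- The image of a future curve is a future curve. -/
lemma IsFutureCurve.push_map (h : IsOpenEmbedding ι) (hg : IsSpacetime Reg M)
    (hg' : IsSpacetime Reg' N) (hI : IsIsom ι) (hu : UniqueDiffOn ℝ I)
    {c : ℝ → M.pt} (hc : IsFutureCurve M m I c) : IsFutureCurve N m I (fun t => ι (c t)) := by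
  refine ⟨h.continuous.comp_continuousOn hc.1, fun t ht e' he' => ?_⟩
  obtain ⟨e, he⟩ := M.cover (c t)
  replace he : On e (c t) := he
  obtain ⟨h1, h2⟩ := hc.2 t ht e he
  obtain ⟨h3, h4, h5⟩ := h2 _ _ rfl rfl
  obtain ⟨k1, k2⟩ := curve_push (e := e) (e' := e') h hI (hc.1 t ht) he he' h1 (hu t ht)
  have hdom : co e (c t) ∈ dom ι e e' := ⟨co_mem he, by rw [inv_co he]; exact he'⟩
  refine ⟨k1, fun y w hy hw => ?_⟩
  subst hw
  subst hy
  rw [k2, ← rep_co (e' := e') (ι := ι) he]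
  refine ⟨?_, ?_, push_future hg hg' hI hdom h3 h5⟩
  · rw [push_pull hI hdom]; exact h3
  · rw [push_pull hI hdom]; exact h4

/-- A curve whose image is a future curve is a future curve. -/
lemma IsFutureCurve.pull_map (h : IsOpenEmbedding ι) (hg : IsSpacetime Reg M)
    (hg' : IsSpacetime Reg' N) (hI : IsIsom ι) (hu : UniqueDiffOn ℝ I)
    {c : ℝ → M.pt} (hc : IsFutureCurve N m I (fun t => ι (c t))) : IsFutureCurve M m I c := by
  have hcont : ContinuousOn c I := by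
    rw [h.isInducing.continuousOn_iff]
    exact hc.1
  refine ⟨hcont, fun t ht e he => ?_⟩
  have hne : Nonempty M.pt := ⟨c t⟩
  obtain ⟨e', he'⟩ := N.cover (ι (c t))
  replace he' : On e' (ι (c t)) := he'
  obtain ⟨h1, h2⟩ := hc.2 t ht e' he'
  obtain ⟨h3, h4, h5⟩ := h2 _ _ rfl rfl
  have hdom : co e (c t) ∈ dom ι e e' := ⟨co_mem he, by rw [inv_co he]; exact he'⟩
  have hrep : rep ι e e' (co e (c t)) = co e' (ι (c t)) := rep_co he
  -- the curve in the chart e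
  have hy : co e' (ι (c t)) ∈ (theta e e' ι h).target :=
    mem_theta_target.2 ⟨co_mem he', c t, he, (inv_co he').symm⟩
  have hs := theta_symm_contDiffOn (h := h) (e := e) (e' := e') hg hg' hI
  have hsat : ContDiffAt ℝ ∞ (theta e e' ι h).symm (co e' (ι (c t))) :=
    hs.contDiffAt ((theta e e' ι h).open_target.mem_nhds hy)
  have hev : (fun s => co e (c s)) =ᶠ[𝓝[I] t]
      ((theta e e' ι h).symm ∘ fun s => co e' (ι (c s))) := by
    filter_upwards [(hcont t ht).preimage_mem_nhdsWithin ((M.toE e).open_source.mem_nhds he),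
      (hc.1 t ht).preimage_mem_nhdsWithin ((N.toE e').open_source.mem_nhds he')] with s hs1 hs2
    have hs1' : On e (c s) := hs1
    have hs2' : On e' (ι (c s)) := hs2
    simp only [Function.comp]
    rw [theta_symm_apply hs1' (co_mem hs2') (inv_co hs2').symm]
  have heq : (fun s => co e (c s)) t = ((theta e e' ι h).symm ∘ fun s => co e' (ι (c s))) t := by
    simp only [Function.comp]
    rw [theta_symm_apply he (co_mem he') (inv_co he').symm]
  have hd : ContDiffWithinAt ℝ 1 (fun s => co e (c s)) I t := by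
    have : ContDiffWithinAt ℝ 1 ((theta e e' ι h).symm ∘ fun s => co e' (ι (c s))) I t :=
      ContDiffAt.comp_contDiffWithinAt t (hsat.of_le (by norm_cast)) h1
    exact this.congr_of_eventuallyEq hev heq
  obtain ⟨k1, k2⟩ := curve_push (e := e) (e' := e') h hI (hcont t ht) he he' hd (hu t ht)
  refine ⟨hd, fun y w hy hw => ?_⟩
  subst hw
  subst hy
  rw [k2, ← hrep] at h3 h4 h5
  rw [push_pull hI hdom] at h3 h4
  exact ⟨h3, h4, push_future_conv hg hg' hI hdom h3 h5⟩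

end

section

variable {M : Spc} {Reg : (R4 → ℝ) → Set R4 → Prop} {m : ℝ} {I J : Set ℝ}

/-- It suffices to check the conditions on a future curve in one chart at each point. -/
lemma isFutureCurve_of_charts (hg : IsSpacetime Reg M) {c : ℝ → M.pt}
    (hc : ContinuousOn c I) (hu : UniqueDiffOn ℝ I)
    (h : ∀ t ∈ I, ∃ e : M.Chart, On e (c t) ∧
      ContDiffWithinAt ℝ 1 (fun s => co e (c s)) I t ∧
      ∀ y w, y = co e (c t) → w = derivWithin (fun s => co e (c s)) I t →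
        M.g e y w w < 0 ∧ M.g e y w w ≤ -m ∧ M.g e y w (M.X e y) < 0) :
    IsFutureCurve M m I c := by
  refine ⟨hc, fun t ht e' he' => ?_⟩
  obtain ⟨e, he, h1, h2⟩ := h t ht
  obtain ⟨h3, h4, h5⟩ := h2 _ _ rfl rfl
  have hI : IsIsom (M := M) (N := M) id := hg.tensor
  obtain ⟨k1, k2⟩ := curve_push (e := e) (e' := e') (ι := id) IsOpenEmbedding.id hI (hc t ht) he
    he' h1 (hu t ht)
  have hdom : co e (c t) ∈ dom id e e' := ⟨co_mem he, by rw [inv_co he]; exact he'⟩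
  have hrep : rep id e e' (co e (c t)) = co e' (c t) := rep_co (ι := id) he
  refine ⟨k1, fun y w hy hw => ?_⟩
  have hw' : w = push id e e' (co e (c t)) (derivWithin (fun s => co e (c s)) I t) := by
    rw [hw]; exact k2
  subst hy
  rw [hw', ← hrep]
  refine ⟨?_, ?_, push_future hg hg hI hdom h3 h5⟩
  · rw [push_pull hI hdom]; exact h3
  · rw [push_pull hI hdom]; exact h4

lemma IsFutureCurve.mono {c : ℝ → M.pt} (hc : IsFutureCurve M m I c) (hJ : J ⊆ I)
    (hu : UniqueDiffOn ℝ J) : IsFutureCurve M m J c := by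
  refine ⟨hc.1.mono hJ, fun t ht e he => ?_⟩
  obtain ⟨h1, h2⟩ := hc.2 t (hJ ht) e he
  refine ⟨h1.mono hJ, fun y w hy hw => h2 y w hy ?_⟩
  rw [hw]
  exact ((h1.differentiableWithinAt (by simp)).hasDerivWithinAt.mono hJ).derivWithin (hu t ht)

/-- being a future curve depends only on the values on the interval -/
lemma IsFutureCurve.congr {c c' : ℝ → M.pt} (hc : IsFutureCurve M m I c)
    (h : ∀ t ∈ I, c' t = c t) : IsFutureCurve M m I c' := by
  refine ⟨hc.1.congr h, fun t ht e he => ?_⟩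
  rw [h t ht] at he
  obtain ⟨h1, h2⟩ := hc.2 t ht e he
  have hEq : ∀ s ∈ I, co e (c' s) = co e (c s) := fun s hs => by rw [h s hs]
  refine ⟨h1.congr hEq (hEq t ht), fun y w hy hw => ?_⟩
  rw [derivWithin_congr hEq (hEq t ht)] at hw
  rw [h t ht] at hy
  exact h2 y w hy hw

end

section

variable {M N : Spc} {ι : M.pt → N.pt}

/-- Future curves in N contained in M except for the end point give future rays. -/
lemma ray_of_curve {pp : ENNReal} (hM : IsSpacetime IsSmooth M) (hN : IsSpacetime (IsC0W1 pp) N)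
    (h : IsOpenEmbedding ι) (hI : IsIsom ι)
    {a : ℝ → M.pt} {c : ℝ → N.pt} (hc : IsFutureCurve N 0 (Icc 0 1) c)
    (ha : ∀ t ∈ Ico (0:ℝ) 1, ι (a t) = c t) : IsFutureCurve M 0 (Ico 0 1) a := by
  have hu : UniqueDiffOn ℝ (Ico (0:ℝ) 1) := uniqueDiffOn_Ico 0 1
  refine IsFutureCurve.pull_map h hM hN hI hu ?_
  exact (hc.mono Ico_subset_Icc_self hu).congr ha

end

end Vale.Agent.P354p
end
end

section

section

set_option maxSynthPendingDepth 3

open Set Filter Topology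

namespace Vale.Agent.P354

namespace SHyp

variable {K : Coef} {G : P4 → P4 →L[ℝ] P4 →L[ℝ] ℝ} {Psi Phi : P4 → P4} {V : Set P4}
  {R0 ρ C : ℝ} {p0 : P4}

lemma gF_smul_sq (K : Coef) (y w : P4) (b : ℝ) :
    K.gF y (b • w) (b • w) = b ^ 2 * K.gF y w w := by
  simp only [Coef.gF, Coef.h1, Coef.h2, Prod.smul_fst, Prod.smul_snd, smul_eq_mul]
  ring

/-- the perturbed curve -/
lemma pert_curve (H : SHyp K G Psi Phi V R0 ρ C p0) {x : P3} {t0 T c A η : ℝ} {ps : P4}
    (g : GoodL K Psi V p0 x t0 T c A η ps) {s e η' : ℝ} (hs : 0 < s) (he : 0 < e)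
    (hsT : s ≤ T - t0) (hee : η + e ≤ η') (hηρ : η' < ρ)
    (he1 : 224 * C ^ 4 * A ^ 2 * e ≤ 1) (he2 : 704 * C ^ 2 * A * e ≤ s) (he3 : e ≤ A * s) {q : P4}
    (hqneg : q.2.1 < 0) {t2 : ℝ} (ht2I : t2 ∈ Ico (T - s / 2) T)
    (ht2v : (Psi (t2, x)).2.1 = q.2.1) (ht2s : T - t2 ≤ s / 4) (hdn : ‖q - Psi (t2, x)‖ ≤ e) :
    ∃ c c' : ℝ → P4, c 0 = Psi (T - s / 2, x) ∧ c 1 = q ∧
      (∀ τ ∈ Icc (0:ℝ) 1, HasDerivAt c (c' τ) τ) ∧ (∀ τ ∈ Icc (0:ℝ) 1, c τ ∈ KB p0 η' q.2.1) ∧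
      (∀ τ ∈ Icc (0:ℝ) 1, K.gF (c τ) (c' τ) (c' τ) < 0) ∧
      (∀ τ ∈ Icc (0:ℝ) 1, 0 < (c' τ).2.1) ∧
      (∀ τ ∈ Icc (0:ℝ) 1, (c τ).2.2.1 ≤ ps.2.2.1 + A * s) := by
  have hta' : T - s / 2 ∈ Ico t0 T := ⟨by linarith only [hs, hsT], by linarith only [hs]⟩
  have ht2 : t2 ∈ Ico t0 T := ⟨hta'.1.trans ht2I.1, ht2I.2⟩
  set b : ℝ := t2 - (T - s / 2) with hb
  have hbs : s / 4 ≤ b := by rw [hb]; linarith only [ht2s]
  have hb0 : 0 < b := by linarith only [hs, ht2s, hb]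
  set d : P4 := q - Psi (t2, x) with hd
  have hd2 : d.2.1 = 0 := by
    have : d.2.1 = q.2.1 - (Psi (t2, x)).2.1 := rfl
    rw [this, ht2v, sub_self]
  set c1 : ℝ → P4 := fun τ => Psi (T - s / 2 + τ * b, x) + τ • d with hc
  set c' : ℝ → P4 := fun τ => b • fderiv ℝ Psi (T - s / 2 + τ * b, x) Tv + d with hc'
  have htm : ∀ τ ∈ Icc (0:ℝ) 1, T - s / 2 + τ * b ∈ Ico t0 T ∧ T - s / 2 + τ * b ≤ t2 := by
    intro τ hτ
    have h1 : 0 ≤ τ * b := mul_nonneg hτ.1 hb0.le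
    have h2 : τ * b ≤ 1 * b := mul_le_mul_of_nonneg_right hτ.2 hb0.le
    have h3 : T - s / 2 + τ * b ≤ t2 := by rw [hb] at h2 ⊢; linarith only [h2]
    exact ⟨⟨by linarith only [hs, hsT, h1], h3.trans_lt ht2.2⟩, h3⟩
  have hcv2 : ∀ τ, (c1 τ).2.1 = (Psi (T - s / 2 + τ * b, x)).2.1 := by
    intro τ
    have : (c1 τ).2.1 = (Psi (T - s / 2 + τ * b, x)).2.1 + τ * d.2.1 := rfl
    rw [this, hd2, mul_zero, add_zero]
  have hcd : ∀ τ ∈ Icc (0:ℝ) 1, HasDerivAt c1 (c' τ) τ := by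
    intro τ hτ
    have h1 : HasDerivAt (fun τ : ℝ => T - s / 2 + τ * b) b τ := by
      simpa only [hasDerivAt_const_add_iff, id_eq, one_mul] using     ((hasDerivAt_id τ).mul_const b).const_add (T - s / 2)
    have h2 := (g.vel _ (htm τ hτ).1).scomp τ h1
    have h3 : HasDerivAt (fun τ : ℝ => τ • d) d τ := by
      simpa only [id_eq, one_smul] using (hasDerivAt_id τ).smul_const d
    exact h2.add h3
  have htd : ∀ τ ∈ Icc (0:ℝ) 1, ‖c1 τ - Psi (T - s / 2 + τ * b, x)‖ ≤ e := by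
    intro τ hτ
    have h1 : c1 τ - Psi (T - s / 2 + τ * b, x) = τ • d := by
      show Psi (T - s / 2 + τ * b, x) + τ • d - Psi (T - s / 2 + τ * b, x) = τ • d
      abel
    rw [h1, norm_smul, Real.norm_eq_abs, abs_of_nonneg hτ.1]
    calc τ * ‖d‖ ≤ 1 * e := mul_le_mul hτ.2 hdn (norm_nonneg _) zero_le_one
      _ = e := one_mul e
  have hcK : ∀ τ ∈ Icc (0:ℝ) 1, c1 τ ∈ KB p0 η' q.2.1 := by
    intro τ hτ
    obtain ⟨h1, h2⟩ := htm τ hτ
    constructor
    · have h3 : c1 τ - p0 = (c1 τ - Psi (T - s / 2 + τ * b, x)) +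
          (Psi (T - s / 2 + τ * b, x) - p0) := by abel
      rw [h3]
      refine (norm_add_le _ _).trans ?_
      linarith only [hee, htd τ hτ, g.bd _ h1]
    · show (c1 τ).2.1 ≤ _
      rw [hcv2]
      have h3 := g.vinc _ h1 t2 ht2 h2
      have h4 : 0 ≤ c * (t2 - (T - s / 2 + τ * b)) := mul_nonneg g.c_pos.le (by linarith only [h2])
      linarith only [ht2v, h3, h4]
  have hcMB : ∀ τ ∈ Icc (0:ℝ) 1, c1 τ ∈ MB p0 ρ := fun τ hτ => KB_sub hηρ hqneg (hcK τ hτ)
  refine ⟨c1, c', ?_, ?_, hcd, hcK, ?_, ?_, ?_⟩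
  · show Psi (T - s / 2 + 0 * b, x) + (0:ℝ) • d = _
    rw [zero_mul, add_zero, zero_smul, add_zero]
  · show Psi (T - s / 2 + 1 * b, x) + (1:ℝ) • d = q
    have : T - s / 2 + 1 * b = t2 := by rw [hb]; ring
    rw [this, one_smul, hd]; abel
  · intro τ hτ
    obtain ⟨h1, h2⟩ := htm τ hτ
    have hzV := g.mem _ h1
    have hpert := pert_neg (K := K) (C := C) (x := Psi (T - s / 2 + τ * b, x)) (y := c1 τ)
      (a := fderiv ℝ Psi (T - s / 2 + τ * b, x) Tv) (p := b⁻¹ • d) (A := A) (e := e)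
      (e' := 4 * e / s) (H.cbd hzV) (H.bd _ (hcMB τ hτ))
      (H.lip _ (hcMB τ hτ) _ (H.maps _ hzV) (hcv2 τ)) (htd τ hτ) he.le g.one (g.good _ h1)
      (g.vpos _ h1) (g.neg _ h1)
      (by
        rw [norm_smul, norm_inv, Real.norm_eq_abs, abs_of_pos hb0]
        have h3 : b⁻¹ ≤ 4 / s := by
          rw [inv_le_comm₀ hb0 (by positivity), inv_div]
          exact hbs
        calc b⁻¹ * ‖d‖ ≤ 4 / s * e := mul_le_mul h3 hdn (norm_nonneg _) (by positivity)
          _ = 4 * e / s := by ring)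
      (by positivity) (by
        show b⁻¹ * d.2.1 = 0
        rw [hd2, mul_zero]) he1 (by
        have : 176 * C ^ 2 * A * (4 * e / s) = (704 * C ^ 2 * A * e) / s := by ring
        rw [this, div_le_one hs]
        exact he2)
    have h4 : c' τ = b • (fderiv ℝ Psi (T - s / 2 + τ * b, x) Tv + b⁻¹ • d) := by
      show b • fderiv ℝ Psi (T - s / 2 + τ * b, x) Tv + d = _
      rw [smul_add, smul_smul, mul_inv_cancel₀ hb0.ne', one_smul]
    rw [h4, gF_smul_sq]
    have h6 : 0 < b ^ 2 := by (clear * - hb0; positivity)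
    linarith only [mul_pos (sub_pos.2 hpert) (sub_pos.2 h6)]
  · intro τ hτ
    have : (c' τ).2.1 = b * (fderiv ℝ Psi (T - s / 2 + τ * b, x) Tv).2.1 + d.2.1 := rfl
    rw [this, hd2, add_zero]
    exact mul_pos hb0 (g.vpos _ (htm τ hτ).1)
  · intro τ hτ
    have h3 := g.uT _ (htm τ hτ).1
    have h4 : (c1 τ).2.2.1 = (Psi (T - s / 2 + τ * b, x)).2.2.1 + τ * d.2.2.1 := rfl
    have h5 : τ * d.2.2.1 ≤ e := by
      refine (le_abs_self _).trans ?_
      rw [abs_mul, abs_of_nonneg hτ.1]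
      have h6 := (norm_P4_le.1 hdn).2.2.1
      calc τ * |d.2.2.1| ≤ 1 * e := mul_le_mul hτ.2 h6 (abs_nonneg _) zero_le_one
        _ = e := one_mul e
    rw [h4]
    linarith only [he3, h3, h5]

/-- a point of the box near the end of a good line has a preimage near the exit point -/
lemma cover_pt (H : SHyp K G Psi Phi V R0 ρ C p0) {x : P3} {t0 T c A η : ℝ} {ps : P4}
    (g : GoodL K Psi V p0 x t0 T c A η ps) {s e η' ω δ r1 : ℝ} (hs : 0 < s) (he : 0 < e)
    (hsT : s ≤ T - t0) (hee : η + e ≤ η') (hη' : 5 * C * η' < ρ) (hηρ : η' < ρ)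
    (he1 : 224 * C ^ 4 * A ^ 2 * e ≤ 1) (he2 : 704 * C ^ 2 * A * e ≤ s) (he3 : e ≤ A * s)
    (hω : 0 < ω) (hω1 : ω ≤ 1 / 100) (hcl : CloseTo G (T, x) δ ω) (hN : NearM (G (T, x)))
    (hωs : 64 * ω * (2 * δ) ≤ s) (hr1 : r1 < δ) (hr1s : 289 * C ^ 2 * A ^ 2 * s < r1)
    (hsr : s ≤ r1) (hR : Metric.closedBall ((T, x) : P4) r1 ⊆ Metric.ball 0 R0) {q : P4}
    (hq0 : -(c * min (s / 4) (e / (2 * A))) ≤ q.2.1) (hqneg : q.2.1 < 0)
    (hq1 : |q.1 - ps.1| < e / 2) (hq2 : |q.2.2.1 - ps.2.2.1| < e / 2)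
    (hq3 : |q.2.2.2 - ps.2.2.2| < e / 2) :
    ∃ z ∈ V, Psi z = q ∧ (0 < (z - (T - s, x)).1 ∧ ∀ p, ‖p - (T, x)‖ < δ →
        G p (z - (T - s, x)) (z - (T - s, x)) < 0) ∧ InV V (T - s, x) z ∧
      ‖z - (T, x)‖ < r1 ∧ ‖Psi z - p0‖ ≤ η' := by
  obtain ⟨t2, h1, h2, h3, h4⟩ := g.time hs he hsT hq0 hqneg hq1 hq2 hq3
  obtain ⟨cu, cu', c0, c1, c2, c3, c4, c5, c6⟩ := H.pert_curve g hs he hsT hee hηρ he1 he2 he3
    hqneg h1 h2 h3 h4
  have hts : T - s ∈ Ico t0 T := ⟨by linarith only [hsT], by linarith only [hs]⟩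
  have hps1 := g.lim _ hts
  have hTs : T - (T - s) = s := by ring
  rw [hTs] at hps1
  obtain ⟨k1, k2, k3, k4⟩ := norm_P4_le.1 hps1
  simp only [Prod.fst_sub, Prod.snd_sub, g.ps0, zero_sub, abs_neg] at k1 k2 k3 k4
  obtain ⟨hq, hz, hzin, hzE⟩ := H.lift_gen (x := x) (T := T) (Cx := A) (δ := δ)
    (ω := ω) (s := s) (η := η') (vs := q.2.1) (pu := ps.2.2.1) (r1 := r1)
    hω hω1 hcl hN hs (by linarith only [hr1, hsr]) g.one hη' hηρ hqneg
    (fun t ht => ⟨g.mem t ⟨hts.1.trans ht.1, by linarith only [hs, ht.2]⟩,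
      (g.bd t ⟨hts.1.trans ht.1, by linarith only [hs, ht.2]⟩).trans (by linarith only [he, hee])⟩)
    (by linarith only [(abs_le.1 k3).2]) (by linarith only [(abs_le.1 k2).1])
    hωs hr1 hr1s hsr hR c0 c2 c3 c4 c5 c6
  rw [c1] at hq hz hzin hzE
  obtain ⟨hzV, hzq⟩ := H.Phi_mem hq
  have hqK := c3 1 ⟨zero_le_one, le_rfl⟩
  rw [c1] at hqK
  exact ⟨Phi q, hzV, hzq, hz, hzin, hzE.trans_lt hr1s, by rw [hzq]; exact hqK.1⟩

end SHyp

end Vale.Agent.P354
end
end

section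

section

set_option maxSynthPendingDepth 3

open Set Filter Topology

namespace Vale.Agent.P354

lemma NearM.add_T {B : P4 →L[ℝ] P4 →L[ℝ] ℝ} (h : NearM B) {w : P4} (hw : B w w < 0)
    (hw1 : 0 < w.1) {l : ℝ} (hl : 0 ≤ l) : B (w + l • Tv) (w + l • Tv) < 0 := by
  obtain ⟨h3, h4⟩ := h.T_le hw.le hw1
  have h5 : B Tv Tv < 0 := by
    have hTc : Tv ∈ cone (1 / 4) := by simp only [one_div, Tv, mem_cone, Prod.norm_mk, norm_zero, max_self, mul_one, inv_nonneg, Nat.ofNat_nonneg]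
    have := h.timelike_of_cone hTc
    have h2 : (Tv : P4).1 = 1 := rfl
    rw [h2] at this
    linarith only [this]
  have h6 : B (w + l • Tv) (w + l • Tv) = B w w + l * (B w Tv + B Tv w) + l ^ 2 * B Tv Tv := by
    rw [bil_left, map_add, map_add, map_smul, map_smul, smul_eq_mul, smul_eq_mul]
    ring
  rw [h6]
  have h7 : 0 ≤ ‖w‖ := norm_nonneg _
  have h8 : l * (B w Tv + B Tv w) ≤ 0 :=
    mul_nonpos_of_nonneg_of_nonpos hl (by linarith only [h3, h4, h7])
  have h9 : l ^ 2 * B Tv Tv ≤ 0 :=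
    mul_nonpos_of_nonneg_of_nonpos (by (clear * -; positivity)) h5.le
  linarith only [hw, h8, h9]

lemma down_eq (z : P4) (a l : ℝ) (x : P3) :
    z - ((a - l, x) : P4) = (z - ((a, x) : P4)) + l • Tv := by
  refine Prod.ext ?_ ?_
  · show z.1 - (a - l) = (z.1 - a) + l * 1
    ring
  · show z.2 - x = (z.2 - x) + l • (0 : P3)
    simp only [smul_zero, add_zero]

lemma down_norm (T a : ℝ) (x : P3) : ‖((a, x) : P4) - ((T, x) : P4)‖ = |a - T| := by
  have : ((a, x) : P4) - ((T, x) : P4) = (a - T) • Tv := by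
    refine Prod.ext ?_ ?_
    · show a - T = (a - T) * 1
      ring
    · show x - x = (a - T) • (0 : P3)
      simp
  rw [this, norm_smul, norm_Tv, mul_one, Real.norm_eq_abs]

namespace SHyp

variable {K : Coef} {G : P4 → P4 →L[ℝ] P4 →L[ℝ] ℝ} {Psi Phi : P4 → P4} {V : Set P4}
  {R0 ρ C : ℝ} {p0 : P4}

/-- first push: down the vertical line over `x` -/
lemma push_down (H : SHyp K G Psi Phi V R0 ρ C p0) {x : P3} {t0 T c A η : ℝ} {ps : P4}
    (g : GoodL K Psi V p0 x t0 T c A η ps) {s η' r1 : ℝ} (hs : 0 < s) (hsr : s ≤ r1)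
    (hee : η ≤ η') (hη' : 5 * C * η' < ρ) (hr10 : 0 < r1) (hr1d : r1 ≤ (T - t0) / 8)
    (hE : ‖((T, x) : P4)‖ ≤ R0 / 2) (hr1b : r1 ≤ R0 / 32) {z : P4} (hzV : z ∈ V)
    (hz1 : 0 < (z - (T - s, x)).1)
    (hz2 : ∀ p, ‖p - (T, x)‖ < 8 * r1 → G p (z - (T - s, x)) (z - (T - s, x)) < 0)
    (hin : InV V (T - s, x) z) (hzE : ‖z - (T, x)‖ < r1) (hzη : ‖Psi z - p0‖ ≤ η') :
    InV V (t0, x) z := by
  have hneg := (H.maps z hzV).2
  have hts : T - s ∈ Ico t0 T := ⟨by linarith only [hs, hsr, hr1d], by linarith only [hs]⟩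
  have hzx : ‖z.2 - x‖ < r1 := (norm_snd_le (z - (T, x))).trans_lt hzE
  have hz1T : |z.1 - T| < r1 := (norm_fst_le (z - (T, x))).trans_lt hzE
  obtain ⟨hz1a, hz1b⟩ := abs_lt.1 hz1T
  have hlam : ∀ l ∈ Icc (0:ℝ) 1, 0 ≤ l * (T - s - t0) ∧ l * (T - s - t0) ≤ T - s - t0 := by
    intro l hl
    refine ⟨mul_nonneg hl.1 (by linarith only [hs, hsr, hr1d]), ?_⟩
    have := mul_le_mul_of_nonneg_right hl.2 (show 0 ≤ T - s - t0 by linarith only [hs, hsr, hr1d])
    linarith only [this]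
  have hmem : ∀ l ∈ Icc (0:ℝ) 1, T - s - l * (T - s - t0) ∈ Ico t0 T := by
    intro l hl
    obtain ⟨h1, h2⟩ := hlam l hl
    exact ⟨by linarith only [h2], by linarith only [hs, h1]⟩
  have key := H.pushG (η := η') (vs := (Psi z).2.1) hη' hneg
    (a := fun l => (T - s - l * (T - s - t0), x)) (b := fun _ => z) (by fun_prop)
    continuous_const ?_ ?_ (fun l _ => ⟨hzV, hzη, le_rfl⟩) ?_ 1 ⟨zero_le_one, le_rfl⟩
  · have e1 : ((T - s - 1 * (T - s - t0), x) : P4) = (t0, x) := by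
      refine Prod.ext ?_ rfl
      show T - s - 1 * (T - s - t0) = t0
      ring
    rwa [e1] at key
  · intro l hl
    obtain ⟨hl0, hl1⟩ := hlam l hl
    have hal := g.mem _ (hmem l hl)
    set lam := l * (T - s - t0) with hlamd
    have e2 : (z - ((T - s - lam, x) : P4)).1 = (z - ((T - s, x) : P4)).1 + lam := by
      show z.1 - (T - s - lam) = z.1 - (T - s) + lam
      ring
    refine ⟨fun τ hτ => ?_, by rw [e2]; linarith only [hz1, hl0]⟩
    have hpR := ball_seg (H.V_sub hal) (H.V_sub hzV) hτ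
    rcases le_total lam (6 * r1) with hc6 | hc6
    · have hpE : ‖((T - s - lam, x) : P4) + τ • (z - ((T - s - lam, x) : P4)) - (T, x)‖ <
          8 * r1 := by
        refine ball_segE ?_ (by linarith only [hs, hsr, hzE]) hτ
        rw [down_norm, abs_of_nonpos (by linarith only [hs, hl0])]
        linarith only [hs, hsr, hc6]
      have h1 := hz2 _ hpE
      rw [down_eq z (T - s) lam x] at h1 hpR ⊢
      exact (H.near _ hpR).add_T h1 hz1 hl0
    · have hcone : z - ((T - s - lam, x) : P4) ∈ cone (1 / 4) := by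
        rw [mem_cone]
        have e1 : (z - ((T - s - lam, x) : P4)).2 = z.2 - x := rfl
        have e3 : (z - ((T - s - lam, x) : P4)).1 = z.1 - (T - s - lam) := rfl
        rw [e1, e3]
        linarith only [hs, hsr, hzx, hz1a, hc6]
      have h1 := (H.near _ hpR).timelike_of_cone hcone
      have h2 : 0 < (z - ((T - s - lam, x) : P4)).1 := by rw [e2]; linarith only [hs, hsr, hz1, hc6]
      have h3 : 0 < (z - ((T - s - lam, x) : P4)).1 ^ 2 := by (clear * - h2; positivity)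
      linarith only [h1, h3]
  · intro l hl
    exact ⟨g.mem _ (hmem l hl), (g.bd _ (hmem l hl)).trans hee⟩
  · have : ((T - s - 0 * (T - s - t0), x) : P4) = (T - s, x) := by
      rw [zero_mul, sub_zero]
    rw [this]; exact hin

/-- second push: along the slice `t0` -/
lemma push_slice (H : SHyp K G Psi Phi V R0 ρ C p0) {x : P3} {t0 r T η' r1 : ℝ}
    (hx : x ∈ Metric.ball (0 : P3) r)
    (hmem : ∀ y ∈ Metric.ball (0 : P3) r, ((t0, y) : P4) ∈ V ∧ ‖Psi (t0, y) - p0‖ ≤ η')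
    (hη' : 5 * C * η' < ρ) (hr1d : r1 ≤ (T - t0) / 8) (hr10 : 0 < r1) {z : P4} (hzV : z ∈ V)
    (hzr : z.2 ∈ Metric.ball (0 : P3) r) (hin : InV V (t0, x) z) (hzE : ‖z - (T, x)‖ < r1)
    (hzη : ‖Psi z - p0‖ ≤ η') : InV V (t0, z.2) z := by
  have hneg := (H.maps z hzV).2
  have hzx : ‖z.2 - x‖ < r1 := (norm_snd_le (z - (T, x))).trans_lt hzE
  have hz1T : |z.1 - T| < r1 := (norm_fst_le (z - (T, x))).trans_lt hzE
  obtain ⟨hz1a, hz1b⟩ := abs_lt.1 hz1T
  have hmemx : ∀ l ∈ Icc (0:ℝ) 1, x + l • (z.2 - x) ∈ Metric.ball (0 : P3) r :=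
    fun l hl => (convex_ball (0 : P3) r).add_smul_sub_mem hx hzr hl
  have key := H.pushG (η := η') (vs := (Psi z).2.1) hη' hneg
    (a := fun l => (t0, x + l • (z.2 - x))) (b := fun _ => z) (by fun_prop)
    continuous_const ?_ ?_ (fun l _ => ⟨hzV, hzη, le_rfl⟩) ?_ 1 ⟨zero_le_one, le_rfl⟩
  · have e1 : ((t0, x + (1:ℝ) • (z.2 - x)) : P4) = (t0, z.2) := by
      rw [one_smul, add_sub_cancel]
    rwa [e1] at key
  · intro l hl
    have e2 : (z - ((t0, x + l • (z.2 - x)) : P4)).1 = z.1 - t0 := rfl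
    have hcone : z - ((t0, x + l • (z.2 - x)) : P4) ∈ cone (1 / 4) := by
      rw [mem_cone]
      have e1 : (z - ((t0, x + l • (z.2 - x)) : P4)).2 = (1 - l) • (z.2 - x) := by
        show z.2 - (x + l • (z.2 - x)) = _
        module
      rw [e1, e2, norm_smul, Real.norm_eq_abs, abs_of_nonneg (by linarith only [hl.2])]
      have h1 : (1 - l) * ‖z.2 - x‖ ≤ 1 * r1 :=
        mul_le_mul (by linarith only [hl.1]) hzx.le (norm_nonneg _) zero_le_one
      linarith only [hr1d, hr10, hz1a, h1]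
    have hal := (hmem _ (hmemx l hl)).1
    have h2 : 0 < (z - ((t0, x + l • (z.2 - x)) : P4)).1 := by rw [e2]; linarith only [hr1d, hr10, hz1a]
    refine ⟨fun τ hτ => ?_, h2⟩
    have h1 := (H.near _ (ball_seg (H.V_sub hal) (H.V_sub hzV) hτ)).timelike_of_cone hcone
    have h3 : 0 < (z - ((t0, x + l • (z.2 - x)) : P4)).1 ^ 2 := by (clear * - h2; positivity)
    linarith only [h1, h3]
  · intro l hl
    exact hmem _ (hmemx l hl)
  · have : ((t0, x + (0:ℝ) • (z.2 - x)) : P4) = (t0, x) := by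
      rw [zero_smul, add_zero]
    rw [this]; exact hin

/-- the preimage lies in the region of the vertical lines -/
lemma in_DD (H : SHyp K G Psi Phi V R0 ρ C p0) {t0 r : ℝ} {f : P3 → ℝ}
    (hexit : ∀ x ∈ Metric.ball (0 : P3) r, ∀ v2 < 0, ∃ t ∈ Ico t0 (f x), v2 < (Psi (t, x)).2.1)
    {z : P4} (hzV : z ∈ V) (hzr : z.2 ∈ Metric.ball (0 : P3) r) (hzt : t0 < z.1)
    (hin : InV V (t0, z.2) z) : z ∈ DD t0 r f := by
  have hneg := (H.maps z hzV).2
  have hvert : ∀ t ∈ Icc t0 z.1, ((t, z.2) : P4) ∈ V := by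
    intro t ht
    have hpos : 0 < z.1 - t0 := by linarith
    have h1 := hin ((t - t0) / (z.1 - t0)) ⟨div_nonneg (by linarith only [ht.1]) hpos.le, by
      rw [div_le_one hpos]; linarith [ht.2]⟩
    have h2 : ((t0, z.2) : P4) + ((t - t0) / (z.1 - t0)) • (z - ((t0, z.2) : P4)) = (t, z.2) := by
      refine Prod.ext ?_ ?_
      · show t0 + (t - t0) / (z.1 - t0) * (z.1 - t0) = t
        rw [div_mul_cancel₀ _ hpos.ne']; ring
      · show z.2 + ((t - t0) / (z.1 - t0)) • (z.2 - z.2) = z.2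
        simp
    rwa [h2] at h1
  refine ⟨hzr, hzt, ?_⟩
  by_contra hcon
  push Not at hcon
  obtain ⟨t, ht, htv⟩ := hexit z.2 hzr _ hneg
  have h1 := H.rel_ends (vline_cone (ht.2.le.trans hcon) z.2) (vline_inV (ht.2.le.trans hcon)
    (fun w hw => hvert w ⟨ht.1.trans hw.1, hw.2⟩))
  have h2 : ((z.1, z.2) : P4) = z := rfl
  rw [h2] at h1
  linarith only [htv, h1.1]

/-- **Openness.** A box neighbourhood of the end point of a good vertical line is covered. -/
theorem openness (H : SHyp K G Psi Phi V R0 ρ C p0) {t0 r η : ℝ} {f : P3 → ℝ}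
    (hη : 5 * C * η < ρ) (ht0f : ∀ x ∈ Metric.ball (0 : P3) r, t0 < f x)
    (hmemV : ∀ x ∈ Metric.ball (0 : P3) r, ∀ t ∈ Ico t0 (f x), ((t, x) : P4) ∈ V)
    (hexit : ∀ x ∈ Metric.ball (0 : P3) r, ∀ v2 < 0, ∃ t ∈ Ico t0 (f x), v2 < (Psi (t, x)).2.1)
    (hbd : ∀ x ∈ Metric.ball (0 : P3) r, ∀ t ∈ Ico t0 (f x), ‖Psi (t, x) - p0‖ ≤ η)
    (hR : ∀ z ∈ DD t0 r f, ‖z‖ ≤ R0 / 2) {x : P3} (hx : x ∈ Metric.ball (0 : P3) r)
    (hG : ContinuousOn G (Metric.ball 0 R0)) {A : ℝ} (hA : 1 ≤ A)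
    (hgood : ∀ t ∈ Ico t0 (f x), ‖fderiv ℝ Psi (t, x) Tv‖ ≤ A) {ε1 : ℝ} (hε1 : 0 < ε1) :
    ∃ ε > 0, ∃ v0 < 0, ∃ ps : P4, ∀ q : P4, v0 ≤ q.2.1 → q.2.1 < 0 → |q.1 - ps.1| < ε →
      |q.2.2.1 - ps.2.2.1| < ε → |q.2.2.2 - ps.2.2.2| < ε →
      ∃ z ∈ DD t0 r f, Psi z = q ∧ ‖z.2 - x‖ < ε1 := by
  have hC := H.one_le
  have hC0 : 0 < C := by linarith
  have hA0 : 0 < A := by linarith only [hA]
  set T := f x with hT
  have htT : t0 < T := ht0f x hx
  set E : P4 := (T, x) with hE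
  obtain ⟨ps, g⟩ := H.exists_goodL htT (hmemV x hx) (hexit x hx) (hbd x hx) hA hgood
  have hη0 : 0 ≤ η := (norm_nonneg _).trans (hbd x hx t0 ⟨le_rfl, htT⟩)
  have hEn : ‖E‖ ≤ R0 / 2 := by
    have h1 : Tendsto (fun t : ℝ => ‖((t, x) : P4)‖) (𝓝[<] T) (𝓝 ‖E‖) := by
      have hcc : Continuous (fun t : ℝ => ‖((t, x) : P4)‖) := by (clear * -; fun_prop)
      exact (hcc.tendsto T).mono_left nhdsWithin_le_nhds
    refine le_of_tendsto h1 ?_
    filter_upwards [Ioo_mem_nhdsLT htT] with t ht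
    exact hR (t, x) ⟨hx, ht.1, ht.2⟩
  have hEball : E ∈ Metric.ball (0 : P4) R0 := by
    rw [mem_ball_zero_iff]; linarith only [hEn, H.R0_pos]
  have hGE : ContinuousAt G E := hG.continuousAt (Metric.isOpen_ball.mem_nhds hEball)
  -- parameters
  set th : ℝ := 1 / (300 * C ^ 2 * A ^ 2) with hth
  have hth0 : 0 < th := by (clear * - hC hA; positivity)
  have hth1 : th ≤ 1 / 300 := by
    rw [hth]
    apply one_div_le_one_div_of_le (by norm_num)
    have h1 : 1 ≤ C ^ 2 := one_le_pow₀ hC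
    have h2 : 1 ≤ A ^ 2 := one_le_pow₀ hA
    nlinarith only [h1, h2]
  obtain ⟨δ0, hδ0, hcl0⟩ := exists_closeTo hGE (show 0 < th / 1024 by (clear * - hC hA; positivity))
  have hxr : ‖x‖ < r := by rwa [mem_ball_zero_iff] at hx
  set r1 : ℝ := min (min (min (δ0 / 8) ε1) (R0 / 32)) (min ((r - ‖x‖) / 2) ((T - t0) / 8)) with hr1
  have hr1a : r1 ≤ δ0 / 8 :=
    ((min_le_left _ _).trans (min_le_left _ _)).trans (min_le_left _ _)
  have hr1e : r1 ≤ ε1 := ((min_le_left _ _).trans (min_le_left _ _)).trans (min_le_right _ _)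
  have hr1b : r1 ≤ R0 / 32 := (min_le_left _ _).trans (min_le_right _ _)
  have hr1c : r1 ≤ (r - ‖x‖) / 2 := (min_le_right _ _).trans (min_le_left _ _)
  have hr1d : r1 ≤ (T - t0) / 8 := (min_le_right _ _).trans (min_le_right _ _)
  have hr10 : 0 < r1 := lt_min (lt_min (lt_min (by linarith only [hδ0]) hε1) (by linarith only [H.R0_pos]))
    (lt_min (by linarith only [hxr]) (by linarith only [htT]))
  have hcl : CloseTo G E (8 * r1) (th / 1024) := fun z hz => hcl0 z (hz.trans_le (by linarith only [hr1a]))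
  set s : ℝ := th * r1 with hs
  have hs0 : 0 < s := by (clear * - hC hA hr10; positivity)
  have hs1 : s ≤ r1 / 300 := by
    rw [hs]
    calc th * r1 ≤ 1 / 300 * r1 := by (clear * - hth1 hr10; gcongr)
      _ = r1 / 300 := by ring
  have hs2 : 289 * C ^ 2 * A ^ 2 * s = 289 / 300 * r1 := by
    rw [hs, hth]; (clear * - hC hA hr10; field_simp)
  set e0 : ℝ := (ρ - 5 * C * η) / (10 * C) with he0
  have he00 : 0 < e0 := div_pos (by linarith only [hη]) (by positivity)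
  have hη' : 5 * C * (η + e0) < ρ := by
    have : 5 * C * e0 = (ρ - 5 * C * η) / 2 := by
      rw [he0]; field_simp; ring
    have h2 : 5 * C * (η + e0) = 5 * C * η + 5 * C * e0 := by ring
    rw [h2, this]; linarith only [hη]
  have hη'ρ : η + e0 < ρ := by
    have h1 : η + e0 ≤ 5 * C * (η + e0) := by
      have : 0 ≤ η + e0 := by linarith only [hη0, he00]
      nlinarith only [hη0, he00, hC]
    linarith only [hη', h1]
  set e : ℝ := min (min e0 (A * s)) (min (1 / (224 * C ^ 4 * A ^ 2)) (s / (704 * C ^ 2 * A)))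
    with he
  have hea : e ≤ e0 := (min_le_left _ _).trans (min_le_left _ _)
  have heb : e ≤ A * s := (min_le_left _ _).trans (min_le_right _ _)
  have hec : e ≤ 1 / (224 * C ^ 4 * A ^ 2) := (min_le_right _ _).trans (min_le_left _ _)
  have hed : e ≤ s / (704 * C ^ 2 * A) := (min_le_right _ _).trans (min_le_right _ _)
  have hepos : 0 < e := lt_min (lt_min he00 (by (clear * - hA hC hr10; positivity))) (lt_min (by positivity) (by (clear * - hC hA hr10; positivity)))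
  have hec' : 224 * C ^ 4 * A ^ 2 * e ≤ 1 := by
    rw [le_div_iff₀ (by positivity)] at hec; linarith only [hec]
  have hed' : 704 * C ^ 2 * A * e ≤ s := by
    rw [le_div_iff₀ (by (clear * - hC hA; positivity))] at hed; linarith only [hed]
  have hR1 : Metric.closedBall E r1 ⊆ Metric.ball 0 R0 := by
    intro z hz
    rw [mem_closedBall_iff_norm] at hz
    rw [mem_ball_zero_iff]
    have : z = (z - E) + E := by abel
    rw [this]
    refine (norm_add_le _ _).trans_lt ?_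
    linarith only [hEn, hr1b, hs0, hs1, hz]
  refine ⟨e / 2, by linarith only [hepos], -(1 / (4 * C * A) * min (s / 4) (e / (2 * A))), ?_, ps, ?_⟩
  · have : 0 < 1 / (4 * C * A) * min (s / 4) (e / (2 * A)) :=
      mul_pos (by (clear * - hC hA; positivity)) (lt_min (by linarith only [hs0]) (by (clear * - hη hC hA hr10; positivity)))
    linarith only [this]
  intro q hq0 hqneg hq1 hq2 hq3
  obtain ⟨z, hzV, hzq, ⟨hz1, hz2⟩, hzin, hzE, hzη⟩ := H.cover_pt g (s := s) (e := e)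
    (η' := η + e0) (ω := th / 1024) (δ := 8 * r1) (r1 := r1) hs0 hepos (by linarith only [hr1d, hs0, hs1]) (by linarith only [hea])
    hη' hη'ρ hec' hed' heb (by (clear * - hC hA; positivity)) (by linarith only [hth1]) hcl (H.near E hEball)
    (by rw [hs]; linarith only []) (by linarith only [hs0, hs1]) (by rw [hs2]; linarith only [hs0, hs1]) (by linarith only [hs0, hs1]) hR1
    hq0 hqneg hq1 hq2 hq3
  have hIn1 := H.push_down g hs0 (by linarith only [hs0, hs1]) (by linarith only [he00] : η ≤ η + e0) hη' hr10 hr1d hEn hr1b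
    hzV hz1 hz2 hzin hzE hzη
  have hzx : ‖z.2 - x‖ < r1 := (norm_snd_le (z - E)).trans_lt hzE
  have hz1T : |z.1 - T| < r1 := (norm_fst_le (z - E)).trans_lt hzE
  have hzr : z.2 ∈ Metric.ball (0 : P3) r := by
    rw [mem_ball_zero_iff]
    have : z.2 = (z.2 - x) + x := by abel
    rw [this]
    refine (norm_add_le _ _).trans_lt ?_
    linarith only [hr1c, hs0, hs1, hzx]
  have hIn2 := H.push_slice (T := T) hx (η' := η + e0) (fun y hy => ⟨hmemV y hy t0
    ⟨le_rfl, ht0f y hy⟩, (hbd y hy t0 ⟨le_rfl, ht0f y hy⟩).trans (by linarith only [he00])⟩) hη' hr1d hr10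
    hzV hzr hIn1 hzE hzη
  exact ⟨z, H.in_DD hexit hzV hzr (by linarith only [hr1d, hs0, hs1, (abs_lt.1 hz1T).1]) hIn2, hzq,
    hzx.trans_le hr1e⟩

end SHyp

end Vale.Agent.P354
end
end

section

section

set_option maxSynthPendingDepth 3

open Set MeasureTheory Filter Topology

namespace Vale.Agent.P354cb

open Vale.Agent.P354w Vale.Agent.P354x Vale.Agent.P354z Vale.Agent.P354a PreHyp CoreHyp

variable {K K' : Coef} {G : P4 → P4 →L[ℝ] P4 →L[ℝ] ℝ} {Psi : P4 → P4} {V U : Set P4}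
    {C R : ℝ} {cv cw cu : ℝ → ℝ} {t0 r : ℝ} {f : P3 → ℝ} {T : P4 ≃L[ℝ] P4}

/-- **The averages of the `v` derivative are bounded**, first direction, uniformly. -/
theorem avg1u (h : PreHyp K G Psi V U C R cv cw cu t0 r f) (hcu : ∀ u, cu u ≤ C) {L κ : ℝ}
    (hL : ∀ z ∈ DD t0 r f, ‖fderiv ℝ G z‖ ≤ L) (hκ : 1 ≤ κ) {O : Set P3} (hO : IsOpen O) {v0 : ℝ}
    (hin : ∀ y ∈ O, ∀ v ∈ Ico v0 0, ∃ z ∈ DD t0 r f, Psi z = ins v y ∧ QQ Psi z ≤ κ) :
    ∃ B : ℝ, 0 ≤ B ∧ ∀ φ : P3 → ℝ, ContDiff ℝ 1 φ → HasCompactSupport φ → tsupport φ ⊆ O →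
      ∀ v ∈ Ico v0 0, Integrable (fun y => φ y * dg K (ins v y)) ∧
      |∫ y, φ y * dg K (ins v y)| ≤ B * ∫ y, (|fderiv ℝ φ y (1, 0, 0)| + |φ y|) := by
  have := haarP3
  have hC : 1 ≤ C := one_le_C h
  obtain ⟨D, hD0, hD⟩ := pointwise_Fq h hC hcu (L := |L|) (κ := κ) (abs_nonneg _) hκ
  refine ⟨2 * D, by (clear * - hD0; positivity), fun φ hφ hφc hφO v hv => ?_⟩
  have cφ' : Continuous (fun y => fderiv ℝ φ y (1, 0, 0)) :=
    (hφ.continuous_fderiv (by norm_num)).clm_apply continuous_const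
  have iφ : Integrable φ := hφ.continuous.integrable_of_hasCompactSupport hφc
  have iφ' : Integrable (fun y => fderiv ℝ φ y (1, 0, 0)) :=
    (integral_fderiv_zero hφ hφc _).1
  -- the integrand
  have hdc : ContinuousOn (fun y : P3 => dg K (ins v y)) O := by
    have hcins : Continuous (fun y : P3 => ins v y) := by unfold ins; fun_prop
    refine (continuousOn_dg h).comp hcins.continuousOn (fun y hy => ?_)
    obtain ⟨z, hz, hzy, _⟩ := hin y hy v hv
    show ins v y ∈ U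
    rw [← hzy]; exact h.maps (h.DD_sub hz)
  have hc1 : Continuous (fun y => φ y * dg K (ins v y)) := by
    refine ContinuousOn.continuous_of_tsupport_subset (s := O)
      (hφ.continuous.continuousOn.mul hdc) hO ?_
    exact (tsupport_mul_subset_left).trans hφO
  have hs1 : HasCompactSupport (fun y => φ y * dg K (ins v y)) := hφc.mul_right
  have i1 : Integrable (fun y => φ y * dg K (ins v y)) := hc1.integrable_of_hasCompactSupport hs1
  refine ⟨i1, ?_⟩
  -- the test function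
  set g : P3 → ℝ := fun y => φ y * Fq K Psi (Phi Psi V (ins v y)) with hg
  have hgs : tsupport g ⊆ tsupport φ := tsupport_mul_subset_left
  have hgd : ContDiff ℝ 1 g := by
    apply contDiff_tsupport
    intro y hy
    obtain ⟨z, hz, hzy, _⟩ := hin y (hφO (hgs hy)) v hv
    exact hφ.contDiffAt.mul (slice_diff h (h.DD_sub hz) hzy).1
  have hgc : HasCompactSupport g := hφc.mul_right
  obtain ⟨i2, e2⟩ := integral_fderiv_zero hgd hgc (1, 0, 0)
  have e3 : ∫ y, φ y * dg K (ins v y) =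
      ∫ y, (φ y * dg K (ins v y) + 2 * fderiv ℝ g y (1, 0, 0)) := by
    rw [integral_add i1 (i2.const_mul 2), integral_const_mul, e2]
    simp
  rw [e3, ← Real.norm_eq_abs, ← integral_const_mul]
  refine norm_integral_le_of_norm_le ((iφ'.abs.add iφ.abs).const_mul (2 * D)) ?_
  refine Filter.Eventually.of_forall fun y => ?_
  rw [Real.norm_eq_abs]
  by_cases hy : y ∈ tsupport φ
  · obtain ⟨z, hz, hzy, hQ⟩ := hin y (hφO hy) v hv
    have hzV := h.DD_sub hz
    have hP : Phi Psi V (ins v y) = z := by rw [← hzy]; exact h.Phi_left hzV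
    obtain ⟨k1, k2⟩ := slice_diff h hzV hzy
    obtain ⟨m1, m2⟩ := hD z hzV ((hL z hz).trans (le_abs_self _)) hQ
    have m3 := m2 _ (h.Zf_spec hzV)
    have d1 : HasFDerivAt g (φ y • fderiv ℝ (fun y => Fq K Psi (Phi Psi V (ins v y))) y +
        Fq K Psi (Phi Psi V (ins v y)) • fderiv ℝ φ y) y :=
      (hφ.differentiable (by norm_num) y).hasFDerivAt.mul
        (k1.differentiableAt (by norm_num)).hasFDerivAt
    rw [d1.fderiv, ContinuousLinearMap.add_apply, ContinuousLinearMap.smul_apply,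
      ContinuousLinearMap.smul_apply, k2, hP, ← hzy, smul_eq_mul, smul_eq_mul]
    generalize fderiv ℝ (Fq K Psi) z (Zf Psi V z) = q at *
    generalize Fq K Psi z = w at *
    generalize dg K (Psi z) = d at *
    generalize fderiv ℝ φ y (1, 0, 0) = φ' at *
    generalize φ y = p at *
    have e4 : p * d + 2 * (p * q + w * φ') = 2 * (p * (q + 1 / 2 * d)) + 2 * (w * φ') := by ring
    rw [e4]
    have n1 : |p * (q + 1 / 2 * d)| ≤ |p| * D := by rw [abs_mul]; (clear * - m3; gcongr)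
    have n2 : |w * φ'| ≤ D * |φ'| := by rw [abs_mul]; (clear * - m1; gcongr)
    rw [abs_le] at n1 n2 ⊢
    constructor <;> linarith only [n1, n2]
  · have h1 : φ =ᶠ[𝓝 y] fun _ => (0:ℝ) := notMem_tsupport_iff_eventuallyEq.mp hy
    have h2 : g =ᶠ[𝓝 y] fun _ => (0:ℝ) := by
      filter_upwards [h1] with x hx
      rw [hg]; simp only; rw [hx, zero_mul]
    have h3 : φ y = 0 := h1.eq_of_nhds
    rw [h2.fderiv_eq, h1.fderiv_eq, h3]
    simp only [zero_mul, fderiv_fun_const, Pi.zero_apply, zero_apply, mul_zero, add_zero, abs_zero, Std.le_refl]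

/-- The averages in another direction. -/
theorem avg_tru (h : CoreHyp K G Psi V U C R cv cw cu t0 r f) (hT : Tr K K' T)
    (hcv : ∫⁻ v in Ico (-(2 * R)) 0, ENNReal.ofReal (cv v) ≠ ⊤)
    (hcw : ∫⁻ v in Ico (-(2 * R)) 0, ENNReal.ofReal (cw v) ≠ ⊤)
    (hcu' : ∫⁻ u in Icc (-(2 * R)) (2 * R), ENNReal.ofReal (cu u) ≠ ⊤)
    (hcu : ∀ u, cu u ≤ C) {τ : P3 ≃L[ℝ] P3}
    (hτ : ∀ v y, ins v (τ y) = T (ins v y)) (hτm : MeasurePreserving (τ : P3 → P3) volume volume)
    {dK : P4 → ℝ} (hd : ∀ x ∈ U, dg K' (T x) = dK x) {L κ : ℝ}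
    (hL : ∀ z ∈ DD t0 r f, ‖fderiv ℝ G z‖ ≤ L) (hκ : 1 ≤ κ) {O : Set P3} (hO : IsOpen O) {v0 : ℝ}
    (hin : ∀ y ∈ O, ∀ v ∈ Ico v0 0, ∃ z ∈ DD t0 r f, Psi z = ins v y ∧ QQ Psi z ≤ κ) :
    ∃ B : ℝ, 0 ≤ B ∧ ∀ φ : P3 → ℝ, ContDiff ℝ 1 φ → HasCompactSupport φ → tsupport φ ⊆ O →
      ∀ v ∈ Ico v0 0, Integrable (fun y => φ y * dK (ins v y)) ∧
      |∫ y, φ y * dK (ins v y)| ≤ B * ∫ y, (|fderiv ℝ φ y (τ.symm (1, 0, 0))| + |φ y|) := by
  have h' := h.tr hT hcv hcw hcu'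
  have hτemb : MeasurableEmbedding (τ : P3 → P3) := τ.toHomeomorph.measurableEmbedding
  have hfd : ∀ z ∈ V, fderiv ℝ (fun z => T (Psi z)) z = (T : P4 →L[ℝ] P4).comp (fderiv ℝ Psi z) := by
    intro z hz
    have h1 : HasFDerivAt Psi (fderiv ℝ Psi z) z :=
      ((h.iso.contDiffAt hz).differentiableAt (by norm_num)).hasFDerivAt
    exact (T.hasFDerivAt.comp z h1).fderiv
  have hQ : ∀ z ∈ V, QQ (fun z => T (Psi z)) z = QQ Psi z := by
    intro z hz
    unfold QQ
    rw [hfd z hz]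
    show (T (fderiv ℝ Psi z e1)).2.2.1 + (T (fderiv ℝ Psi z e1)).2.1 = _
    rw [hT.u, hT.v]
  obtain ⟨B, hB0, hB⟩ := avg1u h'.toPreHyp (fun u => by have := hcu u; linarith only [this]) hL hκ
    (O := τ.symm ⁻¹' O) (hO.preimage τ.symm.continuous) (v0 := v0)
    (fun y hy v hv => by
      obtain ⟨z, hz, hzy, hzq⟩ := hin _ hy v hv
      refine ⟨z, hz, ?_, ?_⟩
      · rw [hzy, ← hτ]; simp
      · rw [hQ z (h.DD_sub hz)]; exact hzq)
  refine ⟨B, hB0, fun φ hφ hφc hφO v hv => ?_⟩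
  have hts : tsupport (fun y => φ (τ.symm y)) = τ.symm ⁻¹' tsupport φ :=
    tsupport_comp_eq_preimage φ τ.symm.toHomeomorph
  obtain ⟨k1, k2⟩ := hB (fun y => φ (τ.symm y)) (hφ.comp τ.symm.contDiff)
    (hφc.comp_homeomorph τ.symm.toHomeomorph)
    (by rw [hts]; exact preimage_mono hφO) v hv
  have e : (fun y => φ y * dK (ins v y)) =
      fun y => (fun y => φ (τ.symm y) * dg K' (ins v y)) (τ y) := by
    funext y
    simp only [ContinuousLinearEquiv.symm_apply_apply]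
    by_cases hy : φ y = 0
    · rw [hy, zero_mul, zero_mul]
    · have hyO : y ∈ O := hφO (subset_tsupport φ hy)
      obtain ⟨z, hz, hzy, _⟩ := hin y hyO v hv
      have hU : ins v y ∈ U := by rw [← hzy]; exact h.maps (h.DD_sub hz)
      rw [hτ, hd _ hU]
  rw [e]
  refine ⟨(hτm.integrable_comp_emb hτemb).2 k1, ?_⟩
  have e2 := hτm.integral_comp hτemb (fun y => φ (τ.symm y) * dg K' (ins v y))
  have e3 : ∫ y, (|fderiv ℝ φ y (τ.symm (1, 0, 0))| + |φ y|) =
      ∫ y, (|fderiv ℝ (fun y => φ (τ.symm y)) y (1, 0, 0)| + |φ (τ.symm y)|) := by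
    rw [← hτm.integral_comp hτemb
      (fun y => |fderiv ℝ (fun y => φ (τ.symm y)) y (1, 0, 0)| + |φ (τ.symm y)|)]
    refine integral_congr_ae (Filter.Eventually.of_forall fun y => ?_)
    simp only [ContinuousLinearEquiv.symm_apply_apply]
    have h1 : HasFDerivAt (fun y => φ (τ.symm y))
        ((fderiv ℝ φ (τ.symm (τ y))).comp (τ.symm : P3 →L[ℝ] P3)) (τ y) :=
      (hφ.differentiable (by norm_num) _).hasFDerivAt.comp (τ y) τ.symm.hasFDerivAt
    rw [h1.fderiv, ContinuousLinearEquiv.symm_apply_apply]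
    rfl
  rw [e3]
  refine le_trans (le_of_eq ?_) k2
  exact congrArg abs e2

/-- **The averages of the `v` derivatives of the metric are bounded.** -/
theorem avg3u (h : CoreHyp K G Psi V U C R cv cw cu t0 r f)
    (hcv : ∫⁻ v in Ico (-(2 * R)) 0, ENNReal.ofReal (cv v) ≠ ⊤)
    (hcw : ∫⁻ v in Ico (-(2 * R)) 0, ENNReal.ofReal (cw v) ≠ ⊤)
    (hcu' : ∫⁻ u in Icc (-(2 * R)) (2 * R), ENNReal.ofReal (cu u) ≠ ⊤)
    (hcu : ∀ u, cu u ≤ C) {L : ℝ} (hL : ∀ z ∈ DD t0 r f, ‖fderiv ℝ G z‖ ≤ L) {O : Set P3}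
    (hO : IsOpen O) {v0 : ℝ}
    (hin : ∀ y ∈ O, ∀ v ∈ Ico v0 0, ∃ z ∈ DD t0 r f, Psi z = ins v y ∧ ‖z.2‖ ≤ r / 4) :
    ∃ B : ℝ, 0 ≤ B ∧ ∀ φ : P3 → ℝ, ContDiff ℝ 1 φ → HasCompactSupport φ → tsupport φ ⊆ O →
      ∀ v ∈ Ico v0 0,
      |∫ y, φ y * fderiv ℝ K.g11 (ins v y) (e4 K (ins v y))| ≤
        B * ∫ y, (|fderiv ℝ φ y (1, 0, 0)| + |fderiv ℝ φ y (0, 0, 1)| + |φ y|) ∧
      |∫ y, φ y * fderiv ℝ K.g12 (ins v y) (e4 K (ins v y))| ≤
        B * ∫ y, (|fderiv ℝ φ y (1, 0, 0)| + |fderiv ℝ φ y (0, 0, 1)| + |φ y|) ∧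
      |∫ y, φ y * fderiv ℝ K.g22 (ins v y) (e4 K (ins v y))| ≤
        B * ∫ y, (|fderiv ℝ φ y (1, 0, 0)| + |fderiv ℝ φ y (0, 0, 1)| + |φ y|) := by
  have hKd : ∀ x ∈ U, K.DiffAt x := fun x hx => SmoothOn.diffAt h.smoothK h.openU hx
  obtain ⟨κ, hκ, hQ⟩ := QQ_bdd h hL
  have hin' : ∀ y ∈ O, ∀ v ∈ Ico v0 0, ∃ z ∈ DD t0 r f, Psi z = ins v y ∧ QQ Psi z ≤ κ := by
    intro y hy v hv
    obtain ⟨z, hz, hzy, hzn⟩ := hin y hy v hv
    exact ⟨z, hz, hzy, hQ z hz hzn⟩
  obtain ⟨B1, hB10, hB1⟩ := avg1u h.toPreHyp hcu hL hκ hO hin'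
  obtain ⟨B2, hB20, hB2⟩ := avg_tru h (tr_sw K) hcv hcw hcu' hcu (τ := tw) (fun v y => rfl) mp_tw
    (dK := fun x => fderiv ℝ K.g22 x (e4 K x))
    (fun x hx => by
      show fderiv ℝ (fun y => K.g22 (Tw.symm y)) (Tw x) (e4 K.sw (Tw x)) = _
      rw [fderiv_T (hKd x hx).g22, sw_e4]) hL hκ hO hin'
  obtain ⟨B3, hB30, hB3⟩ := avg_tru h (tr_sh K) hcv hcw hcu' hcu (τ := ts) (fun v y => rfl) mp_ts
    (dK := fun x => fderiv ℝ K.g11 x (e4 K x) + 2 * fderiv ℝ K.g12 x (e4 K x) +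
      fderiv ℝ K.g22 x (e4 K x))
    (fun x hx => by
      show fderiv ℝ (fun y => K.g11 (Ts.symm y) +
          2 * K.g12 (Ts.symm y) + K.g22 (Ts.symm y)) (Ts x) (e4 K.sh (Ts x)) = _
      rw [fT_add3 (hKd x hx).g11 (hKd x hx).g12 (hKd x hx).g22, sh_e4]) hL hκ hO hin'
  refine ⟨B1 + B2 + B3, by (clear * - hB10 hB20 hB30; positivity), fun φ hφ hφc hφO v hv => ?_⟩
  obtain ⟨i1, k1⟩ := hB1 φ hφ hφc hφO v hv
  obtain ⟨i2, k2⟩ := hB2 φ hφ hφc hφO v hv
  obtain ⟨i3, k3⟩ := hB3 φ hφ hφc hφO v hv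
  have iφ : Integrable (fun y => |φ y|) := (hφ.continuous.integrable_of_hasCompactSupport hφc).abs
  have id : ∀ e, Integrable (fun y => |fderiv ℝ φ y e|) := fun e =>
    (integral_fderiv_zero hφ hφc e).1.abs
  set Q : ℝ := ∫ y, (|fderiv ℝ φ y (1, 0, 0)| + |fderiv ℝ φ y (0, 0, 1)| + |φ y|) with hQdef
  have iQ : Integrable (fun y => |fderiv ℝ φ y (1, 0, 0)| + |fderiv ℝ φ y (0, 0, 1)| + |φ y|) :=
    ((id _).add (id _)).add iφ
  have hQ0 : 0 ≤ Q := integral_nonneg fun y => by (clear * -; positivity)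
  have q1 : ∫ y, (|fderiv ℝ φ y (1, 0, 0)| + |φ y|) ≤ Q :=
    integral_mono ((id _).add iφ) iQ fun y => by
      have := abs_nonneg (fderiv ℝ φ y (0, 0, 1))
      simp only [Pi.add_apply]
      linarith only [this]
  have q2 : ∫ y, (|fderiv ℝ φ y (tw.symm (1, 0, 0))| + |φ y|) ≤ Q :=
    integral_mono ((id _).add iφ) iQ fun y => by
      have e : (tw.symm ((1, 0, 0) : P3)) = (0, 0, 1) := rfl
      have := abs_nonneg (fderiv ℝ φ y (1, 0, 0))
      simp only [Pi.add_apply, e]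
      linarith only [this]
  have q3 : ∫ y, (|fderiv ℝ φ y (ts.symm (1, 0, 0))| + |φ y|) ≤ Q :=
    integral_mono ((id _).add iφ) iQ fun y => by
      have e : (ts.symm ((1, 0, 0) : P3)) = (1, 0, 0) + (0, 0, 1) := by
        show ((1, 0, 0 + 1) : P3) = _
        simp only [zero_add, Prod.mk_add_mk, add_zero]
      have := abs_add_le (fderiv ℝ φ y (1, 0, 0)) (fderiv ℝ φ y (0, 0, 1))
      simp only [Pi.add_apply, e, map_add]
      linarith only [this]
  have k1' : |∫ y, φ y * fderiv ℝ K.g11 (ins v y) (e4 K (ins v y))| ≤ B1 * Q :=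
    le_trans k1 (mul_le_mul_of_nonneg_left q1 hB10)
  have k2' : |∫ y, φ y * fderiv ℝ K.g22 (ins v y) (e4 K (ins v y))| ≤ B2 * Q :=
    le_trans k2 (mul_le_mul_of_nonneg_left q2 hB20)
  have k3' := le_trans k3 (mul_le_mul_of_nonneg_left q3 hB30)
  have p1 : 0 ≤ B1 * Q := by (clear * - hB10; positivity)
  have p2 : 0 ≤ B2 * Q := by (clear * - hB20; positivity)
  have p3 : 0 ≤ B3 * Q := by (clear * - hB30; positivity)
  have hsum : (B1 + B2 + B3) * Q = B1 * Q + B2 * Q + B3 * Q := by ring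
  rw [hsum]
  refine ⟨by linarith only [k1', p2, p3], ?_, by linarith only [k2', p1, p3]⟩
  have e : ∫ y, φ y * fderiv ℝ K.g12 (ins v y) (e4 K (ins v y)) =
      1 / 2 * ((∫ y, φ y * (fderiv ℝ K.g11 (ins v y) (e4 K (ins v y)) +
        2 * fderiv ℝ K.g12 (ins v y) (e4 K (ins v y)) +
        fderiv ℝ K.g22 (ins v y) (e4 K (ins v y)))) -
        (∫ y, φ y * fderiv ℝ K.g11 (ins v y) (e4 K (ins v y))) -
        ∫ y, φ y * fderiv ℝ K.g22 (ins v y) (e4 K (ins v y))) := by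
    have i1' : Integrable (fun y => φ y * fderiv ℝ K.g11 (ins v y) (e4 K (ins v y))) := i1
    have i4 : Integrable (fun y => φ y * (fderiv ℝ K.g11 (ins v y) (e4 K (ins v y)) +
        2 * fderiv ℝ K.g12 (ins v y) (e4 K (ins v y)) +
        fderiv ℝ K.g22 (ins v y) (e4 K (ins v y))) -
        φ y * fderiv ℝ K.g11 (ins v y) (e4 K (ins v y))) := i3.sub i1'
    rw [← integral_sub i3 i1', ← integral_sub i4 i2, ← integral_const_mul]
    refine integral_congr_ae (Filter.Eventually.of_forall fun y => ?_)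
    simp only
    ring
  rw [e, abs_le]
  rw [abs_le] at k1' k2' k3'
  constructor <;> linarith only [k1', k2', k3']

end Vale.Agent.P354cb
end
end

section

section

set_option linter.unusedSectionVars false
set_option maxSynthPendingDepth 3

open scoped Manifold ContDiff
open MeasureTheory Set Topology

namespace Vale.Agent.P354p

open Vale.Agent.P354 (P4 norm_P4_le MB MB_convex CBd LipPair norm_sub_le_of_deriv)

lemma Sp_mem_MB {z0 x : R4} {r : ℝ} : Sp x ∈ MB (Sp z0) r ↔ x ∈ nullBox z0 r := by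
  unfold MB nullBox
  simp only [mem_ofPred_eq]
  rw [← map_sub, norm_Sp]
  exact Iff.rfl

lemma Sp_symm_mem {z0 y : R4} {r : ℝ} : y ∈ MB (Sp z0) r ↔ Sp.symm y ∈ nullBox z0 r := by
  rw [← Sp_mem_MB, ContinuousLinearEquiv.apply_symm_apply]

lemma Sp_image_nullBox (z0 : R4) (r : ℝ) : Sp '' nullBox z0 r = MB (Sp z0) r := by
  ext y
  constructor
  · rintro ⟨x, hx, rfl⟩; exact Sp_mem_MB.2 hx
  · intro hy
    exact ⟨Sp.symm y, Sp_symm_mem.1 hy, ContinuousLinearEquiv.apply_symm_apply _ _⟩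

lemma nullBox_isOpen (z0 : R4) (r : ℝ) : IsOpen (nullBox z0 r) := by
  have : nullBox z0 r = {x | ‖x - z0‖ < r} ∩ {x | x.2.1 < 0} := rfl
  rw [this]
  exact (isOpen_lt (by fun_prop) continuous_const).inter
    (isOpen_lt (by fun_prop) continuous_const)

lemma cornerBox_isOpen (z0 : R4) (r : ℝ) : IsOpen (cornerBox z0 r) := by
  have : cornerBox z0 r = nullBox z0 r ∩ {x | x.1 < 0} := rfl
  rw [this]
  exact (nullBox_isOpen z0 r).inter (isOpen_lt (by fun_prop) continuous_const)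

lemma MB_isOpen (p0 : R4) (r : ℝ) : IsOpen (MB p0 r) := by
  have : MB p0 r = {x | ‖x - p0‖ < r} ∩ {x | x.2.1 < 0} := rfl
  rw [this]
  exact (isOpen_lt (by fun_prop) continuous_const).inter
    (isOpen_lt (by fun_prop) continuous_const)

section

variable {M : Spc} {e : M.Chart} {C : ℕ → R4 → ℝ} {D D' : Set R4} {r r' K : ℝ} {k n : ℝ → ℝ}

namespace IsDNBox

lemma bounded (h : IsDNBox M e C D r K k n) {x : R4} (hx : x ∈ D) :
    IsBounded C x K (k (cv x)) (n (cu x)) := (h.box x hx).2.2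

lemma diff (h : IsDNBox M e C D r K k n) (hD : IsOpen D) {x : R4} (hx : x ∈ D) (i : ℕ) :
    DifferentiableAt ℝ (C i) x :=
  (ContDiffOn.differentiableOn (h.smooth i) (by simp)).differentiableAt (hD.mem_nhds hx)

lemma mono (h : IsDNBox M e C D r K k n) (hD : D' ⊆ D) (hr0 : 0 < r') (hr : r' ≤ r) :
    IsDNBox M e C D' r' K k n where
  r_pos := hr0
  subset := hD.trans h.subset
  smooth := fun i => ContDiffOn.mono (h.smooth i) hD
  box := fun x hx => h.box x (hD hx)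
  integrable := fun f hf => ⟨(h.integrable f hf).1, lt_of_le_of_lt (eLpNorm_mono_measure _
    (Measure.restrict_mono (Ioo_subset_Ioo_left (by linarith)) le_rfl)) (h.integrable f hf).2⟩

lemma intg (h : IsDNBox M e C D r K k n) (f : ℝ → ℝ) (hf : f = k ∨ f = n) :
    Measurable f ∧ IntegrableOn f (Ioo (-r) 0) :=
  ⟨(h.integrable f hf).1,
    memLp_one_iff_integrable.1 ⟨(h.integrable f hf).1.aestronglyMeasurable, (h.integrable f hf).2⟩⟩

end IsDNBox

end

lemma base_mem_nullBox {z0 : R4} {r : ℝ} (hz0 : cv z0 = 0) (hr : 0 < r) :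
    z0 - (r / 2) • bas 1 ∈ nullBox z0 r := by
  constructor
  · rw [sub_sub_cancel_left, norm_neg, norm_smul, Real.norm_eq_abs, abs_of_pos (by positivity)]
    have : ‖(bas 1 : R4)‖ ≤ 1 := norm_P4_le.2 (by simp only [bas, Nat.succ_eq_add_one, Nat.reduceAdd, Fin.isValue, Matrix.cons_val_one, Matrix.cons_val_zero, abs_zero, zero_le_one, abs_one, Std.le_refl, and_self])
    linarith only [hr, mul_le_mul_of_nonneg_left this (half_pos hr).le]
  · have h1 : cv (z0 - (r / 2) • bas 1) = cv z0 - r / 2 := by simp only [cv, bas, Nat.succ_eq_add_one, Nat.reduceAdd, Fin.isValue, Matrix.cons_val_one, Matrix.cons_val_zero, Prod.smul_mk, smul_eq_mul, mul_zero, mul_one, Prod.snd_sub, Prod.fst_sub]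
    rw [h1, hz0]; linarith only [hr]

/-- The hypotheses at a front, without the lower bounds. -/
structure FrontBox (M : Spc) (e : M.Chart) (C : ℕ → R4 → ℝ) (z0 : R4) (r K : ℝ)
    (k : ℝ → ℝ) : Prop where
  dn : IsDNBox M e C (nullBox z0 r) r K k (fun _ => K)
  base : cv z0 = 0
  h67 : ∀ x ∈ nullBox z0 r, C 6 x = 0 ∧ C 7 x = 0

namespace FrontBox

variable {M : Spc} {e : M.Chart} {C : ℕ → R4 → ℝ} {z0 : R4} {r K : ℝ} {k : ℝ → ℝ}

lemma mono (h : FrontBox M e C z0 r K k) {z' : R4} {r' : ℝ} (hz' : cv z' = 0)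
    (hD : nullBox z' r' ⊆ nullBox z0 r) (hr0 : 0 < r') (hr : r' ≤ r) :
    FrontBox M e C z' r' K k where
  dn := h.dn.mono hD hr0 hr
  base := hz'
  h67 := fun x hx => h.h67 x (hD hx)

lemma K_one (h : FrontBox M e C z0 r K k) : 1 ≤ K :=
  (h.dn.bounded (base_mem_nullBox h.base h.dn.r_pos)).K_one

lemma bounded (h : FrontBox M e C z0 r K k) {x : R4} (hx : x ∈ nullBox z0 r) :
    IsBounded C x K (k (cv x)) K := h.dn.bounded hx

lemma diff (h : FrontBox M e C z0 r K k) {x : R4} (hx : x ∈ nullBox z0 r) (i : ℕ) :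
    DifferentiableAt ℝ (C i) x := h.dn.diff (nullBox_isOpen z0 r) hx i

lemma zero67 (h : FrontBox M e C z0 r K k) {x : R4} (hx : x ∈ nullBox z0 r) {i : ℕ}
    (hi : i = 4 ∨ i = 5) : deriv (C (i + 2)) x dv = 0 := by
  have h2 : ∀ y ∈ nullBox z0 r, C (i + 2) y = 0 := by
    rcases hi with rfl | rfl
    · exact fun y hy => (h.h67 y hy).1
    · exact fun y hy => (h.h67 y hy).2
  have h3 : C (i + 2) =ᶠ[𝓝 x] fun _ => 0 := by
    filter_upwards [(nullBox_isOpen z0 r).mem_nhds hx] with y hy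
    exact h2 y hy
  rw [deriv_eq (h.diff hx _), h3.fderiv_eq]
  simp only [fderiv_fun_const, Pi.zero_apply, zero_apply]

/-- derivatives of the coefficients of index at most 5 along v = const -/
lemma deriv_v0 (h : FrontBox M e C z0 r K k) {x : R4} (hx : x ∈ nullBox z0 r) {i : ℕ}
    (hi : i < 6) {w : R4} (hw : cv w = 0) : |deriv (C i) x w| ≤ 3 * K * ‖w‖ := by
  have hB := h.bounded hx
  have hK := hB.K_one
  have hu : |deriv (C i) x du| ≤ K := by
    by_cases h4 : i < 4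
    · exact (hB.deriv_vu i h4).2
    · have h5 : i = 4 ∨ i = 5 := by omega
      have h6 := hB.torsion i h5
      rwa [h.zero67 hx h5, sub_zero] at h6
  have hd := h.diff hx i
  have hwd : w = cu w • du + sph (c1 w) (c2 w) := by
    have : w.2.1 = 0 := hw
    ext <;> simp [du, sph, cu, c1, c2, this]
  have hn := norm_P4_le.1 (le_refl ‖w‖)
  have h1 : |deriv (C i) x (sph (c1 w) (c2 w))| ≤ K * ‖w‖ :=
    hB.deriv_sph (by omega) hn.2.2.1 hn.2.2.2
  rw [hwd, deriv_add hd, deriv_smul hd]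
  rw [← hwd]
  have h2 : |cu w * deriv (C i) x du| ≤ ‖w‖ * K := by
    rw [abs_mul]
    exact mul_le_mul hn.1 hu (abs_nonneg _) (norm_nonneg _)
  have h3 := abs_add_le (cu w * deriv (C i) x du) (deriv (C i) x (sph (c1 w) (c2 w)))
  have h4 : 0 ≤ K * ‖w‖ := by (clear * - hK; positivity)
  linarith only [h1, h2, h3, h4]

lemma cbd (h : FrontBox M e C z0 r K k) {y : R4} (hy : y ∈ MB (Sp z0) r) :
    CBd (toCoef C) (3 * K) y := by
  have hx := Sp_symm_mem.1 hy
  have hB := h.bounded hx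
  have hK := hB.K_one
  have h1 := hB.cbd (K' := 3 * K) (by linarith only [hK])
  rw [ContinuousLinearEquiv.apply_symm_apply] at h1
  exact ⟨h1.one_le, h1.om_lo, h1.om_hi, h1.g_lo, h1.g11_hi, h1.g12_hi, h1.g22_hi, h1.s1_hi,
    h1.s2_hi⟩

/-- Lipschitz bound of the coefficients along v = const. -/
lemma lip_aux (h : FrontBox M e C z0 r K k) {i : ℕ} (hi : i < 6) {x y : R4}
    (hx : x ∈ MB (Sp z0) r) (hy : y ∈ MB (Sp z0) r) (hv : x.2.1 = y.2.1) :
    |C i (Sp.symm x) - C i (Sp.symm y)| ≤ 3 * K * ‖x - y‖ := by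
  set a := Sp.symm y with ha
  set w := Sp.symm x - Sp.symm y with hw
  have hw1 : cv w = 0 := by
    have : cv w = x.2.1 - y.2.1 := rfl
    rw [this, hv, sub_self]
  have hnorm : ‖w‖ = ‖x - y‖ := by
    rw [hw, ← map_sub, ← norm_Sp, ContinuousLinearEquiv.apply_symm_apply]
  have hseg : ∀ τ ∈ Icc (0:ℝ) 1, a + τ • w ∈ nullBox z0 r := by
    intro τ hτ
    have h1 := MB_convex hy hx hτ
    rw [Sp_symm_mem] at h1
    have : Sp.symm (y + τ • (x - y)) = a + τ • w := by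
      rw [map_add, map_smul, map_sub]
    rwa [this] at h1
  have hd : ∀ τ ∈ Icc (0:ℝ) 1, HasDerivAt (fun τ : ℝ => C i (a + τ • w))
      (fderiv ℝ (C i) (a + τ • w) w) τ := by
    intro τ hτ
    have h1 := (h.diff (hseg τ hτ) i).hasFDerivAt
    have h2 : HasDerivAt (fun τ : ℝ => a + τ • w) w τ := by
      simpa using ((hasDerivAt_id τ).smul_const w).const_add a
    exact h1.comp_hasDerivAt τ h2
  have hg : ∀ τ ∈ Icc (0:ℝ) 1, HasDerivAt (fun τ : ℝ => (3 * K * ‖x - y‖) * τ)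
      (3 * K * ‖x - y‖) τ := by
    intro τ _
    simpa using (hasDerivAt_id τ).const_mul (3 * K * ‖x - y‖)
  have key := norm_sub_le_of_deriv zero_le_one hd hg (fun τ hτ => by
    have hb := h.deriv_v0 (hseg τ hτ) hi hw1
    rw [deriv_eq (h.diff (hseg τ hτ) i), hnorm] at hb
    rw [Real.norm_eq_abs]
    exact hb)
  simp only [one_smul, zero_smul, add_zero, mul_one, mul_zero, sub_zero] at key
  have e1 : a + w = Sp.symm x := by rw [ha, hw]; abel
  rw [e1, Real.norm_eq_abs] at key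
  exact key

lemma lip (h : FrontBox M e C z0 r K k) {x y : R4}
    (hx : x ∈ MB (Sp z0) r) (hy : y ∈ MB (Sp z0) r) (hv : x.2.1 = y.2.1) :
    LipPair (toCoef C) (3 * K) x y :=
  ⟨h.lip_aux (by norm_num) hx hy hv, h.lip_aux (by norm_num) hx hy hv,
    h.lip_aux (by norm_num) hx hy hv, h.lip_aux (by norm_num) hx hy hv,
    h.lip_aux (by norm_num) hx hy hv, h.lip_aux (by norm_num) hx hy hv⟩

end FrontBox

end Vale.Agent.P354p
end
end

section

section

set_option linter.unusedSectionVars false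
set_option maxSynthPendingDepth 3

open scoped Manifold ContDiff
open MeasureTheory Set Topology Filter

namespace Vale.Agent.P354p

open Vale.Agent.P354 (P4 P3 norm_P4_le NearM Gram Gram_continuous Gram_mink Tv norm_Tv cone mem_cone
  cone_zero SHyp SCurve Coef Iso MB)

section

variable {N : Spc} {e' : N.Chart}

lemma exists_R0 {pp : ENNReal} (hg' : IsSpacetime (IsC0W1 pp) N) {y0 : R4}
    (hy0 : y0 ∈ tgt e') (A : R4 ≃L[ℝ] R4)
    (hA : ∀ a b, N.g e' y0 (A a) (A b) = P354.mink a b)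
    (hT : N.g e' y0 (A Tv) (N.X e' y0) < 0) :
    ∃ R0 > 0, (∀ z ∈ Metric.closedBall (0 : R4) R0, yv y0 A z ∈ tgt e') ∧
      ∀ z ∈ Metric.ball (0 : R4) R0, NearM (Gf (comp e') y0 A z) ∧
        N.g e' (yv y0 A z) (A Tv) (N.X e' (yv y0 A z)) < 0 ∧
        (Gram (Gf (comp e') y0 A z)).det ∈ Ioo (-2 : ℝ) (-(1 / 2)) := by
  have hyv0 : yv y0 A 0 = y0 := by simp [yv]
  have hopen : IsOpen (yv y0 A ⁻¹' tgt e') :=
    (N.toE e').open_target.preimage (yv_continuous y0 A)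
  have h0mem : (0 : R4) ∈ yv y0 A ⁻¹' tgt e' := by
    show yv y0 A 0 ∈ tgt e'
    rw [hyv0]; exact hy0
  have ev1 : ∀ᶠ z in 𝓝 (0 : R4), yv y0 A z ∈ tgt e' := hopen.mem_nhds h0mem
  have hcont : ContinuousAt (Gf (comp e') y0 A) 0 :=
    (Gf_continuousOn (c := comp e') (fun i j => (hg'.regular e' (bas i) (bas j)).1) y0 A).continuousAt
      (hopen.mem_nhds h0mem)
  have hG0 : ∀ a b, Gf (comp e') y0 A 0 a b = P354.mink a b := by
    intro a b
    rw [Gf_apply (by rw [hyv0]; exact hg'.bilin e' hy0), hyv0]; exact hA a b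
  have ev2 : ∀ᶠ z in 𝓝 (0 : R4), NearM (Gf (comp e') y0 A z) := by
    have h1 : ∀ᶠ z in 𝓝 (0 : R4), Gf (comp e') y0 A z ∈
        Metric.ball (Gf (comp e') y0 A 0) (1 / 100) :=
      hcont.eventually (Metric.ball_mem_nhds _ (by norm_num))
    filter_upwards [h1] with z hz a b
    rw [mem_ball_iff_norm] at hz
    have h2 : Gf (comp e') y0 A z a b - P354.mink a b =
        (Gf (comp e') y0 A z - Gf (comp e') y0 A 0) a b := by
      rw [← hG0]; rfl
    rw [h2, ← Real.norm_eq_abs]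
    refine (ContinuousLinearMap.le_opNorm₂ _ a b).trans ?_
    (clear * - hz; gcongr)
  have ev3 : ∀ᶠ z in 𝓝 (0 : R4), N.g e' (yv y0 A z) (A Tv) (N.X e' (yv y0 A z)) < 0 := by
    have h1 : ContinuousOn (fun z => N.g e' (yv y0 A z) (A Tv) (N.X e' (yv y0 A z)))
        (yv y0 A ⁻¹' tgt e') :=
      (g_X_continuousOn hg' e' (A Tv)).comp
        (yv_continuous y0 A).continuousOn (fun z hz => hz)
    have h2 := h1.continuousAt (hopen.mem_nhds h0mem)
    refine h2.eventually (gt_mem_nhds ?_)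
    beta_reduce
    rw [hyv0]; exact hT
  have ev4 : ∀ᶠ z in 𝓝 (0 : R4), (Gram (Gf (comp e') y0 A z)).det ∈ Ioo (-2 : ℝ) (-(1 / 2)) := by
    have h1 : ContinuousAt (fun z => (Gram (Gf (comp e') y0 A z)).det) 0 :=
      ContinuousAt.comp (g := fun B => (Gram B).det) Gram_continuous.continuousAt hcont
    refine h1.eventually (isOpen_Ioo.mem_nhds ?_)
    beta_reduce
    rw [Gram_mink hG0]; constructor <;> norm_num
  obtain ⟨ε, hε, hball⟩ := Metric.eventually_nhds_iff_ball.1 (ev1.and (ev2.and (ev3.and ev4)))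
  refine ⟨ε / 2, by (clear * - hε; positivity), fun z hz => ?_, fun z hz => ?_⟩
  · exact (hball z (Metric.closedBall_subset_ball (by linarith) hz)).1
  · exact (hball z (Metric.ball_subset_ball (by linarith only [hε]) hz)).2

end

lemma Iso_mono {K : Coef} {G : P4 → P4 →L[ℝ] P4 →L[ℝ] ℝ} {Psi : P4 → P4} {V W : Set P4}
    (h : Iso K G Psi V) (hW : IsOpen W) (hWV : W ⊆ V) : Iso K G Psi W where
  isOpen := hW
  smooth := h.smooth.mono hWV
  diffG := fun z hz => h.diffG z (hWV hz)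
  diffK := fun z hz => h.diffK z (hWV hz)
  iso := fun z hz => h.iso z (hWV hz)

section

variable {M N : Spc} [Nonempty M.pt] {e : M.Chart} {e' : N.Chart} {pp : ENNReal}
  {ι : M.pt → N.pt} {h : IsOpenEmbedding ι} {C : ℕ → R4 → ℝ} {z0 : R4} {r K : ℝ} {k : ℝ → ℝ}
  {y0 : R4} {A : R4 ≃L[ℝ] R4} {R0 : ℝ} {Om : Set R4}

/-- relative closedness of preimages of compact sets -/
lemma closed_pre (hι : Continuous ι) {Om : Set R4} (hOm : Om ⊆ tgt e)
    (hR : ∀ z ∈ Metric.closedBall (0 : R4) R0, yv y0 A z ∈ tgt e')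
    {Kc : Set R4} (hKc : IsCompact Kc) (hKO : ∀ y ∈ Kc, Sp.symm y ∈ Om) :
    ∃ F, IsClosed F ∧ (Vset e e' ι h Om y0 A ∩ Metric.ball 0 R0) ∩ PsiF e e' ι h y0 A ⁻¹' Kc =
      Metric.ball 0 R0 ∩ F := by
  set Kc' : Set R4 := Sp.symm '' Kc with hKc'
  have hKcomp : IsCompact Kc' := hKc.image Sp.symm.continuous
  have hKO' : Kc' ⊆ Om := by
    rintro x ⟨y, hy, rfl⟩; exact hKO y hy
  have hQcomp : IsCompact ((fun x => ι (inv e x)) '' Kc') := by
    refine hKcomp.image_of_continuousOn ?_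
    exact hι.comp_continuousOn ((M.toE e).continuousOn_symm.mono (hKO'.trans hOm))
  have hcont : ContinuousOn (fun z => inv e' (yv y0 A z)) (Metric.closedBall (0 : R4) R0) :=
    (N.toE e').continuousOn_symm.comp (yv_continuous y0 A).continuousOn hR
  refine ⟨Metric.closedBall (0 : R4) R0 ∩
    (fun z => inv e' (yv y0 A z)) ⁻¹' ((fun x => ι (inv e x)) '' Kc'),
    hcont.preimage_isClosed_of_isClosed Metric.isClosed_closedBall hQcomp.isClosed, ?_⟩
  ext z
  constructor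
  · rintro ⟨⟨hz1, hz2⟩, hz3⟩
    refine ⟨hz2, Metric.ball_subset_closedBall hz2, ?_⟩
    refine ⟨(theta e e' ι h).symm (yv y0 A z), ⟨_, hz3, ?_⟩, ?_⟩
    · simp only [PsiF, ContinuousLinearEquiv.symm_apply_apply]
    · have hxs := (theta e e' ι h).map_target hz1.1
      have h1 := (theta e e' ι h).right_inv hz1.1
      rw [theta_apply] at h1
      have hxs' := mem_theta_source.1 hxs
      have h2 : inv e' (co e' (ι (inv e ((theta e e' ι h).symm (yv y0 A z))))) =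
        ι (inv e ((theta e e' ι h).symm (yv y0 A z))) := inv_co hxs'.2
      show ι (inv e ((theta e e' ι h).symm (yv y0 A z))) = inv e' (yv y0 A z)
      rw [← h1, h2, h1]
  · rintro ⟨hz1, hz2, hz3⟩
    obtain ⟨x, ⟨y, hy, hyx⟩, hx⟩ := hz3
    have hyt := hR z hz2
    have hxO : x ∈ Om := hKO' ⟨y, hy, hyx⟩
    have hp : On e (inv e x) := inv_mem (hOm hxO)
    have hx' : ι (inv e x) = inv e' (yv y0 A z) := hx
    have ht : yv y0 A z ∈ (theta e e' ι h).target := mem_theta_target.2 ⟨hyt, _, hp, hx'⟩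
    have hs : (theta e e' ι h).symm (yv y0 A z) = x := by
      rw [theta_symm_apply hp hyt hx']
      exact co_inv (hOm hxO)
    refine ⟨⟨⟨ht, by rw [hs]; exact hxO⟩, hz1⟩, ?_⟩
    show Sp ((theta e e' ι h).symm (yv y0 A z)) ∈ Kc
    rw [hs, ← hyx, ContinuousLinearEquiv.apply_symm_apply]
    exact hy

/-- inverse of Psi -/
noncomputable def PhiF (e : M.Chart) (e' : N.Chart) (ι : M.pt → N.pt) (h : IsOpenEmbedding ι)
    (y0 : R4) (A : R4 ≃L[ℝ] R4) (y : R4) : R4 :=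
  A.symm (theta e e' ι h (Sp.symm y) - y0)

lemma Phi_inv {Om : Set R4} {z : R4} (hz : z ∈ Vset e e' ι h Om y0 A) :
    PhiF e e' ι h y0 A (PsiF e e' ι h y0 A z) = z := by
  unfold PhiF PsiF
  rw [ContinuousLinearEquiv.symm_apply_apply, (theta e e' ι h).right_inv hz.1]
  simp [yv]

lemma Phi_contDiffOn (hI : IsIsom ι) {Om : Set R4} :
    ContDiffOn ℝ ∞ (PhiF e e' ι h y0 A) (PsiF e e' ι h y0 A '' Vset e e' ι h Om y0 A) := by
  have h1 := theta_contDiffOn (h := h) (e := e) (e' := e') hI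
  unfold PhiF
  refine A.symm.contDiff.comp_contDiffOn (ContDiffOn.sub ?_ contDiffOn_const)
  refine h1.comp Sp.symm.contDiff.contDiffOn ?_
  rintro _ ⟨z, hz, rfl⟩
  show Sp.symm (PsiF e e' ι h y0 A z) ∈ _
  unfold PsiF
  rw [ContinuousLinearEquiv.symm_apply_apply]
  exact (theta e e' ι h).map_target hz.1

/-- Psi is an open map on V -/
lemma Psi_image_isOpen {W : Set R4} (hW : IsOpen W)
    (hWV : W ⊆ Vset e e' ι h Om y0 A) :
    IsOpen (PsiF e e' ι h y0 A '' W) := by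
  have h1 : PsiF e e' ι h y0 A '' W =
      Sp '' ((theta e e' ι h).symm '' (yv y0 A '' W)) := by
    rw [image_image, image_image]; rfl
  rw [h1]
  have hyo : IsOpen (yv y0 A '' W) := by
    have : yv y0 A = (fun x => y0 + x) ∘ A := rfl
    rw [this, image_comp]
    exact (isOpenMap_add_left y0) _ (A.toHomeomorph.isOpenMap _ hW)
  have hyt : yv y0 A '' W ⊆ (theta e e' ι h).target := by
    rintro _ ⟨z, hz, rfl⟩; exact (hWV hz).1
  have h2 : IsOpen ((theta e e' ι h).symm '' (yv y0 A '' W)) :=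
    (theta e e' ι h).symm.isOpen_image_of_subset_source hyo hyt
  exact Sp.toHomeomorph.isOpenMap _ h2

/-- the exotic domain -/
noncomputable abbrev VV (e : M.Chart) (e' : N.Chart)
    (ι : M.pt → N.pt) (h : IsOpenEmbedding ι) (Om : Set R4) (y0 : R4) (A : R4 ≃L[ℝ] R4)
    (R0 : ℝ) : Set R4 := Vset e e' ι h Om y0 A ∩ Metric.ball 0 R0

lemma VV_isOpen (hOm : IsOpen Om) : IsOpen (VV e e' ι h Om y0 A R0) :=
  (Vset_isOpen hOm y0 A).inter Metric.isOpen_ball

lemma IsoW_mono {K : P354w.Coef} {G : P4 → P4 →L[ℝ] P4 →L[ℝ] ℝ} {Psi : P4 → P4} {V W : Set P4}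
    (h : P354w.Iso K G Psi V) (hW : IsOpen W) (hWV : W ⊆ V) : P354w.Iso K G Psi W where
  isOpen := hW
  smooth := h.smooth.mono hWV
  diffG := fun z hz => h.diffG z (hWV hz)
  diffK := fun z hz => h.diffK z (hWV hz)
  iso := fun z hz => h.iso z (hWV hz)

lemma Psi_injOn : InjOn (PsiF e e' ι h y0 A) (VV e e' ι h Om y0 A R0) := by
  intro z hz w hw hzw
  rw [← Phi_inv hz.1, ← Phi_inv hw.1, hzw]

/-- vertical vectors have positive v component -/
lemma Psi_beta (hM : IsSpacetime IsSmooth M)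
    (hg' : IsSpacetime (IsC0W1 pp) N) (hI : IsIsom ι)
    (hC : ∀ x ∈ Om, ∀ a b, M.g e x a b = form C x a b)
    (hom : ∀ x ∈ Om, 0 < C 3 x) (hu : ∀ x ∈ Om, 0 < cv (M.X e x))
    (hnear : ∀ z ∈ Metric.ball (0 : R4) R0, NearM (Gf (comp e') y0 A z))
    (hfut : ∀ z ∈ Metric.ball (0 : R4) R0,
      N.g e' (yv y0 A z) (A Tv) (N.X e' (yv y0 A z)) < 0) {z : R4}
    (hz : z ∈ VV e e' ι h Om y0 A R0) : 0 < (fderiv ℝ (PsiF e e' ι h y0 A) z Tv).2.1 := by
  have h1 := (Psi_hasFDerivAt (h := h) hM hg' hI y0 A hz.1.1).fderiv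
  rw [h1]
  have hTc : Tv ∈ cone (1 / 4) := by simp only [one_div, Tv, mem_cone, Prod.norm_mk, norm_zero, max_self, mul_one, inv_nonneg, Nat.ofNat_nonneg]
  have hneg := (hnear z hz.2).timelike_of_cone hTc
  rw [Gf_apply (hg'.bilin e' (target_sub hz.1.1))] at hneg
  have hneg' : N.g e' (yv y0 A z) (A Tv) (A Tv) < 0 := by
    have : (Tv : P4).1 = 1 := rfl
    rw [this] at hneg
    linarith only [hneg]
  exact beta_pos (h := h) hM hg' hI hC hom hu hz.1.1 hz.1.2 hneg' (hfut z hz.2)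

lemma mkSHyp (hM : IsSpacetime IsSmooth M) (hB : FrontBox M e C z0 r K k)
    (hg' : IsSpacetime (IsC0W1 pp) N) (hI : IsIsom ι)
    (hR0 : 0 < R0)
    (hR : ∀ z ∈ Metric.closedBall (0 : R4) R0, yv y0 A z ∈ tgt e')
    (hnear : ∀ z ∈ Metric.ball (0 : R4) R0, NearM (Gf (comp e') y0 A z))
    (hfut : ∀ z ∈ Metric.ball (0 : R4) R0,
      N.g e' (yv y0 A z) (A Tv) (N.X e' (yv y0 A z)) < 0) :
    SHyp (toCoef C) (Gf (comp e') y0 A) (PsiF e e' ι h y0 A) (PhiF e e' ι h y0 A)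
      (VV e e' ι h (nullBox z0 r) y0 A R0) R0 r (3 * K) (Sp z0) := by
  have hopen : IsOpen (VV e e' ι h (nullBox z0 r) y0 A R0) := VV_isOpen (nullBox_isOpen z0 r)
  have hK := hB.K_one
  refine
    { iso := ?_, R0_pos := hR0, ρ_pos := hB.dn.r_pos, p0v := hB.base, V_sub := inter_subset_right
      near := hnear, maps := ?_, beta := ?_, cl := ?_, one_le := by linarith only [hK]
      bd := fun x hx => hB.cbd hx, lip := fun x hx y hy hv => hB.lip hx hy hv, inv := ?_,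
      opn := ?_, phi := ?_ }
  · exact Iso_mono (Psi_Iso hM hg' hI (nullBox_isOpen z0 r) (fun x hx => (hB.dn.box x hx).1)
      hB.h67 (fun x hx i => hB.diff hx i) y0 A) hopen inter_subset_left
  · intro z hz
    exact Sp_mem_MB.2 hz.1.2
  · intro z hz
    exact Psi_beta hM hg' hI (fun x hx => (hB.dn.box x hx).1)
      (fun x hx => (hB.bounded hx).om_pos) (fun x hx => (hB.dn.box x hx).2.1) hnear hfut hz
  · intro Kc hKc hKM
    exact closed_pre (h := h) h.continuous hB.dn.subset hR hKc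
      (fun y hy => Sp_symm_mem.1 (hKM hy))
  · intro z hz
    exact Phi_inv hz.1
  · exact Psi_image_isOpen hopen inter_subset_left
  · exact ((Phi_contDiffOn hI).mono (image_mono inter_subset_left)).of_le
      (by norm_cast)

variable {c : ℝ → N.pt}

lemma mkSCurve (hp : On e' (c 1)) (hc : IsFutureCurve N 0 (Icc 0 1) c) {lam : ℝ}
    (hl : 0 < lam) (hA : A (1, 0, 0, 0) = lam • endVel e' c) (hR0 : 0 < R0)
    {a : ℝ → M.pt} (ha : ∀ t ∈ Ico (0:ℝ) 1, ι (a t) = c t)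
    (hain : EndsAt a e Om z0) {η1 : ℝ} (hη1 : 0 < η1) :
    ∃ (γ : ℝ → R4) (s0 : ℝ), SCurve (PsiF e e' ι h (co e' (c 1)) A)
      (VV e e' ι h Om (co e' (c 1)) A R0) (Sp z0) γ s0 η1 := by
  obtain ⟨hain, hat⟩ := hain
  obtain ⟨δ, hδ0, hδ1, hsrc, hcont, hcone⟩ := gam_cone hp hc hl hA (κ := 1 / 8) (by norm_num)
  set γ : ℝ → R4 := fun s => gam e' A c (max (1 - δ) (min s 1)) with hγ
  have hγeq : ∀ s ∈ Icc (1 - δ) 1, γ s = gam e' A c s := by
    intro s hs
    simp only [hγ]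
    rw [min_eq_left hs.2, max_eq_right hs.1]
  have hγc : Continuous γ := by
    refine hcont.comp_continuous (by fun_prop) ?_
    intro s
    exact ⟨le_max_left _ _, max_le (by linarith only [hδ0]) (min_le_right _ _)⟩
  have hγ1 : γ 1 = 0 := by
    rw [hγeq 1 ⟨by linarith only [hδ0], le_rfl⟩, gam_one]
  -- eventual properties
  have hlt : Tendsto γ (𝓝[<] 1) (𝓝 0) := by
    have := hγc.tendsto 1
    rw [hγ1] at this
    exact this.mono_left nhdsWithin_le_nhds
  have hIco : ∀ᶠ t in 𝓝[<] (1:ℝ), t ∈ Ico (max 0 (1 - δ)) 1 :=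
    Ico_mem_nhdsLT (max_lt (by norm_num) (by linarith only [hδ0]))
  have hVeq : ∀ t ∈ Ico (max 0 (1 - δ)) (1:ℝ), On e (a t) → co e (a t) ∈ Om →
      γ t ∈ Vset e e' ι h Om (co e' (c 1)) A ∧
      PsiF e e' ι h (co e' (c 1)) A (γ t) = Sp (co e (a t)) := by
    intro t ht h1 h2
    have ht0 : 0 ≤ t := (le_max_left _ _).trans ht.1
    have ht1 : 1 - δ ≤ t := (le_max_right _ _).trans ht.1
    rw [hγeq t ⟨ht1, ht.2.le⟩]
    have h3 : inv e' (co e' (c t)) = c t := inv_co (hsrc t ⟨ht1, ht.2.le⟩)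
    have h4 : co e' (c t) ∈ tgt e' := co_mem (hsrc t ⟨ht1, ht.2.le⟩)
    have h5 : ι (a t) = inv e' (co e' (c t)) := by rw [h3]; exact ha t ⟨ht0, ht.2⟩
    have h6 := theta_symm_apply (h := h) h1 h4 h5
    refine ⟨⟨?_, ?_⟩, ?_⟩
    · rw [yv_gam]; exact mem_theta_target.2 ⟨h4, _, h1, h5⟩
    · rw [yv_gam, h6]; exact h2
    · unfold PsiF; rw [yv_gam, h6]
  have htend : Tendsto (fun s => PsiF e e' ι h (co e' (c 1)) A (γ s)) (𝓝[<] 1) (𝓝 (Sp z0)) := by
    have h1 : Tendsto (fun t => Sp (co e (a t))) (𝓝[<] 1) (𝓝 (Sp z0)) :=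
      (Sp.continuous.tendsto z0).comp hat
    refine h1.congr' ?_
    filter_upwards [hIco, hain] with t ht h2
    exact (hVeq t ht h2.1 h2.2).2.symm
  have hev : ∀ᶠ t in 𝓝[<] (1:ℝ), t ∈ Ico (max 0 (1 - δ)) 1 ∧
      (On e (a t) ∧ co e (a t) ∈ Om) ∧ γ t ∈ Metric.ball (0 : R4) R0 ∧
      PsiF e e' ι h (co e' (c 1)) A (γ t) ∈ Metric.ball (Sp z0) η1 :=
    hIco.and (hain.and ((hlt.eventually (Metric.ball_mem_nhds _ hR0)).and
      (htend.eventually (Metric.ball_mem_nhds _ hη1))))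
  obtain ⟨s0, hs0, hs0'⟩ := mem_nhdsLT_iff_exists_Ico_subset.1 hev
  refine ⟨γ, s0, ?_⟩
  have hs0lt : s0 < 1 := hs0
  have hbase := (hs0' ⟨le_rfl, hs0lt⟩).1
  have hs0δ : 1 - δ ≤ s0 := (le_max_right _ _).trans hbase.1
  refine
    { s0_lt := hs0lt, cont := hγc, one := hγ1, mem := ?_, cone := ?_, neg := ?_, good := ?_,
      tend := htend }
  · intro s hs
    obtain ⟨h1, h2, h3, -⟩ := hs0' hs
    exact ⟨(hVeq s h1 h2.1 h2.2).1, h3⟩
  · intro s hs s' hs' hss
    rcases eq_or_lt_of_le hss with h1 | h1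
    · rw [h1, sub_self]; exact cone_zero _
    · have e1 : s ∈ Icc (1 - δ) 1 := ⟨hs0δ.trans hs.1, hs.2⟩
      have e2 : s' ∈ Icc (1 - δ) 1 := ⟨hs0δ.trans hs'.1, hs'.2⟩
      rw [hγeq s e1, hγeq s' e2]
      exact (hcone s e1 s' e2 h1).2
  · intro s hs
    have e1 : s ∈ Icc (1 - δ) 1 := ⟨hs0δ.trans hs.1, hs.2.le⟩
    have h1 := (hcone s e1 1 ⟨by linarith only [hδ0], le_rfl⟩ hs.2).1
    rw [hγeq s e1]
    rw [gam_one, zero_sub] at h1
    have : (-gam e' A c s).1 = -(gam e' A c s).1 := rfl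
    rw [this] at h1
    linarith only [h1]
  · intro s hs
    obtain ⟨-, -, -, h4⟩ := hs0' hs
    rw [mem_ball_iff_norm] at h4
    exact h4.le

/-- energy of the metric on the swept region -/
lemma energy_DDp (hp : 2 ≤ pp)
    (hM : IsSpacetime IsSmooth M)
    (hg' : IsSpacetime (IsC0W1 pp) N) (hI : IsIsom ι)
    (hR : ∀ z ∈ Metric.closedBall (0 : R4) R0, yv y0 A z ∈ tgt e') (hR0 : 0 < R0)
    {D : Set R4} (hDo : IsOpen D) (hDV : D ⊆ VV e e' ι h Om y0 A R0)
    (hDR : ∀ z ∈ D, ‖z‖ ≤ R0 / 2) :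
    MemLp (fderiv ℝ (fun z => (4:ℝ) • Gf (comp e') y0 A z)) pp (volume.restrict D) := by
  have hsm : ∀ i j, ContDiffOn ℝ ∞ (comp e' i j) (theta e e' ι h).target := fun i j =>
    comp_contDiffOn_target (h := h) (e := e) (e' := e') hM hg' hI (bas i) (bas j)
  have hWD : (theta e e' ι h).target ⊆ tgt e' := fun y hy => (mem_theta_target.1 hy).1
  have hKc : IsCompact (yv y0 A '' Metric.closedBall (0 : R4) (R0 / 2)) :=
    (isCompact_closedBall _ _).image (yv_continuous y0 A)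
  have hKD : yv y0 A '' Metric.closedBall (0 : R4) (R0 / 2) ⊆ tgt e' := by
    rintro _ ⟨z, hz, rfl⟩
    exact hR z (Metric.closedBall_subset_closedBall (by linarith only [hR0]) hz)
  have h1 := Gf_energy hp (c := comp e') (theta e e' ι h).open_target hWD
    (fun i j => hg'.regular e' (bas i) (bas j)) hsm hKc hKD y0 A
  have hsub : D ⊆ yv y0 A ⁻¹' (yv y0 A '' Metric.closedBall (0 : R4) (R0 / 2) ∩
      (theta e e' ι h).target) := by
    intro z hz
    exact ⟨⟨z, by simpa only [Metric.mem_closedBall, dist_zero_right] using hDR z hz, rfl⟩, (hDV hz).1.1⟩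
  have h2 : MemLp (fderiv ℝ (Gf (comp e') y0 A)) pp (volume.restrict D) :=
    h1.mono_measure (Measure.restrict_mono hsub le_rfl)
  have hdiff : ∀ z ∈ D, DifferentiableAt ℝ (Gf (comp e') y0 A) z := by
    intro z hz
    have h4 := Gf_contDiffOn hsm y0 A
    refine (h4.differentiableOn (by simp)).differentiableAt ?_
    exact ((theta e e' ι h).open_target.preimage (yv_continuous y0 A)).mem_nhds (hDV hz).1.1
  refine (memLp_congr_ae ?_).mp (h2.const_smul (4:ℝ))
  rw [Filter.EventuallyEq, ae_restrict_iff' hDo.measurableSet]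
  refine Filter.Eventually.of_forall fun z hz => ?_
  exact ((hdiff z hz).hasFDerivAt.const_smul (4:ℝ)).fderiv.symm

lemma energy_DD (hp : 2 ≤ pp)
    (hM : IsSpacetime IsSmooth M)
    (hg' : IsSpacetime (IsC0W1 pp) N) (hI : IsIsom ι)
    (hR : ∀ z ∈ Metric.closedBall (0 : R4) R0, yv y0 A z ∈ tgt e') (hR0 : 0 < R0)
    {D : Set R4} (hDo : IsOpen D) (hDV : D ⊆ VV e e' ι h Om y0 A R0)
    (hDR : ∀ z ∈ D, ‖z‖ ≤ R0 / 2) :
    ∫⁻ z in D, ‖fderiv ℝ (fun z => (4:ℝ) • Gf (comp e') y0 A z) z‖ₑ ^ 2 ≠ ⊤ := by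
  have h1 := energy_DDp (h := h) hp hM hg' hI hR hR0 hDo hDV hDR
  have hfin : IsFiniteMeasure (volume.restrict D) := ⟨by
    rw [Measure.restrict_apply MeasurableSet.univ, univ_inter]
    have hsub : D ⊆ Metric.closedBall (0 : R4) (R0 / 2) := fun z hz => by simpa only [Metric.mem_closedBall, dist_zero_right] using hDR z hz
    have := volume_haar
    exact lt_of_le_of_lt (measure_mono hsub)
      (isCompact_closedBall (0 : R4) (R0 / 2)).measure_lt_top⟩
  have h2 := (h1.mono_exponent hp).2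
  have h3 := (eLpNorm_lt_top_iff_lintegral_rpow_enorm_lt_top (by norm_num) (by norm_num)).1 h2
  have e : ∀ z, ‖fderiv ℝ (fun z => (4:ℝ) • Gf (comp e') y0 A z) z‖ₑ ^ 2 =
      ‖fderiv ℝ (fun z => (4:ℝ) • Gf (comp e') y0 A z) z‖ₑ ^ (2:ENNReal).toReal := by
    intro z
    rw [← ENNReal.rpow_two]
    rfl
  simp only [e]
  exact h3.ne

end

end Vale.Agent.P354p
end
end

section

section

set_option linter.unusedSectionVars false
set_option maxSynthPendingDepth 3

open scoped Manifold ContDiff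
open MeasureTheory Set Topology Filter

namespace Vale.Agent.P354p

open Vale.Agent.P354 (P4 P3 norm_P4_le NearM Gram Tv cone mem_cone
  SHyp SCurve Coef Iso MB det_bounds)

/-- the bound of the derivatives in the direction e4 -/
noncomputable def cvF (r K : ℝ) (k : ℝ → ℝ) : ℝ → ℝ :=
  (Ioo (-r) 0).indicator (fun v => 4 * (k v + K ^ 2))

lemma cvF_of_mem {r K : ℝ} {k : ℝ → ℝ} {v : ℝ} (hv : v ∈ Ioo (-r) 0) :
    cvF r K k v = 4 * (k v + K ^ 2) := by
  unfold cvF; rw [indicator_of_mem hv]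

lemma cvF_meas {r K : ℝ} {k : ℝ → ℝ} (hk : Measurable k) : Measurable (cvF r K k) :=
  ((hk.add_const _).const_mul 4).indicator measurableSet_Ioo

lemma cvF_int {r K : ℝ} {k : ℝ → ℝ} (hk : IntegrableOn k (Ioo (-r) 0)) (s : Set ℝ) :
    ∫⁻ v in s, ENNReal.ofReal (cvF r K k v) ≠ ⊤ := by
  have h1 : IntegrableOn (fun v => 4 * (k v + K ^ 2)) (Ioo (-r) 0) :=
    (hk.add (by simp only [enorm_pow, ne_eq, ENNReal.pow_eq_top_iff, enorm_ne_top, OfNat.ofNat_ne_zero, not_false_eq_true, and_true, integrableOn_const_iff, pow_eq_zero_iff, enorm_eq_zero, Real.volume_Ioo, sub_neg_eq_add, zero_add, ENNReal.ofReal_lt_top, or_true])).const_mul 4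
  have h2 : Integrable (cvF r K k) := (integrable_indicator_iff measurableSet_Ioo).2 h1
  exact ne_of_lt ((h2.integrableOn (s := s)).lintegral_lt_top)

lemma MB_v {p0 : P4} (hp : p0.2.1 = 0) {r : ℝ} {y : P4} (hy : y ∈ MB p0 r) :
    y.2.1 ∈ Ioo (-r) 0 := by
  refine ⟨?_, hy.2⟩
  have h2 := hy.1
  have h3 : |y.2.1| < r := by
    have h4 : |(y - p0).2.1| ≤ ‖y - p0‖ := (norm_P4_le.1 (le_refl ‖y - p0‖)).2.1
    have h5 : (y - p0).2.1 = y.2.1 - p0.2.1 := rfl
    rw [h5, hp, sub_zero] at h4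
    linarith only [h2, h4]
  linarith only [(abs_lt.1 h3).1]

lemma MB_bound {p0 : P4} (hp : p0.2.1 = 0) {r : ℝ} {y : P4} (hy : y ∈ MB p0 r) :
    |y.1| ≤ r + ‖p0‖ ∧ -(r + ‖p0‖) ≤ y.2.1 ∧ y.2.1 < 0 ∧ |y.2.2.1| ≤ r + ‖p0‖ ∧
      |y.2.2.2| ≤ r + ‖p0‖ := by
  have h1 := hy.1
  have h2 := norm_P4_le.1 (le_refl ‖y - p0‖)
  have h3 := norm_P4_le.1 (le_refl ‖p0‖)
  have hn : 0 ≤ ‖p0‖ := norm_nonneg _
  simp only [Prod.fst_sub, Prod.snd_sub] at h2
  have tri : ∀ s t : ℝ, |s - t| < r → |t| ≤ ‖p0‖ → |s| ≤ r + ‖p0‖ := by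
    intro s t h4 h5
    have : |s| ≤ |s - t| + |t| := by
      calc |s| = |(s - t) + t| := by congr 1; ring
        _ ≤ _ := abs_add_le _ _
    linarith only [h4, h5, this]
  have hyv := MB_v hp hy
  refine ⟨tri _ _ (h2.1.trans_lt h1) h3.1, ?_, hy.2, tri _ _ (h2.2.2.1.trans_lt h1) h3.2.2.1,
    tri _ _ (h2.2.2.2.trans_lt h1) h3.2.2.2⟩
  have := hyv.1
  linarith only [hn, this]

namespace FrontBox

variable {M : Spc} {e : M.Chart} {C : ℕ → R4 → ℝ} {z0 : R4} {r K : ℝ} {k : ℝ → ℝ}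

lemma bd (hB : FrontBox M e C z0 r K k) {Cc : ℝ} (hCc : 6 * K ^ 2 ≤ Cc) {y : P4}
    (hy : y ∈ MB (Sp z0) r) :
    ((toW C).scale 4).Bd y Cc (cvF r K k y.2.1) (cvF r K k y.2.1) (4 * (K + K ^ 2)) := by
  have hx := Sp_symm_mem.1 hy
  have hv := MB_v (show (Sp z0).2.1 = 0 from hB.base) hy
  have h1 := (hB.bounded hx).bd (fun i _ => hB.diff hx i) hCc
  rw [ContinuousLinearEquiv.apply_symm_apply] at h1
  rw [cvF_of_mem hv]
  exact h1

lemma smooth4 (hB : FrontBox M e C z0 r K k) :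
    ((toW C).scale 4).SmoothOn (MB (Sp z0) r) := by
  have h1 := (smoothW hB.dn.smooth).scale 4
  rwa [Sp_image_nullBox] at h1

end FrontBox

/-- The data of the core theorem, for a curve which ends at a front. -/
structure FrontData (pp : ENNReal) (M N : Spc) (ι : M.pt → N.pt) (h : IsOpenEmbedding ι) [Nonempty M.pt]
    (e : M.Chart) (C : ℕ → R4 → ℝ) (z0 : R4) (r K : ℝ) (k : ℝ → ℝ) (p : N.pt)
    (e' : N.Chart) (A : R4 ≃L[ℝ] R4) (R0 Cc t0 r1 : ℝ) (f : P3 → ℝ) : Prop where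
  on : On e' p
  R0_pos : 0 < R0
  inTgt : ∀ z ∈ Metric.closedBall (0 : R4) R0, yv (co e' p) A z ∈ tgt e'
  near : ∀ z ∈ Metric.ball (0 : R4) R0, NearM (Gf (comp e') (co e' p) A z)
  fut : ∀ z ∈ Metric.ball (0 : R4) R0,
    N.g e' (yv (co e' p) A z) (A Tv) (N.X e' (yv (co e' p) A z)) < 0
  core : P354w.CoreHyp ((toW C).scale 4) (fun z => (4:ℝ) • Gf (comp e') (co e' p) A z)
    (PsiF e e' ι h (co e' p) A) (VV e e' ι h (nullBox z0 r) (co e' p) A R0) (MB (Sp z0) r)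
    Cc (r + ‖z0‖) (cvF r K k) (cvF r K k) (fun _ => 4 * (K + K ^ 2)) t0 r1 f
  sub : P354w.DD t0 r1 f ⊆ VV e e' ι h (nullBox z0 r) (co e' p) A R0
  bound : ∀ z ∈ P354w.DD t0 r1 f, ‖z‖ ≤ R0 / 2
  Cc_large : 8 * K ^ 2 ≤ Cc
  lp : MemLp (fderiv ℝ (fun z => (4:ℝ) • Gf (comp e') (co e' p) A z)) pp
    (volume.restrict (P354w.DD t0 r1 f))

/-- neighbourhoods of the end points of good vertical lines are covered -/
def Opn (Psi : P4 → P4) (t0 r1 : ℝ) (f : P3 → ℝ) : Prop :=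
  ∀ x ∈ Metric.ball (0 : P3) r1, ∀ A : ℝ, 1 ≤ A →
    (∀ t ∈ Ico t0 (f x), ‖fderiv ℝ Psi (t, x) Tv‖ ≤ A) → ∀ ε1 > 0,
    ∃ ε > 0, ∃ v0 < 0, ∃ ps : P4, ∀ q : P4, v0 ≤ q.2.1 → q.2.1 < 0 → |q.1 - ps.1| < ε →
      |q.2.2.1 - ps.2.2.1| < ε → |q.2.2.2 - ps.2.2.2| < ε →
      ∃ z ∈ P354.DD t0 r1 f, Psi z = q ∧ ‖z.2 - x‖ < ε1

/-- **The core data exist.** -/
theorem exists_frontData {pp : ENNReal} (hpp : 2 ≤ pp) {M N : Spc} {ι : M.pt → N.pt} {h : IsOpenEmbedding ι} [Nonempty M.pt]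
    {e : M.Chart} {C : ℕ → R4 → ℝ} {z0 : R4} {r K : ℝ} {k : ℝ → ℝ} {c : ℝ → N.pt}
    (hM : IsSpacetime IsSmooth M) (hg' : IsSpacetime (IsC0W1 pp) N) (hI : IsIsom ι)
    (hB : FrontBox M e C z0 r K k) (hc : IsFutureCurve N 0 (Icc 0 1) c)
    {a : ℝ → M.pt} (ha : ∀ t ∈ Ico (0:ℝ) 1, ι (a t) = c t)
    (hain : EndsAt a e (nullBox z0 r) z0) :
    ∃ (e' : N.Chart) (A : R4 ≃L[ℝ] R4) (R0 Cc t0 r1 : ℝ) (f : P3 → ℝ),
      FrontData pp M N ι h e C z0 r K k (c 1) e' A R0 Cc t0 r1 f ∧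
        Opn (PsiF e e' ι h (co e' (c 1)) A) t0 r1 f := by
  obtain ⟨e', hp⟩ := N.cover (c 1)
  replace hp : On e' (c 1) := hp
  have hy0 : co e' (c 1) ∈ tgt e' := co_mem hp
  obtain ⟨A, hA, lam, hl, hAT⟩ := exists_A hg' hy0 (endVel_timelike hp hc)
  have hTneg : N.g e' (co e' (c 1)) (A Tv) (N.X e' (co e' (c 1))) < 0 := by
    have h1 : A Tv = lam • endVel e' c := hAT
    rw [h1, (hg'.bilin e' hy0).smul_left]
    exact mul_neg_of_pos_of_neg hl (endVel_future hp hc)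
  obtain ⟨R0, hR0, hR, hnear⟩ := exists_R0 hg' hy0 A hA hTneg
  have H := mkSHyp (h := h) (R0 := R0) hM hB hg' hI hR0 hR
    (fun z hz => (hnear z hz).1) (fun z hz => (hnear z hz).2.1)
  have hK1 := hB.K_one
  have hK0 : 0 < K := by (clear * - hK1; linarith)
  set C3 : ℝ := 3 * K with hC3
  have hC31 : 1 ≤ C3 := by rw [hC3]; linarith only [hK1]
  have hr := hB.dn.r_pos
  -- the parameter eta1
  set η1 : ℝ := min (r / (50 * C3 ^ 2)) (1 / (1400 * C3 ^ 7)) with hη1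
  have hη1pos : 0 < η1 := lt_min (by (clear * - hr hK1; positivity)) (by positivity)
  have hη : 5 * C3 * (5 * C3 * η1) < r := by
    have h1 : η1 ≤ r / (50 * C3 ^ 2) := min_le_left _ _
    rw [le_div_iff₀ (by (clear * - hK1; positivity))] at h1
    linarith only [hr, h1]
  have hη2 : 280 * C3 ^ 6 * (5 * C3 * η1) ≤ 1 := by
    have h1 : η1 ≤ 1 / (1400 * C3 ^ 7) := min_le_right _ _
    rw [le_div_iff₀ (by (clear * - hK1; positivity))] at h1
    calc 280 * C3 ^ 6 * (5 * C3 * η1) = η1 * (1400 * C3 ^ 7) := by ring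
      _ ≤ 1 := h1
  obtain ⟨γ, s0, hcurve⟩ := mkSCurve (h := h) (R0 := R0) hp hc hl hAT hR0 ha hain hη1pos
  obtain ⟨t0, r1, f, hr1, ht0f, hmemV, hopenD, hcpt, hexit, hDR, hbdP⟩ :=
    H.main' hcurve hη1pos hη hη2
  have hDV : P354w.DD t0 r1 f ⊆ VV e e' ι h (nullBox z0 r) (co e' (c 1)) A R0 := by
    rintro ⟨t, x⟩ ⟨hx, h1, h2⟩
    exact hmemV x hx t ⟨le_of_lt h1, h2⟩
  have hopenD' : IsOpen (P354w.DD t0 r1 f) := hopenD
  have hDR' : ∀ z ∈ P354w.DD t0 r1 f, ‖z‖ ≤ R0 / 2 := hDR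
  -- constants
  set Cc : ℝ := 4 * C3 ^ 4 with hCc
  have hC34 : C3 ≤ C3 ^ 4 := by
    calc C3 = C3 ^ 1 := (pow_one _).symm
      _ ≤ C3 ^ 4 := pow_le_pow_right₀ hC31 (by norm_num)
  have hC32 : C3 ^ 2 ≤ C3 ^ 4 := pow_le_pow_right₀ hC31 (by norm_num)
  have hCc1 : 1 ≤ Cc := by rw [hCc]; linarith only [hK1, hC34]
  have hCcK : 6 * K ^ 2 ≤ Cc := by
    have : C3 ^ 2 = 9 * K ^ 2 := by rw [hC3]; ring
    have h2 : 0 ≤ K ^ 2 := by (clear * - hK1; positivity)
    rw [hCc]; linarith only [hK1, hC34, hC32]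
  have hbase : (Sp z0).2.1 = 0 := hB.base
  refine ⟨e', A, R0, Cc, t0, r1, f, ⟨hp, hR0, hR, fun z hz => (hnear z hz).1,
    fun z hz => (hnear z hz).2.1, ?_, hDV, hDR', ?_,
    energy_DDp (h := h) hpp hM hg' hI hR hR0 hopenD' hDV hDR'⟩, fun x hx A1 hA1 hgd ε1 hε1 => ?_⟩
  rotate_left 2
  · exact H.openness hη ht0f hmemV hexit hbdP hDR hx
      ((Gf_continuousOn (c := comp e') (fun i j => (hg'.regular e' (bas i) (bas j)).1) _ A).mono
        (fun z hz => hR z (Metric.ball_subset_closedBall hz))) hA1 hgd hε1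
  swap
  · have h1 : C3 ^ 2 = 9 * K ^ 2 := by rw [hC3]; ring
    have h2 : 0 ≤ K ^ 2 := by (clear * - hK1; positivity)
    rw [hCc]; linarith only [hK1, hC34, hC32]
  refine
    { openU := MB_isOpen _ _
      smoothK := hB.smooth4
      bd := fun y hy => hB.bd hCcK hy
      U_sub := ?_
      cv_meas := cvF_meas (hB.dn.intg k (Or.inl rfl)).1
      cw_meas := cvF_meas (hB.dn.intg k (Or.inl rfl)).1
      cu_meas := measurable_const
      cv_int := cvF_int (hB.dn.intg k (Or.inl rfl)).2 _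
      cw_int := cvF_int (hB.dn.intg k (Or.inl rfl)).2 _
      cu_int := ?_
      iso := ?_
      inj := Psi_injOn
      maps := fun z hz => H.maps z hz
      cone := fun z hz a => (H.nearV hz).cone4 hCc1 a
      tt := ?_
      pos := fun z hz => H.beta z hz
      det_lo := ?_
      det_hi := ?_
      r_pos := hr1
      t0f := ht0f
      memV := hmemV
      openD := hopenD'
      cpt := hcpt
      exit := hexit
      finD := ?_
      L2 := ?_ }
  · intro y hy
    have h1 := MB_bound hbase hy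
    rwa [norm_Sp] at h1
  · rw [setLIntegral_const]
    exact ENNReal.mul_ne_top ENNReal.ofReal_ne_top (by simp only [neg_add_rev, Real.volume_Icc, ne_eq, ENNReal.ofReal_ne_top, not_false_eq_true])
  · exact (IsoW_mono (Psi_IsoW hM hg' hI (nullBox_isOpen z0 r) (fun x hx => (hB.dn.box x hx).1)
      (fun x hx i => hB.diff hx i) (co e' (c 1)) A) (VV_isOpen (nullBox_isOpen z0 r))
      inter_subset_left).scale 4
  · intro z hz
    have hTc : Tv ∈ cone (1 / 4) := by simp only [one_div, Tv, mem_cone, Prod.norm_mk, norm_zero, max_self, mul_one, inv_nonneg, Nat.ofNat_nonneg]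
    have h1 := (H.nearV hz).timelike_of_cone hTc
    have h2 : (Tv : P4).1 = 1 := rfl
    rw [h2] at h1
    have h3 : ((4:ℝ) • Gf (comp e') (co e' (c 1)) A z) P354w.e1 P354w.e1 =
      4 * Gf (comp e') (co e' (c 1)) A z Tv Tv := rfl
    show 1 ≤ Cc * (-(((4:ℝ) • Gf (comp e') (co e' (c 1)) A z) P354w.e1 P354w.e1))
    rw [h3]
    nlinarith only [hK1, hC34, h1]
  · intro z hz
    exact (det_bounds H.iso hz (H.cbd hz) (hnear z (H.V_sub hz)).2.2).1
  · intro z hz
    exact (det_bounds H.iso hz (H.cbd hz) (hnear z (H.V_sub hz)).2.2).2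
  · have hsub : P354w.DD t0 r1 f ⊆ Metric.closedBall (0 : R4) (R0 / 2) := by
      intro z hz
      simpa only [Metric.mem_closedBall, dist_zero_right] using hDR' z hz
    have := volume_haar
    exact ne_top_of_le_ne_top (isCompact_closedBall (0 : R4) (R0 / 2)).measure_ne_top
      (measure_mono hsub)
  · exact energy_DD (h := h) hpp hM hg' hI hR hR0 hopenD' hDV hDR'

end Vale.Agent.P354p
end
end

section

section

set_option linter.unusedSectionVars false
set_option maxSynthPendingDepth 3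

open scoped Manifold ContDiff
open MeasureTheory Set Topology Filter

namespace Vale.Agent.P354p

open Vale.Agent.P354 (P4 P3 norm_P4_le MB)
open Vale.Agent.P354x (ins)

/-- **The core data exist, and an open set of generators is covered.** -/
theorem exists_frontData_open {pp : ENNReal} (hpp : 2 ≤ pp) {M N : Spc} {ι : M.pt → N.pt} {h : IsOpenEmbedding ι} [Nonempty M.pt]
    {e : M.Chart} {C : ℕ → R4 → ℝ} {z0 : R4} {r K : ℝ} {k : ℝ → ℝ} {c : ℝ → N.pt}
    (hM : IsSpacetime IsSmooth M) (hg' : IsSpacetime (IsC0W1 pp) N) (hI : IsIsom ι)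
    (hB : FrontBox M e C z0 r K k) (hc : IsFutureCurve N 0 (Icc 0 1) c)
    {a : ℝ → M.pt} (ha : ∀ t ∈ Ico (0:ℝ) 1, ι (a t) = c t)
    (hain : EndsAt a e (nullBox z0 r) z0) :
    ∃ (e' : N.Chart) (A : R4 ≃L[ℝ] R4) (R0 Cc t0 r1 : ℝ) (f : P3 → ℝ),
      FrontData pp M N ι h e C z0 r K k (c 1) e' A R0 Cc t0 r1 f ∧
      ∃ O : Set P354w.P3, IsOpen O ∧ O.Nonempty ∧ ∃ v0 < 0, ∀ y ∈ O, ∀ v ∈ Ico v0 0,
        ∃ z ∈ P354w.DD t0 r1 f, PsiF e e' ι h (co e' (c 1)) A z = ins v y ∧ ‖z.2‖ ≤ r1 / 4 := by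
  obtain ⟨e', A, R0, Cc, t0, r1, f, hF, hop⟩ := exists_frontData (h := h) hpp hM hg' hI hB hc ha hain
  refine ⟨e', A, R0, Cc, t0, r1, f, hF, ?_⟩
  have hr := hF.core.r_pos
  obtain ⟨x, hx, A1, hA1, hgd⟩ := P354z.exists_good_line hF.core (S0 := K) (fun y hy => by
    have hBd := hB.bounded (Sp_symm_mem.1 hy)
    exact ⟨(hBd.bound 4 (by norm_num)).1, (hBd.bound 5 (by norm_num)).1,
      (hBd.bound 6 (by norm_num)).1, (hBd.bound 7 (by norm_num)).1⟩)
  obtain ⟨ε, hε, v0, hv0, ps, hq⟩ := hop x (by rw [mem_ball_zero_iff]; linarith only [hr, hx]) A1 hA1 hgd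
    (r1 / 8) (by linarith only [hr])
  refine ⟨Metric.ball (ps.1, ps.2.2.1, ps.2.2.2) ε, Metric.isOpen_ball,
    ⟨_, Metric.mem_ball_self hε⟩, v0, hv0, fun y hy v hv => ?_⟩
  rw [Metric.mem_ball, dist_eq_norm] at hy
  have h1 : |y.1 - ps.1| < ε := (norm_fst_le (y - (ps.1, ps.2.2.1, ps.2.2.2))).trans_lt hy
  have h2 : |y.2.1 - ps.2.2.1| < ε :=
    ((norm_fst_le (y - (ps.1, ps.2.2.1, ps.2.2.2)).2).trans
      (norm_snd_le (y - (ps.1, ps.2.2.1, ps.2.2.2)))).trans_lt hy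
  have h3 : |y.2.2 - ps.2.2.2| < ε :=
    ((norm_snd_le (y - (ps.1, ps.2.2.1, ps.2.2.2)).2).trans
      (norm_snd_le (y - (ps.1, ps.2.2.1, ps.2.2.2)))).trans_lt hy
  obtain ⟨z, hz, hzq, hzx⟩ := hq (ins v y) hv.1 hv.2 h1 h2 h3
  refine ⟨z, hz, hzq, ?_⟩
  have e1 : z.2 = (z.2 - x) + x := by abel
  rw [e1]
  refine (norm_add_le _ _).trans ?_
  linarith only [hx, hzx]

end Vale.Agent.P354p
end
end

section

section

set_option linter.unusedSectionVars false
set_option maxSynthPendingDepth 3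

open scoped Manifold ContDiff
open MeasureTheory Set Topology Filter

namespace Vale.Agent.P354p

open Vale.Agent.P354 (P4 P3 norm_P4_le MB)
open Vale.Agent.P354x (ins chi4 PtW)

/-- Exchange of the first two of three factors preserves the measure. -/
lemma mp_sw {α β γ : Type} [MeasureSpace α] [MeasureSpace β] [MeasureSpace γ]
    [SFinite (volume : Measure α)] [SFinite (volume : Measure β)] [SFinite (volume : Measure γ)] :
    MeasurePreserving (fun x : α × β × γ => ((x.2.1, x.1, x.2.2) : β × α × γ)) := by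
  have h1 : MeasurePreserving (MeasurableEquiv.prodAssoc : (α × β) × γ ≃ᵐ α × β × γ) :=
    ⟨MeasurableEquiv.prodAssoc.measurable, Measure.prodAssoc_prod⟩
  have h2 : MeasurePreserving (MeasurableEquiv.prodAssoc : (β × α) × γ ≃ᵐ β × α × γ) :=
    ⟨MeasurableEquiv.prodAssoc.measurable, Measure.prodAssoc_prod⟩
  have h3 : MeasurePreserving (Prod.map Prod.swap id : (α × β) × γ → (β × α) × γ) :=
    Measure.measurePreserving_swap.prod (MeasurePreserving.id _)
  exact (h2.comp h3).comp (h1.symm _)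

/-- A property which holds for almost every line of direction v holds for almost every
point. -/
lemma ae_line {P : P354w.P3 → Prop} (h : ∀ᵐ y : P354w.P3, P y) :
    ∀ᵐ x : R4, P (x.2.2.1, x.1, x.2.2.2) := by
  have hsw := mp_sw (α := ℝ) (β := ℝ) (γ := ℝ × ℝ)
  have hsw2 := mp_sw (α := ℝ) (β := ℝ) (γ := ℝ)
  have h1 : ∀ᵐ w : ℝ × ℝ × ℝ, P (w.2.1, w.1, w.2.2) := hsw2.quasiMeasurePreserving.ae h
  have h2 : ∀ᵐ x : ℝ × (ℝ × ℝ × ℝ), P (x.2.2.1, x.2.1, x.2.2.2) := by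
    have hq : Measure.QuasiMeasurePreserving (Prod.snd : ℝ × (ℝ × ℝ × ℝ) → ℝ × ℝ × ℝ) volume
        volume := Measure.quasiMeasurePreserving_snd
    exact hq.ae h1
  exact hsw.quasiMeasurePreserving.ae h2

section
variable {M : Spc} {e : M.Chart} {C : ℕ → R4 → ℝ} {z0 : R4} {r K : ℝ} {k : ℝ → ℝ}

/-- the derivatives in the direction e4 in terms of those in the direction dv -/
lemma e4_dv (hB : FrontBox M e C z0 r K k) {y : P4} (hy : y ∈ MB (Sp z0) r) {i : ℕ}
    (hi : i < 3) :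
    |fderiv ℝ (fun z => 4 * C i (Sp.symm z)) y (P354w.e4 ((toW C).scale 4) y) -
      4 * deriv (C i) (Sp.symm y) dv| ≤ 4 * K ^ 2 := by
  have hx := Sp_symm_mem.1 hy
  have hBd := hB.bounded hx
  have hd := hB.diff hx i
  have h1 : fderiv ℝ (fun z => 4 * C i (Sp.symm z)) (Sp (Sp.symm y))
        (P354w.e4 ((toW C).scale 4) (Sp (Sp.symm y))) =
      4 * deriv (C i) (Sp.symm y) dv + 4 * deriv (C i) (Sp.symm y)
        (sph (C 4 (Sp.symm y)) (C 5 (Sp.symm y))) := by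
    rw [fderiv_comp_Sp4 hd, IsBounded.e4_eq, deriv_add hd]; ring
  rw [ContinuousLinearEquiv.apply_symm_apply] at h1
  have h2 := hBd.deriv_sph (i := i) (by omega) (hBd.bound 4 (by norm_num)).1
    (hBd.bound 5 (by norm_num)).1
  rw [h1, add_sub_cancel_left, abs_mul, abs_of_pos (by norm_num : (0:ℝ) < 4)]
  linarith only [h2]

lemma ptw (hB : FrontBox M e C z0 r K k) {Cc : ℝ} (hCc : 8 * K ^ 2 ≤ Cc) {y : P4}
    (hy : y ∈ MB (Sp z0) r) : PtW ((toW C).scale 4) y Cc := by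
  have hx := Sp_symm_mem.1 hy
  have hBd := hB.bounded hx
  have hK := hB.K_one
  have hKC : K ≤ Cc := by linarith only [hCc, hK, le_self_pow₀ hK two_ne_zero]
  have hz : ∀ i, (i = 6 ∨ i = 7) → ∀ a, fderiv ℝ (fun z => C i (Sp.symm z)) y a = 0 := by
    intro i hi a
    have h3 : (fun z => C i (Sp.symm z)) =ᶠ[𝓝 y] fun _ => 0 := by
      filter_upwards [(MB_isOpen (Sp z0) r).mem_nhds hy] with w hw
      have h4 := hB.h67 _ (Sp_symm_mem.1 hw)
      rcases hi with rfl | rfl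
      · exact h4.1
      · exact h4.2
    rw [h3.fderiv_eq]
    simp only [fderiv_fun_const, Pi.zero_apply, zero_apply]
  exact ⟨(hBd.bound 4 (by norm_num)).1.trans hKC, (hBd.bound 5 (by norm_num)).1.trans hKC,
    hz 6 (Or.inl rfl), hz 7 (Or.inr rfl)⟩

/-- the sum of the v derivatives -/
noncomputable def SS (C : ℕ → R4 → ℝ) (x : R4) : ℝ :=
  |deriv (C 0) x dv| + |deriv (C 1) x dv| + |deriv (C 2) x dv|

lemma le_SS {i : ℕ} (hi : i < 3) (x : R4) : |deriv (C i) x dv| ≤ SS C x := by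
  have a0 := abs_nonneg (deriv (C 0) x dv)
  have a1 := abs_nonneg (deriv (C 1) x dv)
  have a2 := abs_nonneg (deriv (C 2) x dv)
  unfold SS
  interval_cases i <;> linarith only [a1, a0, a2]

end

end Vale.Agent.P354p
end
end

section

section

set_option linter.unusedSectionVars false
set_option maxSynthPendingDepth 3

open scoped Manifold ContDiff
open MeasureTheory Set Topology Filter

namespace Vale.Agent.P354p

open Vale.Agent.P354 (P4 P3 norm_P4_le MB)
open Vale.Agent.P354x (ins chi4 PtW)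

section
variable {M : Spc} {e : M.Chart} {C : ℕ → R4 → ℝ} {z0 : R4} {r K : ℝ} {k : ℝ → ℝ}

/-- Oscillation of the v derivative from the bound of its derivatives. -/
lemma lip_gronL (hB : FrontBox M e C z0 r K k) {l : ℝ → ℝ} {L : ℝ} (hL : 1 ≤ L)
    (hd : ∀ x ∈ nullBox z0 r, ∀ b, cv b = 0 → ∀ i < 3, ∃ j < 3,
      |deriv (fun y => deriv (C i) y dv) x b| ≤ (l (cv x) + L * |deriv (C j) x dv|) * ‖b‖)
    {x y : R4} (hx : x ∈ nullBox z0 r) (hy : y ∈ nullBox z0 r) (hxy : cv x = cv y)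
    (hs : 6 * L * ‖x - y‖ ≤ 1) {i : ℕ} (hi : i < 3) :
    |deriv (C i) x dv - deriv (C i) y dv| ≤ 2 * (|l (cv x)| + L * SS C y) * ‖x - y‖ := by
  set b := x - y with hb
  have hb0 : cv b = 0 := by
    have : cv b = cv x - cv y := rfl
    rw [this, hxy, sub_self]
  have hO := nullBox_isOpen z0 r
  have hsm2 : ∀ i, ContDiffOn ℝ 1 (fun x => deriv (C i) x dv) (nullBox z0 r) := fun i =>
    (((hB.dn.smooth i).fderiv_of_isOpen hO (m := 1) (by norm_cast)).clm_apply
      contDiffOn_const).congr (fun w hw => deriv_eq (hB.diff hw i) dv)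
  have hseg : ∀ τ ∈ Icc (0:ℝ) 1, y + τ • b ∈ nullBox z0 r ∧ cv (y + τ • b) = cv x := by
    intro τ hτ
    have h1 : cv (y + τ • b) = cv x := by
      have : cv (y + τ • b) = cv y + τ * cv b := rfl
      rw [this, hb0, mul_zero, add_zero, hxy]
    refine ⟨⟨?_, by rw [h1]; exact hx.2⟩, h1⟩
    have h2 : y ∈ Metric.ball z0 r := by simpa only [Metric.mem_ball, dist_eq_norm] using hy.1
    have h3 : x ∈ Metric.ball z0 r := by simpa only [Metric.mem_ball, dist_eq_norm] using hx.1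
    have h4 := (convex_ball z0 r).add_smul_sub_mem h2 h3 hτ
    simpa only [gt_iff_lt, Metric.mem_ball, dist_eq_norm] using h4
  have hdd : ∀ i, ∀ τ ∈ Icc (0:ℝ) 1, HasDerivAt (fun τ : ℝ => deriv (C i) (y + τ • b) dv)
      (fderiv ℝ (fun x => deriv (C i) x dv) (y + τ • b) b) τ := by
    intro i τ hτ
    have h1 := (((hsm2 i).differentiableOn (by norm_num)).differentiableAt
      (hO.mem_nhds (hseg τ hτ).1)).hasFDerivAt
    have h2 : HasDerivAt (fun τ : ℝ => y + τ • b) b τ := by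
      simpa using ((hasDerivAt_id τ).smul_const b).const_add y
    exact h1.comp_hasDerivAt τ h2
  have hcont : ∀ i, ContinuousOn (fun τ : ℝ => deriv (C i) (y + τ • b) dv) (Icc 0 1) :=
    fun i τ hτ => (hdd i τ hτ).continuousAt.continuousWithinAt
  have hSc : ContinuousOn (fun τ : ℝ => SS C (y + τ • b)) (Icc 0 1) := by
    unfold SS
    exact (((hcont 0).abs.add (hcont 1).abs).add (hcont 2).abs)
  obtain ⟨τs, hτs, hmax⟩ := isCompact_Icc.exists_isMaxOn ⟨0, by simp only [mem_Icc, Std.le_refl, zero_le_one, and_self]⟩ hSc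
  set N := SS C (y + τs • b) with hN
  have hN0 : 0 ≤ N := by rw [hN]; unfold SS; (clear * -; positivity)
  set Ml := (|l (cv x)| + L * N) * ‖b‖ with hMl
  have hMl0 : 0 ≤ Ml := by (clear * - hL hN0; positivity)
  have hmv : ∀ i < 3, ∀ τ ∈ Icc (0:ℝ) 1,
      |deriv (C i) (y + τ • b) dv - deriv (C i) y dv| ≤ Ml := by
    intro i hi τ hτ
    have hsub : ∀ s ∈ Icc (0:ℝ) τ, s ∈ Icc (0:ℝ) 1 := fun s hs => ⟨hs.1, hs.2.trans hτ.2⟩
    have hg : ∀ s ∈ Icc (0:ℝ) τ, HasDerivAt (fun s : ℝ => Ml * s) Ml s := by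
      intro s _
      simpa only [id_eq, mul_one] using (hasDerivAt_id s).const_mul Ml
    have key := P354.norm_sub_le_of_deriv hτ.1 (fun s hs => hdd i s (hsub s hs)) hg
      (fun s hs => by
        obtain ⟨h0, h0'⟩ := hseg s (hsub s hs)
        obtain ⟨j, hj, h1⟩ := hd _ h0 b hb0 i hi
        rw [deriv_eq (((hsm2 i).differentiableOn (by (clear * -; norm_num))).differentiableAt
          (hO.mem_nhds h0)), h0'] at h1
        rw [Real.norm_eq_abs]
        refine h1.trans ?_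
        have h2 : |deriv (C j) (y + s • b) dv| ≤ N :=
          (le_SS hj _).trans (hmax (hsub s hs))
        have h3 : l (cv x) ≤ |l (cv x)| := le_abs_self _
        rw [hMl]
        (clear * - h3 h2 hL; gcongr))
    simp only [zero_smul, add_zero, mul_zero, sub_zero] at key
    rw [Real.norm_eq_abs] at key
    calc |deriv (C i) (y + τ • b) dv - deriv (C i) y dv| ≤ Ml * τ := key
      _ ≤ Ml * 1 := by gcongr; exact hτ.2
      _ = Ml := mul_one _
  have hS : N ≤ SS C y + 3 * Ml := by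
    have k0 := hmv 0 (by norm_num) τs hτs
    have k1 := hmv 1 (by norm_num) τs hτs
    have k2 := hmv 2 (by norm_num) τs hτs
    have tri : ∀ s t m : ℝ, |s - t| ≤ m → |s| ≤ |t| + m := by
      intro s t m h
      have := abs_sub_abs_le_abs_sub s t
      linarith only [h, this]
    have := tri _ _ _ k0
    have := tri _ _ _ k1
    have := tri _ _ _ k2
    rw [hN]
    unfold SS
    (clear i hi hs hb hcont hSc hMl0; linarith)
  have hbn : 0 ≤ ‖b‖ := norm_nonneg b
  have hl0 : 0 ≤ |l (cv x)| := abs_nonneg _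
  have hS0 : 0 ≤ SS C y := by unfold SS; (clear * -; positivity)
  have hN2 : N ≤ 2 * SS C y + 6 * |l (cv x)| * ‖b‖ := by
    have h1 : 3 * Ml = 3 * |l (cv x)| * ‖b‖ + (6 * L * ‖b‖) * N / 2 := by rw [hMl]; ring
    have h2 : (6 * L * ‖b‖) * N ≤ 1 * N := by (clear * - hs hN0; gcongr)
    linarith only [hS, h2]
  have key := hmv i hi 1 (by simp only [mem_Icc, zero_le_one, Std.le_refl, and_self])
  rw [one_smul] at key
  have e1 : y + b = x := by rw [hb]; abel
  rw [e1] at key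
  refine key.trans ?_
  calc Ml ≤ (|l (cv x)| + L * (2 * SS C y + 6 * |l (cv x)| * ‖b‖)) * ‖b‖ := by
        rw [hMl]; (clear * - hN2 hL; gcongr)
    _ = (|l (cv x)| * (1 + 6 * L * ‖b‖) + 2 * L * SS C y) * ‖b‖ := by ring
    _ ≤ (|l (cv x)| * (1 + 1) + 2 * L * SS C y) * ‖b‖ := by (clear * - hs; gcongr)
    _ = _ := by ring

/-- the oscillation of the derivatives in the direction e4 near a line -/
lemma osc4L (hB : FrontBox M e C z0 r K k) {l : ℝ → ℝ} {z1 : R4} {ε : ℝ} (hε : 0 < ε) (hε1 : ε ≤ 1)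
    (hz1 : cv z1 = 0) (hsub : nullBox z1 ε ⊆ nullBox z0 r) (hεr : ε ≤ r)
    (hd : ∀ x ∈ nullBox z1 ε, ∀ b, cv b = 0 → ∀ i < 3, ∃ j < 3,
      ε * |deriv (fun y => deriv (C i) y dv) x b| ≤ (l (cv x) + |deriv (C j) x dv|) * ‖b‖)
    {v : ℝ} {y y' : P354w.P3} (hy : Sp.symm (ins v y) ∈ nullBox z1 ε)
    (hy' : Sp.symm (ins v y') ∈ nullBox z1 ε)
    (h1 : ‖y - y'‖ < ε / 200) (h2 : |Real.sqrt (|l v|)| * ‖y - y'‖ < ε / 200)
    {i : ℕ} (hi : i < 3) :
    |fderiv ℝ (fun z => 4 * C i (Sp.symm z)) (ins v y)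
        (P354w.e4 ((toW C).scale 4) (ins v y)) -
      fderiv ℝ (fun z => 4 * C i (Sp.symm z)) (ins v y')
        (P354w.e4 ((toW C).scale 4) (ins v y'))| ≤
      chi4 ((toW C).scale 4) (ins v y') / 56 + (9 * K ^ 2) * (1 + |Real.sqrt (|l v|)|) := by
  have hK := hB.K_one
  have k1 := e4_dv hB (Sp_symm_mem.2 (hsub hy)) hi
  have k2 := e4_dv hB (Sp_symm_mem.2 (hsub hy')) hi
  have hc : cv (Sp.symm (ins v y)) = v := rfl
  have hn : ‖Sp.symm (ins v y) - Sp.symm (ins v y')‖ = ‖y - y'‖ := by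
    rw [← map_sub, ← norm_Sp, ContinuousLinearEquiv.apply_symm_apply]
    have e1 : ins v y - ins v y' = ins 0 (y - y') := by
      unfold ins
      ext <;> simp only [Prod.mk.eta, Prod.mk_sub_mk, sub_self, Prod.fst_sub, Prod.snd_sub]
    rw [e1]
    unfold ins
    simp only [Prod.norm_def, norm_zero, Prod.fst_sub, Prod.snd_sub]
    have hb : 0 ≤ max ‖y.2.1 - y'.2.1‖ ‖y.2.2 - y'.2.2‖ :=
      le_max_of_le_left (norm_nonneg _)
    rw [max_eq_right hb]
  have hb0 : 0 ≤ ‖y - y'‖ := norm_nonneg _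
  set L : ℝ := ε⁻¹ with hLd
  have hL1 : 1 ≤ L := (one_le_inv₀ hε).2 hε1
  have hL0 : 0 < L := by linarith only [hL1]
  have hLε : L * ε = 1 := inv_mul_cancel₀ hε.ne'
  have hKb : L * ‖y - y'‖ ≤ 1 / 200 := by
    calc L * ‖y - y'‖ ≤ L * (ε / 200) := by (clear * - h1 hε; gcongr)
      _ = (L * ε) / 200 := by ring
      _ = _ := by rw [hLε]
  have k3 := lip_gronL (hB.mono hz1 hsub hε hεr) (l := fun v => L * l v) hL1
    (fun x hx b hb i hi => by
      obtain ⟨j, hj, h3⟩ := hd x hx b hb i hi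
      refine ⟨j, hj, ?_⟩
      calc |deriv (fun y => deriv (C i) y dv) x b|
          = L * (ε * |deriv (fun y => deriv (C i) y dv) x b|) := by
            rw [← mul_assoc, hLε, one_mul]
        _ ≤ L * ((l (cv x) + |deriv (C j) x dv|) * ‖b‖) := by (clear * - h3 hε; gcongr)
        _ = _ := by ring) hy hy' rfl (by rw [hn]; linarith only [hKb]) hi
  rw [hc, hn, abs_mul, abs_of_pos hL0] at k3
  set s := Real.sqrt (|l v|) with hs
  have hs0 : 0 ≤ s := Real.sqrt_nonneg _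
  have hss : |l v| = s * s := (Real.mul_self_sqrt (abs_nonneg _)).symm
  rw [abs_of_nonneg hs0] at h2 ⊢
  have hsb : L * (s * ‖y - y'‖) ≤ 1 / 200 := by
    calc L * (s * ‖y - y'‖) ≤ L * (ε / 200) := by (clear * - h2 hε; gcongr)
      _ = (L * ε) / 200 := by ring
      _ = _ := by rw [hLε]
  set χ := chi4 ((toW C).scale 4) (ins v y') with hχ
  have hSχ : 4 * SS C (Sp.symm (ins v y')) ≤ χ + 12 * K ^ 2 := by
    have hy2 := Sp_symm_mem.2 (hsub hy')
    have j0 := e4_dv hB hy2 (i := 0) (by norm_num)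
    have j1 := e4_dv hB hy2 (i := 1) (by norm_num)
    have j2 := e4_dv hB hy2 (i := 2) (by norm_num)
    have e11 : χ = |fderiv ℝ (fun z => 4 * C 0 (Sp.symm z)) (ins v y')
          (P354w.e4 ((toW C).scale 4) (ins v y'))| +
        |fderiv ℝ (fun z => 4 * C 1 (Sp.symm z)) (ins v y')
          (P354w.e4 ((toW C).scale 4) (ins v y'))| +
        |fderiv ℝ (fun z => 4 * C 2 (Sp.symm z)) (ins v y')
          (P354w.e4 ((toW C).scale 4) (ins v y'))| := rfl
    have tri : ∀ s t m : ℝ, |s - 4 * t| ≤ m → 4 * |t| ≤ |s| + m := by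
      intro s t m h
      have h0 := abs_sub_abs_le_abs_sub (4 * t) s
      rw [abs_sub_comm, abs_mul, abs_of_pos (by norm_num : (0:ℝ) < 4)] at h0
      linarith only [h, h0]
    have := tri _ _ _ j0
    have := tri _ _ _ j1
    have := tri _ _ _ j2
    rw [e11]
    unfold SS
    (clear l hε hε1 hz1 hεr hd y hy h1 i hi hK k1 k2 hc hn hb0 L hLd hL1 hL0 hLε hKb k3 s h2 hs hs0 hss hsb χ hχ e11; linarith)
  have hχ0 : 0 ≤ χ := by rw [hχ]; unfold P354x.chi4; (clear * -; positivity)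
  set S := SS C (Sp.symm (ins v y')) with hSd
  have hS0 : 0 ≤ S := by rw [hSd]; unfold SS; (clear * -; positivity)
  have m1 : 4 * (2 * (L * |l v| + L * S) * ‖y - y'‖) ≤ s + (χ + 12 * K ^ 2) / 100 := by
    have e : 4 * (2 * (L * |l v| + L * S) * ‖y - y'‖) =
        8 * s * (L * (s * ‖y - y'‖)) + 2 * (L * ‖y - y'‖) * (4 * S) := by rw [hss]; ring
    rw [e]
    have a1 : 8 * s * (L * (s * ‖y - y'‖)) ≤ 8 * s * (1 / 200) := by (clear * - hsb; gcongr)
    have a2 : 2 * (L * ‖y - y'‖) * (4 * S) ≤ 2 * (1 / 200) * (χ + 12 * K ^ 2) := by (clear * - hKb hSχ hS0; gcongr)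
    linarith only [hs0, a1, a2]
  have m2 : 9 * K ^ 2 * (1 + s) = 9 * K ^ 2 + 9 * K ^ 2 * s := by ring
  have m3 : s ≤ 9 * K ^ 2 * s := by
    have : 1 ≤ 9 * K ^ 2 := by nlinarith only [hK]
    nlinarith only [hs0, this]
  have m4 : 4 * |deriv (C i) (Sp.symm (ins v y)) dv - deriv (C i) (Sp.symm (ins v y')) dv| ≤
      s + (χ + 12 * K ^ 2) / 100 := (mul_le_mul_of_nonneg_left k3 (by norm_num)).trans m1
  have hK2 : 0 ≤ K ^ 2 := by positivity
  rw [m2]
  rw [abs_le] at k1 k2 ⊢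
  have m5 := neg_abs_le (deriv (C i) (Sp.symm (ins v y)) dv - deriv (C i) (Sp.symm (ins v y')) dv)
  have m6 := le_abs_self (deriv (C i) (Sp.symm (ins v y)) dv - deriv (C i) (Sp.symm (ins v y')) dv)
  constructor <;> linarith only [k1, k2, hχ0, k3, m1, m3, m5, m6]

end

/-- Almost no line over the covered open set is bad. -/
theorem bad_null {pp : ENNReal} (hpp : 2 ≤ pp) {M N : Spc} {ι : M.pt → N.pt}
    {h : IsOpenEmbedding ι} [Nonempty M.pt] {e : M.Chart} {C : ℕ → R4 → ℝ} {z : R4} {r K : ℝ}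
    {k l : ℝ → ℝ} {p : N.pt} {e' : N.Chart} {A : R4 ≃L[ℝ] R4} {R0 Cc t0 r1 : ℝ} {f : P3 → ℝ}
    (hB : FrontBox M e C z r K k) (hlm : Measurable l) (hlp : InLp (pp / 2) l (-r))
    (hF : FrontData pp M N ι h e C z r K k p e' A R0 Cc t0 r1 f) {O : Set P354w.P3}
    (hO : IsOpen O) {v0 : ℝ} (hv0 : v0 < 0)
    (hin : ∀ y ∈ O, ∀ v ∈ Ico v0 0, ∃ z ∈ P354w.DD t0 r1 f,
      PsiF e e' ι h (co e' p) A z = ins v y ∧ ‖z.2‖ ≤ r1 / 4) :
    ∀ᵐ w : R4, w ∈ nullBox z r → ((w.2.2.1, w.1, w.2.2.2) : P354w.P3) ∈ O →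
      (∀ b < 0, ∃ i < 3, ¬ InLp pp (fun v => deriv (C i) (w + (v - cv w) • dv) dv) b) →
      ∀ ε > 0, ¬ ∀ x ∈ nullBox (w - cv w • dv) ε, ∀ b, cv b = 0 → ∀ i < 3, ∃ j < 3,
        ε * |deriv (fun y => deriv (C i) y dv) x b| ≤ (l (cv x) + |deriv (C j) x dv|) * ‖b‖ := by
  have hr := hB.dn.r_pos
  have hK := hB.K_one
  have hCc := hF.Cc_large
  have hz := hB.base
  have hG : P354z.LpF pp (volume.restrict (P354w.DD t0 r1 f))
      (fun w => ‖fderiv ℝ (fun z => (4:ℝ) • Gf (comp e') (co e' p) A z) w‖ₑ) := by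
    have h1 := hF.lp.norm.2
    have h2 := (P354z.LpF_iff hpp).2 h1.ne
    refine h2.mono fun w => ?_
    rw [enorm_norm]
  have hl' : P354z.LpF pp (volume.restrict (Ico (-r / 2) 0)) (fun v => ‖Real.sqrt (|l v|)‖ₑ) := by
    refine (P354z.LpF_sqrt hpp hlp.ne).mono_meas ?_
    refine Measure.restrict_mono ?_ le_rfl
    intro v hv
    exact ⟨by linarith only [hr, hv.1], hv.2⟩
  obtain ⟨v1, hv1, -, hgen⟩ := P354z.openPl hF.core (fun y hy => ptw hB hCc hy)
    (cvF_int (hB.dn.intg k (Or.inl rfl)).2 _)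
    (cvF_int (hB.dn.intg k (Or.inl rfl)).2 _)
    (by
      rw [setLIntegral_const]
      exact ENNReal.mul_ne_top ENNReal.ofReal_ne_top (by simp only [Real.volume_Icc, sub_neg_eq_add, ne_eq, ENNReal.ofReal_ne_top, not_false_eq_true]))
    (fun _ => by nlinarith only [hK, hCc]) hpp hG (l := fun v => Real.sqrt (|l v|)) hlm.abs.sqrt
    (va := -r / 2) (by linarith only [hr]) hl' hO hv0 hin
  filter_upwards [ae_line hgen] with w hw hwz hwO hbad ε0 hε0 htan
  set y0 : P354w.P3 := (w.2.2.1, w.1, w.2.2.2) with hy0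
  set z1 : R4 := w - cv w • dv with hz1
  have hcz1 : cv z1 = 0 := by simp only [cv, hz1, dv, Prod.smul_mk, smul_eq_mul, mul_zero, mul_one, Prod.snd_sub, Prod.fst_sub, sub_self]
  have hz1r : ‖z1 - z‖ < r := by
    have h1 := norm_P4_le.1 (le_refl ‖w - z‖)
    refine lt_of_le_of_lt (norm_P4_le.2 ?_) hwz.1
    have hz' : z.2.1 = 0 := hz
    simp only [Prod.fst_sub, Prod.snd_sub] at h1
    refine ⟨?_, ?_, ?_, ?_⟩
    · simpa only [hz1, dv, Prod.smul_mk, smul_eq_mul, mul_zero, mul_one, Prod.fst_sub, sub_zero] using h1.1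
    · simp only [hz1, cv, dv, Prod.smul_mk, smul_eq_mul, mul_zero, mul_one, Prod.snd_sub, Prod.fst_sub, sub_self, hz', abs_zero, norm_nonneg]
    · simpa only [hz1, dv, Prod.smul_mk, smul_eq_mul, mul_zero, mul_one, Prod.snd_sub, Prod.fst_sub, sub_zero] using h1.2.2.1
    · simpa only [hz1, dv, Prod.smul_mk, smul_eq_mul, mul_zero, mul_one, Prod.snd_sub, sub_zero] using h1.2.2.2
  obtain ⟨ε, hε, hεε0, hε1, hεr⟩ : ∃ ε > 0, ε ≤ ε0 ∧ ε ≤ 1 ∧ ε ≤ r - ‖z1 - z‖ :=
    ⟨min ε0 (min 1 (r - ‖z1 - z‖)), lt_min hε0 (lt_min one_pos (by linarith only [hz1r])),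
      min_le_left _ _, (min_le_right _ _).trans (min_le_left _ _),
      (min_le_right _ _).trans (min_le_right _ _)⟩
  have hsub : nullBox z1 ε ⊆ nullBox z r := by
    rintro x ⟨hx, hxv⟩
    refine ⟨?_, hxv⟩
    have h1 : x - z = (x - z1) + (z1 - z) := by abel
    rw [h1]
    exact (norm_add_le _ _).trans_lt (by linarith only [hεr, hx])
  have hεr' : ε ≤ r := by have := norm_nonneg (z1 - z); linarith only [hεr, this]
  have htan' : ∀ x ∈ nullBox z1 ε, ∀ b, cv b = 0 → ∀ i < 3, ∃ j < 3,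
      ε * |deriv (fun y => deriv (C i) y dv) x b| ≤ (l (cv x) + |deriv (C j) x dv|) * ‖b‖ := by
    intro x hx b hb i hi
    obtain ⟨j, hj, h1⟩ := htan x ⟨hx.1.trans_le hεε0, hx.2⟩ b hb i hi
    refine ⟨j, hj, le_trans ?_ h1⟩
    (clear * - hεε0; gcongr)
  -- the interval
  obtain ⟨v2, hv2, hv2ε⟩ : ∃ v2 ∈ Ico v1 0, -ε < v2 :=
    ⟨max v1 (-ε / 2), ⟨le_max_left _ _, max_lt hv1.2 (by linarith only [hε])⟩,
      lt_of_lt_of_le (by linarith only [hε]) (le_max_right _ _)⟩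
  have hmem : ∀ v ∈ Ico v2 0, ∀ y : P354w.P3, ‖y - y0‖ < ε → Sp.symm (ins v y) ∈ nullBox z1 ε := by
    intro v hv y hy
    refine ⟨?_, hv.2⟩
    have h1 : ‖(y - y0)‖ < ε := hy
    have h2 : |y.1 - y0.1| < ε := (norm_fst_le (y - y0)).trans_lt h1
    have h3 : |y.2.1 - y0.2.1| < ε :=
      ((norm_fst_le (y - y0).2).trans (norm_snd_le (y - y0))).trans_lt h1
    have h4 : |y.2.2 - y0.2.2| < ε :=
      ((norm_snd_le (y - y0).2).trans (norm_snd_le (y - y0))).trans_lt h1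
    have h5 : |v| < ε := by rw [abs_lt]; constructor <;> linarith only [hv2ε, hv.1, hε, hv.2]
    have e1 : Sp.symm (ins v y) - z1 = (y.2.1 - y0.2.1, v, y.1 - y0.1, y.2.2 - y0.2.2) := by
      rw [Sp_symm_apply]
      ext <;> simp only [ins, Prod.mk.eta, hz1, cv, dv, Prod.smul_mk, smul_eq_mul, mul_zero, mul_one, Prod.fst_sub, sub_zero, hy0, Prod.snd_sub, sub_self]
    rw [e1]
    simp only [Prod.norm_def, Real.norm_eq_abs]
    exact max_lt h3 (max_lt h5 (max_lt h2 h4))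
  have hy00 : ‖y0 - y0‖ < ε := by rw [sub_self, norm_zero]; exact hε
  have hfin := hw hwO (9 * K ^ 2) (ε / 200) (by (clear * - hK; positivity)) (by (clear * - hε; positivity)) v2 hv2
    (fun v hv y _ _ h1 h2 => by
      have m1 := hmem v hv y (by linarith only [hε, h1])
      have m2 := hmem v hv y0 hy00
      exact ⟨osc4L hB hε hε1 hcz1 hsub hεr' htan' m1 m2 h1 h2 (i := 0) (by norm_num),
        osc4L hB hε hε1 hcz1 hsub hεr' htan' m1 m2 h1 h2 (i := 1) (by norm_num),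
        osc4L hB hε hε1 hcz1 hsub hεr' htan' m1 m2 h1 h2 (i := 2) (by norm_num)⟩)
  obtain ⟨i, hi, hitop⟩ := hbad v2 hv2.2
  apply hitop
  show eLpNorm _ pp (volume.restrict (Ioo v2 0)) < ⊤
  rw [lt_top_iff_ne_top, ← P354z.LpF_iff hpp]
  have hvol : (volume.restrict (Ioo v2 0)) univ ≠ ⊤ := by
    rw [Measure.restrict_apply MeasurableSet.univ, univ_inter, Real.volume_Ioo]
    exact ENNReal.ofReal_ne_top
  have hfin2 : P354z.LpF pp (volume.restrict (Ioo v2 0)) (fun v => ENNReal.ofReal (K ^ 2) +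
      ENNReal.ofReal (chi4 ((toW C).scale 4) (ins v y0))) :=
    P354z.LpF.add (P354z.LpF.const hvol ENNReal.ofReal_ne_top)
      (hfin.mono_meas (Measure.restrict_mono Ioo_subset_Ico_self le_rfl)) hpp aemeasurable_const
  refine hfin2.mono_ae ?_
  rw [ae_restrict_iff' measurableSet_Ioo]
  refine Filter.Eventually.of_forall fun v hv => ?_
  have e1 : w + (v - cv w) • dv = Sp.symm (ins v y0) := by
    rw [Sp_symm_apply]
    ext <;> simp only [cv, dv, Prod.smul_mk, smul_eq_mul, mul_zero, mul_one, Prod.fst_add, add_zero, ins, hy0, Prod.snd_add, add_sub_cancel]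
  rw [e1]
  have hMB := Sp_symm_mem.2 (hsub (hmem v ⟨hv.1.le, hv.2⟩ y0 hy00))
  have h1 := e4_dv hB hMB hi
  have h2 : |fderiv ℝ (fun z => 4 * C i (Sp.symm z)) (ins v y0)
      (P354w.e4 ((toW C).scale 4) (ins v y0))| ≤ chi4 ((toW C).scale 4) (ins v y0) := by
    have e11 : chi4 ((toW C).scale 4) (ins v y0) =
      |fderiv ℝ (fun z => 4 * C 0 (Sp.symm z)) (ins v y0)
        (P354w.e4 ((toW C).scale 4) (ins v y0))| +
      |fderiv ℝ (fun z => 4 * C 1 (Sp.symm z)) (ins v y0)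
        (P354w.e4 ((toW C).scale 4) (ins v y0))| +
      |fderiv ℝ (fun z => 4 * C 2 (Sp.symm z)) (ins v y0)
        (P354w.e4 ((toW C).scale 4) (ins v y0))| := rfl
    rw [e11]
    have a0 := abs_nonneg (fderiv ℝ (fun z => 4 * C 0 (Sp.symm z)) (ins v y0)
        (P354w.e4 ((toW C).scale 4) (ins v y0)))
    have a1 := abs_nonneg (fderiv ℝ (fun z => 4 * C 1 (Sp.symm z)) (ins v y0)
        (P354w.e4 ((toW C).scale 4) (ins v y0)))
    have a2 := abs_nonneg (fderiv ℝ (fun z => 4 * C 2 (Sp.symm z)) (ins v y0)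
        (P354w.e4 ((toW C).scale 4) (ins v y0)))
    interval_cases i <;> linarith only [a1, a2, a0]
  have h3 : |deriv (C i) (Sp.symm (ins v y0)) dv| ≤
      K ^ 2 + chi4 ((toW C).scale 4) (ins v y0) := by
    have h4 := abs_nonneg (fderiv ℝ (fun z => 4 * C i (Sp.symm z)) (ins v y0)
      (P354w.e4 ((toW C).scale 4) (ins v y0)))
    rw [abs_le] at h1 h2 ⊢
    constructor <;> linarith only [h1, h2]
  have hchi : 0 ≤ chi4 ((toW C).scale 4) (ins v y0) := by unfold P354x.chi4; (clear * -; positivity)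
  rw [← ofReal_norm, Real.norm_eq_abs, ← ENNReal.ofReal_add (by (clear * - hK; positivity)) hchi]
  exact ENNReal.ofReal_le_ofReal h3

end Vale.Agent.P354p
end
end

section

section

set_option linter.unusedSectionVars false
set_option maxSynthPendingDepth 3

open scoped Manifold ContDiff
open MeasureTheory Set Topology Filter

namespace Vale.Agent.P354p

open Vale.Agent.P354 (P4 P3 norm_P4_le MB)

/-- The derivatives of a Lipschitz metric are bounded. -/
lemma lip_bound {M N : Spc} [Nonempty M.pt] {ι : M.pt → N.pt} {h : IsOpenEmbedding ι}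
    {e : M.Chart} {C : ℕ → R4 → ℝ} {z0 : R4} {r K : ℝ} {k : ℝ → ℝ} {p : N.pt} {e' : N.Chart}
    {A : R4 ≃L[ℝ] R4} {R0 Cc t0 r1 : ℝ} {f : P3 → ℝ}
    (hM : IsSpacetime IsSmooth M) (hg' : IsSpacetime (IsC0W1 ⊤) N) (hI : IsIsom ι)
    (hF : FrontData ⊤ M N ι h e C z0 r K k p e' A R0 Cc t0 r1 f) :
    ∃ L : ℝ, ∀ z ∈ P354w.DD t0 r1 f,
      ‖fderiv ℝ (fun z => (4:ℝ) • Gf (comp e') (co e' p) A z) z‖ ≤ L := by
  have hsm : ∀ i j, ContDiffOn ℝ ∞ (comp e' i j) (theta e e' ι h).target := fun i j =>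
    comp_contDiffOn_target (h := h) (e := e) (e' := e') hM hg' hI (bas i) (bas j)
  have hWo : IsOpen (yv (co e' p) A ⁻¹' (theta e e' ι h).target) :=
    (theta e e' ι h).open_target.preimage (yv_continuous (co e' p) A)
  have hG : ContDiffOn ℝ ∞ (fun z => (4:ℝ) • Gf (comp e') (co e' p) A z)
      (yv (co e' p) A ⁻¹' (theta e e' ι h).target) :=
    ContDiffOn.smul (f := fun _ => (4:ℝ)) contDiffOn_const (Gf_contDiffOn hsm (co e' p) A)
  have hc : ContinuousOn (fderiv ℝ (fun z => (4:ℝ) • Gf (comp e') (co e' p) A z))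
      (yv (co e' p) A ⁻¹' (theta e e' ι h).target) :=
    hG.continuousOn_fderiv_of_isOpen hWo (by norm_cast)
  have := volume_haar
  exact P354a.bdd_of_memLp hF.core.openD (hc.mono fun z hz => (hF.sub hz).1.1) hF.lp

end Vale.Agent.P354p
end
end

section

section

set_option linter.unusedSectionVars false
set_option maxSynthPendingDepth 3

open scoped Manifold ContDiff
open MeasureTheory Set Topology Filter

namespace Vale.Agent.P354p

open Vale.Agent.P354 (P4 P3 norm_P4_le MB)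
open Vale.Agent.P354x (ins)

/-- (u, theta1, theta2) to (theta1, u, theta2) -/
def sw3 (y : ℝ × ℝ × ℝ) : P354w.P3 := (y.2.1, y.1, y.2.2)

lemma sw3_sw3 (y : ℝ × ℝ × ℝ) : sw3 (sw3 y) = y := rfl

lemma sw3_cont : Continuous sw3 := by unfold sw3; fun_prop

lemma sw3_ins (v : ℝ) (y : ℝ × ℝ × ℝ) : Sp.symm (ins v (sw3 y)) = (y.1, v, y.2) := by
  rw [Sp_symm_apply]
  rfl

lemma sw3_mp : MeasurePreserving sw3 :=
  mp_sw (α := ℝ) (β := ℝ) (γ := ℝ)

lemma sw3_meas : MeasurableEmbedding sw3 := by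
  have h1 : Measurable sw3 := sw3_cont.measurable
  exact (⟨⟨sw3, sw3, sw3_sw3, sw3_sw3⟩, h1, h1⟩ : (ℝ × ℝ × ℝ) ≃ᵐ P354w.P3).measurableEmbedding


/-- a product with compact support in an open set, one factor continuous there -/
lemma cont_mul {X : Type} [TopologicalSpace X] {O : Set X} {ψ F : X → ℝ} (hψ : Continuous ψ)
    (hψO : tsupport ψ ⊆ O) (hF : ∀ y ∈ O, ContinuousAt F y) : Continuous fun y => ψ y * F y := by
  apply continuous_of_tsupport
  intro y hy
  have h1 : tsupport (fun y => ψ y * F y) ⊆ tsupport ψ := by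
    refine closure_mono ?_
    intro y hy h0
    exact hy (by simp only; rw [h0, zero_mul])
  exact hψ.continuousAt.mul (hF y (hψO (h1 hy)))

lemma int_mul {X : Type} [TopologicalSpace X] [MeasurableSpace X] [OpensMeasurableSpace X]
    {μ : Measure X} [IsFiniteMeasureOnCompacts μ] {O : Set X} {ψ F : X → ℝ}
    (hψ : Continuous ψ) (hψc : HasCompactSupport ψ)
    (hψO : tsupport ψ ⊆ O) (hF : ∀ y ∈ O, ContinuousAt F y) : Integrable (fun y => ψ y * F y) μ :=
  (cont_mul hψ hψO hF).integrable_of_hasCompactSupport hψc.mul_right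

section
variable {M : Spc} {e : M.Chart} {C : ℕ → R4 → ℝ} {z0 : R4} {r K : ℝ} {k : ℝ → ℝ}

lemma slice_bd (hB : FrontBox M e C z0 r K k) {O : Set P354w.P3} {v : ℝ}
    (hMB : ∀ y ∈ O, ins v y ∈ MB (Sp z0) r) {ψ : P354w.P3 → ℝ} (hψ : Continuous ψ)
    (hψc : HasCompactSupport ψ) (hψO : tsupport ψ ⊆ O) {i : ℕ} (hi : i < 3) {B : ℝ}
    (hBd : |∫ y, ψ y * fderiv ℝ (fun z => 4 * C i (Sp.symm z)) (ins v y)
      (P354w.e4 ((toW C).scale 4) (ins v y))| ≤ B) :
    |∫ y, ψ y * deriv (C i) (Sp.symm (ins v y)) dv| ≤ B + K ^ 2 * ∫ y, |ψ y| := by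
  have hins : Continuous (fun y : P354w.P3 => ins v y) := by unfold P354x.ins; fun_prop
  have hO := nullBox_isOpen z0 r
  have hMo := MB_isOpen (Sp z0) r
  have hxm : ∀ y ∈ O, Sp.symm (ins v y) ∈ nullBox z0 r := fun y hy => Sp_symm_mem.1 (hMB y hy)
  have hSi : Continuous (fun y : P354w.P3 => Sp.symm (ins v y)) := Sp.symm.continuous.comp hins
  -- continuity of the two factors
  have hF : ∀ y ∈ O, ContinuousAt (fun y => deriv (C i) (Sp.symm (ins v y)) dv) y := by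
    intro y hy
    have h1 : ContDiffOn ℝ 1 (fun x => deriv (C i) x dv) (nullBox z0 r) :=
      (((hB.dn.smooth i).fderiv_of_isOpen hO (m := 1) (by norm_cast)).clm_apply
        contDiffOn_const).congr (fun w hw => deriv_eq (hB.diff hw i) dv)
    have h2 : ContinuousAt (fun x => deriv (C i) x dv) (Sp.symm (ins v y)) :=
      (h1.continuousOn).continuousAt (hO.mem_nhds (hxm y hy))
    exact ContinuousAt.comp (g := fun x => deriv (C i) x dv)
      (f := fun y => Sp.symm (ins v y)) h2 hSi.continuousAt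
  have hH : ∀ y ∈ O, ContinuousAt (fun y => fderiv ℝ (fun z => 4 * C i (Sp.symm z)) (ins v y)
      (P354w.e4 ((toW C).scale 4) (ins v y))) y := by
    intro y hy
    have hsm := hB.smooth4
    have g0 : ContDiffOn ℝ 1 (fun z => 4 * C i (Sp.symm z)) (MB (Sp z0) r) := by
      interval_cases i
      · exact hsm.g11
      · exact hsm.g12
      · exact hsm.g22
    have h1 : ContinuousOn (fderiv ℝ (fun z => 4 * C i (Sp.symm z))) (MB (Sp z0) r) :=
      g0.continuousOn_fderiv_of_isOpen hMo le_rfl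
    have h2 : ContinuousAt (fderiv ℝ (fun z => 4 * C i (Sp.symm z))) (ins v y) :=
      h1.continuousAt (hMo.mem_nhds (hMB y hy))
    have h3 : ContinuousAt (fun z => P354w.e4 ((toW C).scale 4) z) (ins v y) := by
      have s1 := hsm.s1.continuousOn.continuousAt (hMo.mem_nhds (hMB y hy))
      have s2 := hsm.s2.continuousOn.continuousAt (hMo.mem_nhds (hMB y hy))
      unfold P354w.e4
      exact s1.prodMk (continuousAt_const.prodMk (continuousAt_const.prodMk s2))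
    have h4 : ContinuousAt (fun z => fderiv ℝ (fun z => 4 * C i (Sp.symm z)) z
        (P354w.e4 ((toW C).scale 4) z)) (ins v y) := h2.clm_apply h3
    exact ContinuousAt.comp (g := fun z => fderiv ℝ (fun z => 4 * C i (Sp.symm z)) z
        (P354w.e4 ((toW C).scale 4) z)) (f := fun y => ins v y) h4 hins.continuousAt
  have i1 : Integrable (fun y => ψ y * deriv (C i) (Sp.symm (ins v y)) dv) :=
    int_mul hψ hψc hψO hF
  have i2 := int_mul (μ := volume) hψ hψc hψO hH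
  have i3 : Integrable (fun y => |ψ y|) := (hψ.integrable_of_hasCompactSupport hψc).abs
  have key : |4 * ∫ y, ψ y * deriv (C i) (Sp.symm (ins v y)) dv| ≤ B + 4 * K ^ 2 * ∫ y, |ψ y| := by
    have e1 : 4 * ∫ y, ψ y * deriv (C i) (Sp.symm (ins v y)) dv =
        (∫ y, ψ y * fderiv ℝ (fun z => 4 * C i (Sp.symm z)) (ins v y)
          (P354w.e4 ((toW C).scale 4) (ins v y))) -
        ∫ y, (ψ y * fderiv ℝ (fun z => 4 * C i (Sp.symm z)) (ins v y)
          (P354w.e4 ((toW C).scale 4) (ins v y)) -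
          4 * (ψ y * deriv (C i) (Sp.symm (ins v y)) dv)) := by
      rw [integral_sub i2 (i1.const_mul 4), integral_const_mul]
      ring
    rw [e1]
    refine (abs_sub _ _).trans (add_le_add hBd ?_)
    rw [← integral_const_mul, ← Real.norm_eq_abs]
    refine norm_integral_le_of_norm_le (i3.const_mul _) (Filter.Eventually.of_forall fun y => ?_)
    rw [Real.norm_eq_abs]
    by_cases hy : y ∈ O
    · have h1 := e4_dv hB (hMB y hy) hi
      have e2 : ψ y * fderiv ℝ (fun z => 4 * C i (Sp.symm z)) (ins v y)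
          (P354w.e4 ((toW C).scale 4) (ins v y)) -
          4 * (ψ y * deriv (C i) (Sp.symm (ins v y)) dv) =
          ψ y * (fderiv ℝ (fun z => 4 * C i (Sp.symm z)) (ins v y)
          (P354w.e4 ((toW C).scale 4) (ins v y)) -
          4 * deriv (C i) (Sp.symm (ins v y)) dv) := by ring
      rw [e2, abs_mul, mul_comm (4 * K ^ 2)]
      exact mul_le_mul_of_nonneg_left h1 (abs_nonneg _)
    · have h0 : ψ y = 0 := by
        by_contra hne
        exact hy (hψO (subset_tsupport ψ hne))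
      rw [h0]
      simp only [zero_mul, mul_zero, sub_self, abs_zero, Std.le_refl]
  rw [abs_mul, abs_of_pos (by norm_num : (0:ℝ) < 4)] at key
  have hB0 : 0 ≤ B := (abs_nonneg _).trans hBd
  linarith only [key, hB0]

end

/-- The averages of the v derivative are bounded if there is a Lipschitz extension. -/
theorem avg_bdd {M N : Spc} {ι : M.pt → N.pt} {h : IsOpenEmbedding ι} [Nonempty M.pt]
    (hM : IsSpacetime IsSmooth M) (hg' : IsSpacetime (IsC0W1 ⊤) N) (hI : IsIsom ι)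
    {e : M.Chart} {C : ℕ → R4 → ℝ} {z : R4} {r K : ℝ} {k : ℝ → ℝ} {p : N.pt} {e' : N.Chart}
    {A : R4 ≃L[ℝ] R4} {R0 Cc t0 r1 : ℝ} {f : P3 → ℝ} (hB : FrontBox M e C z r K k)
    (hF : FrontData ⊤ M N ι h e C z r K k p e' A R0 Cc t0 r1 f) {O : Set P354w.P3}
    (hO : IsOpen O) {v0 : ℝ}
    (hin : ∀ y ∈ O, ∀ v ∈ Ico v0 0, ∃ z ∈ P354w.DD t0 r1 f,
      PsiF e e' ι h (co e' p) A z = ins v y ∧ ‖z.2‖ ≤ r1 / 4)
    {φ : ℝ × ℝ × ℝ → ℝ} (hφ : ContDiff ℝ 1 φ) (hφc : HasCompactSupport φ)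
    (hφO : tsupport φ ⊆ sw3 ⁻¹' O) {i : ℕ} (hi : i < 3) {c1 : ℝ} (hc1 : c1 ≤ -v0) :
    InLp ⊤ (fun v => ∫ y, φ y * deriv (C i) (y.1, v, y.2) dv) (-c1) := by
  have hr := hB.dn.r_pos
  have hK := hB.K_one
  have hCc := hF.Cc_large
  obtain ⟨L, hL⟩ := lip_bound hM hg' hI hF
  have hMB : ∀ y ∈ O, ∀ v ∈ Ico v0 0, ins v y ∈ MB (Sp z) r := by
    intro y hy v hv
    obtain ⟨w, hw, hwy, _⟩ := hin y hy v hv
    rw [← hwy]
    exact hF.core.maps (hF.core.DD_sub hw)
  -- the weight in the internal order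
  set ψ : P354w.P3 → ℝ := fun y => φ (sw3 y) with hψ
  have hsm : ContDiff ℝ 1 sw3 := by unfold sw3; fun_prop
  have hψd : ContDiff ℝ 1 ψ := hφ.comp hsm
  have hψt : tsupport ψ ⊆ sw3 ⁻¹' (tsupport φ) := by
    refine closure_minimal ?_ ((isClosed_tsupport φ).preimage sw3_cont)
    intro y hy
    exact subset_tsupport φ hy
  have hψO : tsupport ψ ⊆ O := by
    intro y hy
    have h1 := hφO (hψt hy)
    rw [mem_preimage, sw3_sw3] at h1
    exact h1
  have hψc : HasCompactSupport ψ := by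
    have h1 : IsCompact (sw3 '' (tsupport φ)) := hφc.isCompact.image sw3_cont
    refine HasCompactSupport.of_support_subset_isCompact h1 ?_
    intro y hy
    exact ⟨sw3 y, subset_tsupport φ hy, sw3_sw3 y⟩
  obtain ⟨B, hBd⟩ := P354a.avg3 hF.core
    (cvF_int (hB.dn.intg k (Or.inl rfl)).2 _)
    (cvF_int (hB.dn.intg k (Or.inl rfl)).2 _)
    (by
      rw [setLIntegral_const]
      exact ENNReal.mul_ne_top ENNReal.ofReal_ne_top (by simp only [Real.volume_Icc, sub_neg_eq_add, ne_eq, ENNReal.ofReal_ne_top, not_false_eq_true]))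
    (fun _ => by nlinarith only [hK, hCc]) hL hO hin hψd hψc hψO
  have hfin : ∀ v ∈ Ico v0 0, |∫ y, φ y * deriv (C i) (y.1, v, y.2) dv| ≤
      B + K ^ 2 * ∫ y, |ψ y| := by
    intro v hv
    have e1 : (∫ y : ℝ × ℝ × ℝ, φ y * deriv (C i) (y.1, v, y.2) dv) =
        ∫ y, ψ y * deriv (C i) (Sp.symm (ins v y)) dv := by
      rw [← sw3_mp.integral_comp sw3_meas]
      refine integral_congr_ae (Filter.Eventually.of_forall fun y => ?_)
      have e2 := sw3_ins v (sw3 y)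
      rw [sw3_sw3] at e2
      simp only [hψ]
      rw [e2]
    rw [e1]
    refine slice_bd hB (fun y hy => hMB y hy v hv) hψd.continuous hψc hψO hi ?_
    have h1 := hBd v hv
    interval_cases i
    · exact h1.1
    · exact h1.2.1
    · exact h1.2.2
  show eLpNorm _ ⊤ (volume.restrict (Ioo (-c1) 0)) < ⊤
  rw [eLpNorm_exponent_top]
  refine eLpNormEssSup_lt_top_of_ae_bound (C := B + K ^ 2 * ∫ y, |ψ y|) ?_
  rw [ae_restrict_iff' measurableSet_Ioo]
  refine Filter.Eventually.of_forall fun v hv => ?_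
  rw [Real.norm_eq_abs]
  refine hfin v ⟨?_, hv.2⟩
  linarith only [hc1, hv.1]

/-- **No extension through a weak null singularity.** Near every point either a non null set of
bad lines with a local bound of the tangential derivatives, or unbounded averages. -/
theorem front_mix {pp : ENNReal} (hpp : 2 ≤ pp) {M N : Spc} {ι : M.pt → N.pt}
    (hM : IsSpacetime IsSmooth M)
    (hg' : IsSpacetime (IsC0W1 pp) N) (h : IsOpenEmbedding ι) (hI : IsIsom ι) {c : ℝ → N.pt}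
    (hc : IsFutureCurve N 0 (Icc 0 1) c) {a : ℝ → M.pt} (ha : ∀ t ∈ Ico (0:ℝ) 1, ι (a t) = c t)
    {e : M.Chart} {C : ℕ → R4 → ℝ} {z : R4} {r K : ℝ} {k l : ℝ → ℝ}
    (hB : FrontBox M e C z r K k) (hlm : Measurable l) (hlp : InLp (pp / 2) l (-r))
    (hain : EndsAt a e (nullBox z r) z)
    (hall : ∀ x ∈ nullBox z r, ∀ c > 0,
      volume {w | w ∈ nullBox x c ∧
        (∀ b < 0, ∃ i < 3, ¬ InLp pp (fun v => deriv (C i) (w + (v - cv w) • dv) dv) b) ∧
        ∃ ε > 0, ∀ x ∈ nullBox (w - cv w • dv) ε, ∀ b, cv b = 0 → ∀ i < 3, ∃ j < 3,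
          ε * |deriv (fun y => deriv (C i) y dv) x b| ≤
            (l (cv x) + |deriv (C j) x dv|) * ‖b‖} ≠ 0 ∨
      pp = ⊤ ∧ ∃ i < 3, ∃ φ : ℝ × ℝ × ℝ → ℝ, ContDiff ℝ 1 φ ∧
        tsupport φ ⊆ Metric.ball (x.1, x.2.2) c ∧
        ¬ InLp pp (fun v => ∫ y, φ y * deriv (C i) (y.1, v, y.2) dv) (-c)) : False := by
  have hne : Nonempty M.pt := ⟨a 0⟩
  have hr := hB.dn.r_pos
  have hK := hB.K_one
  obtain ⟨e', A, R0, Cc, t0, r1, f, hF, O, hO, ⟨y1, hy1⟩, v0, hv0, hin⟩ :=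
    exists_frontData_open (h := h) hpp hM hg' hI hB hc ha hain
  have hMB : ∀ y ∈ O, ∀ v ∈ Ico v0 0, ins v y ∈ MB (Sp z) r := by
    intro y hy v hv
    obtain ⟨w, hw, hwy, _⟩ := hin y hy v hv
    rw [← hwy]
    exact hF.core.maps (hF.core.DD_sub hw)
  -- a point and a neighbourhood
  have hv2 : v0 / 2 ∈ Ioo v0 0 := ⟨by linarith only [hv0], by linarith only [hv0]⟩
  set x : R4 := Sp.symm (ins (v0 / 2) y1) with hx
  have hxn : x ∈ nullBox z r := by
    have := hMB y1 hy1 (v0 / 2) ⟨hv2.1.le, hv2.2⟩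
    rw [Sp_symm_mem] at this
    exact this
  set O' : Set (ℝ × ℝ × ℝ) := sw3 ⁻¹' O with hO'
  have hO'o : IsOpen O' := hO.preimage sw3_cont
  have hxO : ((x.1, x.2.2) : ℝ × ℝ × ℝ) ∈ O' := by
    rw [hx, Sp_symm_apply]
    exact hy1
  obtain ⟨ε, hε, hball⟩ := Metric.isOpen_iff.1 hO'o _ hxO
  have hxr : 0 < r - ‖x - z‖ := by linarith only [hxn.1]
  set c1 : ℝ := min (min ε (-v0)) (r - ‖x - z‖) with hc1
  have hc10 : 0 < c1 := lt_min (lt_min hε (by linarith only [hv0])) hxr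
  have hc1ε : c1 ≤ ε := (min_le_left _ _).trans (min_le_left _ _)
  have hc1v : c1 ≤ -v0 := (min_le_left _ _).trans (min_le_right _ _)
  have hc1r : c1 ≤ r - ‖x - z‖ := min_le_right _ _
  rcases hall x hxn c1 hc10 with h0 | ⟨rfl, i, hi, φ, hφ, hφs, hbad⟩
  · apply h0
    rw [measure_eq_zero_iff_ae_notMem]
    filter_upwards [bad_null hpp hB hlm hlp hF hO hv0 hin] with w hw hwm
    obtain ⟨hwx, hwb, ε1, hε1, htan⟩ := hwm
    refine hw ?_ ?_ hwb ε1 hε1 htan
    · refine ⟨?_, hwx.2⟩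
      have h1 : w - z = (w - x) + (x - z) := by abel
      rw [h1]
      exact (norm_add_le _ _).trans_lt (by linarith only [hc1r, hwx.1])
    · have h2 : ((w.1, w.2.2) : ℝ × ℝ × ℝ) ∈ O' := by
        apply hball
        rw [Metric.mem_ball, dist_eq_norm]
        have h3 := hwx.1
        have h4 : |w.1 - x.1| ≤ ‖w - x‖ := norm_fst_le (w - x)
        have h5 : ‖(w - x).2.2‖ ≤ ‖w - x‖ := (norm_snd_le (w - x).2).trans (norm_snd_le (w - x))
        have h6 : ((w.1, w.2.2) : ℝ × ℝ × ℝ) - (x.1, x.2.2) = (w.1 - x.1, (w - x).2.2) := rfl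
        rw [h6, Prod.norm_def]
        exact max_lt (lt_of_le_of_lt h4 (by linarith only [hc1ε, h3])) (lt_of_le_of_lt h5 (by linarith only [hc1ε, h3]))
      exact h2
  · apply hbad
    have hφO : tsupport φ ⊆ O' := fun y hy =>
      hball (Metric.ball_subset_ball hc1ε (hφs hy))
    have hφc : HasCompactSupport φ := by
      refine HasCompactSupport.of_support_subset_isCompact
        (isCompact_closedBall ((x.1, x.2.2) : ℝ × ℝ × ℝ) c1) ?_
      exact (subset_tsupport φ).trans (hφs.trans Metric.ball_subset_closedBall)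
    exact avg_bdd hM hg' hI hB hF hO hin hφ hφc hφO hi hc1v

end Vale.Agent.P354p
end
end

section

section

set_option linter.unusedSectionVars false
set_option maxSynthPendingDepth 3

open scoped Manifold ContDiff
open MeasureTheory Set Topology Filter

namespace Vale.Agent.P354k

open Vale.Agent.P354p
open Vale.Agent.P354 (P4 P3 norm_P4_le MB NearM)
open Vale.Agent.P354x (ins QQ)

section

variable {M N : Spc} {ι : M.pt → N.pt} {h : IsOpenEmbedding ι} [Nonempty M.pt]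
  {e : M.Chart} {C : ℕ → R4 → ℝ} {z0 : R4} {r K : ℝ} {k : ℝ → ℝ} {p : N.pt} {e' : N.Chart}
  {A : R4 ≃L[ℝ] R4} {R0 Cc t0 r1 v0 : ℝ} {f : P3 → ℝ} {O : Set P354w.P3}

/-- the coordinates of the extension as functions of the coordinates of the box -/
noncomputable def FF (e : M.Chart) (e' : N.Chart) (ι : M.pt → N.pt) (h : IsOpenEmbedding ι)
    (y0 : R4) (A : R4 ≃L[ℝ] R4) (x : R4) : R4 := A.symm (theta e e' ι h x - y0)

/-- the metric of the extension as a function of the coordinates of the box -/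
noncomputable def HH (e : M.Chart) (e' : N.Chart) (ι : M.pt → N.pt) (h : IsOpenEmbedding ι)
    (y0 : R4) (A : R4 ≃L[ℝ] R4) (x : R4) : R4 →L[ℝ] R4 →L[ℝ] ℝ :=
  Gf (comp e') y0 A (FF e e' ι h y0 A x)

/-- the part of the box which is used -/
def Dm (O : Set P354w.P3) (v0 : ℝ) : Set R4 :=
  {x | (x.2.2.1, x.1, x.2.2.2) ∈ O ∧ v0 < x.2.1 ∧ x.2.1 < 0}

lemma Dm_isOpen (hO : IsOpen O) (v0 : ℝ) : IsOpen (Dm O v0) := by
  have h1 : IsOpen ((fun x : R4 => ((x.2.2.1, x.1, x.2.2.2) : P354w.P3)) ⁻¹' O) :=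
    hO.preimage (by fun_prop)
  have h2 : IsOpen {x : R4 | v0 < x.2.1} := isOpen_lt continuous_const (by fun_prop)
  have h3 : IsOpen {x : R4 | x.2.1 < 0} := isOpen_lt (by fun_prop) continuous_const
  exact h1.inter (h2.inter h3)

lemma yv_FF (x : R4) (y0 : R4) : yv y0 A (FF e e' ι h y0 A x) = theta e e' ι h x := by
  unfold yv FF
  rw [ContinuousLinearEquiv.apply_symm_apply]
  abel

lemma mem_Dm (hF : FrontData ⊤ M N ι h e C z0 r K k p e' A R0 Cc t0 r1 f)
    (hin : ∀ y ∈ O, ∀ v ∈ Ico v0 0,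
      ∃ z ∈ P354w.DD t0 r1 f, PsiF e e' ι h (co e' p) A z = ins v y ∧ ‖z.2‖ ≤ r1 / 4)
    {x : R4} (hx : x ∈ Dm O v0) :
    x ∈ (theta e e' ι h).source ∧ FF e e' ι h (co e' p) A x ∈ P354w.DD t0 r1 f ∧
      PsiF e e' ι h (co e' p) A (FF e e' ι h (co e' p) A x) = Sp x ∧
      ‖(FF e e' ι h (co e' p) A x).2‖ ≤ r1 / 4 ∧ x ∈ nullBox z0 r := by
  obtain ⟨z, hz, hzx, hzn⟩ := hin _ hx.1 x.2.1 ⟨hx.2.1.le, hx.2.2⟩
  have h1 : PsiF e e' ι h (co e' p) A z = Sp x := hzx
  have h2 : (theta e e' ι h).symm (yv (co e' p) A z) = x := Sp.injective h1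
  have hV := hF.sub hz
  have h3 : yv (co e' p) A z ∈ (theta e e' ι h).target := hV.1.1
  have h4 : x ∈ (theta e e' ι h).source := by
    rw [← h2]; exact (theta e e' ι h).map_target h3
  have h5 : theta e e' ι h x = yv (co e' p) A z := by
    rw [← h2]; exact (theta e e' ι h).right_inv h3
  have h6 : FF e e' ι h (co e' p) A x = z := by
    unfold FF
    rw [h5]
    unfold yv
    rw [add_sub_cancel_left, ContinuousLinearEquiv.symm_apply_apply]
  rw [h6]
  refine ⟨h4, hz, h1, hzn, ?_⟩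
  have h7 := hF.core.maps hV
  rw [h1] at h7
  exact Sp_mem_MB.1 h7

lemma FF_smooth (hI : IsIsom ι) (y0 : R4) :
    ContDiffOn ℝ ∞ (FF e e' ι h y0 A) (theta e e' ι h).source :=
  A.symm.contDiff.comp_contDiffOn ((theta_contDiffOn (h := h) hI).sub contDiffOn_const)

lemma HH_smooth (hM : IsSpacetime IsSmooth M) {Reg : (R4 → ℝ) → Set R4 → Prop}
    (hg' : IsSpacetime Reg N) (hI : IsIsom ι) (y0 : R4) :
    ContDiffOn ℝ ∞ (HH e e' ι h y0 A) (theta e e' ι h).source := by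
  have h1 := Gf_contDiffOn (c := comp e')
    (fun i j => comp_contDiffOn_target (h := h) (e := e) (e' := e') hM hg' hI (bas i) (bas j)) y0 A
  refine h1.comp (FF_smooth hI y0) fun x hx => ?_
  show yv y0 A (FF e e' ι h y0 A x) ∈ (theta e e' ι h).target
  rw [yv_FF]
  exact (theta e e' ι h).map_source hx

lemma fderiv_FF (hI : IsIsom ι) (y0 : R4) {x : R4} (hx : x ∈ (theta e e' ι h).source) (a : R4) :
    A (fderiv ℝ (FF e e' ι h y0 A) x a) = fderiv ℝ (theta e e' ι h) x a := by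
  have h1 : HasFDerivAt (FF e e' ι h y0 A)
      ((A.symm : R4 →L[ℝ] R4).comp (fderiv ℝ (theta e e' ι h) x)) x :=
    A.symm.hasFDerivAt.comp x ((theta_hasFDerivAt hI hx).sub_const y0)
  rw [h1.fderiv]
  simp

lemma HH_iso {Reg : (R4 → ℝ) → Set R4 → Prop}
    (hg' : IsSpacetime Reg N) (hI : IsIsom ι) (y0 : R4) {x : R4}
    (hx : x ∈ (theta e e' ι h).source) (a b : R4) :
    M.g e x a b = HH e e' ι h y0 A x (fderiv ℝ (FF e e' ι h y0 A) x a)
      (fderiv ℝ (FF e e' ι h y0 A) x b) := by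
  have ht : theta e e' ι h x ∈ tgt e' := target_sub ((theta e e' ι h).map_source hx)
  unfold HH
  rw [Gf_apply (by rw [yv_FF]; exact hg'.bilin e' ht), yv_FF, fderiv_FF hI y0 hx,
    fderiv_FF hI y0 hx]
  exact theta_pull hI hx a b

/-- the derivative of the inverse map -/
lemma Psi_FF (hM : IsSpacetime IsSmooth M) {Reg : (R4 → ℝ) → Set R4 → Prop}
    (hg' : IsSpacetime Reg N) (hI : IsIsom ι) (y0 : R4) {x : R4}
    (hx : x ∈ (theta e e' ι h).source) (a : R4) :
    fderiv ℝ (PsiF e e' ι h y0 A) (FF e e' ι h y0 A x)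
      (fderiv ℝ (FF e e' ι h y0 A) x a) = Sp a := by
  have h1 : yv y0 A (FF e e' ι h y0 A x) ∈ (theta e e' ι h).target := by
    rw [yv_FF]; exact (theta e e' ι h).map_source hx
  have h2 := (Psi_hasFDerivAt (h := h) hM hg' hI y0 A h1).differentiableAt.hasFDerivAt
  have h3 : HasFDerivAt (FF e e' ι h y0 A) (fderiv ℝ (FF e e' ι h y0 A) x) x :=
    (dAt (theta e e' ι h).open_source (FF_smooth hI y0) hx).hasFDerivAt
  have h4 := h2.comp x h3
  have h5 : HasFDerivAt (PsiF e e' ι h y0 A ∘ FF e e' ι h y0 A) (Sp : R4 →L[ℝ] R4) x := by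
    refine Sp.hasFDerivAt.congr_of_eventuallyEq ?_
    filter_upwards [(theta e e' ι h).open_source.mem_nhds hx] with y hy
    show Sp ((theta e e' ι h).symm (yv y0 A (FF e e' ι h y0 A y))) = Sp y
    rw [yv_FF, (theta e e' ι h).left_inv hy]
  have := DFunLike.congr_fun (h4.unique h5) a
  exact this

end

lemma near_norm {B : R4 →L[ℝ] R4 →L[ℝ] ℝ} (hB : NearM B) (a b : R4) :
    |B a b| ≤ 5 * (‖a‖ * ‖b‖) := by
  have h1 := hB a b
  obtain ⟨a1, a2, a3, a4⟩ := le4 (a := a)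
  obtain ⟨b1, b2, b3, b4⟩ := le4 (a := b)
  have m1 : |a.1 * b.1| ≤ ‖a‖ * ‖b‖ := by rw [abs_mul]; (clear * - a1 b1; gcongr)
  have m2 : |a.2.1 * b.2.1| ≤ ‖a‖ * ‖b‖ := by rw [abs_mul]; (clear * - a2 b2; gcongr)
  have m3 : |a.2.2.1 * b.2.2.1| ≤ ‖a‖ * ‖b‖ := by rw [abs_mul]; gcongr
  have m4 : |a.2.2.2 * b.2.2.2| ≤ ‖a‖ * ‖b‖ := by rw [abs_mul]; (clear * - a4 b4; gcongr)
  have hn : 0 ≤ ‖a‖ * ‖b‖ := by (clear * -; positivity)
  have e1 : 1 / 100 * ‖a‖ * ‖b‖ = 1 / 100 * (‖a‖ * ‖b‖) := by ring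
  rw [e1] at h1
  unfold P354.mink at h1
  rw [abs_le] at h1 m1 m2 m3 m4 ⊢
  constructor
  · linarith only [h1.1, m1.2, m2.1, m3.1, m4.1, hn]
  · linarith only [h1.2, m1.1, m2.2, m3.2, m4.2, hn]

lemma near_nondeg {B : R4 →L[ℝ] R4 →L[ℝ] ℝ} (hB : NearM B) (s : R4) :
    ∃ w : R4, ‖w‖ ≤ 1 ∧ ‖s‖ ≤ 2 * |B s w| := by
  by_cases hs : s = 0
  · exact ⟨0, by simp, by simp [hs]⟩
  have hs0 : 0 < ‖s‖ := norm_pos_iff.2 hs
  set s' : R4 := (-s.1, s.2.1, s.2.2.1, s.2.2.2) with hs'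
  have hn : ‖s'‖ ≤ ‖s‖ := by
    obtain ⟨a1, a2, a3, a4⟩ := le4 (a := s)
    rw [norm_P4_le]
    exact ⟨by simpa only [hs', Prod.mk.eta, abs_neg] using a1, a2, a3, a4⟩
  have h1 := hB s s'
  have h2 : P354.mink s s' = s.1 ^ 2 + s.2.1 ^ 2 + s.2.2.1 ^ 2 + s.2.2.2 ^ 2 := by
    unfold P354.mink
    rw [hs']
    simp only
    ring
  have h3 : ‖s‖ ^ 2 ≤ s.1 ^ 2 + s.2.1 ^ 2 + s.2.2.1 ^ 2 + s.2.2.2 ^ 2 := by
    have h4 : ‖s‖ ≤ √(s.1 ^ 2 + s.2.1 ^ 2 + s.2.2.1 ^ 2 + s.2.2.2 ^ 2) := by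
      rw [norm_P4_le]
      refine ⟨?_, ?_, ?_, ?_⟩ <;>
      · apply Real.abs_le_sqrt
        nlinarith only []
    calc ‖s‖ ^ 2 ≤ (√(s.1 ^ 2 + s.2.1 ^ 2 + s.2.2.1 ^ 2 + s.2.2.2 ^ 2)) ^ 2 := by (clear * - hs h4; gcongr)
      _ = _ := Real.sq_sqrt (by (clear * -; positivity))
  have h5 : ‖s‖ ^ 2 ≤ 2 * B s s' := by
    have h6 : 1 / 100 * ‖s‖ * ‖s'‖ ≤ 1 / 100 * ‖s‖ ^ 2 := by
      have : ‖s‖ * ‖s'‖ ≤ ‖s‖ * ‖s‖ := by (clear * - hn hs; gcongr)
      linarith only [this]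
    have h7 := (abs_le.1 h1).1
    rw [h2] at h7
    (by_contra nlg; linarith only [nlg, mul_nonneg (le_of_lt (sub_pos.2 (not_le.1 nlg))) (sub_nonneg.2 h7), mul_nonneg (le_of_lt (sub_pos.2 (not_le.1 nlg))) (sub_nonneg.2 h6), mul_nonneg (le_of_lt (sub_pos.2 (not_le.1 nlg))) (sub_nonneg.2 h3), mul_pos (sub_pos.2 (not_le.1 nlg)) (sub_pos.2 (not_le.1 nlg)), mul_nonneg (sq_nonneg (1 * s.2.2.2 : ℝ)) (le_of_lt (sub_pos.2 (not_le.1 nlg))), mul_nonneg (sq_nonneg (1 * s.2.2.1 : ℝ)) (le_of_lt (sub_pos.2 (not_le.1 nlg))), mul_nonneg (sq_nonneg (1 * s.2.1 : ℝ)) (le_of_lt (sub_pos.2 (not_le.1 nlg))), mul_nonneg (sq_nonneg (1 * s.1 : ℝ)) (le_of_lt (sub_pos.2 (not_le.1 nlg)))])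
  refine ⟨‖s‖⁻¹ • s', ?_, ?_⟩
  · rw [norm_smul, norm_inv, norm_norm]
    calc ‖s‖⁻¹ * ‖s'‖ ≤ ‖s‖⁻¹ * ‖s‖ := by gcongr
      _ = 1 := inv_mul_cancel₀ hs0.ne'
  · rw [map_smul, smul_eq_mul, abs_mul, abs_inv, abs_norm]
    have h6 : ‖s‖ ^ 2 ≤ 2 * |B s s'| := h5.trans (by gcongr; exact le_abs_self _)
    calc ‖s‖ = ‖s‖⁻¹ * ‖s‖ ^ 2 := by field_simp
      _ ≤ ‖s‖⁻¹ * (2 * |B s s'|) := by (clear * - h6 hs; gcongr)
      _ = _ := by ring

section

variable {M : Spc} {e : M.Chart} {C : ℕ → R4 → ℝ} {z0 : R4} {r K : ℝ} {k : ℝ → ℝ}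

/-- the bounds of the coefficients -/
lemma bddW (hB : FrontBox M e C z0 r K k) {x : R4} (hx : x ∈ nullBox z0 r) :
    Bdd (toW C) (Sp x) K K := by
  have h1 := hB.bounded hx
  have hK := h1.K_one
  have hb : ∀ i < 8, |C i (Sp.symm (Sp x))| ≤ K := fun i hi => by
    rw [ContinuousLinearEquiv.symm_apply_apply]
    exact (h1.bound i hi).1
  exact ⟨hK, by linarith, hb 3 (by norm_num), hb 0 (by norm_num), hb 1 (by norm_num),
    hb 2 (by norm_num), hb 4 (by norm_num), hb 5 (by norm_num), hb 6 (by norm_num),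
    hb 7 (by norm_num)⟩

end

end Vale.Agent.P354k
end
end

section

section

set_option linter.unusedSectionVars false
set_option maxSynthPendingDepth 3

open scoped Manifold ContDiff
open MeasureTheory Set Topology Filter

namespace Vale.Agent.P354cb

open Vale.Agent.P354p
open Vale.Agent.P354 (P4 P3 norm_P4_le MB)
open Vale.Agent.P354x (ins)
open Vale.Agent.P354k (Dm Dm_isOpen)

/-- the coordinates of the box in terms of v and the internal coordinates of the slice -/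
def mm (x : ℝ × P354w.P3) : R4 := (x.2.2.1, x.1, x.2.1, x.2.2.2)

lemma mm_cont : Continuous mm := by unfold mm; fun_prop

lemma mm_mp : MeasurePreserving mm := by
  have h1 := (MeasurePreserving.id (volume : Measure ℝ)).prod (mp_sw (α := ℝ) (β := ℝ) (γ := ℝ))
  exact (mp_sw (α := ℝ) (β := ℝ) (γ := ℝ × ℝ)).comp h1

lemma mm_emb : MeasurableEmbedding mm := by
  let inv : R4 → ℝ × P354w.P3 := fun x => (x.2.1, x.2.2.1, x.1, x.2.2.2)
  have h2 : Measurable inv := by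
    have : Continuous inv := by fun_prop
    exact this.measurable
  exact (⟨⟨mm, inv, fun _ => rfl, fun _ => rfl⟩, mm_cont.measurable, h2⟩ :
    (ℝ × P354w.P3) ≃ᵐ R4).measurableEmbedding

/-- an integral over the box as an iterated integral -/
lemma int_mm {F : R4 → ℝ} (hF : Integrable F) :
    Integrable (fun v => ∫ y, F (mm (v, y))) ∧ ∫ x, F x = ∫ v, ∫ y, F (mm (v, y)) := by
  have h1 : Integrable (fun w => F (mm w)) := (mm_mp.integrable_comp_emb mm_emb).2 hF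
  refine ⟨h1.integral_prod_left, ?_⟩
  rw [← mm_mp.integral_comp mm_emb]
  exact integral_prod _ h1

/-- the slices of a function -/
lemma slice_fun {φ : R4 → ℝ} (hφ : ContDiff ℝ 1 φ) (hφc : HasCompactSupport φ)
    {O : Set P354w.P3} {v0 : ℝ} (hφO : tsupport φ ⊆ Dm O v0) (v : ℝ) :
    ContDiff ℝ 1 (fun y => φ (mm (v, y))) ∧ HasCompactSupport (fun y => φ (mm (v, y))) ∧
    (v ∈ Ico v0 0 → tsupport (fun y => φ (mm (v, y))) ⊆ O) ∧
    (v ∉ Ico v0 0 → ∀ y, φ (mm (v, y)) = 0) ∧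
    ∀ y a, fderiv ℝ (fun y => φ (mm (v, y))) y a = fderiv ℝ φ (mm (v, y)) (mm (0, a)) := by
  have hc : Continuous (fun y : P354w.P3 => mm (v, y)) := mm_cont.comp (by fun_prop)
  set Lm : P354w.P3 →L[ℝ] R4 := ((ContinuousLinearMap.fst ℝ ℝ ℝ).comp
    (ContinuousLinearMap.snd ℝ ℝ (ℝ × ℝ))).prod ((0 : P354w.P3 →L[ℝ] ℝ).prod
      ((ContinuousLinearMap.fst ℝ ℝ (ℝ × ℝ)).prod ((ContinuousLinearMap.snd ℝ ℝ ℝ).comp
        (ContinuousLinearMap.snd ℝ ℝ (ℝ × ℝ))))) with hLm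
  have hLa : ∀ a, Lm a = mm (0, a) := fun a => rfl
  have hd : ∀ y : P354w.P3, HasFDerivAt (fun y : P354w.P3 => mm (v, y)) Lm y := by
    intro y
    have e : (fun y : P354w.P3 => mm (v, y)) = fun y => Lm y + (0, v, 0, 0) := by
      funext y
      rw [hLa]
      simp only [mm, Prod.mk_add_mk, add_zero, zero_add]
    rw [e]
    exact Lm.hasFDerivAt.add_const _
  have hcd : ContDiff ℝ 1 (fun y : P354w.P3 => mm (v, y)) := by unfold mm; fun_prop
  refine ⟨hφ.comp hcd, ?_, ?_, ?_, ?_⟩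
  · have h1 : IsCompact ((fun x : R4 => ((x.2.2.1, x.1, x.2.2.2) : P354w.P3)) '' tsupport φ) :=
      hφc.isCompact.image (by fun_prop)
    refine HasCompactSupport.of_support_subset_isCompact h1 ?_
    intro y hy
    exact ⟨mm (v, y), subset_tsupport φ hy, rfl⟩
  · intro _
    have h1 : tsupport (fun y => φ (mm (v, y))) ⊆ (fun y => mm (v, y)) ⁻¹' tsupport φ := by
      refine closure_minimal ?_ ((isClosed_tsupport φ).preimage hc)
      intro y hy
      exact subset_tsupport φ hy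
    intro y hy
    exact (hφO (h1 hy)).1
  · intro hv y
    by_contra hne
    have h1 := hφO (subset_tsupport φ hne)
    exact hv ⟨h1.2.1.le, h1.2.2⟩
  · intro y a
    have h1 := (hφ.differentiable (by norm_num) (mm (v, y))).hasFDerivAt.comp y (hd y)
    have h2 : fderiv ℝ (fun y => φ (mm (v, y))) y = _ := h1.fderiv
    rw [h2, ContinuousLinearMap.comp_apply, hLa]

/-- **The v derivatives of the metric are bounded as distributions** if there is a Lipschitz
extension. -/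
theorem avg4 {M N : Spc} {ι : M.pt → N.pt} {h : IsOpenEmbedding ι} [Nonempty M.pt]
    (hM : IsSpacetime IsSmooth M) (hg' : IsSpacetime (IsC0W1 ⊤) N) (hI : IsIsom ι)
    {e : M.Chart} {C : ℕ → R4 → ℝ} {z : R4} {r K : ℝ} {k : ℝ → ℝ} {p : N.pt} {e' : N.Chart}
    {A : R4 ≃L[ℝ] R4} {R0 Cc t0 r1 : ℝ} {f : P3 → ℝ} (hB : FrontBox M e C z r K k)
    (hF : FrontData ⊤ M N ι h e C z r K k p e' A R0 Cc t0 r1 f) {O : Set P354w.P3}
    (hO : IsOpen O) {v0 : ℝ}
    (hin : ∀ y ∈ O, ∀ v ∈ Ico v0 0, ∃ z ∈ P354w.DD t0 r1 f,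
      PsiF e e' ι h (co e' p) A z = ins v y ∧ ‖z.2‖ ≤ r1 / 4) :
    ∃ B : ℝ, 0 ≤ B ∧ ∀ i < 3, ∀ φ : R4 → ℝ, ContDiff ℝ 1 φ → HasCompactSupport φ →
      tsupport φ ⊆ Dm O v0 → |∫ x, φ x * deriv (C i) x dv| ≤
        B * ∫ x, (|fderiv ℝ φ x (0, 0, 1, 0)| + |fderiv ℝ φ x (0, 0, 0, 1)| + |φ x|) := by
  have hr := hB.dn.r_pos
  have hK := hB.K_one
  have hCc := hF.Cc_large
  obtain ⟨L, hL⟩ := lip_bound hM hg' hI hF
  have hMB : ∀ y ∈ O, ∀ v ∈ Ico v0 0, ins v y ∈ MB (Sp z) r := by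
    intro y hy v hv
    obtain ⟨w, hw, hwy, _⟩ := hin y hy v hv
    rw [← hwy]
    exact hF.core.maps (hF.core.DD_sub hw)
  obtain ⟨B, hB0, hBd⟩ := avg3u hF.core
    (cvF_int (hB.dn.intg k (Or.inl rfl)).2 _)
    (cvF_int (hB.dn.intg k (Or.inl rfl)).2 _)
    (by
      rw [setLIntegral_const]
      exact ENNReal.mul_ne_top ENNReal.ofReal_ne_top (by simp only [Real.volume_Icc, sub_neg_eq_add, ne_eq, ENNReal.ofReal_ne_top, not_false_eq_true]))
    (fun _ => by nlinarith) hL hO hin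
  refine ⟨B + K ^ 2, by (clear * - hB0 hK; positivity), fun i hi φ hφ hφc hφO => ?_⟩
  have hvol := volume_haar
  -- integrability
  have hDo : IsOpen (Dm O v0) := Dm_isOpen hO v0
  have hDn : ∀ x ∈ Dm O v0, x ∈ nullBox z r := by
    intro x hx
    have h1 := hMB _ hx.1 x.2.1 ⟨hx.2.1.le, hx.2.2⟩
    have h2 := Sp_symm_mem.1 h1
    exact h2
  have hFc : ∀ x ∈ Dm O v0, ContinuousAt (fun x => deriv (C i) x dv) x := by
    intro x hx
    have hN := nullBox_isOpen z r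
    have h1 : ContDiffOn ℝ 1 (fun x => deriv (C i) x dv) (nullBox z r) :=
      (((hB.dn.smooth i).fderiv_of_isOpen hN (m := 1) (by norm_cast)).clm_apply
        contDiffOn_const).congr (fun w hw => deriv_eq (hB.diff hw i) dv)
    exact (h1.continuousOn).continuousAt (hN.mem_nhds (hDn x hx))
  have i1 : Integrable (fun x => φ x * deriv (C i) x dv) := int_mul hφ.continuous hφc hφO hFc
  have iφ : Integrable (fun x => |φ x|) := (hφ.continuous.integrable_of_hasCompactSupport hφc).abs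
  have id : ∀ a, Integrable (fun x => |fderiv ℝ φ x a|) := by
    intro a
    have c1 : Continuous (fun y => fderiv ℝ φ y a) :=
      (hφ.continuous_fderiv (by norm_num)).clm_apply continuous_const
    refine (c1.integrable_of_hasCompactSupport ?_).abs
    exact (hφc.fderiv (𝕜 := ℝ)).comp_left (g := fun L : R4 →L[ℝ] ℝ => L a) (by simp)
  have i2 : Integrable (fun x => |fderiv ℝ φ x (0, 0, 1, 0)| + |fderiv ℝ φ x (0, 0, 0, 1)| +
      |φ x|) := ((id _).add (id _)).add iφ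
  obtain ⟨j1, e1⟩ := int_mm i1
  obtain ⟨j2, e2⟩ := int_mm i2
  rw [e1, e2, ← integral_const_mul, ← Real.norm_eq_abs]
  refine norm_integral_le_of_norm_le (j2.const_mul _) (Filter.Eventually.of_forall fun v => ?_)
  rw [Real.norm_eq_abs]
  obtain ⟨s1, s2, s3, s4, s5⟩ := slice_fun hφ hφc hφO v
  by_cases hv : v ∈ Ico v0 0
  · set ψ : P354w.P3 → ℝ := fun y => φ (mm (v, y)) with hψ
    have hψO := s3 hv
    have iψ : Integrable (fun y => |ψ y|) :=
      (s1.continuous.integrable_of_hasCompactSupport s2).abs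
    have iψd : ∀ e, Integrable (fun y => |fderiv ℝ ψ y e|) := fun e =>
      (P354a.integral_fderiv_zero s1 s2 e).1.abs
    have e3 : (∫ y, (|fderiv ℝ φ (mm (v, y)) (0, 0, 1, 0)| +
        |fderiv ℝ φ (mm (v, y)) (0, 0, 0, 1)| + |φ (mm (v, y))|)) =
        ∫ y, (|fderiv ℝ ψ y (1, 0, 0)| + |fderiv ℝ ψ y (0, 0, 1)| + |ψ y|) := by
      refine integral_congr_ae (Filter.Eventually.of_forall fun y => ?_)
      simp only [s5]
      rfl
    rw [e3]
    set Q : ℝ := ∫ y, (|fderiv ℝ ψ y (1, 0, 0)| + |fderiv ℝ ψ y (0, 0, 1)| + |ψ y|) with hQ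
    have h1 := hBd ψ s1 s2 hψO v hv
    have h2 : |∫ y, ψ y * deriv (C i) (Sp.symm (ins v y)) dv| ≤ B * Q + K ^ 2 * ∫ y, |ψ y| := by
      refine slice_bd hB (fun y hy => hMB y hy v hv) s1.continuous s2 hψO hi ?_
      interval_cases i
      · exact h1.1
      · exact h1.2.1
      · exact h1.2.2
    have h3 : ∫ y, |ψ y| ≤ Q := integral_mono iψ (((iψd _).add (iψd _)).add iψ) fun y => by
      have := abs_nonneg (fderiv ℝ ψ y (1, 0, 0))
      have := abs_nonneg (fderiv ℝ ψ y (0, 0, 1))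
      simp only [Pi.add_apply]
      (clear N ι h hM hg' hI e C z r K k p e' A R0 Cc t0 r1 f hB hF O hO v0 hin hr hK hCc L hL hMB B hB0 hBd i hi hφ hφc hφO hDo hDn hFc i1 iφ id i2 j1 e1 j2 e2 s4 hv s1 s2 s3 s5 hψ hψO iψ iψd Q e3 hQ h1 h2; linarith)
    have h4 : K ^ 2 * ∫ y, |ψ y| ≤ K ^ 2 * Q := mul_le_mul_of_nonneg_left h3 (by positivity)
    calc _ ≤ B * Q + K ^ 2 * ∫ y, |ψ y| := h2
      _ ≤ (B + K ^ 2) * Q := by linarith only [h4]
  · have h1 : (fun y => φ (mm (v, y)) * deriv (C i) (mm (v, y)) dv) = fun _ => 0 := by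
      funext y
      rw [s4 hv y, zero_mul]
    rw [h1, integral_zero, abs_zero]
    refine mul_nonneg (by (clear * - hB0 hK; positivity)) (integral_nonneg fun y => ?_)
    (clear * -; positivity)

end Vale.Agent.P354cb
end
end

section

section

set_option linter.unusedSectionVars false
set_option maxSynthPendingDepth 3

open scoped Manifold ContDiff
open MeasureTheory Set Topology Filter

namespace Vale.Agent.P354k

open Vale.Agent.P354p
open Vale.Agent.P354 (norm_P4_le)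
open Vale.Agent.P354w (Coef)

section

variable {K : Coef} {x : P354w.P4} {C S : ℝ}

/-- the derivative of the metric without the derivatives of the shift -/
noncomputable def E0 (K : Coef) (x h a b : P354w.P4) : ℝ :=
  - (fderiv ℝ K.om x h) * (a.2.1 * b.2.2.1 + a.2.2.1 * b.2.1)
    + (fderiv ℝ K.g11 x h) * (K.h1 x a * K.h1 x b)
    + (fderiv ℝ K.g12 x h) * (K.h1 x a * K.h2 x b + K.h2 x a * K.h1 x b)
    + (fderiv ℝ K.g22 x h) * (K.h2 x a * K.h2 x b)

/-- the metric of the spheres -/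
noncomputable def IP (K : Coef) (x : P354w.P4) (p1 p2 q1 q2 : ℝ) : ℝ :=
  K.g11 x * (p1 * q1) + K.g12 x * (p1 * q2 + p2 * q1) + K.g22 x * (p2 * q2)

/-- antisymmetric derivatives of the shift -/
noncomputable def kp (s : P354w.P4 → ℝ) (x a b : P354w.P4) : ℝ :=
  fderiv ℝ s x a * b.2.1 - fderiv ℝ s x b * a.2.1

/-- the formula of Koszul in the frame -/
lemma kos_id (hw1 : ∀ h, fderiv ℝ K.w1 x h = 0) (hw2 : ∀ h, fderiv ℝ K.w2 x h = 0)
    (b c d : P354w.P4) :
    (K.dgF x b c d + K.dgF x c b d - K.dgF x d b c) / 2 +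
      K.gF x (c.2.1 * fderiv ℝ K.s1 x b, 0, 0, c.2.1 * fderiv ℝ K.s2 x b) d =
    (E0 K x b c d + E0 K x c b d - E0 K x d b c) / 2 +
      (IP K x (kp K.s1 x b c) (kp K.s2 x b c) (K.h1 x d) (K.h2 x d) -
        IP K x (kp K.s1 x b d) (kp K.s2 x b d) (K.h1 x c) (K.h2 x c) -
        IP K x (kp K.s1 x c d) (kp K.s2 x c d) (K.h1 x b) (K.h2 x b)) / 2 := by
  have e1 : K.h1 x (c.2.1 * fderiv ℝ K.s1 x b, 0, 0, c.2.1 * fderiv ℝ K.s2 x b) =
      c.2.1 * fderiv ℝ K.s1 x b := by simp only [Coef.h1, mul_zero, sub_zero]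
  have e2 : K.h2 x (c.2.1 * fderiv ℝ K.s1 x b, 0, 0, c.2.1 * fderiv ℝ K.s2 x b) =
      c.2.1 * fderiv ℝ K.s2 x b := by simp [Coef.h2]
  have e3 : K.gF x (c.2.1 * fderiv ℝ K.s1 x b, 0, 0, c.2.1 * fderiv ℝ K.s2 x b) d =
      IP K x (c.2.1 * fderiv ℝ K.s1 x b) (c.2.1 * fderiv ℝ K.s2 x b) (K.h1 x d) (K.h2 x d) := by
    unfold Coef.gF IP
    rw [e1, e2]
    ring
  rw [e3]
  unfold Coef.dgF Coef.d1 Coef.d2 E0 IP kp
  simp only [hw1, hw2]
  ring

lemma E0_le (h : Bdd K x C S) {v : P354w.P4} {m : ℝ}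
    (h0 : |fderiv ℝ K.om x v| ≤ m) (h1 : |fderiv ℝ K.g11 x v| ≤ m)
    (h2 : |fderiv ℝ K.g12 x v| ≤ m) (h3 : |fderiv ℝ K.g22 x v| ≤ m) (a b : P354w.P4) :
    |E0 K x v a b| ≤ 6 * (1 + 2 * S) ^ 2 * m * (‖a‖ * ‖b‖) := by
  have hS := h.S0
  have hm : 0 ≤ m := (abs_nonneg _).trans h0
  obtain ⟨a1, a2, a3, a4⟩ := le4 (a := a)
  obtain ⟨b1, b2, b3, b4⟩ := le4 (a := b)
  have ha1 := h1_le h.S0 h.s1 h.w1 a
  have ha2 := h2_le h.S0 h.s2 h.w2 a
  have hb1 := h1_le h.S0 h.s1 h.w1 b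
  have hb2 := h2_le h.S0 h.s2 h.w2 b
  have t1 := mul3_le h0 a2 b3
  have t2 := mul3_le h0 a3 b2
  have t3 := mul3_le h1 ha1 hb1
  have t4 := mul3_le h2 ha1 hb2
  have t5 := mul3_le h2 ha2 hb1
  have t6 := mul3_le h3 ha2 hb2
  have q1 : 1 ≤ (1 + 2 * S) ^ 2 := one_le_pow₀ (by linarith only [hS])
  have e : m * ((1 + 2 * S) * ‖a‖ * ((1 + 2 * S) * ‖b‖)) =
      (1 + 2 * S) ^ 2 * m * (‖a‖ * ‖b‖) := by ring
  rw [e] at t3 t4 t5 t6
  have t7 : m * (‖a‖ * ‖b‖) ≤ (1 + 2 * S) ^ 2 * m * (‖a‖ * ‖b‖) := by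
    calc m * (‖a‖ * ‖b‖) = 1 * m * (‖a‖ * ‖b‖) := by ring
      _ ≤ _ := by (clear * - q1 hm; gcongr)
  have e2 : E0 K x v a b = -(fderiv ℝ K.om x v * (a.2.1 * b.2.2.1)) -
      fderiv ℝ K.om x v * (a.2.2.1 * b.2.1) +
      fderiv ℝ K.g11 x v * (K.h1 x a * K.h1 x b) + fderiv ℝ K.g12 x v * (K.h1 x a * K.h2 x b) +
      fderiv ℝ K.g12 x v * (K.h2 x a * K.h1 x b) +
      fderiv ℝ K.g22 x v * (K.h2 x a * K.h2 x b) := by
    unfold E0; ring
  rw [e2]
  have e3 : 6 * (1 + 2 * S) ^ 2 * m * (‖a‖ * ‖b‖) =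
    6 * ((1 + 2 * S) ^ 2 * m * (‖a‖ * ‖b‖)) := by ring
  rw [e3]
  generalize (1 + 2 * S) ^ 2 * m * (‖a‖ * ‖b‖) = Z at *
  rw [abs_le] at t1 t2 t3 t4 t5 t6 ⊢
  constructor
  · linarith only [t1.2, t2.2, t3.1, t4.1, t5.1, t6.1, t7]
  · linarith only [t1.1, t2.1, t3.2, t4.2, t5.2, t6.2, t7]

lemma IP_le (h : Bdd K x C S) {p1 p2 m : ℝ} (hp1 : |p1| ≤ m) (hp2 : |p2| ≤ m)
    (a : P354w.P4) :
    |IP K x p1 p2 (K.h1 x a) (K.h2 x a)| ≤ 4 * C * (1 + 2 * S) * (m * ‖a‖) := by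
  have ha1 := h1_le h.S0 h.s1 h.w1 a
  have ha2 := h2_le h.S0 h.s2 h.w2 a
  have t3 := mul3_le h.g11 hp1 ha1
  have t4 := mul3_le h.g12 hp1 ha2
  have t5 := mul3_le h.g12 hp2 ha1
  have t6 := mul3_le h.g22 hp2 ha2
  have e2 : IP K x p1 p2 (K.h1 x a) (K.h2 x a) = K.g11 x * (p1 * K.h1 x a) +
      K.g12 x * (p1 * K.h2 x a) + K.g12 x * (p2 * K.h1 x a) + K.g22 x * (p2 * K.h2 x a) := by
    unfold IP; ring
  rw [e2]
  have e3 : 4 * C * (1 + 2 * S) * (m * ‖a‖) = 4 * (C * (m * ((1 + 2 * S) * ‖a‖))) := by ring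
  rw [e3]
  rw [abs_le] at t3 t4 t5 t6 ⊢
  constructor
  · linarith only [t3.1, t4.1, t5.1, t6.1]
  · linarith only [t3.2, t4.2, t5.2, t6.2]

end

section

variable {M : Spc} {e : M.Chart} {C : ℕ → R4 → ℝ} {z0 : R4} {r K : ℝ} {k : ℝ → ℝ}

lemma norm_dv : ‖dv‖ ≤ 1 := norm_P4_le.2 (by simp only [dv, abs_zero, zero_le_one, abs_one, Std.le_refl, and_self])

lemma norm_flat (a : R4) : ‖a - a.2.1 • dv‖ ≤ 2 * ‖a‖ := by
  have ha2 : |a.2.1| ≤ ‖a‖ := le4.2.1
  refine (norm_sub_le _ _).trans ?_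
  rw [norm_smul, Real.norm_eq_abs]
  have := norm_dv
  have : |a.2.1| * ‖dv‖ ≤ ‖a‖ * 1 := by (clear * - ha2 this; gcongr)
  linarith

/-- all first derivatives of the coefficients of index at most 3 -/
lemma deriv_all (hB : FrontBox M e C z0 r K k) {x : R4} (hx : x ∈ nullBox z0 r) {i : ℕ}
    (hi : i < 4) (a : R4) :
    |deriv (C i) x a| ≤ 9 * K * (1 + k (cv x)) * ‖a‖ := by
  have hd := hB.diff hx i
  have hK := hB.K_one
  have hkx := ((hB.bounded hx).deriv_vu i hi).1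
  have hk0 : 0 ≤ k (cv x) := (abs_nonneg _).trans hkx
  have ha2 : |a.2.1| ≤ ‖a‖ := le4.2.1
  have e1 : a = (a - a.2.1 • dv) + a.2.1 • dv := by abel
  have h1 : |deriv (C i) x (a - a.2.1 • dv)| ≤ 3 * K * ‖a - a.2.1 • dv‖ :=
    hB.deriv_v0 hx (by omega) (by simp [cv, dv])
  have h2 := norm_flat a
  have h3 : |deriv (C i) x (a.2.1 • dv)| ≤ ‖a‖ * k (cv x) := by
    rw [deriv_smul hd, abs_mul]
    exact mul_le_mul ha2 hkx (abs_nonneg _) (norm_nonneg _)
  have h4 : |deriv (C i) x a| ≤ 3 * K * (2 * ‖a‖) + ‖a‖ * k (cv x) := by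
    conv_lhs => rw [e1, deriv_add hd]
    refine (abs_add_le _ _).trans (add_le_add (h1.trans ?_) h3)
    (clear * - h2 hK; gcongr)
  refine h4.trans ?_
  have hn := norm_nonneg a
  have q1 : 0 ≤ ‖a‖ * k (cv x) := by (clear * - hk0; positivity)
  have q2 : ‖a‖ * k (cv x) ≤ K * (‖a‖ * k (cv x)) := by nlinarith only [hK, q1]
  have q3 : 0 ≤ K * ‖a‖ := by (clear * - hK; positivity)
  linarith

/-- the antisymmetric derivatives of the shift are bounded -/
lemma kp_box (hB : FrontBox M e C z0 r K k) {x : R4} (hx : x ∈ nullBox z0 r) {i : ℕ}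
    (hi : i < 6) (a b : R4) :
    |deriv (C i) x a * b.2.1 - deriv (C i) x b * a.2.1| ≤ 12 * K * (‖a‖ * ‖b‖) := by
  have hd := hB.diff hx i
  have hK := hB.K_one
  have ha2 : |a.2.1| ≤ ‖a‖ := le4.2.1
  have hb2 : |b.2.1| ≤ ‖b‖ := le4.2.1
  have key : ∀ a : R4, deriv (C i) x a = deriv (C i) x (a - a.2.1 • dv) +
      a.2.1 * deriv (C i) x dv := by
    intro a
    have e1 : a = (a - a.2.1 • dv) + a.2.1 • dv := by abel
    conv_lhs => rw [e1, deriv_add hd, deriv_smul hd]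
  have hle : ∀ a : R4, |deriv (C i) x (a - a.2.1 • dv)| ≤ 3 * K * (2 * ‖a‖) := by
    intro a
    refine (hB.deriv_v0 hx hi (by simp [cv, dv])).trans ?_
    have := norm_flat a
    (clear * - this hK; gcongr)
  have e2 : deriv (C i) x a * b.2.1 - deriv (C i) x b * a.2.1 =
      deriv (C i) x (a - a.2.1 • dv) * b.2.1 - deriv (C i) x (b - b.2.1 • dv) * a.2.1 := by
    rw [key a, key b]
    ring
  rw [e2]
  refine (abs_sub _ _).trans ?_
  rw [abs_mul, abs_mul]
  have q1 : |deriv (C i) x (a - a.2.1 • dv)| * |b.2.1| ≤ (3 * K * (2 * ‖a‖)) * ‖b‖ :=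
    mul_le_mul (hle a) hb2 (abs_nonneg _) (by (clear * - hK; positivity))
  have q2 : |deriv (C i) x (b - b.2.1 • dv)| * |a.2.1| ≤ (3 * K * (2 * ‖b‖)) * ‖a‖ :=
    mul_le_mul (hle b) ha2 (abs_nonneg _) (by (clear * - hK; positivity))
  linarith only [q1, q2]

/-- The derivative of the metric in the box. -/
lemma g_deriv (hB : FrontBox M e C z0 r K k) {x : R4} (hx : x ∈ nullBox z0 r) (a b c : R4) :
    fderiv ℝ (fun y => M.g e y b c) x a = (toW C).dgF (Sp x) (Sp a) (Sp b) (Sp c) := by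
  have hO := nullBox_isOpen z0 r
  have hd : ∀ i, DifferentiableAt ℝ (C i) x := hB.diff hx
  have hdK : (toW C).DiffAt (Sp x) := ⟨diff_Sp (hd 3), diff_Sp (hd 4), diff_Sp (hd 5),
    diff_Sp (hd 6), diff_Sp (hd 7), diff_Sp (hd 0), diff_Sp (hd 1), diff_Sp (hd 2)⟩
  have hl : HasDerivAt (fun τ : ℝ => x + τ • a) a 0 := by
    simpa using ((hasDerivAt_id (0:ℝ)).smul_const a).const_add x
  have hx0 : x + (0:ℝ) • a = x := by simp
  have hX : HasDerivAt (fun τ : ℝ => Sp (x + τ • a)) (Sp a) 0 :=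
    Sp.hasFDerivAt.comp_hasDerivAt (0:ℝ) hl
  have h1 := P354w.Coef.hasDerivAt_gF (toW C) (X := fun τ : ℝ => Sp (x + τ • a))
    (A := fun _ : ℝ => Sp b) (B := fun _ : ℝ => Sp c) (τ := 0) (by simp only [hx0]; exact hdK) hX
    (hasDerivAt_const _ _) (hasDerivAt_const _ _)
  have hz1 : ∀ w : P354w.P4, (toW C).gF (Sp x) 0 w = 0 := by
    intro w
    simp only [Coef.gF, Prod.snd_zero, Prod.fst_zero, zero_mul, add_zero, mul_zero, Coef.h1, sub_self, Coef.h2]
  have hz2 : ∀ w : P354w.P4, (toW C).gF (Sp x) w 0 = 0 := by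
    intro w
    simp only [Coef.gF, Prod.snd_zero, Prod.fst_zero, mul_zero, add_zero, Coef.h1, sub_self, Coef.h2]
  simp only [hx0, hz1, hz2, add_zero] at h1
  have hev : (fun y => M.g e y b c) =ᶠ[𝓝 x] fun y => (toW C).gF (Sp y) (Sp b) (Sp c) := by
    filter_upwards [hO.mem_nhds hx] with y hy
    rw [(hB.dn.box y hy).1, form_eqW]
  -- differentiability
  have hdiff : DifferentiableAt ℝ (fun y => (toW C).gF (Sp y) (Sp b) (Sp c)) x := by
    have e0 : ∀ i, DifferentiableAt ℝ (fun y => C i (Sp.symm (Sp y))) x := by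
      intro i
      simpa using hd i
    unfold P354w.Coef.gF P354w.Coef.h1 P354w.Coef.h2 toW
    simp only
    have i0 := e0 0
    have i1 := e0 1
    have i2 := e0 2
    have i3 := e0 3
    have i4 := e0 4
    have i5 := e0 5
    have i6 := e0 6
    have i7 := e0 7
    (clear * - hd i7; fun_prop)
  rw [hev.fderiv_eq]
  have h3 : HasDerivAt (fun τ : ℝ => (toW C).gF (Sp (x + τ • a)) (Sp b) (Sp c))
      (fderiv ℝ (fun y => (toW C).gF (Sp y) (Sp b) (Sp c)) x a) 0 := by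
    have h4 : HasFDerivAt (fun y => (toW C).gF (Sp y) (Sp b) (Sp c))
        (fderiv ℝ (fun y => (toW C).gF (Sp y) (Sp b) (Sp c)) x) (x + (0:ℝ) • a) := by
      rw [hx0]; exact hdiff.hasFDerivAt
    exact h4.comp_hasDerivAt (0:ℝ) hl
  exact h3.unique h1

/-- the frame of the box -/
noncomputable abbrev ev (C : ℕ → R4 → ℝ) (y a : R4) : R4 := Ev (C 4) (C 5) (crd 1) (bas 2) (bas 3) y a

lemma ev_eq (C : ℕ → R4 → ℝ) (y a : R4) :
    ev C y a = (a.1, a.2.1, a.2.2.1 + a.2.1 * C 4 y, a.2.2.2 + a.2.1 * C 5 y) := by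
  unfold ev Ev
  rw [crd_one]
  ext <;> simp [bas]

lemma ev_norm (hB : FrontBox M e C z0 r K k) {x : R4} (hx : x ∈ nullBox z0 r) (a : R4) :
    ‖ev C x a‖ ≤ (1 + K) * ‖a‖ := by
  have h1 := hB.bounded hx
  have hK := h1.K_one
  obtain ⟨a1, a2, a3, a4⟩ := le4 (a := a)
  have m1 : |a.2.1 * C 4 x| ≤ ‖a‖ * K := by
    rw [abs_mul]; exact mul_le_mul a2 (h1.bound 4 (by norm_num)).1 (abs_nonneg _) (norm_nonneg _)
  have m2 : |a.2.1 * C 5 x| ≤ ‖a‖ * K := by
    rw [abs_mul]; exact mul_le_mul a2 (h1.bound 5 (by norm_num)).1 (abs_nonneg _) (norm_nonneg _)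
  have hn := norm_nonneg a
  have hKn : 0 ≤ K * ‖a‖ := by (clear * - hK; positivity)
  rw [ev_eq, norm_P4_le]
  refine ⟨?_, ?_, ?_, ?_⟩
  · refine a1.trans ?_
    linarith
  · refine a2.trans ?_
    linarith only [hKn]
  · refine (abs_add_le _ _).trans ?_
    linarith only [a3, m1]
  · refine (abs_add_le _ _).trans ?_
    linarith only [a4, m2]

/-- derivative of a frame field -/
lemma ev_deriv (hB : FrontBox M e C z0 r K k) {x : R4} (hx : x ∈ nullBox z0 r) (a v : R4) :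
    fderiv ℝ (fun z => ev C z a) x v =
      (0, 0, a.2.1 * deriv (C 4) x v, a.2.1 * deriv (C 5) x v) := by
  have hd := hB.diff hx
  have h4 := hd 4
  have h5 := hd 5
  have h1 : HasFDerivAt (fun z => ev C z a)
      ((((a.2.1 • fderiv ℝ (C 4) x).smulRight (bas 2))) +
        ((a.2.1 • fderiv ℝ (C 5) x).smulRight (bas 3))) x := by
    unfold ev Ev
    have k1 := (h4.hasFDerivAt.const_mul (crd 1 a)).smul_const (bas 2)
    have k2 := (h5.hasFDerivAt.const_mul (crd 1 a)).smul_const (bas 3)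
    rw [crd_one] at k1 k2
    exact (k1.const_add a).add k2
  rw [h1.fderiv, deriv_eq h4, deriv_eq h5]
  simp only [bas, Nat.succ_eq_add_one, Nat.reduceAdd, Fin.isValue, Matrix.cons_val, add_apply, ContinuousLinearMap.smulRight_apply, smul_apply, smul_eq_mul, Prod.smul_mk, mul_zero, mul_one, Prod.mk_add_mk, add_zero, zero_add]

lemma ev_comm (hB : FrontBox M e C z0 r K k) {x : R4} (hx : x ∈ nullBox z0 r) (a b : R4) :
    ‖fderiv ℝ (fun z => ev C z b) x (ev C x a) - fderiv ℝ (fun z => ev C z a) x (ev C x b)‖ ≤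
      12 * K * (1 + K) ^ 2 * (‖a‖ * ‖b‖) := by
  have hK := hB.K_one
  have hna := ev_norm hB hx a
  have hnb := ev_norm hB hx b
  rw [ev_deriv hB hx, ev_deriv hB hx]
  have e1 : (ev C x a).2.1 = a.2.1 := by rw [ev_eq]
  have e2 : (ev C x b).2.1 = b.2.1 := by rw [ev_eq]
  have key : ∀ i, i < 6 → |b.2.1 * deriv (C i) x (ev C x a) - a.2.1 * deriv (C i) x (ev C x b)| ≤
      12 * K * (1 + K) ^ 2 * (‖a‖ * ‖b‖) := by
    intro i hi
    have h1 := kp_box hB hx hi (ev C x a) (ev C x b)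
    rw [e1, e2] at h1
    have e3 : b.2.1 * deriv (C i) x (ev C x a) - a.2.1 * deriv (C i) x (ev C x b) =
        deriv (C i) x (ev C x a) * b.2.1 - deriv (C i) x (ev C x b) * a.2.1 := by ring
    rw [e3]
    refine h1.trans ?_
    calc 12 * K * (‖ev C x a‖ * ‖ev C x b‖) ≤
        12 * K * (((1 + K) * ‖a‖) * ((1 + K) * ‖b‖)) := by (clear * - hna hnb hK; gcongr)
      _ = _ := by ring
  have h0 : (0:ℝ) ≤ 12 * K * (1 + K) ^ 2 * (‖a‖ * ‖b‖) := by (clear * - hK; positivity)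
  rw [norm_P4_le]
  refine ⟨?_, ?_, ?_, ?_⟩
  · simpa only [Prod.mk_sub_mk, sub_self, abs_zero] using h0
  · simpa only [Prod.mk_sub_mk, sub_self, abs_zero] using h0
  · exact key 4 (by norm_num)
  · exact key 5 (by norm_num)

/-- the connection in the frame is bounded -/
lemma ev_kos (hB : FrontBox M e C z0 r K k) {x : R4} (hx : x ∈ nullBox z0 r) (b c d : R4) :
    |(fderiv ℝ (fun z => M.g e z (ev C x c) d) x (ev C x b) +
      fderiv ℝ (fun z => M.g e z (ev C x b) d) x (ev C x c) -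
      fderiv ℝ (fun z => M.g e z (ev C x b) (ev C x c)) x d) / 2 +
      M.g e x (fderiv ℝ (fun z => ev C z c) x (ev C x b)) d| ≤
      (153 * K ^ 2 * (1 + 2 * K) ^ 2 * (1 + K) ^ 2) * (1 + k (cv x)) * (‖b‖ * ‖c‖ * ‖d‖) := by
  have hO := nullBox_isOpen z0 r
  have hK := hB.K_one
  have hK0 : 0 ≤ K := by linarith
  have hd := hB.diff hx
  have hk0 : 0 ≤ k (cv x) := (abs_nonneg _).trans ((hB.bounded hx).deriv_vu 0 (by norm_num)).1
  have hbd := bddW hB hx
  have hf : ∀ (i : ℕ) (a : R4), fderiv ℝ (fun z => C i (Sp.symm z)) (Sp x) (Sp a) =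
      deriv (C i) x a := by
    intro i a
    rw [fderiv_comp_Sp (hd i)]
    simp
  have hf' : ∀ (i : ℕ) (a : R4), fderiv ℝ (fun z => C i (Sp.symm z)) (Sp x) a =
      deriv (C i) x (Sp.symm a) := fun i a => fderiv_comp_Sp (hd i) a
  have hw : ∀ i, i = 6 ∨ i = 7 → ∀ a, fderiv ℝ (fun z => C i (Sp.symm z)) (Sp x) a = 0 := by
    intro i hi a
    rw [hf' i a]
    have h2 : ∀ y ∈ nullBox z0 r, C i y = 0 := by
      rcases hi with rfl | rfl
      · exact fun y hy => (hB.h67 y hy).1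
      · exact fun y hy => (hB.h67 y hy).2
    have h3 : C i =ᶠ[𝓝 x] fun _ => 0 := by
      filter_upwards [hO.mem_nhds hx] with y hy
      exact h2 y hy
    rw [deriv_eq (hd _), h3.fderiv_eq]
    simp
  set b' : R4 := ev C x b with hb'
  set c' : R4 := ev C x c with hc'
  have hnb : ‖b'‖ ≤ (1 + K) * ‖b‖ := ev_norm hB hx b
  have hnc : ‖c'‖ ≤ (1 + K) * ‖c‖ := ev_norm hB hx c
  have ec : c'.2.1 = c.2.1 := by rw [hc', ev_eq]
  -- the formula of Koszul
  have hkos := kos_id (K := toW C) (x := Sp x) (hw 6 (by norm_num)) (hw 7 (by norm_num))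
    (Sp b') (Sp c') (Sp d)
  have eN : (((Sp c').2.1 * fderiv ℝ (toW C).s1 (Sp x) (Sp b'), 0, 0,
      (Sp c').2.1 * fderiv ℝ (toW C).s2 (Sp x) (Sp b')) : P354w.P4) =
      Sp (fderiv ℝ (fun z => ev C z c) x b') := by
    have g1 : fderiv ℝ (toW C).s1 (Sp x) (Sp b') = deriv (C 4) x b' := hf 4 b'
    have g2 : fderiv ℝ (toW C).s2 (Sp x) (Sp b') = deriv (C 5) x b' := hf 5 b'
    have g3 : (Sp c').2.1 = c.2.1 := ec
    rw [ev_deriv hB hx, g1, g2, g3, Sp_apply]
  rw [eN] at hkos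
  rw [g_deriv hB hx, g_deriv hB hx, g_deriv hB hx, (hB.dn.box x hx).1, form_eqW, hkos]
  -- bounds
  have hm : ∀ v : R4, ∀ p q : R4, |E0 (toW C) (Sp x) (Sp v) (Sp p) (Sp q)| ≤
      6 * (1 + 2 * K) ^ 2 * (9 * K * (1 + k (cv x)) * ‖v‖) * (‖p‖ * ‖q‖) := by
    intro v p q
    have h5 := E0_le hbd (v := Sp v) (m := 9 * K * (1 + k (cv x)) * ‖v‖)
      (by show |fderiv ℝ (fun z => C 3 (Sp.symm z)) (Sp x) (Sp v)| ≤ _
          rw [hf]; exact deriv_all hB hx (by norm_num) v)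
      (by show |fderiv ℝ (fun z => C 0 (Sp.symm z)) (Sp x) (Sp v)| ≤ _
          rw [hf]; exact deriv_all hB hx (by norm_num) v)
      (by show |fderiv ℝ (fun z => C 1 (Sp.symm z)) (Sp x) (Sp v)| ≤ _
          rw [hf]; exact deriv_all hB hx (by norm_num) v)
      (by show |fderiv ℝ (fun z => C 2 (Sp.symm z)) (Sp x) (Sp v)| ≤ _
          rw [hf]; exact deriv_all hB hx (by norm_num) v) (Sp p) (Sp q)
    rwa [norm_Sp, norm_Sp] at h5
  have hκ1 : ∀ p q : R4, |kp (toW C).s1 (Sp x) (Sp p) (Sp q)| ≤ 12 * K * (‖p‖ * ‖q‖) := by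
    intro p q
    have g1 : fderiv ℝ (toW C).s1 (Sp x) (Sp p) = deriv (C 4) x p := hf 4 p
    have g2 : fderiv ℝ (toW C).s1 (Sp x) (Sp q) = deriv (C 4) x q := hf 4 q
    have h1 := kp_box hB hx (i := 4) (by norm_num) p q
    unfold kp
    rw [g1, g2]
    exact h1
  have hκ2 : ∀ p q : R4, |kp (toW C).s2 (Sp x) (Sp p) (Sp q)| ≤ 12 * K * (‖p‖ * ‖q‖) := by
    intro p q
    have g1 : fderiv ℝ (toW C).s2 (Sp x) (Sp p) = deriv (C 5) x p := hf 5 p
    have g2 : fderiv ℝ (toW C).s2 (Sp x) (Sp q) = deriv (C 5) x q := hf 5 q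
    have h1 := kp_box hB hx (i := 5) (by norm_num) p q
    unfold kp
    rw [g1, g2]
    exact h1
  have hI : ∀ p q s : R4, |IP (toW C) (Sp x) (kp (toW C).s1 (Sp x) (Sp p) (Sp q))
      (kp (toW C).s2 (Sp x) (Sp p) (Sp q)) ((toW C).h1 (Sp x) (Sp s))
      ((toW C).h2 (Sp x) (Sp s))| ≤ 4 * K * (1 + 2 * K) * (12 * K * (‖p‖ * ‖q‖) * ‖s‖) := by
    intro p q s
    have h1 := IP_le hbd (hκ1 p q) (hκ2 p q) (Sp s)
    rwa [norm_Sp] at h1
  have a1 := hm b' c' d
  have a2 := hm c' b' d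
  have a3 := hm d b' c'
  have a4 := hI b' c' d
  have a5 := hI b' d c'
  have a6 := hI c' d b'
  set n : ℝ := ‖b'‖ * ‖c'‖ * ‖d‖ with hn
  have hn0 : 0 ≤ n := by (clear * -; positivity)
  have hnn : n ≤ (1 + K) ^ 2 * (‖b‖ * ‖c‖ * ‖d‖) := by
    calc n ≤ ((1 + K) * ‖b‖) * ((1 + K) * ‖c‖) * ‖d‖ := by rw [hn]; (clear * - hnb hnc hK; gcongr)
      _ = _ := by ring
  have e1 : 6 * (1 + 2 * K) ^ 2 * (9 * K * (1 + k (cv x)) * ‖b'‖) * (‖c'‖ * ‖d‖) =
      54 * K * (1 + 2 * K) ^ 2 * (1 + k (cv x)) * n := by rw [hn]; ring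
  have e2 : 6 * (1 + 2 * K) ^ 2 * (9 * K * (1 + k (cv x)) * ‖c'‖) * (‖b'‖ * ‖d‖) =
      54 * K * (1 + 2 * K) ^ 2 * (1 + k (cv x)) * n := by rw [hn]; ring
  have e3 : 6 * (1 + 2 * K) ^ 2 * (9 * K * (1 + k (cv x)) * ‖d‖) * (‖b'‖ * ‖c'‖) =
      54 * K * (1 + 2 * K) ^ 2 * (1 + k (cv x)) * n := by rw [hn]; ring
  have e4 : 4 * K * (1 + 2 * K) * (12 * K * (‖b'‖ * ‖c'‖) * ‖d‖) =
      48 * K ^ 2 * (1 + 2 * K) * n := by rw [hn]; ring
  have e5 : 4 * K * (1 + 2 * K) * (12 * K * (‖b'‖ * ‖d‖) * ‖c'‖) =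
      48 * K ^ 2 * (1 + 2 * K) * n := by rw [hn]; ring
  have e6 : 4 * K * (1 + 2 * K) * (12 * K * (‖c'‖ * ‖d‖) * ‖b'‖) =
      48 * K ^ 2 * (1 + 2 * K) * n := by rw [hn]; ring
  rw [e1] at a1
  rw [e2] at a2
  rw [e3] at a3
  rw [e4] at a4
  rw [e5] at a5
  rw [e6] at a6
  have r1 : 54 * K * (1 + 2 * K) ^ 2 * (1 + k (cv x)) * n ≤
      54 * (K ^ 2 * (1 + 2 * K) ^ 2 * (1 + k (cv x)) * n) := by
    have : K ≤ K ^ 2 := le_self_pow₀ hK (by norm_num)
    calc 54 * K * (1 + 2 * K) ^ 2 * (1 + k (cv x)) * n =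
        54 * (K * (1 + 2 * K) ^ 2 * (1 + k (cv x)) * n) := by ring
      _ ≤ _ := by (clear * - this hK hk0; gcongr)
  have r2 : 48 * K ^ 2 * (1 + 2 * K) * n ≤
      48 * (K ^ 2 * (1 + 2 * K) ^ 2 * (1 + k (cv x)) * n) := by
    have h1 : 1 + 2 * K ≤ (1 + 2 * K) ^ 2 := le_self_pow₀ (by linarith only [hK]) (by norm_num)
    have h2 : (1:ℝ) ≤ 1 + k (cv x) := by linarith only [hk0]
    calc 48 * K ^ 2 * (1 + 2 * K) * n = 48 * (K ^ 2 * (1 + 2 * K) * 1 * n) := by ring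
      _ ≤ _ := by (clear * - h1 hK h2; gcongr)
  have r3 : 153 * (K ^ 2 * (1 + 2 * K) ^ 2 * (1 + k (cv x)) * n) ≤
      153 * K ^ 2 * (1 + 2 * K) ^ 2 * (1 + K) ^ 2 * (1 + k (cv x)) * (‖b‖ * ‖c‖ * ‖d‖) := by
    calc 153 * (K ^ 2 * (1 + 2 * K) ^ 2 * (1 + k (cv x)) * n) ≤
        153 * (K ^ 2 * (1 + 2 * K) ^ 2 * (1 + k (cv x)) * ((1 + K) ^ 2 * (‖b‖ * ‖c‖ * ‖d‖))) := by
          (clear * - hnn hK hk0; gcongr)
      _ = _ := by ring
  refine le_trans ?_ r3
  replace a1 := a1.trans r1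
  replace a2 := a2.trans r1
  replace a3 := a3.trans r1
  replace a4 := a4.trans r2
  replace a5 := a5.trans r2
  replace a6 := a6.trans r2
  generalize K ^ 2 * (1 + 2 * K) ^ 2 * (1 + k (cv x)) * n = Z at *
  rw [abs_le] at a1 a2 a3 a4 a5 a6 ⊢
  constructor
  · linarith only [a1.1, a2.1, a3.2, a4.1, a5.2, a6.2]
  · linarith only [a1.2, a2.2, a3.1, a4.2, a5.1, a6.1]

end

end Vale.Agent.P354k
end
end

section

section

set_option linter.unusedSectionVars false
set_option maxSynthPendingDepth 3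

open scoped Manifold ContDiff
open MeasureTheory Set Topology Filter

namespace Vale.Agent.P354k

open Vale.Agent.P354p
open Vale.Agent.P354 (P4 P3 norm_P4_le MB NearM)
open Vale.Agent.P354x (ins QQ)

/-- the vector of the frame with constant components a -/
def fr (C : ℕ → R4 → ℝ) (x a : R4) : R4 :=
  (a.1, a.2.1, a.2.2.1 + C 4 x * a.2.1, a.2.2.2 + C 5 x * a.2.1)

lemma fr_eq (C : ℕ → R4 → ℝ) (x a : R4) : fr C x a = ev C x a := by
  rw [ev_eq, fr, mul_comm (C 4 x), mul_comm (C 5 x)]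

section

variable {M N : Spc} {ι : M.pt → N.pt} {h : IsOpenEmbedding ι} [Nonempty M.pt]
  {e : M.Chart} {C : ℕ → R4 → ℝ} {z0 : R4} {r K : ℝ} {k : ℝ → ℝ} {p : N.pt} {e' : N.Chart}
  {A : R4 ≃L[ℝ] R4} {R0 Cc t0 r1 v0 : ℝ} {f : P3 → ℝ} {O : Set P354w.P3}

lemma basis_norm (i : Fin 4) : ‖bas i‖ ≤ 1 := by
  fin_cases i <;> exact norm_P4_le.2 (by simp [bas])

/-- The hypotheses of the curvature estimate hold if there is a Lipschitz extension. -/
theorem fhyp (hM : IsSpacetime IsSmooth M) (hg' : IsSpacetime (IsC0W1 ⊤) N) (hI : IsIsom ι)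
    (hB : FrontBox M e C z0 r K k) (hF : FrontData ⊤ M N ι h e C z0 r K k p e' A R0 Cc t0 r1 f)
    (hO : IsOpen O) (hin : ∀ y ∈ O, ∀ v ∈ Ico v0 0,
      ∃ z ∈ P354w.DD t0 r1 f, PsiF e e' ι h (co e' p) A z = ins v y ∧ ‖z.2‖ ≤ r1 / 4) :
    ∃ B : ℝ, FHyp (M.g e) (FF e e' ι h (co e' p) A) (HH e e' ι h (co e' p) A) (Dm O v0) B
      (fun y => 1 + k (cv y)) (C 4) (C 5) (crd 1) (bas 2) (bas 3) := by
  have hK := hB.K_one
  have hK0 : 0 ≤ K := by linarith only [hK]
  obtain ⟨L, hL⟩ := lip_bound hM hg' hI hF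
  obtain ⟨κ, hκ1, hκ⟩ := P354a.QQ_bdd hF.core hL
  have hCc : 1 ≤ Cc := by nlinarith [hF.Cc_large]
  have hCc0 : 0 ≤ Cc := by linarith
  set B1 : ℝ := 2 * Cc * (6 * Cc * (1 + 2 * K) ^ 2) * ((Cc + 2 * K + 1) * κ) with hB1
  have hB10 : 0 ≤ B1 := by (clear * - hCc hK hκ1; positivity)
  set B2 : ℝ := 3 * Cc * (1 + K) ^ 2 * (20 * B1) with hB2
  have hB20 : 0 ≤ B2 := by positivity
  set B3 : ℝ := 153 * K ^ 2 * (1 + 2 * K) ^ 2 * (1 + K) ^ 2 with hB3
  have hB30 : 0 ≤ B3 := by (clear * - hK; positivity)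
  set B4 : ℝ := 12 * K * (1 + K) ^ 2 with hB4
  have hB40 : 0 ≤ B4 := by positivity
  have hLB : 0 ≤ |L| * B1 := by (clear * - hCc hK hκ1; positivity)
  obtain ⟨B, hB5, hBB1, hBB2, hBB3, hBB4, hBL, hBK⟩ : ∃ B : ℝ, 5 ≤ B ∧ B1 ≤ B ∧ B2 ≤ B ∧ B3 ≤ B ∧
      B4 ≤ B ∧ |L| * B1 ≤ B ∧ 1 + K ≤ B :=
    ⟨B1 + B2 + B3 + B4 + 5 + |L| * B1 + (1 + K), by linarith only [hK, hB10, hB20, hB30, hB40, hLB], by linarith only [hK, hB20, hB30, hB40, hLB], by (clear * - hK hB10 hB30 hB40 hLB; linarith),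
      by linarith only [hK, hB10, hB20, hB40, hLB], by linarith, by linarith, by linarith⟩
  have hB0 : 0 ≤ B := by linarith only [hB5]
  have hsrc := fun {x : R4} (hx : x ∈ Dm O v0) => mem_Dm hF hin hx
  have hbox : ∀ x ∈ Dm O v0, x ∈ nullBox z0 r := fun x hx => (hsrc hx).2.2.2.2
  -- pointwise estimates
  have hpt : ∀ x ∈ Dm O v0, (∀ a, ‖fderiv ℝ (FF e e' ι h (co e' p) A) x a‖ ≤ B1 * ‖a‖) ∧
      (∀ w, ∃ d, fderiv ℝ (FF e e' ι h (co e' p) A) x d = w ∧ ‖d‖ ≤ B2 * ‖w‖) ∧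
      NearM (HH e e' ι h (co e' p) A x) := by
    intro x hx
    obtain ⟨hxs, hxD, hxP, hxn, hxb⟩ := hsrc hx
    set z : R4 := FF e e' ι h (co e' p) A x with hz
    have hzV := hF.sub hxD
    have hpre := hF.core.toPreHyp
    have hp := hpre.pt hzV
    have hbd := hpre.bd _ (hpre.maps hzV)
    have hbx := bddW hB hxb
    rw [← hxP] at hbx
    have hbdd : Bdd ((toW C).scale 4) (PsiF e e' ι h (co e' p) A z) Cc K := by
      refine ⟨hCc, hK0, ?_, hbd.g11, hbd.g12, hbd.g22, hbx.s1, hbx.s2, hbx.w1, hbx.w2⟩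
      rw [abs_of_pos hp.om_pos]
      exact hbd.om_hi
    have hball : z ∈ Metric.ball (0 : R4) R0 := by
      rw [mem_ball_zero_iff]
      have := hF.bound z hxD
      have := hF.R0_pos
      linarith
    have hnear := hF.near z hball
    have h1 : ∀ Z, ‖Z‖ ≤ B1 * ‖fderiv ℝ (PsiF e e' ι h (co e' p) A) z Z‖ := fun Z =>
      pre_norm hp hbdd hκ1 (hκ z hxD hxn) Z
    have h2 := deriv_norm hp hbdd hB10 (gn := 20) (by norm_num) (fun a b => by
      have := near_norm hnear a b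
      show |(4:ℝ) • (Gf (comp e') (co e' p) A z a b)| ≤ _
      rw [smul_eq_mul, abs_mul, abs_of_pos (by norm_num : (0:ℝ) < 4)]
      linarith only [this]) h1 (hpre.exists_pre hzV)
    refine ⟨fun a => ?_, fun w => ?_, hnear⟩
    · have h3 := h1 (fderiv ℝ (FF e e' ι h (co e' p) A) x a)
      rw [hz, Psi_FF hM hg' hI _ hxs, norm_Sp] at h3
      exact h3
    · refine ⟨Sp.symm (fderiv ℝ (PsiF e e' ι h (co e' p) A) z w), ?_, ?_⟩
      · apply hpre.deriv_inj hzV
        rw [hz, Psi_FF hM hg' hI _ hxs, ContinuousLinearEquiv.apply_symm_apply]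
      · have h4 := h2 w
        rw [← norm_Sp, ContinuousLinearEquiv.apply_symm_apply]
        exact h4
  refine ⟨B, {
    openD := Dm_isOpen hO v0
    smF := (FF_smooth hI _).mono fun x hx => (hsrc hx).1
    smH := (HH_smooth hM hg' hI _).mono fun x hx => (hsrc hx).1
    symm := ?_
    iso := fun x hx a b => HH_iso hg' hI _ (hsrc hx).1 a b
    one_le := by linarith only [hB5]
    hF := ?_
    hH := ?_
    hDH := ?_
    inv := ?_
    nondeg := ?_
    kap_one := ?_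
    sm1 := (hB.dn.smooth 4).mono hbox
    sm2 := (hB.dn.smooth 5).mono hbox
    b1 := fun x hx => (((hB.bounded (hbox x hx)).bound 4 (by norm_num)).1).trans (by linarith only [hBK])
    b2 := fun x hx => (((hB.bounded (hbox x hx)).bound 5 (by norm_num)).1).trans (by linarith only [hBK])
    d1 := ?_
    d2 := ?_
    hE := ?_
    comm := ?_
    kos := ?_ }⟩
  · intro x hx s w
    obtain ⟨hxs, -⟩ := hsrc hx
    have ht : theta e e' ι h x ∈ tgt e' := target_sub ((theta e e' ι h).map_source hxs)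
    unfold HH
    rw [Gf_apply (by rw [yv_FF]; exact hg'.bilin e' ht),
      Gf_apply (by rw [yv_FF]; exact hg'.bilin e' ht), yv_FF]
    exact hg'.symm e' ht _ _
  · intro x hx
    refine ContinuousLinearMap.opNorm_le_bound _ hB0 fun a => ?_
    refine ((hpt x hx).1 a).trans ?_
    (clear * - hBB1; gcongr)
  · intro x hx
    refine ContinuousLinearMap.opNorm_le_bound₂ _ hB0 fun a b => ?_
    rw [Real.norm_eq_abs]
    refine (near_norm (hpt x hx).2.2 a b).trans ?_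
    rw [mul_assoc]
    (clear * - hB5; gcongr)
  · intro x hx
    obtain ⟨hxs, hxD, hxP, hxn, hxb⟩ := hsrc hx
    have ht : yv (co e' p) A (FF e e' ι h (co e' p) A x) ∈ (theta e e' ι h).target := by
      rw [yv_FF]; exact (theta e e' ι h).map_source hxs
    have hG : DifferentiableAt ℝ (Gf (comp e') (co e' p) A) (FF e e' ι h (co e' p) A x) :=
      diffG hM hg' hI _ _ ht
    have hFd : DifferentiableAt ℝ (FF e e' ι h (co e' p) A) x :=
      dAt (theta e e' ι h).open_source (FF_smooth hI _) hxs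
    have h1 : fderiv ℝ (HH e e' ι h (co e' p) A) x =
        (fderiv ℝ (Gf (comp e') (co e' p) A) (FF e e' ι h (co e' p) A x)).comp
          (fderiv ℝ (FF e e' ι h (co e' p) A) x) :=
      (hG.hasFDerivAt.comp x hFd.hasFDerivAt).fderiv
    have h2 := hL _ hxD
    have h3 : fderiv ℝ (fun z => (4:ℝ) • Gf (comp e') (co e' p) A z)
        (FF e e' ι h (co e' p) A x) =
        (4:ℝ) • fderiv ℝ (Gf (comp e') (co e' p) A) (FF e e' ι h (co e' p) A x) :=
      fderiv_fun_const_smul hG 4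
    rw [h3, norm_smul] at h2
    have h4 : ‖fderiv ℝ (Gf (comp e') (co e' p) A) (FF e e' ι h (co e' p) A x)‖ ≤ |L| := by
      have h5 := norm_nonneg (fderiv ℝ (Gf (comp e') (co e' p) A) (FF e e' ι h (co e' p) A x))
      have h6 : ‖(4:ℝ)‖ = 4 := by norm_num
      rw [h6] at h2
      linarith [le_abs_self L]
    have h5 : ‖fderiv ℝ (FF e e' ι h (co e' p) A) x‖ ≤ B1 :=
      ContinuousLinearMap.opNorm_le_bound _ hB10 (hpt x hx).1
    rw [h1]
    refine (ContinuousLinearMap.opNorm_comp_le _ _).trans ?_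
    calc _ ≤ |L| * B1 := by (clear hO hL hCc0 hB1 hB2 hB20 B3 hB3 hB30 B4 hB4 hB40 hLB B hB5 hBB1 hBB2 hBB3 hBB4 hBL hBK hB0 hbox hxs hxD hxP hxn hxb ht hG hFd h1 h3; gcongr)
      _ ≤ B := hBL
  · intro x hx w
    obtain ⟨d, hd, hdn⟩ := (hpt x hx).2.1 w
    exact ⟨d, hd, hdn.trans (by (clear * - hBB2; gcongr))⟩
  · intro x hx s
    obtain ⟨w, hw, hwn⟩ := near_nondeg (hpt x hx).2.2 s
    refine ⟨w, hw, hwn.trans ?_⟩
    gcongr
    linarith only [hB5]
  · intro x hx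
    have : 0 ≤ k (cv x) :=
      (abs_nonneg _).trans ((hB.bounded (hbox x hx)).deriv_vu 0 (by norm_num)).1
    linarith only [this]
  · intro x hx
    have hd := hB.diff (hbox x hx) 4
    rw [← deriv_eq hd]
    refine (((hB.bounded (hbox x hx)).bound 4 (by norm_num)).2 (bas 2) rfl rfl).trans ?_
    have := basis_norm 2
    calc K * ‖bas 2‖ ≤ K * 1 := by (clear * - this hK; gcongr)
      _ ≤ B := by linarith only [hBK]
  · intro x hx
    have hd := hB.diff (hbox x hx) 5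
    rw [← deriv_eq hd]
    refine (((hB.bounded (hbox x hx)).bound 5 (by norm_num)).2 (bas 3) rfl rfl).trans ?_
    have := basis_norm 3
    calc K * ‖bas 3‖ ≤ K * 1 := by (clear * - this hK; gcongr)
      _ ≤ B := by linarith only [hBK]
  · intro x hx a
    refine (ev_norm hB (hbox x hx) a).trans ?_
    (clear * - hBK; gcongr)
  · intro x hx a b
    refine (ev_comm hB (hbox x hx) a b).trans ?_
    (clear * - hBB4; gcongr)
  · intro x hx b c d
    have h0 : 0 ≤ k (cv x) :=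
      (abs_nonneg _).trans ((hB.bounded (hbox x hx)).deriv_vu 0 (by norm_num)).1
    refine (ev_kos hB (hbox x hx) b c d).trans ?_
    (clear * - hBB3 h0; gcongr)

/-- The curvature is bounded as a distribution of first order if there is a Lipschitz extension. -/
theorem int_le2 (hM : IsSpacetime IsSmooth M) (hg' : IsSpacetime (IsC0W1 ⊤) N) (hI : IsIsom ι)
    (hB : FrontBox M e C z0 r K k) (hF : FrontData ⊤ M N ι h e C z0 r K k p e' A R0 Cc t0 r1 f)
    (hO : IsOpen O) (hin : ∀ y ∈ O, ∀ v ∈ Ico v0 0,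
      ∃ z ∈ P354w.DD t0 r1 f, PsiF e e' ι h (co e' p) A z = ins v y ∧ ‖z.2‖ ≤ r1 / 4)
    {Γ : R4 → R4 → R4 → R4} (hΓ : ∀ x ∈ nullBox z0 r, Conn (M.g e) Γ x) (a b c d : R4) :
    ∃ L : ℝ, 0 ≤ L ∧ ∀ φ : R4 → ℝ, ContDiff ℝ 1 φ → HasCompactSupport φ → tsupport φ ⊆ Dm O v0 →
      Integrable (fun y => (1 + k (cv y)) * |φ y|) →
      |∫ y, φ y * Riem (M.g e) Γ y (fr C y a) (fr C y b) (fr C y c) (fr C y d)| ≤
        L * ∫ y, ((1 + k (cv y)) * |φ y| + ‖fderiv ℝ φ y‖) := by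
  obtain ⟨B, hFH⟩ := fhyp hM hg' hI hB hF hO hin
  have hDbox : ∀ y ∈ Dm O v0, y ∈ nullBox z0 r := fun y hy => (mem_Dm hF hin hy).2.2.2.2
  have := volume_haar
  obtain ⟨L, hL0, hL⟩ := hFH.int_le (fun y hy => hΓ y (hDbox y hy)) a b c d
  refine ⟨L, hL0, fun φ h1 h2 h3 h4 => ?_⟩
  simp only [fr_eq]
  exact hL φ h1 h2 h3 h4

end

/-- a function of v times a function with compact support in a null box -/
lemma int_k {z0 : R4} {r : ℝ} {k : ℝ → ℝ} (hkm : Measurable k) (hz : cv z0 = 0)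
    (hki : IntegrableOn k (Ioo (-r) 0)) {φ : R4 → ℝ} (hφ : Continuous φ)
    (hφc : HasCompactSupport φ) (hφs : tsupport φ ⊆ nullBox z0 r) :
    Integrable (fun y => (1 + k (cv y)) * |φ y|) := by
  obtain ⟨Cφ, hCφ⟩ := hφ.bounded_above_of_compact_support hφc
  set R : ℝ := r + ‖z0‖ with hR
  have hI1 : Integrable ((Icc (-R) R).indicator fun _ : ℝ => (1:ℝ)) :=
    (integrable_indicator_iff measurableSet_Icc).2 (by simp only [enorm_one, ne_eq, ENNReal.one_ne_top, not_false_eq_true, integrableOn_const_iff, one_ne_zero, Real.volume_Icc, sub_neg_eq_add, ENNReal.ofReal_lt_top, or_true])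
  have hI2 : Integrable ((Ioo (-r) 0).indicator fun v : ℝ => |k v|) :=
    (integrable_indicator_iff measurableSet_Ioo).2 hki.abs
  have h1 : Integrable (fun y : R4 => (Icc (-R) R).indicator (fun _ : ℝ => (1:ℝ)) y.1 *
      ((Ioo (-r) 0).indicator (fun v : ℝ => |k v|) y.2.1 *
        ((Icc (-R) R).indicator (fun _ : ℝ => (1:ℝ)) y.2.2.1 *
          (Icc (-R) R).indicator (fun _ : ℝ => (1:ℝ)) y.2.2.2))) :=
    hI1.mul_prod (hI2.mul_prod (hI1.mul_prod hI1))
  have h2 : Integrable (fun y : R4 => k (cv y) * |φ y|) := by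
    refine (h1.const_mul Cφ).mono' ?_ (Filter.Eventually.of_forall fun y => ?_)
    · have : Measurable (fun y : R4 => k (cv y)) := hkm.comp (by unfold cv; fun_prop)
      exact (this.mul hφ.abs.measurable).aestronglyMeasurable
    · by_cases hy : y ∈ tsupport φ
      · have hb := hφs hy
        have hn := norm_nonneg z0
        have h3 := norm_P4_le.1 (le_refl ‖y - z0‖)
        have h4 := norm_P4_le.1 (le_refl ‖z0‖)
        simp only [Prod.fst_sub, Prod.snd_sub] at h3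
        have hlt : ‖y - z0‖ < r := hb.1
        have tri : ∀ s t : ℝ, |s - t| ≤ ‖y - z0‖ → |t| ≤ ‖z0‖ → s ∈ Icc (-R) R := by
          intro s t h5 h6
          rw [abs_le] at h5 h6
          constructor
          · rw [hR]; linarith only [hlt, h5, h6]
          · rw [hR]; linarith only [hlt, h5, h6]
        have m1 : y.1 ∈ Icc (-R) R := tri _ _ h3.1 h4.1
        have m3 : y.2.2.1 ∈ Icc (-R) R := tri _ _ h3.2.2.1 h4.2.2.1
        have m4 : y.2.2.2 ∈ Icc (-R) R := tri _ _ h3.2.2.2 h4.2.2.2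
        have m2 : y.2.1 ∈ Ioo (-r) 0 := by
          have h5 : z0.2.1 = 0 := hz
          have h6 := h3.2.1
          rw [h5, sub_zero] at h6
          exact ⟨by linarith only [hlt, (abs_le.1 h6).1], hb.2⟩
        rw [indicator_of_mem m1, indicator_of_mem m2, indicator_of_mem m3, indicator_of_mem m4]
        rw [Real.norm_eq_abs, abs_mul, abs_abs, one_mul, mul_one, mul_one, mul_comm Cφ]
        have h5 : |φ y| ≤ Cφ := by rw [← Real.norm_eq_abs]; exact hCφ y
        exact mul_le_mul_of_nonneg_left h5 (abs_nonneg _)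
      · have h3 : φ y = 0 := image_eq_zero_of_notMem_tsupport hy
        rw [h3, abs_zero, mul_zero, norm_zero]
        have hC0 : 0 ≤ Cφ := (norm_nonneg _).trans (hCφ y)
        have i1 : ∀ s : ℝ, 0 ≤ (Icc (-R) R).indicator (fun _ : ℝ => (1:ℝ)) s := fun s =>
          indicator_nonneg (fun _ _ => zero_le_one) s
        have i2 : ∀ s : ℝ, 0 ≤ (Ioo (-r) 0).indicator (fun v : ℝ => |k v|) s := fun s =>
          indicator_nonneg (fun _ _ => abs_nonneg _) s
        exact mul_nonneg hC0 (mul_nonneg (i1 _) (mul_nonneg (i2 _) (mul_nonneg (i1 _) (i1 _))))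
  have h3 : Integrable (fun y : R4 => |φ y|) := (hφ.integrable_of_hasCompactSupport hφc).abs
  refine (h3.add h2).congr (Filter.Eventually.of_forall fun y => ?_)
  simp only [Pi.add_apply]
  ring

/-- a null box about a boundary point is covered -/
lemma box_sub {O : Set P354w.P3} {v0 : ℝ} {x : R4} {ε c1 : ℝ}
    (hball : Metric.ball ((x.1, x.2.2) : ℝ × ℝ × ℝ) ε ⊆ sw3 ⁻¹' O) (h1 : c1 ≤ ε)
    (h2 : c1 ≤ -v0) : nullBox (x.1, 0, x.2.2) c1 ⊆ Dm O v0 := by
  intro y hy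
  have hy1 : ‖y - (x.1, 0, x.2.2)‖ < c1 := hy.1
  have k1 : |y.1 - x.1| ≤ ‖y - (x.1, 0, x.2.2)‖ := norm_fst_le (y - (x.1, 0, x.2.2))
  have k2 : ‖(y - (x.1, 0, x.2.2)).2‖ ≤ ‖y - (x.1, 0, x.2.2)‖ := norm_snd_le _
  have k3 : |y.2.1 - 0| ≤ ‖(y - (x.1, 0, x.2.2)).2‖ := norm_fst_le (y - (x.1, 0, x.2.2)).2
  have k4 : ‖y.2.2 - x.2.2‖ ≤ ‖(y - (x.1, 0, x.2.2)).2‖ := norm_snd_le (y - (x.1, 0, x.2.2)).2
  refine ⟨?_, ?_, hy.2⟩
  · have h5 : ((y.1, y.2.2) : ℝ × ℝ × ℝ) ∈ sw3 ⁻¹' O := by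
      apply hball
      rw [Metric.mem_ball, dist_eq_norm]
      have h6 : ((y.1, y.2.2) : ℝ × ℝ × ℝ) - (x.1, x.2.2) = (y.1 - x.1, y.2.2 - x.2.2) := rfl
      rw [h6, Prod.norm_def]
      exact lt_of_lt_of_le (max_lt (lt_of_le_of_lt k1 hy1) (lt_of_le_of_lt (k4.trans k2) hy1)) h1
    exact h5
  · have h5 : |y.2.1| < -v0 := by
      rw [sub_zero] at k3
      exact lt_of_lt_of_le (lt_of_le_of_lt (k3.trans k2) hy1) h2
    linarith [(abs_lt.1 h5).1]

lemma cpt_box {x : R4} {c1 : ℝ} {φ : R4 → ℝ} (hφs : tsupport φ ⊆ nullBox x c1) :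
    HasCompactSupport φ := by
  refine HasCompactSupport.of_support_subset_isCompact (isCompact_closedBall x c1) ?_
  intro y hy
  have h1 : ‖y - x‖ < c1 := (hφs (subset_tsupport φ hy)).1
  rw [Metric.mem_closedBall, dist_eq_norm]
  exact h1.le

end Vale.Agent.P354k
end
end

section

section

set_option linter.unusedSectionVars false
set_option maxSynthPendingDepth 3

open scoped Manifold ContDiff
open MeasureTheory Set Topology Filter

namespace Vale.Agent.P354c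

open Vale.Agent.P354 (P4 P3 norm_P4_le MB)
open Vale.Agent.P354x (ins)
open Vale.Agent.P354cb (avg4)
open Vale.Agent.P354k (Dm Dm_isOpen int_le2 int_k box_sub cpt_box)
open Vale.Agent.P354p (sw3 sw3_cont Sp Sp_symm_apply Sp_symm_mem FrontBox exists_frontData_open)

/-- the operator norm in terms of the partial derivatives -/
lemma norm_fderiv_le {φ : R4 → ℝ} {y : R4} : ‖fderiv ℝ φ y‖ ≤ |fderiv ℝ φ y d1| +
    |fderiv ℝ φ y d2| + (|fderiv ℝ φ y du| + |fderiv ℝ φ y dv|) := by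
  refine ContinuousLinearMap.opNorm_le_bound _ (by positivity) fun a => ?_
  have e : a = a.1 • du + a.2.1 • dv + a.2.2.1 • d1 + a.2.2.2 • d2 := by
    ext <;> simp [du, dv, d1, d2]
  have h1 : |a.1| ≤ ‖a‖ := norm_fst_le a
  have h2 : |a.2.1| ≤ ‖a‖ := (norm_fst_le a.2).trans (norm_snd_le a)
  have h3 : |a.2.2.1| ≤ ‖a‖ := (norm_fst_le a.2.2).trans ((norm_snd_le a.2).trans (norm_snd_le a))
  have h4 : |a.2.2.2| ≤ ‖a‖ := (norm_snd_le a.2.2).trans ((norm_snd_le a.2).trans (norm_snd_le a))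
  have e2 : fderiv ℝ φ y a = a.1 * fderiv ℝ φ y du + a.2.1 * fderiv ℝ φ y dv +
      a.2.2.1 * fderiv ℝ φ y d1 + a.2.2.2 * fderiv ℝ φ y d2 := by
    conv_lhs => rw [e]
    simp only [map_add, map_smul, smul_eq_mul]
  rw [e2, Real.norm_eq_abs]
  have k1 : |a.1 * fderiv ℝ φ y du| ≤ ‖a‖ * |fderiv ℝ φ y du| := by rw [abs_mul]; (clear * - h1; gcongr)
  have k2 : |a.2.1 * fderiv ℝ φ y dv| ≤ ‖a‖ * |fderiv ℝ φ y dv| := by rw [abs_mul]; gcongr
  have k3 : |a.2.2.1 * fderiv ℝ φ y d1| ≤ ‖a‖ * |fderiv ℝ φ y d1| := by rw [abs_mul]; (clear * - h3; gcongr)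
  have k4 : |a.2.2.2 * fderiv ℝ φ y d2| ≤ ‖a‖ * |fderiv ℝ φ y d2| := by rw [abs_mul]; gcongr
  refine (abs_add_le _ _).trans ?_
  have t1 := abs_add_le (a.1 * fderiv ℝ φ y du + a.2.1 * fderiv ℝ φ y dv)
    (a.2.2.1 * fderiv ℝ φ y d1)
  have t2 := abs_add_le (a.1 * fderiv ℝ φ y du) (a.2.1 * fderiv ℝ φ y dv)
  linarith

lemma int_fderiv {φ : R4 → ℝ} (hφ : ContDiff ℝ 1 φ) (hφc : HasCompactSupport φ) (a : R4) :
    Integrable (fun y => |fderiv ℝ φ y a|) := by
  have hvol := P354p.volume_haar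
  have c1 : Continuous (fun y => fderiv ℝ φ y a) :=
    (hφ.continuous_fderiv (by norm_num)).clm_apply continuous_const
  refine (c1.integrable_of_hasCompactSupport ?_).abs
  exact (hφc.fderiv (𝕜 := ℝ)).comp_left (g := fun L : R4 →L[ℝ] ℝ => L a) (by simp)

lemma int_norm {φ : R4 → ℝ} (hφ : ContDiff ℝ 1 φ) (hφc : HasCompactSupport φ) :
    Integrable (fun y => ‖fderiv ℝ φ y‖) := by
  have hvol := P354p.volume_haar
  have c1 : Continuous (fun y => ‖fderiv ℝ φ y‖) := (hφ.continuous_fderiv (by norm_num)).norm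
  refine c1.integrable_of_hasCompactSupport ?_
  exact (hφc.fderiv (𝕜 := ℝ)).norm

lemma der_eq {φ : R4 → ℝ} (hφ : ContDiff ℝ 1 φ) (y a : R4) : deriv φ y a = fderiv ℝ φ y a :=
  (hφ.differentiable (by norm_num) y).lineDeriv_eq_fderiv

/-- **No Lipschitz extension through a front where the curvature or the derivative in the
direction v of the metric is large.** -/
theorem front_lip {M N : P354p.Spc} {ι : M.pt → N.pt}
    (hM : P354p.IsSpacetime P354p.IsSmooth M)
    (hg' : P354p.IsSpacetime (P354p.IsC0W1 ⊤) N) (h : IsOpenEmbedding ι) (hI : P354p.IsIsom ι)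
    {c : ℝ → N.pt} (hc : P354p.IsFutureCurve N 0 (Icc 0 1) c) {a : ℝ → M.pt}
    (ha : ∀ t ∈ Ico (0:ℝ) 1, ι (a t) = c t)
    {e : M.Chart} {C : ℕ → R4 → ℝ} {z : R4} {r K : ℝ} {k : ℝ → ℝ} {Γ : R4 → R4 → R4 → R4}
    (hB : FrontBox M e C z r K k)
    (hain : P354p.EndsAt a e (P354p.nullBox z r) z)
    (hΓ : ∀ x ∈ P354p.nullBox z r, P354k.Conn (M.g e) Γ x)
    (hall : ∀ x, cv x = 0 → ‖x - z‖ < r → ∀ c > 0,
      (∃ p q s t, IsBig (P354p.nullBox x c) 1 (fun y => 1 + k (cv y)) fun y =>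
        P354k.Riem (M.g e) Γ y (P354k.fr C y p) (P354k.fr C y q) (P354k.fr C y s)
          (P354k.fr C y t)) ∨
      ∃ i < 3, IsBig (P354p.nullBox x c) 0 (fun _ => 1) fun y => deriv (C i) y dv) : False := by
  have hne : Nonempty M.pt := ⟨a 0⟩
  have hr := hB.dn.r_pos
  have hK := hB.K_one
  obtain ⟨e', A, R0, Cc, t0, r1, f, hF, O, hO, ⟨y1, hy1⟩, v0, hv0, hin⟩ :=
    exists_frontData_open (h := h) le_top hM hg' hI hB hc ha hain
  have hMB : ∀ y ∈ O, ∀ v ∈ Ico v0 0, ins v y ∈ MB (Sp z) r := by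
    intro y hy v hv
    obtain ⟨w, hw, hwy, _⟩ := hin y hy v hv
    rw [← hwy]
    exact hF.core.maps (hF.core.DD_sub hw)
  -- a point and a neighbourhood
  have hv2 : v0 / 2 ∈ Ioo v0 0 := ⟨by linarith, by linarith only [hv0]⟩
  set x : R4 := Sp.symm (ins (v0 / 2) y1) with hx
  have hxn : x ∈ P354p.nullBox z r := by
    have := hMB y1 hy1 (v0 / 2) ⟨hv2.1.le, hv2.2⟩
    rw [Sp_symm_mem] at this
    exact this
  have hO'o : IsOpen (sw3 ⁻¹' O) := hO.preimage sw3_cont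
  have hxO : ((x.1, x.2.2) : ℝ × ℝ × ℝ) ∈ sw3 ⁻¹' O := by
    rw [hx, Sp_symm_apply]
    exact hy1
  obtain ⟨ε, hε, hball⟩ := Metric.isOpen_iff.1 hO'o _ hxO
  have hc10 : 0 < min ε (-v0) := lt_min hε (by linarith only [hv0])
  have hsub := box_sub hball (min_le_left ε (-v0)) (min_le_right ε (-v0))
  have hDbox : ∀ y ∈ Dm O v0, y ∈ P354p.nullBox z r :=
    fun y hy => (P354k.mem_Dm hF hin hy).2.2.2.2
  have hxz : ‖((x.1, 0, x.2.2) : R4) - z‖ < r := by
    refine lt_of_le_of_lt ?_ hxn.1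
    have h3 := norm_P4_le.1 (le_refl ‖x - z‖)
    simp only [Prod.fst_sub, Prod.snd_sub] at h3
    have hz0 : z.2.1 = 0 := hB.base
    refine norm_P4_le.2 ?_
    simp only [Prod.fst_sub, Prod.snd_sub]
    refine ⟨h3.1, ?_, h3.2.2.1, h3.2.2.2⟩
    rw [hz0, sub_zero, abs_zero]
    exact norm_nonneg _
  rcases hall (x.1, 0, x.2.2) rfl hxz _ hc10 with ⟨p, q, s, t, hbad⟩ | ⟨i, hi, hbad⟩
  · obtain ⟨L, hL0, hL⟩ := int_le2 hM hg' hI hB hF hO hin hΓ p q s t
    obtain ⟨φ, hφ, hφs, hlt⟩ := hbad L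
    have hφc := cpt_box hφs
    have hi : Integrable (fun y => (1 + k (P354p.cv y)) * |φ y|) :=
      int_k (hB.dn.intg k (Or.inl rfl)).1 hB.base (hB.dn.intg k (Or.inl rfl)).2 hφ.continuous hφc
        (fun y hy => hDbox y (hsub (hφs hy)))
    have h1 := hL φ hφ hφc (hφs.trans hsub) hi
    have h2 : ∫ y, ((1 + k (P354p.cv y)) * |φ y| + ‖fderiv ℝ φ y‖) ≤
        int (fun x => (1 + k (cv x)) * |φ x| + |deriv φ x d1| + |deriv φ x d2| +
          1 * (|deriv φ x du| + |deriv φ x dv|)) := by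
      simp only [der_eq hφ, one_mul]
      refine integral_mono (hi.add (int_norm hφ hφc)) ?_ fun y => ?_
      · exact ((hi.add (int_fderiv hφ hφc d1)).add (int_fderiv hφ hφc d2)).add
          ((int_fderiv hφ hφc du).add (int_fderiv hφ hφc dv))
      · have h3 := norm_fderiv_le (φ := φ) (y := y)
        have h4 : (1 + k (P354p.cv y)) * |φ y| = (1 + k (cv y)) * |φ y| := rfl
        simp only [Pi.add_apply]
        linarith only [h3, h4]
    have h3 := mul_le_mul_of_nonneg_left h2 hL0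
    have h4 := h1.trans h3
    exact absurd h4 (not_le.2 hlt)
  · obtain ⟨L, hL0, hL⟩ := avg4 hM hg' hI hB hF hO hin
    obtain ⟨φ, hφ, hφs, hlt⟩ := hbad L
    have hφc := cpt_box hφs
    have h1 := hL i hi φ hφ hφc (hφs.trans hsub)
    refine absurd (h1.trans (le_of_eq ?_)) (not_le.2 hlt)
    congr 1
    refine integral_congr_ae (Filter.Eventually.of_forall fun y => ?_)
    simp only [der_eq hφ, zero_mul, add_zero, one_mul]
    have e1 : fderiv ℝ φ y (0, 0, 1, 0) = fderiv ℝ φ y d1 := rfl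
    have e2 : fderiv ℝ φ y (0, 0, 0, 1) = fderiv ℝ φ y d2 := rfl
    rw [e1, e2]
    ring

end Vale.Agent.P354c
end
end

section

section

set_option linter.unusedSectionVars false
set_option maxSynthPendingDepth 3

open scoped Manifold ContDiff
open MeasureTheory Set Topology Filter

namespace Vale.Agent.P354p

open Vale.Agent.P354 (P4 NearM Tv norm_Tv cone mem_cone mink_self norm_P4_le)

section

variable {N : Spc} {e' : N.Chart}

/-- Vertical lines in exotic coordinates are future curves in N. -/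
lemma vline_future {pp : ENNReal} (hg' : IsSpacetime (IsC0W1 pp) N) {y0 : R4} {A : R4 ≃L[ℝ] R4} {R0 : ℝ}
    (hR : ∀ z ∈ Metric.closedBall (0 : R4) R0, yv y0 A z ∈ tgt e')
    (hnear : ∀ z ∈ Metric.ball (0 : R4) R0, NearM (Gf (comp e') y0 A z))
    (hfut : ∀ z ∈ Metric.ball (0 : R4) R0,
      N.g e' (yv y0 A z) (A Tv) (N.X e' (yv y0 A z)) < 0)
    {t1 b : ℝ} (hb : t1 < b) {x : P354w.P3}
    (hx : ∀ t ∈ Icc t1 b, ((t, x) : P4) ∈ Metric.ball (0 : R4) R0) :
    IsFutureCurve N 0 (Icc 0 1)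
      (fun τ => inv e' (yv y0 A ((t1 + τ * (b - t1), x) : P4))) := by
  set z : ℝ → R4 := fun τ => ((t1 + τ * (b - t1), x) : P4) with hz
  have hzb : ∀ τ ∈ Icc (0:ℝ) 1, z τ ∈ Metric.ball (0 : R4) R0 := by
    intro τ hτ
    apply hx
    have h1 : 0 ≤ τ * (b - t1) := mul_nonneg hτ.1 (by linarith)
    have h2 : τ * (b - t1) ≤ 1 * (b - t1) := mul_le_mul_of_nonneg_right hτ.2 (by linarith only [hb])
    constructor <;> linarith
  have htg : ∀ τ ∈ Icc (0:ℝ) 1, yv y0 A (z τ) ∈ tgt e' := fun τ hτ =>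
    hR _ (Metric.ball_subset_closedBall (hzb τ hτ))
  have hzc : Continuous (fun τ => yv y0 A (z τ)) := (yv_continuous y0 A).comp (by fun_prop)
  have hzd : ∀ τ, HasDerivAt (fun τ => yv y0 A (z τ)) ((b - t1) • A Tv) τ := by
    intro τ
    have h1 : HasDerivAt z ((b - t1) • Tv) τ := by
      have h2 : HasDerivAt (fun τ : ℝ => t1 + τ * (b - t1)) (b - t1) τ := by
        simpa using ((hasDerivAt_id τ).mul_const (b - t1)).const_add t1
      have h3 := h2.prodMk (hasDerivAt_const τ x)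
      have h4 : ((b - t1) • Tv : P4) = (b - t1, 0) := by
        simp [Tv]
      rw [h4]
      exact h3
    have h5 : HasDerivAt (fun τ => yv y0 A (z τ)) (A ((b - t1) • Tv)) τ :=
      (yv_hasFDerivAt y0 A (z τ)).comp_hasDerivAt τ h1
    rwa [map_smul] at h5
  have hzcd : ContDiff ℝ 1 (fun τ => yv y0 A (z τ)) := by
    refine (yv_contDiff y0 A).of_le (by norm_cast) |>.comp ?_
    exact (contDiff_const.add (contDiff_id.mul contDiff_const)).prodMk contDiff_const
  refine isFutureCurve_of_charts hg' ?_ (uniqueDiffOn_Icc zero_lt_one) ?_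
  · exact (N.toE e').continuousOn_symm.comp hzc.continuousOn (fun τ hτ => htg τ hτ)
  · intro τ hτ
    have heq : ∀ s ∈ Icc (0:ℝ) 1, co e' (inv e' (yv y0 A (z s))) = yv y0 A (z s) :=
      fun s hs => co_inv (htg s hs)
    refine ⟨e', inv_mem (htg τ hτ), hzcd.contDiffWithinAt.congr heq (heq τ hτ), ?_⟩
    intro y w hy hw
    have hw' : w = (b - t1) • A Tv := by
      rw [hw, derivWithin_congr heq (heq τ hτ)]
      exact (hzd τ).hasDerivWithinAt.derivWithin (uniqueDiffOn_Icc zero_lt_one τ hτ)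
    have hy' : y = yv y0 A (z τ) := by rw [hy]; exact heq τ hτ
    have hpos : 0 < b - t1 := by linarith only [hb]
    have hB := hg'.bilin e' (htg τ hτ)
    subst hy'
    rw [hw', hB.smul_left, hB.smul_right, hB.smul_left]
    have hTc : Tv ∈ cone (1 / 4) := by simp only [one_div, Tv, mem_cone, Prod.norm_mk, norm_zero, max_self, mul_one, inv_nonneg, Nat.ofNat_nonneg]
    have hTT := (hnear _ (hzb τ hτ)).timelike_of_cone hTc
    have h2 : (Tv : P4).1 = 1 := rfl
    rw [h2, Gf_apply hB] at hTT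
    have hneg : N.g e' (yv y0 A (z τ)) (A Tv) (A Tv) < 0 := by linarith only [hTT]
    have h3 : (b - t1) * ((b - t1) * N.g e' (yv y0 A (z τ)) (A Tv) (A Tv)) < 0 :=
      mul_neg_of_pos_of_neg hpos (mul_neg_of_pos_of_neg hpos hneg)
    refine ⟨h3, by linarith only [h3], ?_⟩
    exact mul_neg_of_pos_of_neg hpos (hfut _ (hzb τ hτ))

end

section

variable {M N : Spc} [Nonempty M.pt] {e : M.Chart} {e' : N.Chart}
  {ι : M.pt → N.pt} {h : IsOpenEmbedding ι} {y0 : R4} {A : R4 ≃L[ℝ] R4} {R0 : ℝ} {Om : Set R4}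

/-- A vertical line in the exotic domain which tends to a boundary point. -/
theorem line_endsAt {pp : ENNReal} (hg' : IsSpacetime (IsC0W1 pp) N)
    (hR : ∀ z ∈ Metric.closedBall (0 : R4) R0, yv y0 A z ∈ tgt e')
    (hnear : ∀ z ∈ Metric.ball (0 : R4) R0, NearM (Gf (comp e') y0 A z))
    (hfut : ∀ z ∈ Metric.ball (0 : R4) R0,
      N.g e' (yv y0 A z) (A Tv) (N.X e' (yv y0 A z)) < 0)
    (hOm : Om ⊆ tgt e) {t1 b : ℝ} (hb : t1 < b) {x : P354w.P3}
    (hV : ∀ t ∈ Ico t1 b, ((t, x) : P4) ∈ VV e e' ι h Om y0 A R0)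
    (hbd : ((b, x) : P4) ∈ Metric.ball (0 : R4) R0) {q : R4}
    (hq : Tendsto (fun t => PsiF e e' ι h y0 A ((t, x) : P4)) (𝓝[<] b) (𝓝 q)) :
    ∃ (a : ℝ → M.pt) (c : ℝ → N.pt), IsFutureCurve N 0 (Icc 0 1) c ∧
      (∀ τ ∈ Ico (0:ℝ) 1, ι (a τ) = c τ) ∧ EndsAt a e Om (Sp.symm q) := by
  set s : ℝ → ℝ := fun τ => t1 + τ * (b - t1) with hs
  have hpos : 0 < b - t1 := by linarith only [hb]
  have hsI : ∀ τ ∈ Ico (0:ℝ) 1, s τ ∈ Ico t1 b := by
    intro τ hτ
    have h1 : 0 ≤ τ * (b - t1) := mul_nonneg hτ.1 hpos.le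
    have h2 : τ * (b - t1) < 1 * (b - t1) := mul_lt_mul_of_pos_right hτ.2 hpos
    constructor <;> simp only [hs] <;> linarith only [h1, h2]
  have hball : ∀ t ∈ Icc t1 b, ((t, x) : P4) ∈ Metric.ball (0 : R4) R0 := by
    intro t ht
    rcases lt_or_eq_of_le ht.2 with h1 | h1
    · exact (hV t ⟨ht.1, h1⟩).2
    · rw [h1]; exact hbd
  set a : ℝ → M.pt := fun τ => inv e ((theta e e' ι h).symm (yv y0 A ((s τ, x) : P4))) with ha
  have hon : ∀ τ ∈ Ico (0:ℝ) 1, (theta e e' ι h).symm (yv y0 A ((s τ, x) : P4)) ∈ tgt e :=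
    fun τ hτ => hOm (hV _ (hsI τ hτ)).1.2
  have hco : ∀ τ ∈ Ico (0:ℝ) 1,
      co e (a τ) = Sp.symm (PsiF e e' ι h y0 A ((s τ, x) : P4)) := by
    intro τ hτ
    simp only [ha]
    rw [co_inv (hon τ hτ)]
    simp [PsiF]
  have hIco : ∀ᶠ τ in 𝓝[<] (1:ℝ), τ ∈ Ico (0:ℝ) 1 := Ico_mem_nhdsLT zero_lt_one
  refine ⟨a, _, vline_future hg' hR hnear hfut hb hball, ?_, ?_, ?_⟩
  · intro τ hτ
    have h1 := (hV _ (hsI τ hτ)).1.1
    have h2 := (theta e e' ι h).map_target h1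
    have h3 := (theta e e' ι h).right_inv h1
    rw [mem_theta_source] at h2
    rw [theta_apply] at h3
    have h4 := inv_co h2.2
    rw [h3] at h4
    exact h4.symm
  · filter_upwards [hIco] with τ hτ
    refine ⟨inv_mem (hon τ hτ), ?_⟩
    rw [hco τ hτ]
    have := (hV _ (hsI τ hτ)).1.2
    simpa only [PsiF, ContinuousLinearEquiv.symm_apply_apply] using this
  · have hst : Tendsto s (𝓝[<] 1) (𝓝[<] b) := by
      have h1 : Tendsto s (𝓝 1) (𝓝 b) := by
        have h2 : Continuous s := by fun_prop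
        have h3 := h2.tendsto 1
        have h4 : s 1 = b := by simp [hs]
        rwa [h4] at h3
      refine tendsto_nhdsWithin_of_tendsto_nhds_of_eventually_within _
        (h1.mono_left nhdsWithin_le_nhds) ?_
      filter_upwards [hIco] with τ hτ
      exact (hsI τ hτ).2
    have h5 : Tendsto (fun τ => Sp.symm (PsiF e e' ι h y0 A ((s τ, x) : P4))) (𝓝[<] 1)
        (𝓝 (Sp.symm q)) := (Sp.symm.continuous.tendsto q).comp (hq.comp hst)
    refine h5.congr' ?_
    filter_upwards [hIco] with τ hτ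
    exact (hco τ hτ).symm

end

end Vale.Agent.P354p
end
end

section

section

set_option linter.unusedSectionVars false
set_option maxSynthPendingDepth 3

open scoped Manifold ContDiff
open MeasureTheory Set Topology Filter

namespace Vale.Agent.P354p

open Vale.Agent.P354 (P4 P3 norm_P4_le NearM Gram Tv cone mem_cone SCurve)
open Vale.Agent.P354w (MC SHypC CBdW EHyp corner_exit)

lemma Sp_mem_MC {z0 x : R4} {r : ℝ} : Sp x ∈ MC (Sp z0) r ↔ x ∈ cornerBox z0 r := by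
  unfold MC cornerBox nullBox
  simp only [mem_ofPred_eq]
  rw [← map_sub, norm_Sp, and_assoc]
  exact Iff.rfl

lemma Sp_symm_mem_MC {z0 y : R4} {r : ℝ} : y ∈ MC (Sp z0) r ↔ Sp.symm y ∈ cornerBox z0 r := by
  rw [← Sp_mem_MC, ContinuousLinearEquiv.apply_symm_apply]

lemma Sp_image_cornerBox (z0 : R4) (r : ℝ) : Sp '' cornerBox z0 r = MC (Sp z0) r := by
  ext y
  constructor
  · rintro ⟨x, hx, rfl⟩; exact Sp_mem_MC.2 hx
  · intro hy
    exact ⟨Sp.symm y, Sp_symm_mem_MC.1 hy, ContinuousLinearEquiv.apply_symm_apply _ _⟩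

lemma base_mem_cornerBox {z0 : R4} {r : ℝ} (hu0 : cu z0 = 0) (hv0 : cv z0 = 0) (hr : 0 < r) :
    z0 - (r / 2) • (bas 0 + bas 1) ∈ cornerBox z0 r := by
  have hn : ‖(bas 0 + bas 1 : R4)‖ ≤ 1 := norm_P4_le.2 (by simp only [bas, Nat.succ_eq_add_one, Nat.reduceAdd, Fin.isValue, Matrix.cons_val_zero, Matrix.cons_val_one, Prod.mk_add_mk, add_zero, zero_add, abs_one, Std.le_refl, abs_zero, zero_le_one, and_self])
  refine ⟨⟨?_, ?_⟩, ?_⟩
  · rw [sub_sub_cancel_left, norm_neg, norm_smul, Real.norm_eq_abs, abs_of_pos (by positivity)]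
    linarith only [hr, mul_le_mul_of_nonneg_left hn (half_pos hr).le]
  · have h1 : cv (z0 - (r / 2) • (bas 0 + bas 1)) = cv z0 - r / 2 := by simp only [cv, bas, Nat.succ_eq_add_one, Nat.reduceAdd, Fin.isValue, Matrix.cons_val_zero, Matrix.cons_val_one, Prod.mk_add_mk, add_zero, zero_add, Prod.smul_mk, smul_eq_mul, mul_one, mul_zero, Prod.snd_sub, Prod.fst_sub]
    rw [h1, hv0]; linarith only [hr]
  · have h1 : cu (z0 - (r / 2) • (bas 0 + bas 1)) = cu z0 - r / 2 := by simp only [cu, bas, Nat.succ_eq_add_one, Nat.reduceAdd, Fin.isValue, Matrix.cons_val_zero, Matrix.cons_val_one, Prod.mk_add_mk, add_zero, zero_add, Prod.smul_mk, smul_eq_mul, mul_one, mul_zero, Prod.fst_sub]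
    rw [h1, hu0]; linarith only [hr]

lemma MC_v {p0 : P4} (hp : p0.2.1 = 0) {r : ℝ} {y : P4} (hy : y ∈ MC p0 r) :
    y.2.1 ∈ Ioo (-r) 0 := by
  refine ⟨?_, hy.2.1⟩
  have h4 : |(y - p0).2.1| ≤ ‖y - p0‖ := (norm_P4_le.1 (le_refl ‖y - p0‖)).2.1
  have h5 : (y - p0).2.1 = y.2.1 - p0.2.1 := rfl
  rw [h5, hp, sub_zero] at h4
  linarith only [(abs_lt.1 (h4.trans_lt hy.1)).1]

lemma MC_u {p0 : P4} (hp : p0.2.2.1 = 0) {r : ℝ} {y : P4} (hy : y ∈ MC p0 r) :
    y.2.2.1 ∈ Ioo (-r) 0 := by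
  refine ⟨?_, hy.2.2⟩
  have h4 : |(y - p0).2.2.1| ≤ ‖y - p0‖ := (norm_P4_le.1 (le_refl ‖y - p0‖)).2.2.1
  have h5 : (y - p0).2.2.1 = y.2.2.1 - p0.2.2.1 := rfl
  rw [h5, hp, sub_zero] at h4
  linarith only [(abs_lt.1 (h4.trans_lt hy.1)).1]

end Vale.Agent.P354p
end
end

section

section

set_option linter.unusedSectionVars false
set_option maxSynthPendingDepth 3

open scoped Manifold ContDiff
open MeasureTheory Set Topology Filter

namespace Vale.Agent.P354p

open Vale.Agent.P354 (P4 P3 norm_P4_le NearM Gram Tv cone mem_cone SCurve)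
open Vale.Agent.P354w (MC SHypC CBdW EHyp corner_exit)

/-- **Corners.** If an extension passes through a corner then it passes through one of the two
null hypersurfaces nearby. -/
theorem corner_stepE {pp : ENNReal} (hpp : 2 ≤ pp) {M N : Spc} {ι : M.pt → N.pt} (hM : IsSpacetime IsSmooth M)
    (hg' : IsSpacetime (IsC0W1 pp) N) (h : IsOpenEmbedding ι) (hI : IsIsom ι) {c : ℝ → N.pt}
    (hc : IsFutureCurve N 0 (Icc 0 1) c) {a : ℝ → M.pt} (ha : ∀ t ∈ Ico (0:ℝ) 1, ι (a t) = c t)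
    {e : M.Chart} {C : ℕ → R4 → ℝ} {z0 : R4} {r K : ℝ} {k : ℝ → ℝ}
    (hB : IsDNBox M e C (cornerBox z0 r) r K k k) (hu0 : cu z0 = 0) (hv0 : cv z0 = 0)
    (hain : EndsAt a e (cornerBox z0 r) z0) :
    ∃ (a' : ℝ → M.pt) (c' : ℝ → N.pt), IsFutureCurve N 0 (Icc 0 1) c' ∧
      (∀ t ∈ Ico (0:ℝ) 1, ι (a' t) = c' t) ∧ IsFutureCurve M 0 (Ico 0 1) a' ∧
      ∃ y, EndsAt a' e (cornerBox z0 r) y ∧ ‖y - z0‖ < r ∧ cu y * cv y = 0 ∧
        cu y + cv y < 0 := by
  have hne : Nonempty M.pt := ⟨a 0⟩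
  obtain ⟨e', hp⟩ := N.cover (c 1)
  replace hp : On e' (c 1) := hp
  have hy0 : co e' (c 1) ∈ tgt e' := co_mem hp
  obtain ⟨A, hA, lam, hl, hAT⟩ := exists_A hg' hy0 (endVel_timelike hp hc)
  have hTneg : N.g e' (co e' (c 1)) (A Tv) (N.X e' (co e' (c 1))) < 0 := by
    have h1 : A Tv = lam • endVel e' c := hAT
    rw [h1, (hg'.bilin e' hy0).smul_left]
    exact mul_neg_of_pos_of_neg hl (endVel_future hp hc)
  obtain ⟨R0, hR0, hR, hnear⟩ := exists_R0 hg' hy0 A hA hTneg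
  have hnear1 : ∀ z ∈ Metric.ball (0 : R4) R0, NearM (Gf (comp e') (co e' (c 1)) A z) :=
    fun z hz => (hnear z hz).1
  have hnear2 : ∀ z ∈ Metric.ball (0 : R4) R0,
      N.g e' (yv (co e' (c 1)) A z) (A Tv) (N.X e' (yv (co e' (c 1)) A z)) < 0 :=
    fun z hz => (hnear z hz).2.1
  have hr := hB.r_pos
  have hK1 : 1 ≤ K := (hB.bounded (base_mem_cornerBox hu0 hv0 hr)).K_one
  have hK0 : 0 < K := by linarith only [hK1]
  have hopen : IsOpen (VV e e' ι h (cornerBox z0 r) (co e' (c 1)) A R0) :=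
    VV_isOpen (cornerBox_isOpen z0 r)
  have hp0v : (Sp z0).2.1 = 0 := hv0
  have hp0u : (Sp z0).2.2.1 = 0 := hu0
  have H : SHypC (toW C) (Gf (comp e') (co e' (c 1)) A) (PsiF e e' ι h (co e' (c 1)) A)
      (VV e e' ι h (cornerBox z0 r) (co e' (c 1)) A R0) R0 r K (Sp z0) := by
    refine
      { iso := IsoW_mono (Psi_IsoW hM hg' hI (cornerBox_isOpen z0 r)
          (fun x hx => (hB.box x hx).1) (fun x hx i => hB.diff (cornerBox_isOpen z0 r) hx i) _ A)
          hopen inter_subset_left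
        R0_pos := hR0, ρ_pos := hr, p0v := hp0v, p0u := hp0u, V_sub := inter_subset_right
        near := hnear1, maps := fun z hz => Sp_mem_MC.2 hz.1.2
        beta := fun z hz => Psi_beta hM hg' hI (fun x hx => (hB.box x hx).1)
          (fun x hx => (hB.bounded hx).om_pos) (fun x hx => (hB.box x hx).2.1) hnear1 hnear2 hz
        cl := ?_, one_le := hK1, bd := ?_ }
    · intro Kc hKc hKM
      exact closed_pre (h := h) h.continuous hB.subset hR hKc
        (fun y hy => Sp_symm_mem_MC.1 (hKM hy))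
    · intro y hy
      have h1 := (hB.bounded (Sp_symm_mem_MC.1 hy)).cbd (le_refl K)
      rwa [ContinuousLinearEquiv.apply_symm_apply] at h1
  set η1 : ℝ := r / (10 * K) with hη1
  have hη1pos : 0 < η1 := by (clear * - hr hK1; positivity)
  have hη : 5 * K * η1 = r / 2 := by rw [hη1]; field_simp; ring
  obtain ⟨γ, s0, hcurve⟩ := mkSCurve (h := h) (R0 := R0) hp hc hl hAT hR0 ha hain hη1pos
  have hCc1 : 4 * K ^ 4 ≤ 6 * K ^ 4 := by
    have : 0 ≤ K ^ 4 := by (clear * - hK1; positivity)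
    linarith only [this]
  have hCc2 : 6 * K ^ 2 ≤ 6 * K ^ 4 := by
    have : K ^ 2 ≤ K ^ 4 := pow_le_pow_right₀ hK1 (by norm_num)
    linarith only [this]
  have hsm : (toW C).SmoothOn (MC (Sp z0) r) := by
    have h1 := smoothW hB.smooth
    rwa [Sp_image_cornerBox] at h1
  have hk := hB.intg k (Or.inl rfl)
  have hE : EHyp (Gf (comp e') (co e' (c 1)) A)
      (VV e e' ι h (cornerBox z0 r) (co e' (c 1)) A R0) R0 :=
    { det := fun z hz => (hnear z hz.2).2.2
      energy := fun D hDV hDo hDR => energy_DD (h := h) hpp hM hg' hI hR hR0 hDo hDV hDR }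
  obtain ⟨t0, b, x, q, htb, hV, hbd, hq, hqn, hq0⟩ := corner_exit (cv := cvF r K k)
    (cw := cvF r K k) (cu := cvF r K k) H hcurve (by rw [hη]; linarith only [hr]) Psi_injOn hsm hCc1
    (fun y hy => by
      have hx := Sp_symm_mem_MC.1 hy
      have h1 := (hB.bounded hx).bd (fun i _ => hB.diff (cornerBox_isOpen z0 r) hx i) hCc2
      rw [ContinuousLinearEquiv.apply_symm_apply] at h1
      rw [cvF_of_mem (MC_v hp0v hy), cvF_of_mem (MC_u hp0u hy)]
      exact h1)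
    (cvF_meas hk.1) (cvF_meas hk.1) (cvF_meas hk.1) (cvF_int hk.2 _) (cvF_int hk.2 _)
    (cvF_int hk.2 _) hE
  have hbb : ((b, x) : P4) ∈ Metric.ball (0 : R4) R0 := by
    have := hbd b ⟨htb.le, le_rfl⟩
    rw [mem_ball_zero_iff]
    exact this.trans_lt (by linarith only [hR0])
  obtain ⟨a', c', hc', ha', hend⟩ := line_endsAt hg' hR hnear1 hnear2 hB.subset htb hV hbb hq
  refine ⟨a', c', hc', ha', ray_of_curve hM hg' h hI hc' ha', _, hend, ?_, ?_, ?_⟩
  · have h1 : Sp (Sp.symm q - z0) = q - Sp z0 := by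
      rw [map_sub, ContinuousLinearEquiv.apply_symm_apply]
    rw [← norm_Sp, h1]
    exact hqn.trans_lt (by rw [hη]; linarith only [hr])
  · have h1 : cu (Sp.symm q) * cv (Sp.symm q) = q.2.2.1 * q.2.1 := rfl
    rw [h1]
    rcases hq0 with hh | hh
    · rw [hh.1, mul_zero]
    · rw [hh.2, zero_mul]
  · have h1 : cu (Sp.symm q) + cv (Sp.symm q) = q.2.2.1 + q.2.1 := rfl
    rw [h1]
    rcases hq0 with hh | hh <;> linarith only [hh.1, hh.2]

end Vale.Agent.P354p
end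
end

section

section

set_option linter.unusedSectionVars false
set_option maxSynthPendingDepth 3

open scoped Manifold ContDiff
open MeasureTheory Set Topology Filter

namespace Vale.Agent.P354p

open Vale.Agent.P354 (P4 NearM Tv norm_Tv cone mem_cone mink_self Dia Dia_sub norm_P4_le)

lemma norm_sub_le_within {E : Type*} [NormedAddCommGroup E] [NormedSpace ℝ E] {f f' : ℝ → E}
    {g g' : ℝ → ℝ} (hf : ∀ τ ∈ Icc (0:ℝ) 1, HasDerivWithinAt f (f' τ) (Icc 0 1) τ)
    (hg : ∀ τ ∈ Icc (0:ℝ) 1, HasDerivWithinAt g (g' τ) (Icc 0 1) τ)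
    (h : ∀ τ ∈ Icc (0:ℝ) 1, ‖f' τ‖ ≤ g' τ) {a b : ℝ} (ha : 0 ≤ a) (hab : a ≤ b) (hb : b ≤ 1) :
    ‖f b - f a‖ ≤ g b - g a := by
  have hsub : Icc a b ⊆ Icc (0:ℝ) 1 := Icc_subset_Icc ha hb
  have h1 : ∀ τ ∈ Icc a b, HasDerivWithinAt (fun τ => f τ - f a) (f' τ) (Icc 0 1) τ :=
    fun τ hτ => (hf τ (hsub hτ)).sub_const (f a)
  have h2 : ∀ τ ∈ Icc a b, HasDerivWithinAt (fun τ => g τ - g a) (g' τ) (Icc 0 1) τ :=
    fun τ hτ => (hg τ (hsub hτ)).sub_const (g a)
  have hm : ∀ τ ∈ Ico a b, Icc (0:ℝ) 1 ∈ 𝓝[Ici τ] τ := fun τ hτ =>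
    mem_of_superset (Icc_mem_nhdsGE hτ.2) (Icc_subset_Icc (ha.trans hτ.1) hb)
  exact image_norm_le_of_norm_deriv_right_le_deriv_boundary'
    (f := fun τ => f τ - f a) (f' := f') (B := fun τ => g τ - g a) (B' := g') (a := a) (b := b)
    (fun τ hτ => (h1 τ hτ).continuousWithinAt.mono hsub)
    (fun τ hτ => (h1 τ ⟨hτ.1, hτ.2.le⟩).mono_of_mem_nhdsWithin (hm τ hτ)) (by simp only [sub_self, norm_zero, Std.le_refl])
    (fun τ hτ => (h2 τ hτ).continuousWithinAt.mono hsub)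
    (fun τ hτ => (h2 τ ⟨hτ.1, hτ.2.le⟩).mono_of_mem_nhdsWithin (hm τ hτ))
    (fun τ hτ => h τ (hsub ⟨hτ.1, hτ.2.le⟩)) ⟨hab, le_rfl⟩

section

variable {N : Spc} {e' : N.Chart}

/-- future vectors in exotic coordinates -/
lemma exotic_future {pp : ENNReal} (hg' : IsSpacetime (IsC0W1 pp) N) {y0 : R4} {A : R4 ≃L[ℝ] R4} {z : R4}
    (hz : yv y0 A z ∈ tgt e') (hN : NearM (Gf (comp e') y0 A z))
    (hT : N.g e' (yv y0 A z) (A Tv) (N.X e' (yv y0 A z)) < 0) {w : R4}
    (hw : N.g e' (yv y0 A z) w w < 0) (hwX : N.g e' (yv y0 A z) w (N.X e' (yv y0 A z)) < 0) :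
    0 < (A.symm w).1 ∧ ‖A.symm w‖ ≤ 2 * (A.symm w).1 ∧
      -N.g e' (yv y0 A z) w w ≤ 2 * (A.symm w).1 ^ 2 := by
  set a := A.symm w with ha
  have hAa : A a = w := A.apply_symm_apply w
  have hB := hg'.bilin e' hz
  have h1 : Gf (comp e') y0 A z a a = N.g e' (yv y0 A z) w w := by
    rw [Gf_apply hB, hAa]
  have hTT : Gf (comp e') y0 A z Tv Tv ≤ 0 := by
    have hTc : Tv ∈ cone (1 / 4) := by simp only [one_div, Tv, mem_cone, Prod.norm_mk, norm_zero, max_self, mul_one, inv_nonneg, Nat.ofNat_nonneg]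
    have := hN.timelike_of_cone hTc
    have h2 : (Tv : P4).1 = 1 := rfl
    rw [h2] at this
    linarith only [this]
  have h2 : N.g e' (yv y0 A z) w (A Tv) < 0 := by
    refine hg'.same_cone e' hz (hg'.timelike e' _ hz) hw hwX ?_ hT
    rw [Gf_apply hB] at hTT
    exact hTT
  have h3 : Gf (comp e') y0 A z Tv a < 0 := by
    rw [Gf_apply hB, hAa, hg'.symm e' hz]; exact h2
  have h0 : Gf (comp e') y0 A z a a < 0 := by rw [h1]; exact hw
  have h4 := hN.pos_of_T_neg h0.le h3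
  have h5 := hN.norm_le_of_causal h0.le
  rw [abs_of_pos h4] at h5
  refine ⟨h4, h5, ?_⟩
  rw [← h1]
  have h7 := (abs_le.1 (hN a a)).1
  rw [mink_self] at h7
  have h8 : ‖a‖ * ‖a‖ ≤ (2 * a.1) * (2 * a.1) := mul_le_mul h5 h5 (norm_nonneg _) (by linarith only [h4])
  linarith only [hw, h1, h7, h8, sq_nonneg a.2.1, sq_nonneg a.2.2.1, sq_nonneg a.2.2.2]

end

/-- A future curve with an end point in N is not far. -/
theorem not_isFar {pp : ENNReal} {M N : Spc} {ι : M.pt → N.pt} (hM : IsSpacetime IsSmooth M)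
    (hg' : IsSpacetime (IsC0W1 pp) N) (hemb : IsOpenEmbedding ι) (hI : IsIsom ι) {c : ℝ → N.pt}
    (hc : IsFutureCurve N 0 (Icc 0 1) c) {a : ℝ → M.pt} (ha : ∀ t ∈ Ico (0:ℝ) 1, ι (a t) = c t) :
    ¬ IsFar M a := by
  intro hinf
  obtain ⟨e', hp⟩ := N.cover (c 1)
  replace hp : On e' (c 1) := hp
  have hy0 : co e' (c 1) ∈ tgt e' := co_mem hp
  obtain ⟨A, hA, lam, hl, hAT⟩ := exists_A hg' hy0 (endVel_timelike hp hc)
  have hTneg : N.g e' (co e' (c 1)) (A Tv) (N.X e' (co e' (c 1))) < 0 := by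
    have h1 : A Tv = lam • endVel e' c := hAT
    rw [h1, (hg'.bilin e' hy0).smul_left]
    exact mul_neg_of_pos_of_neg hl (endVel_future hp hc)
  obtain ⟨R0, hR0, hR, hnear⟩ := exists_R0 hg' hy0 A hA hTneg
  set y0 := co e' (c 1) with hy0def
  -- coordinates
  set Z : N.pt → R4 := fun p => A.symm (co e' p - y0) with hZ
  have hyZ : ∀ p, yv y0 A (Z p) = co e' p := by
    intro p; simp only [yv, hZ, map_sub, ContinuousLinearEquiv.apply_symm_apply, add_sub_cancel]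
  have hsrcO : IsOpen (N.toE e').source := (N.toE e').open_source
  have hcoc : ContinuousOn (co e') (N.toE e').source := (N.toE e').continuousOn
  have hZc : ContinuousOn Z (N.toE e').source :=
    A.symm.continuous.comp_continuousOn (hcoc.sub continuousOn_const)
  set B : Set N.pt := (N.toE e').source ∩ Z ⁻¹' Metric.ball 0 R0 with hB
  have hBo : IsOpen B := hZc.isOpen_inter_preimage hsrcO Metric.isOpen_ball
  set Kc : Set N.pt := (fun z => inv e' (yv y0 A z)) '' Metric.closedBall 0 (7 / 8 * R0) with hKc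
  have hKB : ∀ p ∈ Kc, p ∈ B := by
    rintro _ ⟨z, hz, rfl⟩
    have hz' : z ∈ Metric.closedBall (0 : R4) R0 :=
      Metric.closedBall_subset_closedBall (by linarith only [hR0]) hz
    have ht := hR z hz'
    refine ⟨inv_mem ht, ?_⟩
    have : Z (inv e' (yv y0 A z)) = z := by
      simp only [hZ]; rw [co_inv ht]; simp only [yv, add_sub_cancel_left, ContinuousLinearEquiv.symm_apply_apply]
    rw [mem_preimage, this]
    exact Metric.closedBall_subset_ball (by linarith only [hR0]) hz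
  have hKcl : IsClosed Kc := by
    refine IsCompact.isClosed ?_
    refine (isCompact_closedBall (0 : R4) (7 / 8 * R0)).image_of_continuousOn ?_
    refine (N.toE e').continuousOn_symm.comp (yv_continuous y0 A).continuousOn ?_
    intro z hz
    exact hR z (Metric.closedBall_subset_closedBall (by linarith only [hR0]) hz)
  have hBK : ∀ p ∈ B, ‖Z p‖ ≤ 7 / 8 * R0 → p ∈ Kc := by
    intro p hp1 hp2
    refine ⟨Z p, by simpa only [Metric.mem_closedBall, dist_zero_right] using hp2, ?_⟩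
    have hp1' : On e' p := hp1.1
    simp only []
    rw [hyZ, inv_co hp1']
  -- the time b
  have hZ1 : Z (c 1) = 0 := by simp only [hZ, hy0def, map_sub, sub_self]
  have hcw : ContinuousWithinAt c (Icc 0 1) 1 := hc.1 1 ⟨zero_le_one, le_rfl⟩
  have hsrc : ∀ᶠ t in 𝓝[Icc 0 1] (1:ℝ), On e' (c t) :=
    hcw.preimage_mem_nhdsWithin (hsrcO.mem_nhds hp)
  have hZcw : ContinuousWithinAt (fun t => Z (c t)) (Icc 0 1) 1 :=
    ContinuousAt.comp_continuousWithinAt (g := Z)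
      (hZc.continuousAt (hsrcO.mem_nhds hp)) hcw
  have hball : ∀ᶠ t in 𝓝[Icc 0 1] (1:ℝ), Z (c t) ∈ Metric.ball (0 : R4) (R0 / 8) := by
    refine hZcw.eventually (Metric.isOpen_ball.mem_nhds ?_)
    beta_reduce
    rw [hZ1]; simpa only [Metric.mem_ball, dist_self, Nat.ofNat_pos, div_pos_iff_of_pos_right, gt_iff_lt] using hR0
  obtain ⟨ε, hε, hεb⟩ := Metric.mem_nhdsWithin_iff.1 (hsrc.and hball)
  set b : ℝ := max 0 (1 - ε) with hb
  have hb1 : b < 1 := max_lt zero_lt_one (by linarith only [hε])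
  have hgood : ∀ t, b < t → t ≤ 1 → On e' (c t) ∧ ‖Z (c t)‖ ≤ R0 / 8 := by
    intro t h1 h2
    have h3 : 0 < t := (le_max_left _ _).trans_lt h1
    have h4 : 1 - ε < t := (le_max_right _ _).trans_lt h1
    have h5 := hεb (show t ∈ Metric.ball 1 ε ∩ Icc 0 1 from
      ⟨by rw [Metric.mem_ball, Real.dist_eq, abs_lt]; constructor <;> linarith only [h4, hε, h2], h3.le, h2⟩)
    exact ⟨h5.1, by simpa only using (mem_ball_zero_iff.1 h5.2).le⟩
  obtain ⟨s, hs, hinf⟩ := hinf b hb1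
  obtain ⟨t, ht, H0, hHc0, hH00, hHl0, hfast0⟩ := hinf (R0 ^ 2)
  have hs0 : 0 < s := (le_max_left _ _).trans_lt hs.1
  have hgs := hgood s hs.1 hs.2.le
  have hgt := hgood t (hs.1.trans ht.1) ht.2.le
  -- the deformation in N
  set H : ℝ → ℝ → N.pt := fun l τ => ι (H0 (l, τ)) with hHdef
  have hu : UniqueDiffOn ℝ (Icc (0:ℝ) 1) := uniqueDiffOn_Icc zero_lt_one
  have hHc : ContinuousOn (fun p : ℝ × ℝ => H p.1 p.2) (Icc 0 1 ×ˢ Icc 0 1) :=
    hemb.continuous.comp_continuousOn hHc0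
  have hH0 : ∀ τ ∈ Icc (0:ℝ) 1, H 0 τ = c (s + τ * (t - s)) := by
    intro τ hτ
    simp only [hHdef]
    rw [hH00]
    have e1 := mul_nonneg hτ.1 (by linarith only [ht.1] : 0 ≤ t - s)
    have e2 := mul_le_mul_of_nonneg_right hτ.2 (by linarith only [ht.1] : 0 ≤ t - s)
    rw [mul_comm (t - s) τ]
    exact ha _ ⟨by linarith only [hs0, e1], by linarith only [e2, ht.2]⟩
  have hHl : ∀ l ∈ Icc (0:ℝ) 1, IsFutureCurve N 0 (Icc 0 1) (H l) ∧ H l 0 = c s ∧
      H l 1 = c t := by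
    intro l hl
    obtain ⟨k1, k2, k3⟩ := hHl0 l hl
    refine ⟨k1.push_map hemb hM hg' hI hu, ?_, ?_⟩
    · simp only [hHdef]; rw [k2]; exact ha s ⟨hs0.le, hs.2⟩
    · simp only [hHdef]; rw [k3]; exact ha t ⟨by linarith only [hs0, ht.1], ht.2⟩
  have hfast : IsFutureCurve N (R0 ^ 2) (Icc 0 1) (H 1) := hfast0.push_map hemb hM hg' hI hu
  -- estimates for curves in B
  have key : ∀ l ∈ Icc (0:ℝ) 1, (∀ τ ∈ Icc (0:ℝ) 1, H l τ ∈ B) →
      (∀ τ ∈ Icc (0:ℝ) 1, HasDerivWithinAt (fun τ => Z (H l τ))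
        (A.symm (derivWithin (fun τ => co e' (H l τ)) (Icc 0 1) τ)) (Icc 0 1) τ) ∧
      (∀ τ ∈ Icc (0:ℝ) 1,
        0 < (A.symm (derivWithin (fun τ => co e' (H l τ)) (Icc 0 1) τ)).1 ∧
        ‖A.symm (derivWithin (fun τ => co e' (H l τ)) (Icc 0 1) τ)‖ ≤
          2 * (A.symm (derivWithin (fun τ => co e' (H l τ)) (Icc 0 1) τ)).1 ∧
        -N.g e' (co e' (H l τ)) (derivWithin (fun τ => co e' (H l τ)) (Icc 0 1) τ)
          (derivWithin (fun τ => co e' (H l τ)) (Icc 0 1) τ) ≤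
          2 * (A.symm (derivWithin (fun τ => co e' (H l τ)) (Icc 0 1) τ)).1 ^ 2) := by
    intro l hl hBl
    constructor
    · intro τ hτ
      have h1 := ((hHl l hl).1.2 τ hτ e' (hBl τ hτ).1).1
      have h2 := (h1.differentiableWithinAt (by simp)).hasDerivWithinAt
      have h3 := (h2.sub_const y0)
      exact A.symm.hasFDerivAt.comp_hasDerivWithinAt τ h3
    · intro τ hτ
      have hon : On e' (H l τ) := (hBl τ hτ).1
      obtain ⟨h1, -, h2⟩ := ((hHl l hl).1.2 τ hτ e' hon).2 _ _ rfl rfl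
      have h3 := hnear (Z (H l τ)) (hBl τ hτ).2
      have h4 : yv y0 A (Z (H l τ)) ∈ tgt e' := by rw [hyZ]; exact co_mem hon
      have h5 := exotic_future hg' h4 h3.1 h3.2.1
        (w := derivWithin (fun τ => co e' (H l τ)) (Icc 0 1) τ)
        (by rw [hyZ]; exact h1) (by rw [hyZ]; exact h2)
      rw [hyZ] at h5
      exact h5
  have hdia : ∀ l ∈ Icc (0:ℝ) 1, (∀ τ ∈ Icc (0:ℝ) 1, H l τ ∈ B) →
      ∀ τ ∈ Icc (0:ℝ) 1, H l τ ∈ Kc := by
    intro l hl hBl τ hτ
    obtain ⟨k1, k2⟩ := key l hl hBl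
    have e0 : Z (H l 0) = Z (c s) := by rw [(hHl l hl).2.1]
    have e1 : Z (H l 1) = Z (c t) := by rw [(hHl l hl).2.2]
    have hd1 : ∀ τ ∈ Icc (0:ℝ) 1, HasDerivWithinAt (fun τ => (Z (H l τ)).2)
        (A.symm (derivWithin (fun τ => co e' (H l τ)) (Icc 0 1) τ)).2 (Icc 0 1) τ :=
      fun τ hτ => (k1 τ hτ).snd
    have hd2 : ∀ τ ∈ Icc (0:ℝ) 1, HasDerivWithinAt (fun τ => 2 * (Z (H l τ)).1)
        (2 * (A.symm (derivWithin (fun τ => co e' (H l τ)) (Icc 0 1) τ)).1) (Icc 0 1) τ :=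
      fun τ hτ => by
        have h0 : HasDerivWithinAt (fun τ => (Z (H l τ)).1)
          (A.symm (derivWithin (fun τ => co e' (H l τ)) (Icc 0 1) τ)).1 (Icc 0 1) τ :=
          (k1 τ hτ).fst
        exact h0.const_mul 2
    have hle : ∀ τ ∈ Icc (0:ℝ) 1,
        ‖(A.symm (derivWithin (fun τ => co e' (H l τ)) (Icc 0 1) τ)).2‖ ≤
        2 * (A.symm (derivWithin (fun τ => co e' (H l τ)) (Icc 0 1) τ)).1 :=
      fun τ hτ => (norm_snd_le _).trans (k2 τ hτ).2.1
    have m1 := norm_sub_le_within hd1 hd2 hle le_rfl hτ.1 hτ.2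
    have m2 := norm_sub_le_within hd1 hd2 hle hτ.1 hτ.2 le_rfl
    have hD : Z (H l τ) ∈ Dia (Z (c s)) (Z (c t)) := by
      constructor
      · rw [← e0]; linarith only [m1]
      · rw [← e1]; linarith only [m2]
    have h5 := Dia_sub hR0 hgs.2 hgt.2 hD
    exact hBK _ (hBl τ hτ) (by simpa only [Metric.mem_closedBall, dist_zero_right] using h5)
  -- continuity argument
  set pr : ℝ → ℝ := fun x => max 0 (min x 1) with hpr
  have hprm : ∀ x, pr x ∈ Icc (0:ℝ) 1 := fun x =>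
    ⟨le_max_left _ _, max_le zero_le_one (min_le_right _ _)⟩
  have hpre : ∀ x ∈ Icc (0:ℝ) 1, pr x = x := by
    intro x hx
    simp only [hpr]
    rw [min_eq_left hx.2, max_eq_right hx.1]
  have hprc : Continuous pr := by fun_prop
  have hH'c : Continuous (fun p : ℝ × ℝ => H (pr p.1) (pr p.2)) := by
    have : (fun p : ℝ × ℝ => H (pr p.1) (pr p.2)) =
        (fun p : ℝ × ℝ => H p.1 p.2) ∘ (fun p : ℝ × ℝ => (pr p.1, pr p.2)) := rfl
    rw [this]
    exact hHc.comp_continuous (by fun_prop) (fun p => ⟨hprm _, hprm _⟩)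
  set S : Set ℝ := {l | ∀ τ ∈ Icc (0:ℝ) 1, H (pr l) (pr τ) ∈ B} with hS
  have hset : S ∩ Icc 0 1 = Icc (0:ℝ) 1 ∩ ⋂ τ ∈ Icc (0:ℝ) 1,
      (fun l : ℝ => H (pr l) (pr τ)) ⁻¹' Kc := by
    ext l
    simp only [mem_inter_iff, mem_iInter, mem_preimage]
    constructor
    · rintro ⟨h, hl⟩
      refine ⟨hl, fun τ hτ => ?_⟩
      have h1 : ∀ τ ∈ Icc (0:ℝ) 1, H l τ ∈ B := by
        intro τ hτ
        have := h τ hτ
        rwa [hpre l hl, hpre τ hτ] at this
      rw [hpre l hl, hpre τ hτ]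
      exact hdia l hl h1 τ hτ
    · rintro ⟨hl, h⟩
      exact ⟨fun τ hτ => hKB _ (h τ hτ), hl⟩
  have hclosed : IsClosed (S ∩ Icc 0 1) := by
    rw [hset]
    refine isClosed_Icc.inter (isClosed_biInter fun τ _ => ?_)
    exact hKcl.preimage (hH'c.comp (by fun_prop : Continuous fun l : ℝ => (l, τ)))
  have hall : Icc (0:ℝ) 1 ⊆ S := by
    refine hclosed.Icc_subset_of_forall_mem_nhdsWithin ?_ ?_
    · intro τ hτ
      rw [hpre 0 ⟨le_rfl, zero_le_one⟩, hpre τ hτ, hH0 τ hτ]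
      have h1 : s ≤ s + τ * (t - s) := by
        have := mul_nonneg hτ.1 (by linarith only [ht.1] : 0 ≤ t - s)
        linarith only [this]
      have h2 : s + τ * (t - s) ≤ t := by
        have := mul_le_mul_of_nonneg_right hτ.2 (by linarith only [ht.1] : 0 ≤ t - s)
        linarith only [this]
      have h3 := hgood (s + τ * (t - s)) (hs.1.trans_le h1) (h2.trans ht.2.le)
      refine ⟨h3.1, ?_⟩
      rw [mem_preimage, mem_ball_zero_iff]
      linarith only [hR0, h3.2]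
    · rintro l ⟨h1, hl⟩
      refine mem_nhdsWithin_of_mem_nhds ?_
      exact isCompact_Icc.eventually_forall_of_forall_eventually (x₀ := l)
        (K := Icc (0:ℝ) 1) (P := fun l τ => H (pr l) (pr τ) ∈ B) (by
          intro τ hτ
          exact hH'c.continuousAt.eventually (hBo.mem_nhds (h1 τ hτ)))
  have hB1 : ∀ τ ∈ Icc (0:ℝ) 1, H 1 τ ∈ B := by
    intro τ hτ
    have := hall ⟨zero_le_one, le_rfl⟩ τ hτ
    rwa [hpre 1 ⟨zero_le_one, le_rfl⟩, hpre τ hτ] at this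
  -- the long curve
  have h1mem : (1:ℝ) ∈ Icc (0:ℝ) 1 := ⟨zero_le_one, le_rfl⟩
  obtain ⟨k1, k2⟩ := key 1 h1mem hB1
  have hd1 : ∀ τ ∈ Icc (0:ℝ) 1, HasDerivWithinAt (fun τ => τ * (R0 / 2)) (R0 / 2) (Icc 0 1) τ := by
    intro τ _
    simpa only [id_eq, one_mul] using ((hasDerivAt_id τ).mul_const (R0 / 2)).hasDerivWithinAt
  have hd2 : ∀ τ ∈ Icc (0:ℝ) 1, HasDerivWithinAt (fun τ => (Z (H 1 τ)).1)
        (A.symm (derivWithin (fun τ => co e' (H 1 τ)) (Icc 0 1) τ)).1 (Icc 0 1) τ :=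
      fun τ hτ => (k1 τ hτ).fst
  have m1 := norm_sub_le_within hd1 hd2 (fun τ hτ => by
    obtain ⟨j1, j2, j3⟩ := k2 τ hτ
    have j4 := ((hfast.2 τ hτ e' (hB1 τ hτ).1).2 _ _ rfl rfl).2.1
    rw [Real.norm_eq_abs, abs_of_pos (by (clear * - hR0; positivity))]
    apply le_of_sq_le_sq _ j1.le
    have : (R0 / 2) ^ 2 = R0 ^ 2 / 4 := by ring
    rw [this]
    nlinarith only [j3, j4]) le_rfl zero_le_one le_rfl
  rw [(hHl 1 h1mem).2.1, (hHl 1 h1mem).2.2] at m1
  have m2 : |1 * (R0 / 2) - 0 * (R0 / 2)| = R0 / 2 := by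
    rw [one_mul, zero_mul, sub_zero, abs_of_pos (by positivity)]
  rw [Real.norm_eq_abs, m2] at m1
  have n1 := (norm_fst_le (Z (c s))).trans hgs.2
  have n2 := (norm_fst_le (Z (c t))).trans hgt.2
  rw [Real.norm_eq_abs] at n1 n2
  linarith only [hR0, m1, (abs_le.1 n1).1, (abs_le.1 n2).2]

end Vale.Agent.P354p
end
end

section

section

set_option linter.unusedSectionVars false
set_option maxSynthPendingDepth 3

open scoped Manifold ContDiff
open MeasureTheory Set Topology Filter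

namespace Vale.Agent.P354c

/-- the end point gives a positive radius -/
lemma EndsAt.nonempty {M : Spc} {a : ℝ → M.pt} {e : M.Chart} {D : Set R4} {z : R4}
    (h : EndsAt a e D z) : ∃ x, x ∈ D := by
  obtain ⟨t, ht⟩ := h.1.exists
  exact ⟨_, ht.2⟩

lemma nullBox_r {x z : R4} {r : ℝ} (h : x ∈ nullBox z r) : 0 < r := by
  rw [nullBox_eq] at h
  exact lt_of_le_of_lt (norm_nonneg _) h.1

lemma IsDNBox.K_one {M : Spc} {e : M.Chart} {C : ℕ → R4 → ℝ} {D : Set R4} {K : ℝ} {k n : ℝ → ℝ}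
    (h : IsDNBox M e C D K k n) {x : R4} (hx : x ∈ D) : 1 ≤ K := by
  obtain ⟨h1, h2, h3, h4, h5, h6⟩ := h.metric x hx
  have h40 := ((h4 0 rfl rfl).2 3 (by norm_num)).1
  have hK : 0 ≤ K := (abs_nonneg _).trans h40
  have h7 : K * C 3 x ≤ K * K := mul_le_mul_of_nonneg_left ((le_abs_self _).trans h40) hK
  by_contra hcon
  push Not at hcon
  nlinarith only [h3, h7, hcon, hK]

lemma fr_half (C : ℕ → R4 → ℝ) (x a : R4) : fr C x a = P354k.fr (half C) x a := by
  have h4 : half C 4 x = C 4 x := by simp [half]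
  have h5 : half C 5 x = C 5 x := by simp [half]
  unfold fr P354k.fr
  rw [h4, h5]
  rfl

lemma conn_iff {g : R4 → R4 → R4 → ℝ} {G : R4 → R4 → R4 → R4} {x : R4} (h : IsConn g G x) :
    P354k.Conn g G x := by
  intro a b c
  rw [two_mul]
  exact h a b c

lemma isBig_half {C : ℕ → R4 → ℝ} {i : ℕ} {D : Set R4}
    (h : IsBig D 0 (fun _ => 1) fun y => deriv (C i) y dv) :
    IsBig D 0 (fun _ => 1) fun y => P354p.deriv (half C i) y P354p.dv := by
  intro L
  obtain ⟨φ, h1, h2, h3⟩ := h (2 * |L|)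
  refine ⟨φ, h1, h2, ?_⟩
  set Q := int (fun x => (1:ℝ) * |φ x| + |deriv φ x d1| + |deriv φ x d2| +
    0 * (|deriv φ x du| + |deriv φ x dv|)) with hQ
  have hQ0 : 0 ≤ Q := integral_nonneg fun x => by (clear * -; positivity)
  have h4 : |int fun x => φ x * deriv (C i) x dv| ≤
      2 * |int fun x => φ x * deriv (half C i) x dv| := by
    by_cases hi : i = 1 ∨ i = 3
    · have e : (fun x => φ x * deriv (half C i) x dv) = fun x => (φ x * deriv (C i) x dv) / 2 := by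
        funext x
        rw [half_deriv, if_pos hi]
        ring
      have e2 : (int fun x => φ x * deriv (half C i) x dv) =
          (int fun x => φ x * deriv (C i) x dv) / 2 := by
        rw [e]
        exact integral_div _ _
      rw [e2, abs_div, abs_of_pos (by norm_num : (0:ℝ) < 2)]
      linarith only []
    · have e : (fun x => φ x * deriv (half C i) x dv) = fun x => φ x * deriv (C i) x dv := by
        funext x
        rw [half_deriv, if_neg hi]
      rw [e]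
      have := abs_nonneg (int fun x => φ x * deriv (C i) x dv)
      linarith only [this]
  have h5 : 2 * |L| * Q < 2 * |int fun x => φ x * deriv (half C i) x dv| := lt_of_lt_of_le h3 h4
  have h6 : L * Q ≤ |L| * Q := mul_le_mul_of_nonneg_right (le_abs_self L) hQ0
  have h7 : |L| * Q < |int fun x => φ x * deriv (half C i) x dv| := by linarith only [h3, h4]
  exact lt_of_le_of_lt h6 h7

section

variable {M N : Spc} {ι : M.pt → N.pt}

lemma const_inLp {r c : ℝ} : Measurable (fun _ : ℝ => c) ∧ P354p.InLp 1 (fun _ => c) (-r) := by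
  refine ⟨measurable_const, ?_⟩
  show eLpNorm _ 1 (volume.restrict (Ioo (-r) 0)) < ⊤
  exact (memLp_const c).2

lemma k_inLp {k : ℝ → ℝ} (h : Measurable k ∧ Integrable k) {r : ℝ} :
    Measurable k ∧ P354p.InLp 1 k (-r) :=
  ⟨h.1, (memLp_one_iff_integrable.2 (h.2.integrableOn (s := Ioo (-r) 0))).2⟩

theorem front_n (hM : IsSpacetime IsSmooth M)
    (hg' : IsSpacetime IsLip N) (h : IsOpenEmbedding ι) (hI : IsIsom ι) {c : ℝ → N.pt}
    (hc : IsFutureCurve N 0 I c) {a : ℝ → M.pt} (ha : ∀ t ∈ J, ι (a t) = c t)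
    (hf : EndsAtFront M a) : False := by
  obtain ⟨e, C, z, r, K, k, G, hdn, hz, hain, hw, hall⟩ := hf
  obtain ⟨x0, hx0⟩ := hain.nonempty
  have hr := nullBox_r hx0
  have hK := hdn.K_one hx0
  have hdn' : P354p.IsDNBox (Up M) e (half C) (nullBox z r) r (2 * K) k (fun _ => 2 * K) :=
    hdn.up hM hr (fun _ _ => by linarith) (fun f hf => by
      rcases hf with rfl | rfl
      · exact k_inLp hdn.integrable
      · exact const_inLp)
  rw [nullBox_eq] at hdn' hain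
  have hw' : ∀ x ∈ P354p.nullBox z r, C 6 x = 0 ∧ C 7 x = 0 ∧ IsConn (M.g e) G x := by
    intro x hx
    rw [← nullBox_eq] at hx
    exact hw x hx
  have hB : P354p.FrontBox (Up M) e (half C) z r (2 * K) k :=
    ⟨hdn', hz, fun x hx => by simp [half, (hw' x hx).1, (hw' x hx).2.1]⟩
  refine front_lip (M := Up M) (N := Up N) hM.up hg'.upL h hI.up (hc.up le_rfl) ha hB (Γ := G)
    hain (fun x hx => conn_iff (hw' x hx).2.2) (fun x hx hxr c hc => ?_)
  rcases hall x hx (by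
      show x ∈ Metric.ball z r
      rw [mem_ball_iff_norm]; exact hxr) c hc with ⟨p, q, s, t, h1⟩ | ⟨i, hi, h1⟩
  · left
    refine ⟨p, q, s, t, ?_⟩
    rw [nullBox_eq] at h1
    simp only [fr_half] at h1
    exact h1
  · right
    refine ⟨i, hi, ?_⟩
    rw [nullBox_eq] at h1
    exact isBig_half h1

/-- **The local theorem.** -/
theorem local_inext (hM : IsSpacetime IsSmooth M)
    (hg' : IsSpacetime IsLip N) (h : IsOpenEmbedding ι) (hI : IsIsom ι) {c : ℝ → N.pt}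
    (hc : IsFutureCurve N 0 I c) {a : ℝ → M.pt} (ha : ∀ t ∈ J, ι (a t) = c t) :
    ¬ Ends M a := by
  rintro (hf | hcor | hfar)
  · exact front_n hM hg' h hI hc ha hf
  · obtain ⟨e, C, z, r, K, k, hdn, hu, hv, hain, hcl⟩ := hcor
    obtain ⟨x0, hx0⟩ := hain.nonempty
    have hr := nullBox_r hx0.1
    have hdn' : P354p.IsDNBox (Up M) e (half C) (cornerBox z r) r (2 * K) k k :=
      hdn.up hM hr (fun _ _ => le_rfl) (fun f hf => by
        rcases hf with rfl | rfl <;> exact k_inLp hdn.integrable)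
    have hain' := hain
    rw [cornerBox_eq] at hdn' hain'
    obtain ⟨a', c', hc', ha', hcur, y, hy, h1, h2, h3⟩ := P354p.corner_stepE le_top hM.up hg'.upL h
      hI.up (hc.up le_rfl) ha hdn' hu hv hain'
    rw [← cornerBox_eq] at hy
    exact front_n hM hg' h hI (IsFutureCurve.of hc') ha' (hcl a' (IsFutureCurve.of hcur) y hy
      (by
        show y ∈ Metric.ball z r
        rw [mem_ball_iff_norm]; exact h1) h2 h3)
  · exact P354p.not_isFar hM.up hg'.upL h hI.up (hc.up le_rfl) ha (isFar_up hfar)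

end

end Vale.Agent.P354c
end
end

section

section

set_option linter.unusedSectionVars false
set_option maxSynthPendingDepth 3

open scoped Manifold ContDiff
open MeasureTheory Set Topology Filter

namespace Vale.Agent.P354c

/-- **The curve of an extension.** -/
theorem extension_curve (M N : Spc) (hM : IsSpacetime IsSmooth M)
    (ι : M.pt → N.pt) (c : ℝ → N.pt) (hE : IsFutureExtension IsLip M N ι c) :
    ∃ a, IsFutureCurve M 0 J a ∧ (∀ x, ¬ Tendsto a (𝓝[<] 1) (𝓝 x)) ∧ ¬ Ends M a := by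
  have h0 : (0:ℝ) ∈ J := by constructor <;> norm_num
  have hex : ∀ t : ℝ, ∃ x : M.pt, t ∈ J → ι x = c t := by
    intro t
    by_cases ht : t ∈ J
    · obtain ⟨x, hx⟩ := hE.curve_mem t ht
      exact ⟨x, fun _ => hx⟩
    · obtain ⟨x, hx⟩ := hE.curve_mem 0 h0
      exact ⟨x, fun h => absurd h ht⟩
  choose a ha using hex
  have ha' : ∀ t ∈ J, ι (a t) = c t := fun t ht => ha t ht
  refine ⟨a, IsFutureCurve.of (P354p.ray_of_curve (M := Up M) (N := Up N) hM.up
    hE.spacetime.upL hE.embedding hE.isometry.up (hE.curve.up le_rfl) ha'), ?_,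
    local_inext hM hE.spacetime hE.embedding hE.isometry hE.curve ha'⟩
  intro x hx
  have h1 : Tendsto (fun t => ι (a t)) (𝓝[<] 1) (𝓝 (ι x)) :=
    (hE.embedding.continuous.tendsto x).comp hx
  have h2 : Tendsto c (𝓝[<] 1) (𝓝 (c 1)) := by
    have h3 : ContinuousWithinAt c (Icc 0 1) 1 := hE.curve.1 1 (by constructor <;> norm_num)
    refine h3.mono_left ?_
    rw [← nhdsWithin_Ico_eq_nhdsLT (zero_lt_one (α := ℝ))]
    exact nhdsWithin_mono _ Ico_subset_Icc_self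
  have h4 : Tendsto (fun t => ι (a t)) (𝓝[<] 1) (𝓝 (c 1)) := by
    refine h2.congr' ?_
    filter_upwards [Ico_mem_nhdsLT (zero_lt_one (α := ℝ))] with t ht
    exact (ha' t ht).symm
  have h5 : ι x = c 1 := tendsto_nhds_unique h1 h4
  have h6 := hE.curve_end
  rw [hE.embedding.isOpen_range.frontier_eq] at h6
  exact h6.2 ⟨x, h5⟩

/-- Local and global theorem. -/
theorem inext0 : ∀ M, IsSpacetime IsSmooth M → (∀ N ι c a, IsFutureExtension IsLip M N ι c →
      (∀ t ∈ J, ι (a t) = c t) → ¬ Ends M a) ∧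
      (AllEnd M → ∀ N ι c, ¬ IsFutureExtension IsLip M N ι c) := by
  refine fun M hM => ⟨fun _ _ _ _ hE ha =>
      local_inext hM hE.spacetime hE.embedding hE.isometry hE.curve ha,
    fun h N ι c hE => ?_⟩
  obtain ⟨a, h1, h2, h3⟩ := extension_curve M N hM ι c hE
  exact h3 (h a h1 h2)

end Vale.Agent.P354c
end
end

section

section

set_option linter.unusedSectionVars false

open scoped ContDiff
open MeasureTheory Set Filter Topology

namespace Vale.Agent.P354p.Ex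

lemma mono_lim {f f' : ℝ → ℝ} {B : ℝ} (hf : ∀ t ∈ Ioo (1/2:ℝ) 1, HasDerivAt f (f' t) t)
    (hnn : ∀ t ∈ Ioo (1/2:ℝ) 1, 0 ≤ f' t) (hB : ∀ t ∈ Ioo (1/2:ℝ) 1, f t ≤ B) :
    ∃ L, Tendsto f (𝓝[<] 1) (𝓝 L) ∧ ∀ t ∈ Ioo (1/2:ℝ) 1, f t ≤ L := by
  have hmono : MonotoneOn f (Ioo (1/2:ℝ) 1) := by
    apply monotoneOn_of_deriv_nonneg (convex_Ioo _ _)
    · exact fun t ht => (hf t ht).continuousAt.continuousWithinAt
    · rw [interior_Ioo]
      exact fun t ht => (hf t ht).differentiableAt.differentiableWithinAt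
    · rw [interior_Ioo]
      intro t ht
      rw [(hf t ht).deriv]
      exact hnn t ht
  have hbdd : BddAbove (f '' Ioo (1/2:ℝ) 1) := by
    refine ⟨B, ?_⟩
    rintro _ ⟨t, ht, rfl⟩
    exact hB t ht
  refine ⟨sSup (f '' Ioo (1/2:ℝ) 1), ?_, fun t ht => le_csSup hbdd (mem_image_of_mem f ht)⟩
  exact MonotoneOn.tendsto_nhdsWithin_Ioo_left ⟨3/4, by (clear * -; norm_num), by norm_num⟩ hmono hbdd

/-- real number lemma for future timelike vectors -/
lemma cone_bd {G x y p q : ℝ} (hG : 2 ≤ G) (h1 : G * (p * p) + G * (q * q) - (x * y + y * x) < 0)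
    (h2 : G * (p * 0) + G * (q * 0) - (x * 1 + y * 1) < 0) :
    0 < x ∧ 0 < y ∧ |p| ≤ x + y ∧ |q| ≤ x + y := by
  have hpp : 0 ≤ p * p := mul_self_nonneg p
  have hqq : 0 ≤ q * q := mul_self_nonneg q
  have h3 : 2 * (p * p) ≤ G * (p * p) := mul_le_mul_of_nonneg_right hG hpp
  have h4 : 2 * (q * q) ≤ G * (q * q) := mul_le_mul_of_nonneg_right hG hqq
  have hxy : 0 < x * y := by linarith only [h1, hpp, hqq, h3, h4]
  have hs : 0 < x + y := by linarith only [h2]
  have hx : 0 < x := by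
    by_contra hcon
    push Not at hcon
    have hy : 0 < y := by linarith only [h2, hcon]
    linarith only [hxy, mul_nonpos_of_nonpos_of_nonneg hcon hy.le]
  have hy : 0 < y := by
    by_contra hcon
    push Not at hcon
    linarith only [hxy, mul_nonpos_of_nonneg_of_nonpos hx.le hcon]
  have h5 : x * y ≤ (x + y) ^ 2 := by linarith only [hxy, sq_nonneg x, sq_nonneg y]
  refine ⟨hx, hy, ?_, ?_⟩
  · apply abs_le_of_sq_le_sq _ hs.le
    linarith only [h1, hqq, h3, h4, h5]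
  · apply abs_le_of_sq_le_sq _ hs.le
    linarith only [h1, hpp, h3, h4, h5]

variable [Prm]

/-- future curves in the example have limits in the closed region -/
lemma lim_exists {a : ℝ → M0.pt} (ha : IsFutureCurve M0 0 (Ico 0 1) a) :
    ∃ z : R4, Tendsto (fun t => (a t).1) (𝓝[<] 1) (𝓝 z) ∧ -1 < cu z ∧ cu z ≤ 0 ∧
      -1 < cv z ∧ cv z ≤ 0 := by
  set b : ℝ → R4 := fun t => (a t).1 with hb
  have hbD : ∀ t, b t ∈ D0 := fun t => (a t).2
  have hd : ∀ t ∈ Ioo (1/2:ℝ) 1, HasDerivAt b (_root_.deriv b t) t ∧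
      0 < cu (_root_.deriv b t) ∧ 0 < cv (_root_.deriv b t) ∧
      |c1 (_root_.deriv b t)| ≤ cu (_root_.deriv b t) + cv (_root_.deriv b t) ∧
      |c2 (_root_.deriv b t)| ≤ cu (_root_.deriv b t) + cv (_root_.deriv b t) := by
    intro t ht
    have htI : t ∈ Ico (0:ℝ) 1 := ⟨by linarith only [ht.1], ht.2⟩
    have hnb : Ico (0:ℝ) 1 ∈ 𝓝 t := Ico_mem_nhds (by linarith only [ht.1]) ht.2
    obtain ⟨h1, h2⟩ := ha.2 t htI true (mem_univ _)
    have h3 : DifferentiableAt ℝ b t :=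
      (h1.differentiableWithinAt (by norm_num)).differentiableAt hnb
    have h4 : derivWithin (fun s => co (M := M0) true (a s)) (Ico 0 1) t = _root_.deriv b t :=
      derivWithin_of_mem_nhds hnb
    obtain ⟨h5, -, h6⟩ := h2 _ _ rfl rfl
    rw [h4] at h5 h6
    have h7 : form CC (b t) (_root_.deriv b t) (_root_.deriv b t) < 0 := h5
    have h8 : form CC (b t) (_root_.deriv b t) (1, 1, 0, 0) < 0 := h6
    rw [form_eq] at h7 h8
    exact ⟨h3.hasDerivAt, cone_bd (GG_ge (hbD t)) h7 h8⟩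
  have du' : ∀ t ∈ Ioo (1/2:ℝ) 1, HasDerivAt (fun t => cu (b t)) (cu (_root_.deriv b t)) t :=
    fun t ht => (hd t ht).1.fst
  have dv' : ∀ t ∈ Ioo (1/2:ℝ) 1, HasDerivAt (fun t => cv (b t)) (cv (_root_.deriv b t)) t :=
    fun t ht => (hd t ht).1.snd.fst
  have d1' : ∀ t ∈ Ioo (1/2:ℝ) 1, HasDerivAt (fun t => c1 (b t)) (c1 (_root_.deriv b t)) t :=
    fun t ht => (hd t ht).1.snd.snd.fst
  have d2' : ∀ t ∈ Ioo (1/2:ℝ) 1, HasDerivAt (fun t => c2 (b t)) (c2 (_root_.deriv b t)) t :=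
    fun t ht => (hd t ht).1.snd.snd.snd
  obtain ⟨Lu, hLu, hLu'⟩ := mono_lim (B := 0) du' (fun t ht => (hd t ht).2.1.le)
    (fun t _ => (hbD t).2.1.le)
  obtain ⟨Lv, hLv, hLv'⟩ := mono_lim (B := 0) dv' (fun t ht => (hd t ht).2.2.1.le)
    (fun t _ => (hbD t).2.2.2.le)
  -- the angular coordinates
  have key : ∀ g g' : ℝ → ℝ, (∀ t ∈ Ioo (1/2:ℝ) 1, HasDerivAt g (g' t) t) →
      (∀ t ∈ Ioo (1/2:ℝ) 1, |g' t| ≤ cu (_root_.deriv b t) + cv (_root_.deriv b t)) →
      ∃ L, Tendsto g (𝓝[<] 1) (𝓝 L) := by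
    intro g g' hg hg'
    have hs : ∀ t ∈ Ioo (1/2:ℝ) 1, HasDerivAt (fun t => cu (b t) + cv (b t))
        (cu (_root_.deriv b t) + cv (_root_.deriv b t)) t :=
      fun t ht => (du' t ht).add (dv' t ht)
    have hneg : ∀ t ∈ Ioo (1/2:ℝ) 1, cu (b t) + cv (b t) ≤ 0 := fun t _ => by
      have := (hbD t).2.1
      have := (hbD t).2.2.2
      linarith
    -- g is bounded above on (3/4, 1)
    have hm : MonotoneOn (fun t => (cu (b t) + cv (b t)) - g t) (Ioo (1/2:ℝ) 1) := by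
      have hdd : ∀ t ∈ Ioo (1/2:ℝ) 1, HasDerivAt (fun t => (cu (b t) + cv (b t)) - g t)
          ((cu (_root_.deriv b t) + cv (_root_.deriv b t)) - g' t) t :=
        fun t ht => (hs t ht).sub (hg t ht)
      apply monotoneOn_of_deriv_nonneg (convex_Ioo _ _)
      · exact fun t ht => (hdd t ht).continuousAt.continuousWithinAt
      · rw [interior_Ioo]
        exact fun t ht => (hdd t ht).differentiableAt.differentiableWithinAt
      · rw [interior_Ioo]
        intro t ht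
        rw [(hdd t ht).deriv]
        have := (abs_le.1 (hg' t ht)).2
        linarith only [this]
    have hm2 : MonotoneOn (fun t => (cu (b t) + cv (b t)) + g t) (Ioo (1/2:ℝ) 1) := by
      have hdd : ∀ t ∈ Ioo (1/2:ℝ) 1, HasDerivAt (fun t => (cu (b t) + cv (b t)) + g t)
          ((cu (_root_.deriv b t) + cv (_root_.deriv b t)) + g' t) t :=
        fun t ht => (hs t ht).add (hg t ht)
      apply monotoneOn_of_deriv_nonneg (convex_Ioo _ _)
      · exact fun t ht => (hdd t ht).continuousAt.continuousWithinAt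
      · rw [interior_Ioo]
        exact fun t ht => (hdd t ht).differentiableAt.differentiableWithinAt
      · rw [interior_Ioo]
        intro t ht
        rw [(hdd t ht).deriv]
        have := (abs_le.1 (hg' t ht)).1
        linarith only [this]
    have h34 : (3/4:ℝ) ∈ Ioo (1/2:ℝ) 1 := ⟨by norm_num, by norm_num⟩
    have hmono : MonotoneOn (fun t => (cu (b t) + cv (b t)) + g t) (Ioo (3/4:ℝ) 1) :=
      hm2.mono (Ioo_subset_Ioo_left (by norm_num))
    have hbdd : BddAbove ((fun t => (cu (b t) + cv (b t)) + g t) '' Ioo (3/4:ℝ) 1) := by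
      refine ⟨-((cu (b (3/4)) + cv (b (3/4))) - g (3/4)), ?_⟩
      rintro _ ⟨t, ht, rfl⟩
      have h1 := hm h34 ⟨by linarith only [ht.1], ht.2⟩ ht.1.le
      have h2 := hneg t ⟨by linarith only [ht.1], ht.2⟩
      simp only at h1 ⊢
      linarith
    have hlim := MonotoneOn.tendsto_nhdsWithin_Ioo_left
      (⟨7/8, by norm_num, by norm_num⟩ : (Ioo (3/4:ℝ) 1).Nonempty) hmono hbdd
    refine ⟨_, ((hlim.sub (hLu.add hLv)).congr fun t => ?_)⟩
    ring
  obtain ⟨L1, hL1⟩ := key _ _ d1' (fun t ht => (hd t ht).2.2.2.1)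
  obtain ⟨L2, hL2⟩ := key _ _ d2' (fun t ht => (hd t ht).2.2.2.2)
  have h34 : (3/4:ℝ) ∈ Ioo (1/2:ℝ) 1 := ⟨by norm_num, by norm_num⟩
  refine ⟨(Lu, Lv, L1, L2), ?_, ?_, ?_, ?_, ?_⟩
  · exact hLu.prodMk_nhds (hLv.prodMk_nhds (hL1.prodMk_nhds hL2))
  · exact lt_of_lt_of_le (hbD (3/4)).1 (hLu' _ h34)
  · exact le_of_tendsto hLu (Eventually.of_forall fun t => (hbD t).2.1.le)
  · exact lt_of_lt_of_le (hbD (3/4)).2.2.1 (hLv' _ h34)
  · exact le_of_tendsto hLv (Eventually.of_forall fun t => (hbD t).2.2.2.le)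

/-- a curve which ends at a front -/
noncomputable def a0 (t : ℝ) : M0.pt := mk (-1 / 2 + t / 4, -1 / 2 + t / 2, 0, 0)

lemma a0_val {t : ℝ} (ht : t ∈ Ico (0:ℝ) 1) : (a0 t).1 = (-1 / 2 + t / 4, -1 / 2 + t / 2, 0, 0) := by
  apply mk_val
  simp only [D0, cu, cv, mem_ofPred_eq]
  obtain ⟨h1, h2⟩ := ht
  refine ⟨by linarith, by linarith only [h2], by linarith, by linarith only [h2]⟩

end Vale.Agent.P354p.Ex
end
end

section

section

set_option linter.unusedSectionVars false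

open scoped ContDiff
open MeasureTheory Set Filter Topology

namespace Vale.Agent.P354p.Ex

/-- the larger region |u|, |v| < 1 -/
def D1 : Set R4 := {x | -1 < cu x ∧ cu x < 1 ∧ -1 < cv x ∧ cv x < 1}

abbrev P1 : Type := {x : R4 // x ∈ D1}

lemma D0_sub : D0 ⊆ D1 := by
  rintro x ⟨h1, h2, h3, h4⟩
  exact ⟨h1, by linarith only [h1, h2], h3, by linarith only [h4]⟩

lemma isOpen_D1 : IsOpen D1 := by
  have h1 : Continuous cu := by unfold cu; fun_prop
  have h2 : Continuous cv := by unfold cv; fun_prop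
  exact (isOpen_lt continuous_const h1).inter ((isOpen_lt h1 continuous_const).inter
    ((isOpen_lt continuous_const h2).inter (isOpen_lt h2 continuous_const)))

noncomputable def p1 : P1 := ⟨(0, 0, 0, 0), by simp only [D1, cu, cv, mem_ofPred_eq]; norm_num⟩

open Classical in
/-- the point with given coordinates -/
noncomputable def mk1 (x : R4) : P1 := if h : x ∈ D1 then ⟨x, h⟩ else p1

lemma mk1_val {x : R4} (h : x ∈ D1) : (mk1 x).1 = x := by
  rw [mk1, dif_pos h]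

lemma mk1_self (p : P1) : mk1 p.1 = p := Subtype.ext (mk1_val p.2)

lemma continuousOn_mk1 : ContinuousOn mk1 D1 := by
  rw [continuousOn_iff_continuous_restrict]
  have : D1.domRestrict mk1 = fun x : D1 => (x : P1) := by
    funext x
    exact mk1_self x
  rw [this]
  exact continuous_id

/-- the chart -/
noncomputable def ch1 : OpenPartialHomeomorph P1 R4 where
  toFun p := p.1
  invFun y := mk1 y
  source := univ
  target := D1
  map_source' p _ := p.2
  map_target' _ _ := mem_univ _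
  left_inv' p _ := mk1_self p
  right_inv' y hy := mk1_val hy
  open_source := isOpen_univ
  open_target := isOpen_D1
  continuousOn_toFun := continuous_subtype_val.continuousOn
  continuousOn_invFun := continuousOn_mk1

variable [Prm]

/-- the extension -/
@[reducible] noncomputable def N0 : Spc where
  pt := P1
  Chart := Unit
  toE := fun _ => ch1
  cover p := ⟨(), mem_univ p⟩
  g := fun _ => form CC
  X := fun _ _ => (1, 1, 0, 0)

lemma GG_ge1 {x : R4} (_ : x ∈ D1) : 2 ≤ GG x :=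
  (Gf_bd Prm.a0 Prm.a1 le_rfl zero_le_one x).1

lemma GG_cont : Continuous GG := Gf_cont Prm.a1

/-- the regularity of the metric of the extension -/
lemma reg {q : ENNReal} {r : ℝ} (hr : 1 ≤ r) (hq : q ≤ ENNReal.ofReal r) (har : Prm.a * r < 1)
    (α β : ℝ) (D : Set R4) : IsC0W1 q (fun y => α * GG y + β) D := by
  have hhaar := haar4
  refine ⟨((continuous_const.mul GG_cont).add continuous_const).continuousOn, fun w => ?_⟩
  refine ⟨fun x => α * Hw Prm.a 0 w x, fun Q _ hQ => ?_, fun φ hφ hc _ => ?_⟩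
  · obtain ⟨R, hR⟩ := hQ.isBounded.subset_closedBall (0:R4)
    have hr0 : ENNReal.ofReal r ≠ 0 := by
      rw [Ne, ENNReal.ofReal_eq_zero, not_le]; (clear * - hr; linarith)
    have h1 : MemLp (Hb Prm.a w) (ENNReal.ofReal r)
        (volume.restrict (Metric.closedBall (0:R4) R)) := by
      refine ⟨(Hb_meas w).aestronglyMeasurable, ?_⟩
      rw [eLpNorm_lt_top_iff_lintegral_rpow_enorm_lt_top hr0 ENNReal.ofReal_ne_top,
        ENNReal.toReal_ofReal (by linarith only [hr])]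
      exact lt_top_iff_ne_top.2 (Hb_Lr Prm.a0 hr har w R)
    have h2 : MemLp (Hw Prm.a 0 w) (ENNReal.ofReal r)
        (volume.restrict (Metric.closedBall (0:R4) R)) := by
      refine h1.mono (Hw_meas w).aestronglyMeasurable (Eventually.of_forall fun x => ?_)
      rw [Real.norm_eq_abs, Real.norm_eq_abs, abs_of_nonneg (Hb_nonneg w x)]
      exact Hw_le le_rfl w x
    have h3 := h2.mono_measure (Measure.restrict_mono hR le_rfl)
    have hfin : IsFiniteMeasure (volume.restrict Q) := ⟨by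
      rw [Measure.restrict_apply MeasurableSet.univ, univ_inter]
      exact hQ.measure_lt_top⟩
    exact (h3.mono_exponent hq).const_mul α
  · have hφ' : ContDiff ℝ ∞ φ := contDiffOn_univ.1 hφ
    have hW := weak Prm.a0 Prm.a1 w hφ' hc
    have hdiff : ∀ x, DifferentiableAt ℝ φ x :=
      fun x => (hφ'.differentiable (by simp)).differentiableAt
    have hld : ∀ x, lineDeriv ℝ φ x w = fderiv ℝ φ x w := fun x => (hdiff x).lineDeriv_eq_fderiv
    obtain ⟨Cφ, hφl⟩ := ContDiff.lipschitzWith_of_hasCompactSupport (𝕂 := ℝ) hc hφ' (by simp)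
    have hfd : Continuous (fun x => fderiv ℝ φ x w) :=
      (hφ'.continuous_fderiv (by simp)).clm_apply continuous_const
    have hfc : HasCompactSupport (fun x => fderiv ℝ φ x w) := by
      refine hc.mono' ?_
      intro x hx
      by_contra h
      apply hx
      have h0 : φ =ᶠ[𝓝 x] fun _ => 0 := notMem_tsupport_iff_eventuallyEq.1 h
      show fderiv ℝ φ x w = 0
      rw [h0.fderiv_eq]
      simp only [fderiv_fun_const, Pi.zero_apply, zero_apply]
    have h0 : ∫ x, lineDeriv ℝ φ x w = 0 := by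
      have h1 := LipschitzWith.integral_lineDeriv_mul_eq (μ := (volume : Measure R4))
        (LipschitzWith.const (1:ℝ)) hφl hc (-w)
      have h2 : ∀ x : R4, lineDeriv ℝ (fun _ : R4 => (1:ℝ)) x (-w) = 0 := fun x =>
        HasLineDerivAt.lineDeriv (hasDerivAt_const (0:ℝ) (1:ℝ))
      simp only [h2, zero_mul, integral_zero, neg_neg, mul_one] at h1
      exact h1.symm
    have hI1 : Integrable (fun x => Gf Prm.a 0 x * lineDeriv ℝ φ x w) := by
      simp only [hld]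
      exact (GG_cont.mul hfd).integrable_of_hasCompactSupport hfc.mul_left
    have hI2 : Integrable (fun x => lineDeriv ℝ φ x w) := by
      simp only [hld]
      exact hfd.integrable_of_hasCompactSupport hfc
    have e1 : ∀ x, (α * GG x + β) * deriv φ x w =
        α * (Gf Prm.a 0 x * lineDeriv ℝ φ x w) + β * lineDeriv ℝ φ x w := by
      intro x
      show (α * Gf Prm.a 0 x + β) * lineDeriv ℝ φ x w = _
      ring
    have e2 : ∀ x, α * Hw Prm.a 0 w x * φ x = α * (Hw Prm.a 0 w x * φ x) := fun x => by ring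
    simp only [e1, e2]
    rw [integral_add (hI1.const_mul α) (hI2.const_mul β), integral_const_mul, integral_const_mul,
      integral_const_mul, h0, hW]
    ring

lemma rep1_eq {y : R4} (hy : y ∈ D1) : rep (M := N0) (N := N0) id () () y = y := mk1_val hy

lemma dom1_eq : dom (M := N0) (N := N0) id () () = D1 := by
  ext y
  constructor
  · intro h; exact h.1
  · intro h; exact ⟨h, mem_univ _⟩

lemma push1_eq {y : R4} (hy : y ∈ D1) (a : R4) :
    push (M := N0) (N := N0) id () () y a = a := by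
  have h2 : HasFDerivAt (rep (M := N0) (N := N0) id () ()) (ContinuousLinearMap.id ℝ R4) y := by
    refine (hasFDerivAt_id y).congr_of_eventuallyEq ?_
    filter_upwards [isOpen_D1.mem_nhds hy] with z hz
    exact rep1_eq hz
  exact (h2.hasLineDerivAt a).lineDeriv

lemma spacetime1 {q : ENNReal} {r : ℝ} (hr : 1 ≤ r) (hq : q ≤ ENNReal.ofReal r)
    (har : Prm.a * r < 1) : IsSpacetime (IsC0W1 q) N0 where
  tensor := by
    apply IsIsom.mk'
    rintro ⟨⟩ ⟨⟩
    rw [dom1_eq]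
    refine ⟨?_, ?_⟩
    · have h1 : ContDiffOn ℝ ∞ (fun y : R4 => y) D1 := contDiffOn_id
      exact h1.congr (fun y hy => rep1_eq hy)
    · intro y hy
      rw [rep1_eq hy]
      refine ⟨fun a b => ?_, ?_⟩
      · rw [push1_eq hy, push1_eq hy]
      · rw [push1_eq hy]
        show form CC y (1, 1, 0, 0) (1, 1, 0, 0) < 0
        rw [form_XX]
        norm_num
  signature := by
    intro e y hy
    have hG : 2 ≤ GG y := GG_ge1 hy
    have hs : √(GG y) * √(GG y) = GG y := Real.mul_self_sqrt (by linarith only [hG])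
    have hs0 : 0 < √(GG y) := Real.sqrt_pos.mpr (by linarith only [hG])
    refine ⟨fun a => (cu a + cv a / 2, cu a - cv a / 2, √(GG y) * c1 a, √(GG y) * c2 a),
      ⟨?_, ?_⟩, ?_, ?_⟩
    · intro a b
      ext <;> simp only [cu, Prod.fst_add, cv, Prod.snd_add, c1, c2, Prod.mk_add_mk] <;> ring
    · intro t a
      ext <;> simp only [cu, Prod.smul_fst, smul_eq_mul, cv, Prod.smul_snd, c1, c2, Prod.smul_mk] <;> ring
    · intro a b hab
      simp only [Prod.mk.injEq, cu, cv, c1, c2] at hab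
      obtain ⟨h1, h2, h3, h4⟩ := hab
      have k1 : a.1 = b.1 := by linarith only [h1, h2]
      have k2 : a.2.1 = b.2.1 := by linarith only [h1, h2]
      have k3 : a.2.2.1 = b.2.2.1 := mul_left_cancel₀ hs0.ne' h3
      have k4 : a.2.2.2 = b.2.2.2 := mul_left_cancel₀ hs0.ne' h4
      ext <;> assumption
    · intro a b
      show form CC y a b = _
      rw [form_eq]
      simp only [mink, cu, cv, c1, c2]
      linear_combination (-(a.2.2.1 * b.2.2.1) - a.2.2.2 * b.2.2.2) * hs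
  timelike := by
    intro e y hy
    show form CC y (1, 1, 0, 0) (1, 1, 0, 0) < 0
    rw [form_XX]; norm_num
  continuous := fun e => continuousOn_const
  regular := by
    intro e a b
    show IsC0W1 q (fun y => form CC y a b) D1
    have h1 := reg hr hq har (c1 a * c1 b + c2 a * c2 b) (-(cu a * cv b + cv a * cu b)) D1
    have h2 : (fun y => form CC y a b) = fun y => (c1 a * c1 b + c2 a * c2 b) * GG y +
        -(cu a * cv b + cv a * cu b) := by
      funext y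
      rw [form_eq]
      ring
    rw [h2]
    exact h1

/-- the inclusion -/
def io (p : M0.pt) : N0.pt := ⟨p.1, D0_sub p.2⟩

lemma io_emb : IsOpenEmbedding io := by
  have h1 : IsOpenEmbedding (Subtype.val : P1 → R4) := isOpen_D1.isOpenEmbedding_subtypeVal
  have h2 : IsOpenEmbedding (Subtype.val ∘ io : P0 → R4) := isOpen_D0.isOpenEmbedding_subtypeVal
  exact IsOpenEmbedding.of_comp io h1 h2

lemma rep2_eq {e : M0.Chart} {y : R4} (hy : y ∈ D0) :
    rep (M := M0) (N := N0) io e () y = sw e y := by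
  show (mk (sw e y)).1 = sw e y
  exact mk_val (sw_mem.2 hy)

lemma dom2_eq (e : M0.Chart) : dom (M := M0) (N := N0) io e () = D0 := by
  ext y
  constructor
  · intro h; exact h.1
  · intro h; exact ⟨h, mem_univ _⟩

lemma push2_eq {e : M0.Chart} {y : R4} (hy : y ∈ D0) (a : R4) :
    push (M := M0) (N := N0) io e () y a = sw e a := by
  have h1 : HasFDerivAt (fun y => sw e y) (swL e) y := (swL e).hasFDerivAt
  have h2 : HasFDerivAt (rep (M := M0) (N := N0) io e ()) (swL e) y := by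
    refine h1.congr_of_eventuallyEq ?_
    filter_upwards [isOpen_D0.mem_nhds hy] with z hz
    exact rep2_eq hz
  exact (h2.hasLineDerivAt a).lineDeriv

lemma io_isom : IsIsom (M := M0) (N := N0) io := by
  apply IsIsom.mk'
  rintro e ⟨⟩
  rw [dom2_eq]
  refine ⟨?_, ?_⟩
  · have h1 : ContDiffOn ℝ ∞ (fun y => swL e y) D0 := (swL e).contDiff.contDiffOn
    exact h1.congr (fun y hy => rep2_eq hy)
  · intro y hy
    rw [rep2_eq hy]
    refine ⟨fun a b => ?_, ?_⟩
    · rw [push2_eq hy, push2_eq hy]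
      show form CC y a b = form CC (sw e y) (sw e a) (sw e b)
      rw [form_sw]
    · rw [push2_eq hy]
      show form CC (sw e y) (sw e (1, 1, 0, 0)) (1, 1, 0, 0) < 0
      rw [sw_X, form_XX]
      norm_num

/-- the curve -/
noncomputable def c0 (t : ℝ) : N0.pt := mk1 (-1 / 2 + t / 4, -1 / 2 + t / 2, 0, 0)

lemma line_mem1 {t : ℝ} (ht : t ∈ Icc (0:ℝ) 1) :
    ((-1 / 2 + t / 4, -1 / 2 + t / 2, 0, 0) : R4) ∈ D1 := by
  simp only [D1, cu, cv, mem_ofPred_eq]
  obtain ⟨h1, h2⟩ := ht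
  refine ⟨by linarith only [h1], by linarith only [h2], by linarith, by linarith⟩

lemma c0_val {t : ℝ} (ht : t ∈ Icc (0:ℝ) 1) :
    (c0 t).1 = (-1 / 2 + t / 4, -1 / 2 + t / 2, 0, 0) := mk1_val (line_mem1 ht)

lemma c0_cont : ContinuousOn c0 (Icc 0 1) := by
  show ContinuousOn (fun t => mk1 (-1 / 2 + t / 4, -1 / 2 + t / 2, 0, 0)) (Icc 0 1)
  exact continuousOn_mk1.comp (by (clear * -; fun_prop)) (fun t ht => line_mem1 ht)

lemma c0_curve : IsFutureCurve N0 0 (Icc 0 1) c0 := by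
  refine ⟨c0_cont, ?_⟩
  rintro t ht ⟨⟩ _
  have h1 : ∀ s ∈ Icc (0:ℝ) 1, co (M := N0) () (c0 s) =
      (-1 / 2 + s / 4, -1 / 2 + s / 2, 0, 0) := fun s hs => c0_val hs
  have h2 : HasDerivAt (fun s : ℝ => ((-1 / 2 + s / 4, -1 / 2 + s / 2, 0, 0) : R4))
      (1 / 4, 1 / 2, 0, 0) t := by
    have k1 : HasDerivAt (fun s : ℝ => -1 / 2 + s / 4) (1 / 4) t := by
      simpa only [one_div, hasDerivAt_const_add_iff, id_eq] using ((hasDerivAt_id t).div_const 4).const_add (-1 / 2)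
    have k2 : HasDerivAt (fun s : ℝ => -1 / 2 + s / 2) (1 / 2) t := by
      simpa only [one_div, hasDerivAt_const_add_iff, id_eq] using ((hasDerivAt_id t).div_const 2).const_add (-1 / 2)
    exact k1.prodMk (k2.prodMk ((hasDerivAt_const t (0:ℝ)).prodMk (hasDerivAt_const t (0:ℝ))))
  refine ⟨?_, ?_⟩
  · have h5 : ContDiff ℝ 1 (fun s : ℝ => ((-1 / 2 + s / 4, -1 / 2 + s / 2, 0, 0) : R4)) := by
      fun_prop
    exact h5.contDiffAt.contDiffWithinAt.congr (fun s hs => h1 s hs) (h1 t ht)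
  · rintro y w hy hw
    have h4 : derivWithin (fun s => co (M := N0) () (c0 s)) (Icc 0 1) t =
        (1 / 4, 1 / 2, 0, 0) := by
      have h5 : HasDerivWithinAt (fun s => co (M := N0) () (c0 s)) (1 / 4, 1 / 2, 0, 0)
          (Icc 0 1) t := h2.hasDerivWithinAt.congr (fun s hs => h1 s hs) (h1 t ht)
      exact h5.derivWithin ((uniqueDiffOn_Icc zero_lt_one) t ht)
    rw [h4] at hw
    rw [hw]
    have h6 : form CC y (1 / 4, 1 / 2, 0, 0) (1 / 4, 1 / 2, 0, 0) = -1 / 4 := by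
      rw [form_eq]
      simp only [c1, mul_zero, c2, add_zero, cu, one_div, cv, zero_sub, neg_add_rev]
      norm_num
    have h7 : form CC y (1 / 4, 1 / 2, 0, 0) (1, 1, 0, 0) = -3 / 4 := by
      rw [form_eq]
      simp only [c1, mul_zero, c2, add_zero, cu, one_div, cv, mul_one, zero_sub, neg_add_rev]
      (clear * -; norm_num)
    show form CC y _ _ < 0 ∧ form CC y _ _ ≤ -0 ∧ form CC y _ (1, 1, 0, 0) < 0
    rw [h6, h7]
    norm_num

lemma c0_mem {t : ℝ} (ht : t ∈ Ico (0:ℝ) 1) : c0 t ∈ range io := by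
  refine ⟨a0 t, ?_⟩
  apply Subtype.ext
  rw [c0_val ⟨ht.1, ht.2.le⟩]
  exact a0_val ht

lemma notMem_range {p : N0.pt} (h : cv p.1 = 0) : p ∉ range io := by
  rintro ⟨q, rfl⟩
  have := q.2.2.2.2
  have h2 : cv (io q).1 = cv q.1 := rfl
  linarith only [h, this, h2]

/-- the example has a future extension -/
theorem extension {q : ENNReal} {r : ℝ} (hr : 1 ≤ r) (hq : q ≤ ENNReal.ofReal r)
    (har : Prm.a * r < 1) : IsFutureExtension (IsC0W1 q) M0 N0 io c0 where
  spacetime := spacetime1 hr hq har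
  embedding := io_emb
  isometry := io_isom
  proper := by
    intro h
    have : p1 ∈ range io := by rw [h]; exact mem_univ _
    exact notMem_range rfl this
  curve := c0_curve
  curve_mem := fun t ht => c0_mem ht
  curve_end := by
    rw [io_emb.isOpen_range.frontier_eq]
    refine ⟨?_, ?_⟩
    · have h1 : Tendsto c0 (𝓝[<] 1) (𝓝 (c0 1)) := by
        have h3 : ContinuousWithinAt c0 (Icc 0 1) 1 := c0_cont 1 (by constructor <;> norm_num)
        refine h3.mono_left ?_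
        rw [← nhdsWithin_Ico_eq_nhdsLT (zero_lt_one (α := ℝ))]
        exact nhdsWithin_mono _ Ico_subset_Icc_self
      refine mem_closure_of_tendsto h1 ?_
      filter_upwards [Ico_mem_nhdsLT (zero_lt_one (α := ℝ))] with t ht
      exact c0_mem ht
    · apply notMem_range
      rw [c0_val (by constructor <;> norm_num)]
      simp only [cv]
      norm_num

end Vale.Agent.P354p.Ex
end
end

section

section

set_option linter.unusedSectionVars false
set_option maxSynthPendingDepth 3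

open scoped Manifold ContDiff
open MeasureTheory Set Topology Filter

namespace Vale.Agent.P354c

open Vale.Agent.P354 (norm_P4_le)
open Vale.Agent.P354cb (mm mm_mp mm_emb)

/-- a product of a function of the internal slice coordinates and a function of v -/
def pp (Φ : P354w.P3 → ℝ) (η : ℝ → ℝ) (x : R4) : ℝ := η x.2.1 * Φ (x.2.2.1, x.1, x.2.2.2)

lemma pp_mm (Φ : P354w.P3 → ℝ) (η : ℝ → ℝ) (v : ℝ) (y : P354w.P3) :
    pp Φ η (mm (v, y)) = η v * Φ y := rfl

lemma pp_contDiff {Φ : P354w.P3 → ℝ} {η : ℝ → ℝ} (h1 : ContDiff ℝ 1 Φ) (h2 : ContDiff ℝ 1 η) :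
    ContDiff ℝ 1 (pp Φ η) := by
  unfold pp
  have e1 : ContDiff ℝ 1 (fun x : R4 => x.2.1) := by fun_prop
  have e2 : ContDiff ℝ 1 (fun x : R4 => ((x.2.2.1, x.1, x.2.2.2) : P354w.P3)) := by fun_prop
  exact (h2.comp e1).mul (h1.comp e2)

lemma pp_deriv {Φ : P354w.P3 → ℝ} {η : ℝ → ℝ} (h1 : ContDiff ℝ 1 Φ) (h2 : ContDiff ℝ 1 η)
    (v : ℝ) (y a : P354w.P3) :
    deriv (pp Φ η) (mm (v, y)) (mm (0, a)) = η v * fderiv ℝ Φ y a := by
  have e : ∀ t : ℝ, pp Φ η (mm (v, y) + t • mm (0, a)) = η v * Φ (y + t • a) := by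
    intro t
    have : mm (v, y) + t • mm (0, a) = mm (v, y + t • a) := by simp only [mm, Prod.smul_mk, smul_eq_mul, mul_zero, Prod.mk_add_mk, add_zero, Prod.snd_add, Prod.smul_snd, Prod.fst_add, Prod.smul_fst]
    rw [this, pp_mm]
  show _root_.deriv (fun t : ℝ => pp Φ η (mm (v, y) + t • mm (0, a))) 0 = _
  simp only [e]
  have h3 : HasLineDerivAt ℝ Φ (fderiv ℝ Φ y a) y a :=
    ((h1.differentiable (by norm_num)) y).hasFDerivAt.hasLineDerivAt a
  have h4 : HasDerivAt (fun t : ℝ => Φ (y + t • a)) (fderiv ℝ Φ y a) 0 := h3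
  exact (h4.const_mul (η v)).deriv

/-- **A function of v which is unbounded near v = 0 is not bounded as a distribution.** -/
theorem big_of_unbounded {x : R4} {c : ℝ} (hc : 0 < c) (hx : cv x = 0) {F : R4 → ℝ}
    {κ : ℝ → ℝ} (hκ : Integrable κ) (hF : ∀ y, -1 < cv y → cv y < 0 → F y = κ (cv y))
    (hun : ∀ m : ℝ, ∃ δ > 0, ∀ v ∈ Ioo (-δ) 0, m ≤ κ v) :
    IsBig (nullBox x c) 0 (fun _ => 1) F := by
  intro L
  have hP3 : Measure.IsAddHaarMeasure (volume : Measure P354w.P3) := P354w.haarP3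
  set y0 : P354w.P3 := (x.2.2.1, x.1, x.2.2.2) with hy0
  let Φ : ContDiffBump y0 := ⟨c / 4, c / 2, by positivity, by linarith only [hc]⟩
  have hΦ1 : ContDiff ℝ 1 (Φ : P354w.P3 → ℝ) := Φ.contDiff
  have hΦc : HasCompactSupport (Φ : P354w.P3 → ℝ) := Φ.hasCompactSupport
  have hΦi : Integrable (Φ : P354w.P3 → ℝ) := Φ.integrable
  have hΦp : 0 < ∫ y, Φ y := Φ.integral_pos
  have hΦd : ∀ a, Integrable (fun y => |fderiv ℝ (Φ : P354w.P3 → ℝ) y a|) := fun a =>
    (P354a.integral_fderiv_zero hΦ1 hΦc a).1.abs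
  set A : ℝ := ∫ y, (|Φ y| + |fderiv ℝ (Φ : P354w.P3 → ℝ) y (1, 0, 0)| +
    |fderiv ℝ (Φ : P354w.P3 → ℝ) y (0, 0, 1)|) with hA
  set m : ℝ := (L * A) / (∫ y, Φ y) + 1 with hm
  obtain ⟨δ0, hδ0, hδm⟩ := hun m
  set δ : ℝ := min (min δ0 1) c with hδ
  have hδp : 0 < δ := lt_min (lt_min hδ0 one_pos) hc
  have hδ1 : δ ≤ δ0 := (min_le_left _ _).trans (min_le_left _ _)
  have hδ2 : δ ≤ 1 := (min_le_left _ _).trans (min_le_right _ _)
  have hδ3 : δ ≤ c := min_le_right _ _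
  let η : ContDiffBump (-(δ / 2)) := ⟨δ / 8, δ / 4, by (clear * - hδ0 hc; positivity), by linarith only [hδp]⟩
  have hη1 : ContDiff ℝ 1 (η : ℝ → ℝ) := η.contDiff
  have hηi : Integrable (η : ℝ → ℝ) := η.integrable
  have hηp : 0 < ∫ v, η v := η.integral_pos
  have hη0 : ∀ v, 0 ≤ η v := fun v => η.nonneg
  have hηs : ∀ v, v ∉ Metric.closedBall (-(δ / 2)) (δ / 4) → η v = 0 := by
    intro v hv
    by_contra h0
    have h1 : v ∈ Function.support (η : ℝ → ℝ) := h0
    rw [η.support_eq] at h1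
    exact hv (Metric.ball_subset_closedBall h1)
  have hηr : ∀ v, η v ≠ 0 → -δ < v ∧ v < 0 := by
    intro v hv
    have h1 : v ∈ Metric.closedBall (-(δ / 2)) (δ / 4) := by
      by_contra h2
      exact hv (hηs v h2)
    rw [Metric.mem_closedBall, Real.dist_eq, abs_le] at h1
    constructor <;> linarith only [hδp, h1]
  have hcd : ContDiff ℝ 1 (pp Φ η) := pp_contDiff hΦ1 hη1
  refine ⟨pp Φ η, hcd, ?_, ?_⟩
  · have h1 : tsupport (pp Φ η) ⊆ {w : R4 | w.2.1 ∈ Metric.closedBall (-(δ / 2)) (δ / 4) ∧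
        ((w.2.2.1, w.1, w.2.2.2) : P354w.P3) ∈ Metric.closedBall y0 (c / 2)} := by
      refine closure_minimal ?_ ?_
      · intro w hw
        have h2 : η w.2.1 * Φ (w.2.2.1, w.1, w.2.2.2) ≠ 0 := hw
        have h3 : η w.2.1 ≠ 0 := left_ne_zero_of_mul h2
        have h4 : Φ (w.2.2.1, w.1, w.2.2.2) ≠ 0 := right_ne_zero_of_mul h2
        constructor
        · by_contra h5
          exact h3 (hηs _ h5)
        · have h5 : ((w.2.2.1, w.1, w.2.2.2) : P354w.P3) ∈ Function.support (Φ : P354w.P3 → ℝ) := h4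
          rw [Φ.support_eq] at h5
          exact Metric.ball_subset_closedBall h5
      · exact (Metric.isClosed_closedBall.preimage (by (clear * -; fun_prop))).inter
          (Metric.isClosed_closedBall.preimage (by fun_prop))
    intro w hw
    obtain ⟨h2, h3⟩ := h1 hw
    rw [Metric.mem_closedBall, Real.dist_eq, abs_le] at h2
    rw [Metric.mem_closedBall, dist_eq_norm] at h3
    have h4 : ((w.2.2.1, w.1, w.2.2.2) : P354w.P3) - y0 =
        (w.2.2.1 - x.2.2.1, w.1 - x.1, w.2.2.2 - x.2.2.2) := rfl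
    rw [h4] at h3
    have k1 : |w.2.2.1 - x.2.2.1| ≤ c / 2 := (norm_fst_le ((w.2.2.1 - x.2.2.1, w.1 - x.1,
      w.2.2.2 - x.2.2.2) : P354w.P3)).trans h3
    have k2 : |w.1 - x.1| ≤ c / 2 := ((norm_fst_le ((w.1 - x.1,
      w.2.2.2 - x.2.2.2) : ℝ × ℝ)).trans (norm_snd_le ((w.2.2.1 - x.2.2.1, w.1 - x.1,
      w.2.2.2 - x.2.2.2) : P354w.P3))).trans h3
    have k3 : |w.2.2.2 - x.2.2.2| ≤ c / 2 := ((norm_snd_le ((w.1 - x.1,
      w.2.2.2 - x.2.2.2) : ℝ × ℝ)).trans (norm_snd_le ((w.2.2.1 - x.2.2.1, w.1 - x.1,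
      w.2.2.2 - x.2.2.2) : P354w.P3))).trans h3
    have hx' : x.2.1 = 0 := hx
    constructor
    · show w ∈ Metric.ball x c
      rw [mem_ball_iff_norm]
      have h5 : ‖w - x‖ ≤ 3 / 4 * c := by
        refine norm_P4_le.2 ?_
        simp only [Prod.fst_sub, Prod.snd_sub]
        refine ⟨by linarith only [hc, k2], ?_, by linarith only [hc, k1], by linarith only [hc, k3]⟩
        rw [hx', sub_zero, abs_le]
        constructor <;> linarith only [hc, h2, hδ3]
      linarith only [hc, h5]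
    · show w.2.1 < 0
      linarith only [hδp, h2]
  -- the two integrals
  have e1 : int (fun x => (fun _ => (1:ℝ)) x * |pp Φ η x| + |deriv (pp Φ η) x d1| +
      |deriv (pp Φ η) x d2| + 0 * (|deriv (pp Φ η) x du| + |deriv (pp Φ η) x dv|)) =
      (∫ v, η v) * A := by
    unfold int
    rw [← mm_mp.integral_comp mm_emb]
    have e2 : ∀ w : ℝ × P354w.P3, (fun _ => (1:ℝ)) (mm w) * |pp Φ η (mm w)| +
        |deriv (pp Φ η) (mm w) d1| + |deriv (pp Φ η) (mm w) d2| +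
        0 * (|deriv (pp Φ η) (mm w) du| + |deriv (pp Φ η) (mm w) dv|) =
        η w.1 * (|Φ w.2| + |fderiv ℝ (Φ : P354w.P3 → ℝ) w.2 (1, 0, 0)| +
          |fderiv ℝ (Φ : P354w.P3 → ℝ) w.2 (0, 0, 1)|) := by
      rintro ⟨v, y⟩
      have k1 : deriv (pp Φ η) (mm (v, y)) d1 = η v * fderiv ℝ (Φ : P354w.P3 → ℝ) y (1, 0, 0) :=
        pp_deriv hΦ1 hη1 v y (1, 0, 0)
      have k2 : deriv (pp Φ η) (mm (v, y)) d2 = η v * fderiv ℝ (Φ : P354w.P3 → ℝ) y (0, 0, 1) :=
        pp_deriv hΦ1 hη1 v y (0, 0, 1)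
      simp only [k1, k2, pp_mm, abs_mul, abs_of_nonneg (hη0 v)]
      ring
    simp only [e2]
    exact integral_prod_mul (μ := (volume : Measure ℝ)) (ν := (volume : Measure P354w.P3))
      (fun v => η v) (fun y => |Φ y| + |fderiv ℝ (Φ : P354w.P3 → ℝ) y (1, 0, 0)| +
          |fderiv ℝ (Φ : P354w.P3 → ℝ) y (0, 0, 1)|)
  have e3 : (int fun x => pp Φ η x * F x) = (∫ v, η v * κ v) * ∫ y, Φ y := by
    unfold int
    rw [← mm_mp.integral_comp mm_emb]
    have e2 : ∀ w : ℝ × P354w.P3, pp Φ η (mm w) * F (mm w) = (η w.1 * κ w.1) * Φ w.2 := by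
      rintro ⟨v, y⟩
      rw [pp_mm]
      by_cases hv : η v = 0
      · simp only [hv, zero_mul]
      · obtain ⟨h1, h2⟩ := hηr v hv
        have h3 : F (mm (v, y)) = κ v := hF _ (by show -1 < v; linarith only [hδ2, h1]) h2
        rw [h3]
        ring
    simp only [e2]
    exact integral_prod_mul (μ := (volume : Measure ℝ)) (ν := (volume : Measure P354w.P3))
      (fun v => η v * κ v) (fun y => Φ y)
  rw [e1, e3]
  have hηκ : Integrable (fun v => η v * κ v) := by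
    refine hκ.bdd_mul (c := 1) hη1.continuous.aestronglyMeasurable
      (Filter.Eventually.of_forall fun v => ?_)
    rw [Real.norm_eq_abs, abs_of_nonneg (hη0 v)]
    exact η.le_one
  have h5 : m * ∫ v, η v ≤ ∫ v, η v * κ v := by
    rw [← integral_const_mul]
    refine integral_mono (hηi.const_mul m) hηκ fun v => ?_
    simp only
    by_cases hv : η v = 0
    · simp [hv]
    · obtain ⟨h1, h2⟩ := hηr v hv
      have h3 := hδm v ⟨by linarith only [hδ1, h1], h2⟩
      have := mul_le_mul_of_nonneg_left h3 (hη0 v)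
      linarith only [this]
  set B := ∫ y, Φ y with hB
  set S := ∫ v, η v with hS
  have h6 : m * S * B ≤ (∫ v, η v * κ v) * B := mul_le_mul_of_nonneg_right h5 hΦp.le
  have h7 : m * B = L * A + B := by
    rw [hm]
    (clear * - hΦp; field_simp)
  have h8 : L * (S * A) < m * S * B := by
    have : m * S * B = S * (L * A) + S * B := by
      calc m * S * B = S * (m * B) := by ring
        _ = _ := by rw [h7]; ring
    have h9 : 0 < S * B := mul_pos hηp hΦp
    linarith only [this, h9]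
  exact lt_of_lt_of_le h8 (h6.trans (le_abs_self _))

end Vale.Agent.P354c
end
end

section

section

set_option linter.unusedSectionVars false

open scoped ContDiff
open MeasureTheory Set Filter Topology

namespace Vale.Agent.P354c

/-- a space of the internal folder, with the public definitions -/
abbrev Dn (M : P354p.Spc) : Spc where
  pt := M.pt
  top := M.top
  hausdorff := M.hausdorff
  Chart := M.Chart
  toE := M.toE
  cover := M.cover
  g := M.g
  X := M.X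

section

variable {M N : P354p.Spc} {Reg : (R4 → ℝ) → Set R4 → Prop} {ι : M.pt → N.pt}

theorem isIsom_dn {f : M.pt → N.pt} (hf : Continuous f) (h : P354p.IsIsom f) :
    IsIsom (M := Dn M) (N := Dn N) f := by
  rintro e e' F rfl y hy hy'
  obtain ⟨h1, h2⟩ := h e e' _ _ rfl rfl
  have hopen : IsOpen ((M.toE e).symm.source ∩ (M.toE e).symm ⁻¹' (f ⁻¹' (N.toE e').source)) :=
    (M.toE e).symm.isOpen_inter_preimage ((N.toE e').open_source.preimage hf)
  exact ⟨(h1 y ⟨hy, hy'⟩).contDiffAt (hopen.mem_nhds ⟨hy, hy'⟩), h2 y ⟨hy, hy'⟩⟩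

theorem isSpacetime_dn {Reg' : (R4 → ℝ) → Set R4 → Prop} (h : P354p.IsSpacetime Reg M)
    (hR : ∀ f D, Reg f D → Reg' f D) : IsSpacetime Reg' (Dn M) where
  tensor := isIsom_dn continuous_id h.tensor
  signature := h.signature
  timelike := h.timelike
  continuous := h.continuous
  regular := fun e a b => hR _ _ (h.regular e a b)

theorem isFutureCurve_dn {A : Set ℝ} {c : ℝ → M.pt} (h : P354p.IsFutureCurve M 0 A c) :
    IsFutureCurve (Dn M) 0 A c := IsFutureCurve.of (M := Dn M) h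

theorem reg_dn {q : ENNReal} (f : R4 → ℝ) (D : Set R4) (h : P354p.IsC0W1 q f D) :
    IsC0W1 q f D := by
  refine ⟨h.1, fun a => ?_⟩
  obtain ⟨g, h1, h2⟩ := h.2 a
  refine ⟨g, fun Q hQ hQc => ⟨?_, fun φ hφ hs => ?_⟩⟩
  · exact (memLp_indicator_iff_restrict hQc.measurableSet).2 (h1 Q hQ hQc)
  · exact h2 φ hφ (hQc.of_isClosed_subset (isClosed_tsupport φ) hs) (hs.trans hQ)

theorem isFutureExtension_dn {q : ENNReal} {c : ℝ → N.pt}
    (h : P354p.IsFutureExtension (P354p.IsC0W1 q) M N ι c) :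
    IsFutureExtension (IsC0W1 q) (Dn M) (Dn N) ι c where
  spacetime := isSpacetime_dn h.spacetime reg_dn
  embedding := h.embedding
  isometry := isIsom_dn h.embedding.continuous h.isometry
  curve := isFutureCurve_dn h.curve
  curve_mem := h.curve_mem
  curve_end := h.curve_end

end

namespace Ex

open P354p.Ex

variable [Prm]

/-- the coefficients -/
noncomputable def CN : ℕ → R4 → ℝ
  | 0 => GG
  | 2 => GG
  | 3 => fun _ => 2
  | _ => fun _ => 0

lemma CN_smooth (i : ℕ) : ContDiffOn ℝ ∞ (CN i) D0 := by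
  match i with
  | 0 => exact GG_smooth
  | 1 => exact contDiffOn_const
  | 2 => exact GG_smooth
  | 3 => exact contDiffOn_const
  | (n + 4) => exact contDiffOn_const

lemma form_CN (x a : R4) : P354p.form CC x a a = form CN x a := by
  rw [form_eq]
  simp only [P354p.c1, P354p.c2, P354p.cu, P354p.cv, form, CN, h1, c1, cv, cu, h2, c2]
  ring

lemma kk_integrable : Integrable kk := by
  have h1 := LLe_Lr le_rfl (by linarith [Prm.a1] : Prm.a * 1 < 1) Prm.a0
  simp only [ENNReal.rpow_one] at h1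
  exact ⟨kk_meas.aestronglyMeasurable, lt_top_iff_ne_top.2 h1⟩

lemma kk_unbounded (ha : Prm.a = 0) (m : ℝ) : ∃ δ > 0, ∀ v ∈ Ioo (-δ) 0, m ≤ kk v := by
  refine ⟨min 1 (Real.exp (-m)), lt_min one_pos (Real.exp_pos _), fun v hv => ?_⟩
  have h1 : -1 < v := by have := min_le_left (1:ℝ) (Real.exp (-m)); linarith only [this, hv.1]
  have h2 : -v < Real.exp (-m) := by
    have := min_le_right (1:ℝ) (Real.exp (-m)); linarith only [this, hv.1]
  have hv0 : 0 < -v := by linarith only [hv.2]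
  rw [kk_eq h1 hv.2]
  unfold ll
  rw [ha, neg_zero, Real.rpow_zero, one_mul]
  have h3 : Real.log (-v) < -m := (Real.log_lt_iff_lt_exp hv0).2 h2
  linarith only [h3]

lemma dnbox_n (e : M0.Chart) {D : Set R4} (hD : D ⊆ D0) {K : ℝ} (hK : 22 ≤ K)
    {n : ℝ → ℝ} (hn : ∀ x ∈ D, kk (cu x) ≤ n (cu x)) :
    IsDNBox (Dn M0) e CN D K kk n where
  subset := hD
  smooth := fun i => (CN_smooth i).mono hD
  metric := by
    intro x hx
    have hx0 := hD hx
    have hG := GG_ge hx0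
    have hG4 := GG_le x
    have hk := kk_nonneg (cv x)
    have hk' := kk_nonneg (cu x)
    have hn' := hn x hx
    have hc : ∀ c : ℝ, ∀ a, deriv (fun _ => c) x a = 0 := fun c a => deriv_const' c x a
    refine ⟨fun a => form_CN x a, by show (0:ℝ) < 1; norm_num1, ?_, ?_, ?_, ?_⟩
    · show 1 ≤ K * 2
      linarith only [hK]
    · intro a ha hb
      refine ⟨?_, ?_⟩
      · have e1 : form CN x a = GG x * (c1 a ^ 2 + c2 a ^ 2) := by
          simp only [form, h1, h2, CN, ha, hb]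
          ring
        have e2 : ‖a‖ ^ 2 ≤ c1 a ^ 2 + c2 a ^ 2 := by
          have h1 : ‖a‖ = max |c1 a| |c2 a| := by
            have k1 : ‖a‖ = max |cu a| (max |cv a| (max |c1 a| |c2 a|)) := rfl
            rw [k1, ha, hb, abs_zero, max_eq_right (le_max_of_le_left (abs_nonneg (c1 a))),
              max_eq_right (le_max_of_le_left (abs_nonneg (c1 a)))]
          rw [h1]
          rcases max_cases |c1 a| |c2 a| with ⟨h2, _⟩ | ⟨h2, _⟩
          · rw [h2, sq_abs]; linarith only [sq_nonneg (c2 a)]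
          · rw [h2, sq_abs]; linarith only [sq_nonneg (c1 a)]
        rw [e1]
        have h1 : 1 ≤ K * GG x := by nlinarith only [hK, hG]
        have h2 : 0 ≤ c1 a ^ 2 + c2 a ^ 2 := by (clear * -; positivity)
        nlinarith only [h1, h2, e2]
      · intro i hi
        have hGb : |GG x| ≤ K := by rw [abs_le]; constructor <;> linarith only [hK, hG4, hG]
        have hKa : 0 ≤ K * ‖a‖ := by (clear * - hK; positivity)
        have hGd : |deriv GG x a| ≤ K * ‖a‖ := by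
          have : deriv GG x a = 0 := deriv_GG_sph x ha hb
          rw [this, abs_zero]
          exact hKa
        have hc' : ∀ c : ℝ, |deriv (fun _ => c) x a| ≤ K * ‖a‖ := by
          intro c
          rw [hc, abs_zero]
          exact hKa
        have h0 : |(0:ℝ)| ≤ K := by rw [abs_zero]; linarith only [hK]
        have h2 : |(2:ℝ)| ≤ K := by rw [abs_of_pos (by norm_num : (0:ℝ) < 2)]; linarith only [hK]
        interval_cases i
        · exact ⟨hGb, hGd⟩
        · exact ⟨h0, hc' 0⟩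
        · exact ⟨hGb, hGd⟩
        · exact ⟨h2, hc' 2⟩
        · exact ⟨h0, hc' 0⟩
        · exact ⟨h0, hc' 0⟩
        · exact ⟨h0, hc' 0⟩
        · exact ⟨h0, hc' 0⟩
    · rintro i (rfl | rfl)
      · show |deriv (fun _ => 0) x du - deriv (fun _ => 0) x dv| ≤ K
        rw [hc, hc, sub_zero, abs_zero]; linarith only [hK]
      · show |deriv (fun _ => 0) x du - deriv (fun _ => 0) x dv| ≤ K
        rw [hc, hc, sub_zero, abs_zero]; linarith only [hK]
    · intro i hi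
      have h0 : |deriv GG x dv| ≤ kk (cv x) := by
        have : deriv GG x dv = kk (cv x) := deriv_GG_dv hx0.2.2.1.ne' hx0.2.2.2.ne
        rw [this, abs_of_nonneg hk]
      have h1 : |deriv GG x du| ≤ n (cu x) := by
        have : deriv GG x du = kk (cu x) := deriv_GG_du hx0.1.ne' hx0.2.1.ne
        rw [this, abs_of_nonneg hk']; exact hn'
      have h2 : ∀ c : ℝ, |deriv (fun _ => c) x dv| ≤ kk (cv x) := by
        intro c
        rw [hc, abs_zero]; exact hk
      have h3 : ∀ c : ℝ, |deriv (fun _ => c) x du| ≤ n (cu x) := by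
        intro c
        rw [hc, abs_zero]; exact hk'.trans hn'
      interval_cases i
      · exact ⟨h0, h1⟩
      · exact ⟨h2 0, h3 0⟩
      · exact ⟨h0, h1⟩
      · exact ⟨h2 2, h3 2⟩
  integrable := ⟨kk_meas, kk_integrable⟩

/-- curves in the example which tend to a point of v = 0 -/
lemma front (hpp : Prm.a = 0) (e : M0.Chart)
    {a : ℝ → M0.pt} {z : R4} (hz : cv z = 0) (h1 : -1 < cu z)
    (h2 : cu z < 0) (ht : Tendsto (fun t => co (M := Dn M0) e (a t)) (𝓝[<] 1) (𝓝 z)) :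
    EndsAtFront (Dn M0) a := by
  set r : ℝ := min (-cu z) (cu z + 1) / 2 with hr
  have hr0 : 0 < r := by
    rw [hr]
    have : 0 < min (-cu z) (cu z + 1) := lt_min (by linarith only [h2]) (by linarith only [h1])
    linarith only [this]
  have hra : r ≤ -cu z / 2 := by
    rw [hr]
    have := min_le_left (-cu z) (cu z + 1)
    linarith only [this]
  have hrb : r ≤ (cu z + 1) / 2 := by
    rw [hr]
    have := min_le_right (-cu z) (cu z + 1)
    linarith only [this]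
  have hr1 : r ≤ 1 / 2 := by linarith only [hra, hrb]
  have hsub : nullBox z r ⊆ D0 := by
    rw [nullBox_eq]
    rintro x ⟨hx, hxv⟩
    obtain ⟨h3, h4⟩ := norm_R4_lt hx
    have e1 : cu (x - z) = cu x - cu z := rfl
    have e2 : cv (x - z) = cv x - cv z := rfl
    have h3' : |cu (x - z)| < r := h3
    have h4' : |cv (x - z)| < r := h4
    rw [e1, abs_lt] at h3'
    rw [e2, hz, sub_zero, abs_lt] at h4'
    exact ⟨show -1 < cu x by linarith only [hrb, h3'], show cu x < 0 by linarith only [hra, h3'], show -1 < cv x by linarith only [hra, hrb, h4'], hxv⟩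
  set K : ℝ := 22 + kk (cu z / 2) with hK
  have hKk : ∀ x ∈ nullBox z r, kk (cu x) ≤ K := by
    intro x hx
    have hx0 := hsub hx
    rw [nullBox_eq] at hx
    obtain ⟨hx, hxv⟩ := hx
    obtain ⟨h3, h4⟩ := norm_R4_lt hx
    have e1 : cu (x - z) = cu x - cu z := rfl
    have h3' : |cu (x - z)| < r := h3
    rw [e1, abs_lt] at h3'
    have h5 : cu x ≤ cu z / 2 := by linarith only [hra, h3']
    have h6 : kk (cu x) ≤ kk (cu z / 2) :=
      kk_anti hx0.1 h5 (by linarith only [hr0, hra])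
    linarith only [h6]
  have h22 : 22 ≤ K := by have := kk_nonneg (cu z / 2); linarith only [this]
  obtain ⟨G, hG⟩ := exists_conn (M := Dn M0) (isSpacetime_dn spacetime fun _ _ h => h) e
  refine ⟨e, CN, z, r, K, kk, G, dnbox_n e hsub h22 (fun x hx => hKk x hx), hz, ⟨?_, ht⟩,
    fun x hx => ⟨rfl, rfl, hG x (hsub hx)⟩, fun x hx _ c hc => Or.inr ⟨0, by norm_num, ?_⟩⟩
  · have h3 : ∀ᶠ t in 𝓝[<] (1:ℝ), co (M := Dn M0) e (a t) ∈ Metric.ball z r :=
      ht.eventually (Metric.ball_mem_nhds _ hr0)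
    filter_upwards [h3] with t ht'
    have h4 : co (M := Dn M0) e (a t) ∈ D0 := (ch e).map_source (mem_univ _)
    exact ⟨mem_univ _, ht', h4.2.2.2⟩
  · exact big_of_unbounded hc hx kk_integrable
      (fun y hy1 hy2 => deriv_GG_dv (ne_of_gt hy1) (ne_of_lt hy2)) (kk_unbounded hpp)

lemma front_sw (hpp : Prm.a = 0)
    {a : ℝ → M0.pt} {z : R4} (ht : Tendsto (fun t => (a t).1) (𝓝[<] 1) (𝓝 z))
    (h0 : cu z * cv z = 0) (hlt : cu z + cv z < 0) (h1 : -1 < cu z) (h2 : -1 < cv z) :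
    EndsAtFront (Dn M0) a := by
  rcases mul_eq_zero.1 h0 with h | h
  · have h3 : Tendsto (fun t => co (M := Dn M0) false (a t)) (𝓝[<] 1) (𝓝 (sw false z)) :=
      ((continuous_sw false).tendsto z).comp ht
    exact front hpp false (z := sw false z) h h2 (by
      show cv z < 0
      linarith only [hlt, h]) h3
  · have h3 : Tendsto (fun t => co (M := Dn M0) true (a t)) (𝓝[<] 1) (𝓝 z) := ht
    exact front hpp true h h1 (by linarith only [hlt, h]) h3

lemma corner (hpp : Prm.a = 0)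
    {a : ℝ → M0.pt} {z : R4} (ht : Tendsto (fun t => (a t).1) (𝓝[<] 1) (𝓝 z))
    (hu : cu z = 0) (hv : cv z = 0) : EndsAtCorner (Dn M0) a := by
  have hr : (0:ℝ) < 1 / 2 := by norm_num
  have hsub : cornerBox z (1 / 2) ⊆ D0 := by
    rw [cornerBox_eq]
    rintro x ⟨⟨hx, hxv⟩, hxu⟩
    obtain ⟨h3, h4⟩ := norm_R4_lt hx
    have e1 : cu (x - z) = cu x - cu z := rfl
    have e2 : cv (x - z) = cv x - cv z := rfl
    have h3' : |cu (x - z)| < 1 / 2 := h3
    have h4' : |cv (x - z)| < 1 / 2 := h4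
    rw [e1, hu, sub_zero, abs_lt] at h3'
    rw [e2, hv, sub_zero, abs_lt] at h4'
    exact ⟨show -1 < cu x by linarith only [h3'], hxu, show -1 < cv x by linarith only [h4'], hxv⟩
  refine ⟨true, CN, z, 1 / 2, 22, kk, dnbox_n true hsub (le_refl _) (fun x _ => le_refl _),
    hu, hv, ⟨?_, ht⟩, ?_⟩
  · have h3 : ∀ᶠ t in 𝓝[<] (1:ℝ), (a t).1 ∈ Metric.ball z (1/2) :=
      ht.eventually (Metric.ball_mem_nhds _ hr)
    filter_upwards [h3] with t ht'
    exact ⟨mem_univ _, ⟨ht', (a t).2.2.2.2⟩, (a t).2.2.1⟩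
  · intro b _ y hy hyz h0 hlt
    have hyz' : y ∈ Metric.ball z (1 / 2) := hyz
    rw [mem_ball_iff_norm] at hyz'
    obtain ⟨h3, h4⟩ := norm_R4_lt hyz'
    have e1 : cu (y - z) = cu y - cu z := rfl
    have e2 : cv (y - z) = cv y - cv z := rfl
    have h3' : |cu (y - z)| < 1 / 2 := h3
    have h4' : |cv (y - z)| < 1 / 2 := h4
    rw [e1, hu, sub_zero, abs_lt] at h3'
    rw [e2, hv, sub_zero, abs_lt] at h4'
    exact front_sw hpp hy.2 h0 hlt (by linarith only [h3']) (by linarith only [h4'])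

/-- every future curve of the example has an end point or ends at a front or a corner -/
theorem ends (hpp : Prm.a = 0)
    {a : ℝ → M0.pt} (ha : IsFutureCurve (Dn M0) 0 J a)
    (hno : ∀ p, ¬ Tendsto a (𝓝[<] 1) (𝓝 p)) : Ends (Dn M0) a := by
  obtain ⟨z, hz, h1, h2, h3, h4⟩ := lim_exists (ha.up le_rfl)
  rcases lt_or_eq_of_le h2 with h2 | h2
  · rcases lt_or_eq_of_le h4 with h4 | h4
    · exfalso
      refine hno (⟨z, h1, h2, h3, h4⟩ : P0) ?_
      exact tendsto_subtype_rng.2 hz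
    · exact Or.inl (front_sw hpp hz (show cu z * cv z = 0 from by
        have : cv z = 0 := h4
        rw [this, mul_zero]) (show cu z + cv z < 0 from by
        have : cv z = 0 := h4
        have : cu z < 0 := h2
        linarith) h1 h3)
  · rcases lt_or_eq_of_le h4 with h4 | h4
    · exact Or.inl (front_sw hpp hz (show cu z * cv z = 0 from by
        have : cu z = 0 := h2
        rw [this, zero_mul]) (show cu z + cv z < 0 from by
        have : cu z = 0 := h2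
        have : cv z < 0 := h4
        (clear hpp a ha hno hz h1 h3; linarith)) h1 h3)
    · exact Or.inr (Or.inl (corner hpp hz h2 h4))

omit [Prm] in
/-- **Sharpness.** -/
theorem sharp : ∃ M N ι c, IsSpacetime IsSmooth M ∧ AllEnd M ∧
    ∀ q < ⊤, IsFutureExtension (IsC0W1 q) M N ι c := by
  letI : Prm := ⟨0, le_rfl, by norm_num⟩
  refine ⟨Dn M0, Dn N0, io, c0, isSpacetime_dn spacetime fun _ _ h => h,
    fun _ h1 h2 => ends rfl h1 h2, fun q hq => ?_⟩
  have hqt : q ≠ ⊤ := ne_top_of_lt hq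
  refine isFutureExtension_dn (extension (r := max 1 q.toReal) (le_max_left _ _) ?_ ?_)
  · rw [ENNReal.le_ofReal_iff_toReal_le hqt (by positivity)]
    exact le_max_right _ _
  · show (0:ℝ) * max 1 q.toReal < 1
    simp only [zero_mul, zero_lt_one]

end Ex

/-- Local and global theorem, and the example. -/
theorem inext :
    (∀ M, IsSpacetime IsSmooth M → (∀ N ι c a, IsFutureExtension IsLip M N ι c →
      (∀ t ∈ J, ι (a t) = c t) → ¬ Ends M a) ∧
      (AllEnd M → ∀ N ι c, ¬ IsFutureExtension IsLip M N ι c)) ∧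
    ∃ M N ι c, IsSpacetime IsSmooth M ∧ AllEnd M ∧
      ∀ q < ⊤, IsFutureExtension (IsC0W1 q) M N ι c :=
  ⟨inext0, Ex.sharp⟩

end Vale.Agent.P354c
end
end

section

section

set_option linter.unusedSectionVars false
set_option maxSynthPendingDepth 3

open scoped Manifold ContDiff
open MeasureTheory Set Topology Filter

namespace Vale.Agent.P354n

/-- the coefficients g12, om instead of 2 g12, 2 om -/
noncomputable def half (C : ℕ → R4 → ℝ) (i : ℕ) (x : R4) : ℝ :=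
  if i = 1 ∨ i = 3 then C i x / 2 else C i x

lemma half_abs (C : ℕ → R4 → ℝ) (i : ℕ) (x : R4) : |half C i x| ≤ |C i x| := by
  unfold half
  split_ifs
  · rw [abs_div, abs_of_pos (by norm_num : (0:ℝ) < 2)]
    have := abs_nonneg (C i x)
    linarith only [this]
  · exact le_rfl

lemma half_deriv (C : ℕ → R4 → ℝ) (i : ℕ) (x a : R4) :
    deriv (half C i) x a = if i = 1 ∨ i = 3 then deriv (C i) x a / 2 else deriv (C i) x a := by
  split_ifs with h
  · have e : half C i = fun x => C i x / 2 := by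
      funext x
      rw [half, if_pos h]
    rw [e]
    show _root_.deriv (fun t : ℝ => C i (x + t • a) / 2) 0 = _
    rw [deriv_div_const]
    rfl
  · have e : half C i = C i := by
      funext x
      rw [half, if_neg h]
    rw [e]

lemma half_deriv_abs (C : ℕ → R4 → ℝ) (i : ℕ) (x a : R4) :
    |deriv (half C i) x a| ≤ |deriv (C i) x a| := by
  rw [half_deriv]
  split_ifs
  · rw [abs_div, abs_of_pos (by norm_num : (0:ℝ) < 2)]
    have := abs_nonneg (deriv (C i) x a)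
    linarith only [this]
  · exact le_rfl

lemma half_ge (C : ℕ → R4 → ℝ) (i : ℕ) (x a : R4) :
    |deriv (C i) x a| ≤ 2 * |deriv (half C i) x a| := by
  rw [half_deriv]
  split_ifs
  · rw [abs_div, abs_of_pos (by norm_num : (0:ℝ) < 2)]
    linarith only []
  · have := abs_nonneg (deriv (C i) x a)
    linarith only [this]

lemma half_smooth {C : ℕ → R4 → ℝ} {D : Set R4} (h : ∀ i, IsSmooth (C i) D) (i : ℕ) :
    IsSmooth (half C i) D := by
  by_cases hi : i = 1 ∨ i = 3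
  · have e : half C i = fun x => C i x / 2 := by
      funext x
      rw [half, if_pos hi]
    rw [e]
    exact ContDiffOn.div_const (h i) 2
  · have e : half C i = C i := by
      funext x
      rw [half, if_neg hi]
    rw [e]
    exact h i

lemma form_half (C : ℕ → R4 → ℝ) (x a : R4) : P354p.form (half C) x a a = form C x a := by
  simp only [P354p.form, P354p.ang, half, P354p.h1, P354p.c1, P354p.cv, P354p.cu, P354p.h2, P354p.c2, form, h1, c1, cv, cu, h2, c2]
  norm_num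
  ring

lemma form_pol (C : ℕ → R4 → ℝ) (x a b : R4) :
    P354p.form C x (a + b) (a + b) = P354p.form C x a a + 2 * P354p.form C x a b +
      P354p.form C x b b := by
  simp only [P354p.form, P354p.ang, P354p.h1, P354p.h2, P354p.cu, P354p.cv,
    P354p.c1, P354p.c2, Prod.fst_add, Prod.snd_add]
  ring

section

variable {M N : Spc} {Reg : (R4 → ℝ) → Set R4 → Prop}

lemma form_of_quad (hM : IsSpacetime Reg M) {e : M.Chart} {C : ℕ → R4 → ℝ} {x : R4}
    (hx : x ∈ tgt e) (h : ∀ a, M.g e x a a = form C x a) (a b : R4) :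
    M.g e x a b = P354p.form (half C) x a b := by
  have hb := hM.up.bilin (M := Up M) e hx
  have hs := hM.up.symm (M := Up M) e hx a b
  have h0 : M.g e x (a + b) (a + b) = M.g e x a a + 2 * M.g e x a b + M.g e x b b := by
    have e1 : M.g e x (a + b) (a + b) = M.g e x a (a + b) + M.g e x b (a + b) :=
      hb.add_left a b (a + b)
    have e2 : M.g e x a (a + b) = M.g e x a a + M.g e x a b := hb.add_right a a b
    have e3 : M.g e x b (a + b) = M.g e x b a + M.g e x b b := hb.add_right b a b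
    have e4 : M.g e x a b = M.g e x b a := hs
    rw [e1, e2, e3, ← e4]
    ring
  have h1 := form_pol (half C) x a b
  rw [form_half, form_half, form_half, ← h, ← h, ← h] at h1
  linarith only [h0, h1]

lemma norm_sph {p q : ℝ} : p ^ 2 + q ^ 2 ≤ 2 * ‖((0, 0, p, q) : R4)‖ ^ 2 := by
  have h1 : |p| ≤ ‖((0, 0, p, q) : R4)‖ :=
    (norm_fst_le ((p, q) : ℝ × ℝ)).trans ((norm_snd_le ((0, p, q) : ℝ × ℝ × ℝ)).trans
      (norm_snd_le ((0, 0, p, q) : R4)))
  have h2 : |q| ≤ ‖((0, 0, p, q) : R4)‖ :=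
    (norm_snd_le ((p, q) : ℝ × ℝ)).trans ((norm_snd_le ((0, p, q) : ℝ × ℝ × ℝ)).trans
      (norm_snd_le ((0, 0, p, q) : R4)))
  have h3 : |p| ^ 2 ≤ ‖((0, 0, p, q) : R4)‖ ^ 2 := by gcongr
  have h4 : |q| ^ 2 ≤ ‖((0, 0, p, q) : R4)‖ ^ 2 := by (clear * - h2; gcongr)
  rw [sq_abs] at h3 h4
  linarith

theorem IsDNBox.up {e : M.Chart} {C : ℕ → R4 → ℝ} {D : Set R4} {r K : ℝ} {k n : ℝ → ℝ}
    (h : IsDNBox M e C D r K k n) (hM : IsSpacetime Reg M) (hr : 0 < r) {n' : ℝ → ℝ}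
    (hn : ∀ x ∈ D, n (cu x) ≤ n' (cu x))
    (hn' : ∀ f, f = k ∨ f = n' → Measurable f ∧ InLp 1 f (-r)) :
    P354p.IsDNBox (Up M) e (half C) D r (2 * K) k n' where
  r_pos := hr
  subset := h.subset
  smooth := fun i => half_smooth h.smooth i
  box := by
    intro x hx
    obtain ⟨h1, h2, h3, h4, h5, h6⟩ := h.metric x hx
    have h40 := (h4 0 rfl rfl).2
    have hK : 0 ≤ K := (abs_nonneg _).trans (h40 0 (by norm_num)).1
    refine ⟨form_of_quad hM (h.subset hx) h1, h2, ?_⟩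
    exact
      { om_lower := by
          have e : half C 3 x = C 3 x / 2 := by simp only [half, OfNat.ofNat_ne_one, or_true, ↓reduceIte]
          show 1 ≤ 2 * K * half C 3 x
          rw [e]
          linarith only [h3]
        g_lower := by
          intro p q
          have k1 := (h4 (0, 0, p, q) rfl rfl).1
          have k2 := norm_sph (p := p) (q := q)
          have k3 : form C x (0, 0, p, q) = P354p.ang (half C) x p q p q := by
            simp only [P354p.ang, form, P354n.h1, P354n.h2, half, cu, cv, c1, c2]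
            norm_num
            ring
          rw [k3] at k1
          show p ^ 2 + q ^ 2 ≤ 2 * K * P354p.ang (half C) x p q p q
          linarith only [k1, k2]
        bound := by
          intro i hi
          refine ⟨(half_abs C i x).trans ((h40 i hi).1.trans (by linarith only [hK])), fun a ha hb => ?_⟩
          have k1 := ((h4 a ha hb).2 i hi).2
          have k2 := half_deriv_abs C i x a
          have k3 : 0 ≤ K * ‖a‖ := by (clear * - hK; positivity)
          show |deriv (half C i) x a| ≤ 2 * K * ‖a‖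
          linarith only [k1, k2, k3]
        torsion := by
          intro i hi
          have k1 := h5 i hi
          show |deriv (half C i) x du - deriv (half C (i + 2)) x dv| ≤ 2 * K
          rw [half_deriv, half_deriv, if_neg (by omega), if_neg (by omega)]
          linarith only [hK, k1]
        deriv_vu := by
          intro i hi
          obtain ⟨k1, k2⟩ := h6 i hi
          exact ⟨(half_deriv_abs C i x dv).trans k1,
            (half_deriv_abs C i x du).trans (k2.trans (hn x hx))⟩ }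
  integrable := hn'

end

end Vale.Agent.P354n
end
end

section

section

set_option linter.unusedSectionVars false
set_option maxSynthPendingDepth 3

open scoped Manifold ContDiff
open MeasureTheory Set Topology Filter

namespace Vale.Agent.P354n

lemma inLp_half {p : ENNReal} {f : ℝ → ℝ} {b : ℝ} (h : InLp p (fun v => f v / 2) b) :
    InLp p f b := by
  have e : f = (2:ℝ) • (fun v => f v / 2) := by
    funext v
    simp only [Pi.smul_apply, smul_eq_mul]
    ring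
  rw [e]
  exact (eLpNorm_const_smul_le (c := (2:ℝ)) (f := fun v => f v / 2)).trans_lt
    (ENNReal.mul_lt_top (by simp) h)

lemma half_deriv2 (C : ℕ → R4 → ℝ) (i : ℕ) (x a b : R4) :
    |deriv (fun y => deriv (half C i) y a) x b| ≤ |deriv (fun y => deriv (C i) y a) x b| := by
  by_cases h : i = 1 ∨ i = 3
  · have e : (fun y => deriv (half C i) y a) = fun y => deriv (C i) y a / 2 := by
      funext y
      rw [half_deriv, if_pos h]
    rw [e]
    have e2 : deriv (fun y => deriv (C i) y a / 2) x b = deriv (fun y => deriv (C i) y a) x b / 2 := by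
      show _root_.deriv (fun t : ℝ => deriv (C i) (x + t • b) a / 2) 0 = _
      rw [deriv_div_const]
      rfl
    rw [e2, abs_div, abs_of_pos (by norm_num : (0:ℝ) < 2)]
    have := abs_nonneg (deriv (fun y => deriv (C i) y a) x b)
    linarith only [this]
  · have e : (fun y => deriv (half C i) y a) = fun y => deriv (C i) y a := by
      funext y
      rw [half_deriv, if_neg h]
    rw [e]

lemma half_line (C : ℕ → R4 → ℝ) (i : ℕ) {p : ENNReal} {b : ℝ} {x : ℝ → R4}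
    (h : InLp p (fun v => deriv (half C i) (x v) dv) b) :
    InLp p (fun v => deriv (C i) (x v) dv) b := by
  by_cases hi : i = 1 ∨ i = 3
  · have e : (fun v => deriv (half C i) (x v) dv) = fun v => deriv (C i) (x v) dv / 2 := by
      funext v
      rw [half_deriv, if_pos hi]
    rw [e] at h
    exact inLp_half h
  · have e : (fun v => deriv (half C i) (x v) dv) = fun v => deriv (C i) (x v) dv := by
      funext v
      rw [half_deriv, if_neg hi]
    rwa [e] at h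

lemma half_avg (C : ℕ → R4 → ℝ) (i : ℕ) {p : ENNReal} {b : ℝ} {φ : ℝ × ℝ × ℝ → ℝ}
    (h : InLp p (fun v => ∫ y, φ y * deriv (half C i) (y.1, v, y.2) dv) b) :
    InLp p (fun v => ∫ y, φ y * deriv (C i) (y.1, v, y.2) dv) b := by
  by_cases hi : i = 1 ∨ i = 3
  · have e : (fun v => ∫ y, φ y * deriv (half C i) (y.1, v, y.2) dv) =
        fun v => (∫ y, φ y * deriv (C i) (y.1, v, y.2) dv) / 2 := by
      funext v
      rw [← integral_div]
      refine integral_congr_ae (Filter.Eventually.of_forall fun y => ?_)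
      simp only
      rw [half_deriv, if_pos hi]
      ring
    rw [e] at h
    exact inLp_half h
  · have e : (fun v => ∫ y, φ y * deriv (half C i) (y.1, v, y.2) dv) =
        fun v => ∫ y, φ y * deriv (C i) (y.1, v, y.2) dv := by
      funext v
      refine integral_congr_ae (Filter.Eventually.of_forall fun y => ?_)
      simp only
      rw [half_deriv, if_neg hi]
    rwa [e] at h

lemma line_eq (y : R4) (v : ℝ) : y + (v - cv y) • dv = (y.1, v, y.2.2) := by
  ext <;> simp only [cv, dv, Prod.smul_mk, smul_eq_mul, mul_zero, mul_one, Prod.fst_add, add_zero, Prod.snd_add, add_sub_cancel]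

/-- the end point gives a positive radius -/
lemma EndsAt.nonempty {M : Spc} {a : ℝ → M.pt} {e : M.Chart} {D : Set R4} {z : R4}
    (h : EndsAt a e D z) : ∃ x, x ∈ D := by
  obtain ⟨t, ht⟩ := h.1.exists
  exact ⟨_, ht.2⟩

lemma nullBox_r {x z : R4} {r : ℝ} (h : x ∈ nullBox z r) : 0 < r :=
  lt_of_le_of_lt (norm_nonneg _) h.1

lemma IsDNBox.K_one {M : Spc} {e : M.Chart} {C : ℕ → R4 → ℝ} {D : Set R4} {r K : ℝ} {k n : ℝ → ℝ}
    (h : IsDNBox M e C D r K k n) {x : R4} (hx : x ∈ D) : 1 ≤ K := by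
  obtain ⟨h1, h2, h3, h4, h5, h6⟩ := h.metric x hx
  have h40 := ((h4 0 rfl rfl).2 3 (by norm_num)).1
  have hK : 0 ≤ K := (abs_nonneg _).trans h40
  have h7 : K * C 3 x ≤ K * K := mul_le_mul_of_nonneg_left ((le_abs_self _).trans h40) hK
  by_contra hcon
  push Not at hcon
  nlinarith only [h3, h7, hcon, hK]

section

variable {M N : Spc} {ι : M.pt → N.pt}

lemma const_inLp {r c : ℝ} : Measurable (fun _ : ℝ => c) ∧ InLp 1 (fun _ => c) (-r) := by
  refine ⟨measurable_const, ?_⟩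
  show eLpNorm _ 1 (volume.restrict (Ioo (-r) 0)) < ⊤
  exact (memLp_const c).2

theorem front_n {p : ENNReal} (hp : 2 ≤ p) (hM : IsSpacetime IsSmooth M)
    (hg' : IsSpacetime (IsC0W1 p) N) (h : IsOpenEmbedding ι) (hI : IsIsom ι) {c : ℝ → N.pt}
    (hc : IsFutureCurve N 0 (Icc 0 1) c) {a : ℝ → M.pt} (ha : ∀ t ∈ Ico (0:ℝ) 1, ι (a t) = c t)
    (hf : EndsAtFront p M a) : False := by
  obtain ⟨e, C, z, r, K, k, l, hdn, hz, hain, hlm, hlp, hall⟩ := hf
  obtain ⟨x0, hx0⟩ := hain.nonempty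
  have hr := nullBox_r hx0
  have hK := hdn.K_one hx0
  have hdn' : P354p.IsDNBox (Up M) e (half C) (nullBox z r) r (2 * K) k (fun _ => 2 * K) :=
    hdn.up hM hr (fun _ _ => by linarith only [hK]) (fun f hf => by
      rcases hf with rfl | rfl
      · exact hdn.integrable f (Or.inl rfl)
      · exact const_inLp)
  have hB : P354p.FrontBox (Up M) e (half C) z r (2 * K) k :=
    ⟨hdn', hz, fun x hx => by simp [half, (hall x hx).1, (hall x hx).2.1]⟩
  have hlp' : P354p.InLp (p / 2) (fun v => |l v|) (-r) := by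
    show eLpNorm (fun v => ‖l v‖) _ _ < ⊤
    rw [eLpNorm_norm]
    exact hlp
  refine P354p.front_mix hp hM.up hg'.up h hI.up (hc.up le_rfl) ha hB
    (l := fun v => |l v|) hlm.abs hlp' hain (fun x hx c hc => ?_)
  rcases (hall x hx).2.2 c hc with h0 | ⟨hpt, i, hi, φ, h1, h2, h3⟩
  · left
    intro h0'
    apply h0
    refine measure_mono_null ?_ h0'
    rintro y ⟨hy, hb, s, hs, htan⟩
    refine ⟨hy, fun b hb0 => ?_, s / 2, by (clear * - hs; positivity), fun w hw b hb0 i hi => ?_⟩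
    · obtain ⟨i, hi, hbad⟩ := hb b hb0
      refine ⟨i, hi, fun hcon => hbad (half_line C i ?_)⟩
      have e1 : (fun v => deriv (half C i) (y.1, v, y.2.2) dv) =
          fun v => P354p.deriv (half C i) (y + (v - P354p.cv y) • P354p.dv) P354p.dv := by
        funext v
        have e2 : y + (v - P354p.cv y) • P354p.dv = (y.1, v, y.2.2) := line_eq y v
        rw [e2]
        rfl
      rw [e1]
      exact hcon
    · have e3 : y - P354p.cv y • P354p.dv = (y.1, 0, y.2.2) := by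
        have := line_eq y 0
        rw [zero_sub, neg_smul, ← sub_eq_add_neg] at this
        exact this
      have hw' : w ∈ nullBox (y.1, 0, y.2.2) s := by
        rw [e3] at hw
        exact ⟨hw.1.trans (by linarith only [hs]), hw.2⟩
      obtain ⟨j, hj, h1⟩ := htan w hw' b hb0 i hi
      refine ⟨j, hj, ?_⟩
      have h2 := half_deriv2 C i w dv b
      have h3 := half_ge C j w dv
      have h4 : s * |deriv (fun y => deriv (half C i) y dv) w b| ≤
          (l (cv w) + |deriv (C j) w dv|) * ‖b‖ := (mul_le_mul_of_nonneg_left h2 hs.le).trans h1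
      have h5 : (l (cv w) + |deriv (C j) w dv|) * ‖b‖ ≤
          (2 * |l (cv w)| + 2 * |deriv (half C j) w dv|) * ‖b‖ := by
        refine mul_le_mul_of_nonneg_right ?_ (norm_nonneg b)
        have := le_abs_self (l (cv w))
        have := abs_nonneg (l (cv w))
        linarith
      show s / 2 * |deriv (fun y => deriv (half C i) y dv) w b| ≤
        (|l (cv w)| + |deriv (half C j) w dv|) * ‖b‖
      linarith only [h4, h5]
  · exact Or.inr ⟨hpt, i, hi, φ, h1, h2, fun hcon => h3 (half_avg C i hcon)⟩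

/-- **The local theorem.** -/
theorem local_inext {p : ENNReal} (hp : 2 ≤ p) (hM : IsSpacetime IsSmooth M)
    (hg' : IsSpacetime (IsC0W1 p) N) (h : IsOpenEmbedding ι) (hI : IsIsom ι) {c : ℝ → N.pt}
    (hc : IsFutureCurve N 0 (Icc 0 1) c) {a : ℝ → M.pt} (ha : ∀ t ∈ Ico (0:ℝ) 1, ι (a t) = c t) :
    ¬ Ends p M a := by
  rintro (hf | hcor | hfar)
  · exact front_n hp hM hg' h hI hc ha hf
  · obtain ⟨e, C, z, r, K, k, hdn, hu, hv, hain, hcl⟩ := hcor
    obtain ⟨x0, hx0⟩ := hain.nonempty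
    have hr := nullBox_r hx0.1
    have hdn' : P354p.IsDNBox (Up M) e (half C) (cornerBox z r) r (2 * K) k k :=
      hdn.up hM hr (fun _ _ => le_rfl) hdn.integrable
    obtain ⟨a', c', hc', ha', hcur, y, hy, h1, h2, h3⟩ := P354p.corner_stepE hp hM.up hg'.up h
      hI.up (hc.up le_rfl) ha hdn' hu hv hain
    exact front_n hp hM hg' h hI (IsFutureCurve.of hc') ha' (hcl a' (IsFutureCurve.of hcur) y hy
      h1 h2 h3)
  · exact P354p.not_isFar hM.up hg'.up h hI.up (hc.up le_rfl) ha (isFar_up hfar)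

end

end Vale.Agent.P354n
end
end

section

section

set_option linter.unusedSectionVars false

open scoped ContDiff
open MeasureTheory Set Filter Topology

namespace Vale.Agent.P354n

/-- a space of the internal folder, with the public definitions -/
abbrev Dn (M : P354p.Spc) : Spc where
  pt := M.pt
  top := M.top
  hausdorff := M.hausdorff
  Chart := M.Chart
  toE := M.toE
  cover := M.cover
  g := M.g
  X := M.X

section

variable {M N : P354p.Spc} {Reg : (R4 → ℝ) → Set R4 → Prop} {ι : M.pt → N.pt}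

theorem isIsom_dn {f : M.pt → N.pt} (hf : Continuous f) (h : P354p.IsIsom f) :
    IsIsom (M := Dn M) (N := Dn N) f := by
  rintro e e' F rfl y hy hy'
  obtain ⟨h1, h2⟩ := h e e' _ _ rfl rfl
  have hopen : IsOpen ((M.toE e).symm.source ∩ (M.toE e).symm ⁻¹' (f ⁻¹' (N.toE e').source)) :=
    (M.toE e).symm.isOpen_inter_preimage ((N.toE e').open_source.preimage hf)
  exact ⟨(h1 y ⟨hy, hy'⟩).contDiffAt (hopen.mem_nhds ⟨hy, hy'⟩), h2 y ⟨hy, hy'⟩⟩

theorem isSpacetime_dn (h : P354p.IsSpacetime Reg M) : IsSpacetime Reg (Dn M) where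
  tensor := isIsom_dn continuous_id h.tensor
  signature := h.signature
  timelike := h.timelike
  continuous := h.continuous
  regular := h.regular

theorem isFutureCurve_dn {I : Set ℝ} {c : ℝ → M.pt} (h : P354p.IsFutureCurve M 0 I c) :
    IsFutureCurve (Dn M) 0 I c := IsFutureCurve.of (M := Dn M) h

theorem isFutureExtension_dn {c : ℝ → N.pt} (h : P354p.IsFutureExtension Reg M N ι c) :
    IsFutureExtension Reg (Dn M) (Dn N) ι c where
  spacetime := isSpacetime_dn h.spacetime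
  embedding := h.embedding
  isometry := isIsom_dn h.embedding.continuous h.isometry
  proper := h.proper
  curve := isFutureCurve_dn h.curve
  curve_mem := h.curve_mem
  curve_end := h.curve_end

end

namespace Ex

open P354p.Ex

variable [Prm]

/-- the coefficients -/
noncomputable def CN : ℕ → R4 → ℝ
  | 0 => GG
  | 2 => GG
  | 3 => fun _ => 2
  | _ => fun _ => 0

lemma CN_smooth (i : ℕ) : ContDiffOn ℝ ∞ (CN i) D0 := by
  match i with
  | 0 => exact GG_smooth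
  | 1 => exact contDiffOn_const
  | 2 => exact GG_smooth
  | 3 => exact contDiffOn_const
  | (n + 4) => exact contDiffOn_const

lemma form_CN (x a : R4) : P354p.form CC x a a = form CN x a := by
  rw [form_eq]
  simp only [form, h1, h2, CN, P354p.cu, P354p.cv, P354p.c1, P354p.c2, cu, cv, c1, c2]
  ring

lemma dnbox_n (e : M0.Chart) {D : Set R4} (hD : D ⊆ D0) {r K : ℝ} (hr : 0 < r) (hK : 22 ≤ K)
    {n : ℝ → ℝ} (hn : ∀ x ∈ D, kk (cu x) ≤ n (cu x))
    (hni : Measurable n ∧ InLp 1 n (-r)) :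
    IsDNBox (Dn M0) e CN D r K kk n where
  subset := hD
  smooth := fun i => (CN_smooth i).mono hD
  metric := by
    intro x hx
    have hx0 := hD hx
    have hG := GG_ge hx0
    have hG4 := GG_le x
    have hk := kk_nonneg (cv x)
    have hk' := kk_nonneg (cu x)
    have hn' := hn x hx
    have hc : ∀ c : ℝ, ∀ a, deriv (fun _ => c) x a = 0 := fun c a => deriv_const' c x a
    refine ⟨fun a => form_CN x a, by show (0:ℝ) < 1; norm_num1, ?_, ?_, ?_, ?_⟩
    · show 1 ≤ K * 2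
      linarith
    · intro a ha hb
      refine ⟨?_, ?_⟩
      · have e1 : form CN x a = GG x * (c1 a ^ 2 + c2 a ^ 2) := by
          simp only [form, CN, h1, hb, ha, h2]
          ring
        have e2 : ‖a‖ ^ 2 ≤ c1 a ^ 2 + c2 a ^ 2 := by
          have h1 : ‖a‖ = max |c1 a| |c2 a| := by
            have k1 : ‖a‖ = max |cu a| (max |cv a| (max |c1 a| |c2 a|)) := rfl
            rw [k1, ha, hb, abs_zero, max_eq_right (le_max_of_le_left (abs_nonneg (c1 a))),
              max_eq_right (le_max_of_le_left (abs_nonneg (c1 a)))]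
          rw [h1]
          rcases max_cases |c1 a| |c2 a| with ⟨h2, _⟩ | ⟨h2, _⟩
          · rw [h2, sq_abs]; linarith only [sq_nonneg (c2 a)]
          · rw [h2, sq_abs]; linarith only [sq_nonneg (c1 a)]
        rw [e1]
        have h1 : 1 ≤ K * GG x := by nlinarith only [hK, hG]
        have h2 : 0 ≤ c1 a ^ 2 + c2 a ^ 2 := by (clear * -; positivity)
        nlinarith only [h1, e2]
      · intro i hi
        have hGb : |GG x| ≤ K := by rw [abs_le]; constructor <;> linarith only [hK, hG4, hG]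
        have hKa : 0 ≤ K * ‖a‖ := by (clear * - hK; positivity)
        have hGd : |deriv GG x a| ≤ K * ‖a‖ := by
          have : deriv GG x a = 0 := deriv_GG_sph x ha hb
          rw [this, abs_zero]
          exact hKa
        have hc' : ∀ c : ℝ, |deriv (fun _ => c) x a| ≤ K * ‖a‖ := by
          intro c
          rw [hc, abs_zero]
          exact hKa
        have h0 : |(0:ℝ)| ≤ K := by rw [abs_zero]; linarith only [hK]
        have h2 : |(2:ℝ)| ≤ K := by rw [abs_of_pos (by norm_num : (0:ℝ) < 2)]; linarith only [hK]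
        interval_cases i
        · exact ⟨hGb, hGd⟩
        · exact ⟨h0, hc' 0⟩
        · exact ⟨hGb, hGd⟩
        · exact ⟨h2, hc' 2⟩
        · exact ⟨h0, hc' 0⟩
        · exact ⟨h0, hc' 0⟩
        · exact ⟨h0, hc' 0⟩
        · exact ⟨h0, hc' 0⟩
    · rintro i (rfl | rfl)
      · show |deriv (fun _ => 0) x du - deriv (fun _ => 0) x dv| ≤ K
        rw [hc, hc, sub_zero, abs_zero]; linarith only [hK]
      · show |deriv (fun _ => 0) x du - deriv (fun _ => 0) x dv| ≤ K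
        rw [hc, hc, sub_zero, abs_zero]; linarith only [hK]
    · intro i hi
      have h0 : |deriv GG x dv| ≤ kk (cv x) := by
        have : deriv GG x dv = kk (cv x) := deriv_GG_dv hx0.2.2.1.ne' hx0.2.2.2.ne
        rw [this, abs_of_nonneg hk]
      have h1 : |deriv GG x du| ≤ n (cu x) := by
        have : deriv GG x du = kk (cu x) := deriv_GG_du hx0.1.ne' hx0.2.1.ne
        rw [this, abs_of_nonneg hk']; exact hn'
      have h2 : ∀ c : ℝ, |deriv (fun _ => c) x dv| ≤ kk (cv x) := by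
        intro c
        rw [hc, abs_zero]; exact hk
      have h3 : ∀ c : ℝ, |deriv (fun _ => c) x du| ≤ n (cu x) := by
        intro c
        rw [hc, abs_zero]; exact hk'.trans hn'
      interval_cases i
      · exact ⟨h0, h1⟩
      · exact ⟨h2 0, h3 0⟩
      · exact ⟨h0, h1⟩
      · exact ⟨h2 2, h3 2⟩
  integrable := by
    rintro f (rfl | rfl)
    · exact ⟨kk_meas, (memLp_one_iff_integrable.2 (kk_int hr)).2⟩
    · exact hni

/-- curves in the example which tend to a point of v = 0 -/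
lemma front {pp : ENNReal} (hp : 2 ≤ pp) (hpp : Prm.a = pp.toReal⁻¹) (e : M0.Chart)
    {a : ℝ → M0.pt} {z : R4} (hz : cv z = 0) (h1 : -1 < cu z)
    (h2 : cu z < 0) (ht : Tendsto (fun t => co (M := Dn M0) e (a t)) (𝓝[<] 1) (𝓝 z)) :
    EndsAtFront pp (Dn M0) a := by
  set r : ℝ := min (-cu z) (cu z + 1) / 2 with hr
  have hr0 : 0 < r := by
    rw [hr]
    have : 0 < min (-cu z) (cu z + 1) := lt_min (by linarith only [h2]) (by linarith only [h1])
    linarith only [this]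
  have hra : r ≤ -cu z / 2 := by
    rw [hr]
    have := min_le_left (-cu z) (cu z + 1)
    linarith only [this]
  have hrb : r ≤ (cu z + 1) / 2 := by
    rw [hr]
    have := min_le_right (-cu z) (cu z + 1)
    linarith only [this]
  have hr1 : r ≤ 1 / 2 := by linarith only [hra, hrb]
  have hsub : nullBox z r ⊆ D0 := by
    rintro x ⟨hx, hxv⟩
    obtain ⟨h3, h4⟩ := norm_R4_lt hx
    have e1 : cu (x - z) = cu x - cu z := rfl
    have e2 : cv (x - z) = cv x - cv z := rfl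
    have h3' : |cu (x - z)| < r := h3
    have h4' : |cv (x - z)| < r := h4
    rw [e1, abs_lt] at h3'
    rw [e2, hz, sub_zero, abs_lt] at h4'
    exact ⟨show -1 < cu x by linarith only [hrb, h3'], show cu x < 0 by linarith only [hra, h3'], show -1 < cv x by linarith only [hra, hrb, h4'], hxv⟩
  set K : ℝ := 22 + kk (cu z / 2) with hK
  have hKk : ∀ x ∈ nullBox z r, kk (cu x) ≤ K := by
    rintro x ⟨hx, hxv⟩
    obtain ⟨h3, h4⟩ := norm_R4_lt hx
    have e1 : cu (x - z) = cu x - cu z := rfl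
    have h3' : |cu (x - z)| < r := h3
    rw [e1, abs_lt] at h3'
    have h5 : cu x ≤ cu z / 2 := by linarith only [hra, h3']
    have h6 : kk (cu x) ≤ kk (cu z / 2) :=
      kk_anti (hsub ⟨hx, hxv⟩).1 h5 (by linarith only [hr0, hra])
    linarith only [h6]
  have h22 : 22 ≤ K := by have := kk_nonneg (cu z / 2); linarith only [this]
  refine ⟨e, CN, z, r, K, kk, fun _ => 0, ?_, hz, ?_, measurable_const, ?_,
    fun x hx => ⟨rfl, rfl, fun c hc => Or.inl ?_⟩⟩
  · refine dnbox_n e hsub hr0 h22 (fun x hx => hKk x hx) ⟨measurable_const, ?_⟩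
    exact (memLp_one_iff_integrable.2 (by simp only [ne_eq, enorm_ne_top, not_false_eq_true, integrable_const_enorm])).2
  · refine ⟨?_, ht⟩
    have h3 : ∀ᶠ t in 𝓝[<] (1:ℝ), co (M := Dn M0) e (a t) ∈ Metric.ball z r :=
      ht.eventually (Metric.ball_mem_nhds _ hr0)
    filter_upwards [h3] with t ht'
    rw [mem_ball_iff_norm] at ht'
    have h4 : co (M := Dn M0) e (a t) ∈ D0 := (ch e).map_source (mem_univ _)
    exact ⟨mem_univ _, ht', h4.2.2.2⟩
  · show eLpNorm (fun _ => (0:ℝ)) (pp / 2) (volume.restrict (Ioo (-r) 0)) < ⊤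
    have : eLpNorm (fun _ : ℝ => (0:ℝ)) (pp / 2) (volume.restrict (Ioo (-r) 0)) = 0 :=
      eLpNorm_zero
    rw [this]
    exact ENNReal.zero_lt_top
  · have hopen : IsOpen (nullBox x c) := by
      have h1 : Continuous fun y : R4 => ‖y - x‖ := by fun_prop
      have h2 : Continuous fun y : R4 => cv y := continuous_fst.comp continuous_snd
      exact (isOpen_lt h1 continuous_const).inter (isOpen_lt h2 continuous_const)
    have hmem : x ∈ nullBox x c := ⟨by rw [sub_self, norm_zero]; exact hc, hx.2⟩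
    refine ((hopen.measure_pos volume ⟨x, hmem⟩).trans_le (measure_mono ?_)).ne'
    intro y hy
    refine ⟨hy, fun b hb => ⟨0, by norm_num, fun hin => kk_not hp hpp hb ?_⟩, 1 / 2, by (clear * -; norm_num),
      fun w hw b hb i hi => ⟨0, by norm_num, ?_⟩⟩
    · refine lt_of_le_of_lt (le_of_eq ?_) hin
      apply eLpNorm_congr_ae
      rw [Filter.EventuallyEq, ae_restrict_iff' measurableSet_Ioo]
      have hne : ∀ᵐ v : ℝ, v ≠ -1 := (Set.countable_singleton (-1:ℝ)).ae_notMem volume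
      filter_upwards [hne] with v hv1 hv
      exact (deriv_GG_dv (x := (y.1, v, y.2.2)) hv1 hv.2.ne).symm
    · have hwv : |cv w| < 1 / 2 := by
        obtain ⟨_, h4⟩ := norm_R4_lt hw.1
        have e2 : P354p.cv (w - (y.1, 0, y.2.2)) = cv w - 0 := rfl
        rwa [e2, sub_zero] at h4
      have hw1 : cv w ≠ -1 := by
        rw [abs_lt] at hwv
        linarith only [hwv.1] |> fun h : -1 < cv w => h.ne'
      have hrhs : 0 ≤ ((fun _ => (0:ℝ)) (cv w) + |deriv (CN 0) w dv|) * ‖b‖ := by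
        have := abs_nonneg (deriv (CN 0) w dv)
        simp only [zero_add]
        (clear * -; positivity)
      have hG : 1 / 2 * |deriv (fun y => deriv GG y dv) w b| ≤
          ((fun _ => (0:ℝ)) (cv w) + |deriv (CN 0) w dv|) * ‖b‖ := by
        have : deriv (fun y => deriv GG y dv) w b = 0 :=
          deriv_GG_dv_tan hw1 (ne_of_lt hw.2) hb
        rw [this, abs_zero, mul_zero]
        exact hrhs
      have h0 : 1 / 2 * |deriv (fun y => deriv (fun _ => (0:ℝ)) y dv) w b| ≤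
          ((fun _ => (0:ℝ)) (cv w) + |deriv (CN 0) w dv|) * ‖b‖ := by
        have e : (fun y => deriv (fun _ => (0:ℝ)) y dv) = fun _ => (0:ℝ) := by
          funext y
          exact deriv_const' 0 y dv
        have e' : deriv (fun _ => (0:ℝ)) w b = 0 := deriv_const' 0 w b
        rw [e, e', abs_zero, mul_zero]
        exact hrhs
      interval_cases i
      · exact hG
      · exact h0
      · exact hG

lemma front_sw {pp : ENNReal} (hp : 2 ≤ pp) (hpp : Prm.a = pp.toReal⁻¹)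
    {a : ℝ → M0.pt} {z : R4} (ht : Tendsto (fun t => (a t).1) (𝓝[<] 1) (𝓝 z))
    (h0 : cu z * cv z = 0) (hlt : cu z + cv z < 0) (h1 : -1 < cu z) (h2 : -1 < cv z) :
    EndsAtFront pp (Dn M0) a := by
  rcases mul_eq_zero.1 h0 with h | h
  · have h3 : Tendsto (fun t => co (M := Dn M0) false (a t)) (𝓝[<] 1) (𝓝 (sw false z)) :=
      ((continuous_sw false).tendsto z).comp ht
    exact front hp hpp false (z := sw false z) h h2 (by
      show cv z < 0
      linarith only [hlt, h]) h3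
  · have h3 : Tendsto (fun t => co (M := Dn M0) true (a t)) (𝓝[<] 1) (𝓝 z) := ht
    exact front hp hpp true h h1 (by linarith only [hlt, h]) h3

lemma corner {pp : ENNReal} (hp : 2 ≤ pp) (hpp : Prm.a = pp.toReal⁻¹)
    {a : ℝ → M0.pt} {z : R4} (ht : Tendsto (fun t => (a t).1) (𝓝[<] 1) (𝓝 z))
    (hu : cu z = 0) (hv : cv z = 0) : EndsAtCorner pp (Dn M0) a := by
  have hr : (0:ℝ) < 1 / 2 := by norm_num1
  have hsub : cornerBox z (1 / 2) ⊆ D0 := by
    rintro x ⟨⟨hx, hxv⟩, hxu⟩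
    obtain ⟨h3, h4⟩ := norm_R4_lt hx
    have e1 : cu (x - z) = cu x - cu z := rfl
    have e2 : cv (x - z) = cv x - cv z := rfl
    have h3' : |cu (x - z)| < 1 / 2 := h3
    have h4' : |cv (x - z)| < 1 / 2 := h4
    rw [e1, hu, sub_zero, abs_lt] at h3'
    rw [e2, hv, sub_zero, abs_lt] at h4'
    exact ⟨show -1 < cu x by linarith only [h3'], hxu, show -1 < cv x by linarith only [h4'], hxv⟩
  refine ⟨true, CN, z, 1 / 2, 22, kk, dnbox_n true hsub hr (le_refl _) (fun x _ => le_refl _)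
    ⟨kk_meas, (memLp_one_iff_integrable.2 (kk_int hr)).2⟩, hu, hv, ⟨?_, ht⟩, ?_⟩
  · have h3 : ∀ᶠ t in 𝓝[<] (1:ℝ), (a t).1 ∈ Metric.ball z (1/2) :=
      ht.eventually (Metric.ball_mem_nhds _ hr)
    filter_upwards [h3] with t ht'
    rw [mem_ball_iff_norm] at ht'
    exact ⟨mem_univ _, ⟨ht', (a t).2.2.2.2⟩, (a t).2.2.1⟩
  · intro b _ y hy hyz h0 hlt
    obtain ⟨h3, h4⟩ := norm_R4_lt hyz
    have e1 : cu (y - z) = cu y - cu z := rfl
    have e2 : cv (y - z) = cv y - cv z := rfl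
    have h3' : |cu (y - z)| < 1 / 2 := h3
    have h4' : |cv (y - z)| < 1 / 2 := h4
    rw [e1, hu, sub_zero, abs_lt] at h3'
    rw [e2, hv, sub_zero, abs_lt] at h4'
    exact front_sw hp hpp hy.2 h0 hlt (by linarith only [h3']) (by linarith only [h4'])

/-- every future curve of the example has an end point or ends at a front or a corner -/
theorem ends {pp : ENNReal} (hp : 2 ≤ pp) (hpp : Prm.a = pp.toReal⁻¹)
    {a : ℝ → M0.pt} (ha : IsFutureCurve (Dn M0) 0 (Ico 0 1) a)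
    (hno : ∀ p, ¬ Tendsto a (𝓝[<] 1) (𝓝 p)) : Ends pp (Dn M0) a := by
  obtain ⟨z, hz, h1, h2, h3, h4⟩ := lim_exists (ha.up le_rfl)
  rcases lt_or_eq_of_le h2 with h2 | h2
  · rcases lt_or_eq_of_le h4 with h4 | h4
    · exfalso
      refine hno (⟨z, h1, h2, h3, h4⟩ : P0) ?_
      exact tendsto_subtype_rng.2 hz
    · exact Or.inl (front_sw hp hpp hz (show cu z * cv z = 0 from by
        have : cv z = 0 := h4
        rw [this, mul_zero]) (show cu z + cv z < 0 from by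
        have : cv z = 0 := h4
        have : cu z < 0 := h2
        (clear pp hp hpp a ha hno hz h1 h3; linarith)) h1 h3)
  · rcases lt_or_eq_of_le h4 with h4 | h4
    · exact Or.inl (front_sw hp hpp hz (show cu z * cv z = 0 from by
        have : cu z = 0 := h2
        rw [this, zero_mul]) (show cu z + cv z < 0 from by
        have : cu z = 0 := h2
        have : cv z < 0 := h4
        (clear pp hp hpp a ha hno hz h1 h3; linarith)) h1 h3)
    · exact Or.inr (Or.inl (corner hp hpp hz h2 h4))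

omit [Prm] in
/-- **Sharpness.** -/
theorem sharp {p : ENNReal} (hp : 2 ≤ p) : ∃ M N ι c, IsSpacetime IsSmooth M ∧ AllEnd p M ∧
    ∀ q < p, IsFutureExtension (IsC0W1 q) M N ι c := by
  have ha : p.toReal⁻¹ ≤ 1 / 2 := by
    by_cases ht : p = ⊤
    · rw [ht]; simp only [ENNReal.toReal_top, inv_zero, one_div, inv_nonneg, Nat.ofNat_nonneg]
    · have hr : 2 ≤ p.toReal := by
        have := ENNReal.toReal_mono ht hp
        simpa only [ge_iff_le, ENNReal.toReal_ofNat] using this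
      rw [inv_le_comm₀ (by linarith) (by norm_num)]
      simpa only [one_div, inv_inv] using hr
  letI : Prm := ⟨p.toReal⁻¹, inv_nonneg.2 ENNReal.toReal_nonneg, ha⟩
  refine ⟨Dn M0, Dn N0, io, c0, isSpacetime_dn spacetime, fun _ h1 h2 => ends hp rfl h1 h2,
    fun q hq => ?_⟩
  have hqt : q ≠ ⊤ := ne_top_of_lt hq
  refine isFutureExtension_dn (extension (r := max 1 q.toReal) (le_max_left _ _) ?_ ?_)
  · rw [ENNReal.le_ofReal_iff_toReal_le hqt (by positivity)]
    exact le_max_right _ _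
  · show p.toReal⁻¹ * max 1 q.toReal < 1
    by_cases ht : p = ⊤
    · rw [ht]; simp only [ENNReal.toReal_top, inv_zero, zero_mul, zero_lt_one]
    · have hr : 2 ≤ p.toReal := by
        have := ENNReal.toReal_mono ht hp
        simpa only [ge_iff_le, ENNReal.toReal_ofNat] using this
      have hlt : q.toReal < p.toReal := (ENNReal.toReal_lt_toReal hqt ht).2 hq
      rw [inv_mul_lt_iff₀ (by linarith only [hr]), mul_one]
      exact max_lt (by linarith only [hr]) hlt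

end Ex

end Vale.Agent.P354n
end
end

section

section

set_option linter.unusedSectionVars false
set_option maxSynthPendingDepth 3

open scoped Manifold ContDiff
open MeasureTheory Set Topology Filter

namespace Vale.Agent.P354n

/-- **The curve of an extension.** -/
theorem extension_curve {p : ENNReal} (hp : 2 ≤ p) (M N : Spc) (hM : IsSpacetime IsSmooth M)
    (ι : M.pt → N.pt) (c : ℝ → N.pt) (hE : IsFutureExtension (IsC0W1 p) M N ι c) :
    ∃ a, IsFutureCurve M 0 (Ico 0 1) a ∧ (∀ x, ¬ Tendsto a (𝓝[<] 1) (𝓝 x)) ∧ ¬ Ends p M a := by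
  have h0 : (0:ℝ) ∈ Ico (0:ℝ) 1 := by constructor <;> norm_num
  have hex : ∀ t : ℝ, ∃ x : M.pt, t ∈ Ico (0:ℝ) 1 → ι x = c t := by
    intro t
    by_cases ht : t ∈ Ico (0:ℝ) 1
    · obtain ⟨x, hx⟩ := hE.curve_mem t ht
      exact ⟨x, fun _ => hx⟩
    · obtain ⟨x, hx⟩ := hE.curve_mem 0 h0
      exact ⟨x, fun h => absurd h ht⟩
  choose a ha using hex
  have ha' : ∀ t ∈ Ico (0:ℝ) 1, ι (a t) = c t := fun t ht => ha t ht
  refine ⟨a, IsFutureCurve.of (P354p.ray_of_curve (M := Up M) (N := Up N) hM.up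
    hE.spacetime.up hE.embedding hE.isometry.up (hE.curve.up le_rfl) ha'), ?_,
    local_inext hp hM hE.spacetime hE.embedding hE.isometry hE.curve ha'⟩
  intro x hx
  have h1 : Tendsto (fun t => ι (a t)) (𝓝[<] 1) (𝓝 (ι x)) :=
    (hE.embedding.continuous.tendsto x).comp hx
  have h2 : Tendsto c (𝓝[<] 1) (𝓝 (c 1)) := by
    have h3 : ContinuousWithinAt c (Icc 0 1) 1 := hE.curve.1 1 (by constructor <;> norm_num)
    refine h3.mono_left ?_
    rw [← nhdsWithin_Ico_eq_nhdsLT (zero_lt_one (α := ℝ))]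
    exact nhdsWithin_mono _ Ico_subset_Icc_self
  have h4 : Tendsto (fun t => ι (a t)) (𝓝[<] 1) (𝓝 (c 1)) := by
    refine h2.congr' ?_
    filter_upwards [Ico_mem_nhdsLT (zero_lt_one (α := ℝ))] with t ht
    exact (ha' t ht).symm
  have h5 : ι x = c 1 := tendsto_nhds_unique h1 h4
  have h6 := hE.curve_end
  rw [hE.embedding.isOpen_range.frontier_eq] at h6
  exact h6.2 ⟨x, h5⟩

/-- Local and global theorem, and the example. -/
theorem inext (p : ENNReal) (hp : 2 ≤ p) :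
    (∀ M, IsSpacetime IsSmooth M → (∀ N ι c a, IsFutureExtension (IsC0W1 p) M N ι c →
      (∀ t ∈ Ico (0 : ℝ) 1, ι (a t) = c t) → ¬ Ends p M a) ∧
      (AllEnd p M → ∀ N ι c, ¬ IsFutureExtension (IsC0W1 p) M N ι c)) ∧
    ∃ M N ι c, IsSpacetime IsSmooth M ∧ AllEnd p M ∧
      ∀ q < p, IsFutureExtension (IsC0W1 q) M N ι c := by
  refine ⟨fun M hM => ⟨fun _ _ _ _ hE ha =>
      local_inext hp hM hE.spacetime hE.embedding hE.isometry hE.curve ha,
    fun h N ι c hE => ?_⟩, Ex.sharp hp⟩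
  obtain ⟨a, h1, h2, h3⟩ := extension_curve hp M N hM ι c hE
  exact h3 (h a h1 h2)

end Vale.Agent.P354n
end
end
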